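import Crest.Agent.R247.Ms7_322

/-!
R247, block (0) (helper322), part 8: Rademacher's theorem on `M`, measurability of the frame gradient.
-/

set_option autoImplicit false
set_option maxSynthPendingDepth 3
set_option linter.unusedSectionVars false
set_option linter.unusedVariables false

open Bundle Bornology Set MeasureTheory Manifold Filter Metric
open scoped ENNReal ContDiff Topology NNReal
open Crest.GeometryTopology.CoordMetric Crest.GeometryTopology.ChartCurvature
open Crest.GeometryTopology.Geodesic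
open Crest.Agent.R226.ChartMet842

namespace Crest.Agent.R247.Ms322

noncomputable section

variable {n : ℕ} {M : Type*} [MetricSpace M] [ChartedSpace (EuclideanSpace ℝ (Fin n)) M]
  [IsManifold (𝓡 n) ∞ M]
  [RiemannianBundle (fun p : M => TangentSpace (𝓡 n) p)]
  [IsContMDiffRiemannianBundle (𝓡 n) ∞ (EuclideanSpace ℝ (Fin n)) (fun p : M => TangentSpace (𝓡 n) p)]
  [IsRiemannianManifold (𝓡 n) M]

local notation "𝔼" => EuclideanSpace ℝ (Fin n)

/-- The inverse chart is Lipschitz near every point of the target. -/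
theorem exists_lipschitz_symm (x : M) {a : 𝔼} (ha : a ∈ (chartAt 𝔼 x).target) :
    ∃ K : ℝ≥0, ∃ r : ℝ, 0 < r ∧ ball a r ⊆ (chartAt 𝔼 x).target ∧
      LipschitzOnWith K (chartAt 𝔼 x).symm (ball a r) := by
  obtain ⟨A, hA, _⟩ := exists_isometry (n := n) x ha
  obtain ⟨r, hr0, hrt, hL, _⟩ := exists_bilip (n := n) x ha hA (η := 1) one_pos
  refine ⟨(1 + 1) * ‖(A : 𝔼 →L[ℝ] 𝔼)‖₊, r, hr0, hrt, ?_⟩
  have h1 : LipschitzOnWith ‖(A : 𝔼 →L[ℝ] 𝔼)‖₊ (fun b => A b) (ball a r) :=
    ((A : 𝔼 →L[ℝ] 𝔼).lipschitz).lipschitzOnWith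
  have h2 := hL.comp h1 (mapsTo_image _ _)
  have e : (fun w => (chartAt 𝔼 x).symm (A.symm w)) ∘ (fun b => A b) = (chartAt 𝔼 x).symm := by
    funext b; simp
  rwa [e] at h2

/-- A function which is Lipschitz near `z` is Lipschitz near `φ z` in the chart. -/
theorem exists_lipschitz_chart (x : M) {f : M → ℝ} {a : 𝔼} (ha : a ∈ (chartAt 𝔼 x).target)
    (hf : ∃ K : ℝ≥0, ∃ t ∈ 𝓝 ((chartAt 𝔼 x).symm a), LipschitzOnWith K f t) :
    ∃ K : ℝ≥0, ∃ r : ℝ, 0 < r ∧ ball a r ⊆ (chartAt 𝔼 x).target ∧
      LipschitzOnWith K (fun b => f ((chartAt 𝔼 x).symm b)) (ball a r) := by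
  obtain ⟨K, t, ht, hK⟩ := hf
  obtain ⟨K', r, hr0, hrt, hL⟩ := exists_lipschitz_symm x ha
  have hcont : ContinuousAt (chartAt 𝔼 x).symm a := (chartAt 𝔼 x).continuousAt_symm ha
  obtain ⟨r', hr'0, hr'⟩ := Metric.mem_nhds_iff.1 (hcont.preimage_mem_nhds ht)
  refine ⟨K * K', min r r', lt_min hr0 hr'0, (ball_subset_ball (min_le_left _ _)).trans hrt, ?_⟩
  exact hK.comp (hL.mono (ball_subset_ball (min_le_left _ _)))
    (fun b hb => hr' (ball_subset_ball (min_le_right _ _) hb))

variable [MeasurableSpace M] [BorelSpace M] [SecondCountableTopology M]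

/-- **Rademacher's theorem** on an open (or any) set. -/
theorem ae_mdifferentiableAt_of_mem {f : M → ℝ} {U : Set M}
    (hf : ∀ z ∈ U, ∃ K : ℝ≥0, ∃ t ∈ 𝓝 z, LipschitzOnWith K f t) :
    ∀ᵐ z ∂(μHE[n] : Measure M), z ∈ U → MDifferentiableAt (𝓡 n) 𝓘(ℝ) f z := by
  rw [ae_iff]
  refine measure_null_of_locally_null _ fun z hz => ?_
  have hzU : z ∈ U := by
    by_contra h
    exact hz (fun h' => absurd h' h)
  have hzs : z ∈ (chartAt 𝔼 z).source := mem_chart_source 𝔼 z
  set a : 𝔼 := chartAt 𝔼 z z with ha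
  have hat : a ∈ (chartAt 𝔼 z).target := (chartAt 𝔼 z).map_source hzs
  have hza : (chartAt 𝔼 z).symm a = z := (chartAt 𝔼 z).left_inv hzs
  obtain ⟨K, r, hr0, hrt, hL⟩ := exists_lipschitz_chart (n := n) z (f := f) hat
    (by rw [hza]; exact hf z hzU)
  set F : 𝔼 → ℝ := fun b => f ((chartAt 𝔼 z).symm b) with hF
  set B : Set 𝔼 := ball a r ∩ {b | DifferentiableAt ℝ F b}ᶜ with hB
  have hBm : MeasurableSet B :=
    isOpen_ball.measurableSet.inter (measurableSet_of_differentiableAt ℝ F).compl
  have hB0 : volume B = 0 := by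
    have h1 := hL.ae_differentiableWithinAt_of_mem (μ := volume)
    have h2 : ∀ᵐ b ∂(volume : Measure 𝔼), b ∉ B := by
      filter_upwards [h1] with b hb hbB
      exact hbB.2 ((hb hbB.1).differentiableAt (isOpen_ball.mem_nhds hbB.1))
    have h3 := ae_iff.1 h2
    simpa using h3
  have hBt : B ⊆ (chartAt 𝔼 z).target := inter_subset_left.trans hrt
  have hμ : μHE[n] ((chartAt 𝔼 z).symm '' B) = 0 := by
    rw [muHE_symm_image z hBt hBm]
    exact setLIntegral_measure_zero _ _ hB0
  set V : Set M := (chartAt 𝔼 z).symm '' ball a r with hV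
  have hVo : IsOpen V := (chartAt 𝔼 z).symm.isOpen_image_of_subset_source isOpen_ball hrt
  have hzV : z ∈ V := ⟨a, mem_ball_self hr0, hza⟩
  refine ⟨{y | ¬(y ∈ U → MDifferentiableAt (𝓡 n) 𝓘(ℝ) f y)} ∩ V, ?_, ?_⟩
  · exact inter_mem_nhdsWithin _ (hVo.mem_nhds hzV)
  · refine measure_mono_null ?_ hμ
    rintro y ⟨hy, ⟨b, hb, rfl⟩⟩
    refine ⟨b, ⟨hb, ?_⟩, rfl⟩
    intro hd
    apply hy
    intro _
    have hbs : (chartAt 𝔼 z).symm b ∈ (chartAt 𝔼 z).source := (chartAt 𝔼 z).map_target (hrt hb)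
    rw [mdifferentiableAt_iff_chart z hbs, (chartAt 𝔼 z).right_inv (hrt hb)]
    exact hd

/-- **Rademacher's theorem** on `M`. -/
theorem ae_mdifferentiableAt {f : M → ℝ} (hf : LocallyLipschitz f) :
    ∀ᵐ z ∂(μHE[n] : Measure M), MDifferentiableAt (𝓡 n) 𝓘(ℝ) f z := by
  have h := ae_mdifferentiableAt_of_mem (n := n) (f := f) (U := univ) (fun z _ => hf z)
  filter_upwards [h] with z hz using hz (mem_univ z)

section Meas

variable [Nonempty M]

theorem measurableSet_idx (k : ℕ) : MeasurableSet {z : M | idx n z = k} := by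
  have e : {z : M | idx n z = k} =
      (chartAt 𝔼 (cen n M k)).source \ ⋃ j : Fin k, (chartAt 𝔼 (cen n M (j : ℕ))).source := by
    ext z
    simp only [mem_ofPred_eq, Set.mem_sdiff, mem_iUnion, not_exists]
    unfold idx
    classical
    rw [Nat.find_eq_iff]
    constructor
    · rintro ⟨h1, h2⟩
      exact ⟨h1, fun j => h2 j j.2⟩
    · rintro ⟨h1, h2⟩
      exact ⟨h1, fun j hj => h2 ⟨j, hj⟩⟩
  rw [e]
  exact (chartAt 𝔼 _).open_source.measurableSet.diff
    (MeasurableSet.iUnion fun j => (chartAt 𝔼 _).open_source.measurableSet)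

/-- The frame gradient of ANY function is measurable. -/
theorem measurable_Gr (f : M → ℝ) : Measurable (Gr (n := n) f) := by
  have hcomp : ∀ j : Fin n, Measurable (fun z => Gr (n := n) f z j) := by
    intro j S hS
    have e : (fun z => Gr (n := n) f z j) ⁻¹' S =
        ⋃ k : ℕ, Subtype.val '' ((fun z : {z : M | idx n z = k} => Gr (n := n) f z j) ⁻¹' S) := by
      ext z
      simp only [mem_preimage, mem_iUnion, mem_image, Subtype.exists, mem_ofPred_eq,
        exists_and_right, exists_eq_right]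
      constructor
      · intro h; exact ⟨idx n z, rfl, h⟩
      · rintro ⟨k, _, h⟩; exact h
    rw [e]
    refine MeasurableSet.iUnion fun k => ?_
    refine MeasurableSet.subtype_image (measurableSet_idx k) ?_
    refine (?_ : Measurable (fun z : {z : M | idx n z = k} => Gr (n := n) f z j)) hS
    have hsub : ∀ z : {z : M | idx n z = k}, (z : M) ∈ (chartAt 𝔼 (cen n M k)).source := by
      rintro ⟨z, hz⟩
      have h1 := mem_sel (n := n) z
      unfold sel at h1
      rw [mem_ofPred_eq] at hz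
      rw [hz] at h1
      exact h1
    have hφ : Continuous (fun z : {z : M | idx n z = k} => chartAt 𝔼 (cen n M k) (z : M)) :=
      (chartAt 𝔼 (cen n M k)).continuousOn.comp_continuous continuous_subtype_val hsub
    have e2 : (fun z : {z : M | idx n z = k} => Gr (n := n) f (z : M) j) =
        fun z : {z : M | idx n z = k} =>
        ∑ i, isq (chartMetric n M (cen n M k) (chartAt 𝔼 (cen n M k) (z : M))) i j *
          pderiv i (fun b => f ((chartAt 𝔼 (cen n M k)).symm b))
            (chartAt 𝔼 (cen n M k) (z : M)) := by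
      funext z
      have hz : idx n (z : M) = k := z.2
      rw [Gr_apply_chart, fderiv_eq_sum]
      unfold crd sel
      rw [hz]
      rfl
    rw [e2]
    refine Finset.measurable_sum _ fun i _ => Measurable.mul ?_ ?_
    · have h1 : ContinuousOn (fun b : 𝔼 => isq (chartMetric n M (cen n M k) b) i j)
          (chartAt 𝔼 (cen n M k)).target := by
        refine continuousOn_isq ?_ (fun b hb => (isRiemannianOn_chartMetric (n := n) _).posDef b hb) i j
        refine continuousOn_pi.2 fun p => continuousOn_pi.2 fun q => ?_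
        exact ((isRiemannianOn_chartMetric (n := n) (cen n M k)).contDiffOn p q).continuousOn
      exact (h1.comp_continuous hφ (fun z => (chartAt 𝔼 _).map_source (hsub z))).measurable
    · exact (measurable_fderiv_apply_const ℝ _ _).comp hφ.measurable
  have h2 : Measurable (fun z => (WithLp.ofLp (Gr (n := n) f z) : Fin n → ℝ)) :=
    measurable_pi_lambda _ hcomp
  exact (WithLp.measurable_toLp 2 (Fin n → ℝ)).comp h2

end Meas

end

end Crest.Agent.R247.Ms322
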