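import Crest.Agent.R247.Ib1_939
import Crest.Agent.R247.Ms8_322
import Crest.Agent.R247.Hes2_124

/-!
R247, leaf (5-B) (helper939), part 2: the integrated Bochner identity on `M` from the pointwise one
and the divergence identity for smooth functions against Lipschitz test functions; the constructor
of `BochS` from the fields.
-/

set_option autoImplicit false
set_option maxSynthPendingDepth 3
set_option linter.unusedSectionVars false
set_option linter.unusedVariables false

open Bundle Bornology Set MeasureTheory Manifold Filter Metric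
open scoped ENNReal ContDiff Topology NNReal
open Crest.GeometryTopology.CoordMetric Crest.GeometryTopology.ChartCurvature
open Crest.GeometryTopology.PointedLimit
open Crest.Agent.R226.ChartMet842 Crest.Agent.R247.Ms322 Crest.Agent.R247.Bo84
open Crest.Agent.R202.Tens

namespace Crest.Agent.R247.Ib939

open Crest.Agent.R247.Hes124 (mv tr)
open Crest.Agent.R247.Dir593 Crest.Agent.R247.Dir593.GradS

noncomputable section

variable {n : ℕ} {M : Type*} [MetricSpace M] [ChartedSpace (EuclideanSpace ℝ (Fin n)) M]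
  [IsManifold (𝓡 n) ∞ M]
  [RiemannianBundle (fun p : M => TangentSpace (𝓡 n) p)]
  [IsContMDiffRiemannianBundle (𝓡 n) ∞ (EuclideanSpace ℝ (Fin n)) (fun p : M => TangentSpace (𝓡 n) p)]
  [IsRiemannianManifold (𝓡 n) M]

local notation "𝔼" => EuclideanSpace ℝ (Fin n)

variable [MeasurableSpace M] [BorelSpace M] [SecondCountableTopology M] [Nonempty M]

theorem three_le_infty : (3 : WithTop ℕ∞) ≤ ((⊤ : ℕ∞) : WithTop ℕ∞) := by
  change ((3 : ℕ∞) : WithTop ℕ∞) ≤ ((⊤ : ℕ∞) : WithTop ℕ∞)
  exact WithTop.coe_le_coe.2 le_top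

/-- smooth functions with compact support -/
def Core (n : ℕ) (M : Type*) [MetricSpace M] [ChartedSpace (EuclideanSpace ℝ (Fin n)) M] :
    Set (M → ℝ) := {u | ContMDiff (𝓡 n) 𝓘(ℝ) ∞ u ∧ HasCompactSupport u}

theorem mem_core {u : M → ℝ} :
    u ∈ Core n M ↔ ContMDiff (𝓡 n) 𝓘(ℝ) ∞ u ∧ HasCompactSupport u := Iff.rfl

theorem core_sub {u v : M → ℝ} (hu : u ∈ Core n M) (hv : v ∈ Core n M) :
    (fun x => u x - v x) ∈ Core n M := by
  refine ⟨hu.1.sub hv.1, ?_⟩
  exact hu.2.sub hv.2

/-- `mGam u v` vanishes off the support of `u`. -/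
theorem mGam_supp {u v : M → ℝ} {z : M} (hz : z ∉ tsupport u) : mGam n u v z = 0 := by
  have h : u =ᶠ[𝓝 z] fun _ => 0 := notMem_tsupport_iff_eventuallyEq.1 hz
  rw [mGam_congr h (Filter.EventuallyEq.refl _ v), mGam_const_left]

theorem mLap_supp {u : M → ℝ} {z : M} (hz : z ∉ tsupport u) : mLap n u z = 0 := by
  have h : u =ᶠ[𝓝 z] fun _ => 0 := notMem_tsupport_iff_eventuallyEq.1 hz
  rw [mLap_congr h, mLap_const]

theorem mGam_core {u v : M → ℝ} (hu : u ∈ Core n M) (hv : ContMDiff (𝓡 n) 𝓘(ℝ) ∞ v) :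
    mGam n u v ∈ Core n M := by
  refine ⟨fun z => contMDiffAt_mGam (hu.1 z) (hv z) (by simp) le_rfl, ?_⟩
  refine HasCompactSupport.intro hu.2.isCompact fun z hz => mGam_supp hz

theorem mLap_core {u : M → ℝ} (hu : u ∈ Core n M) : mLap n u ∈ Core n M := by
  refine ⟨fun z => contMDiffAt_mLap (hu.1 z) (by simp) le_rfl, ?_⟩
  refine HasCompactSupport.intro hu.2.isCompact fun z hz => mLap_supp hz

/-- the divergence identity -/
def Div (n : ℕ) (M : Type*) [MetricSpace M] [ChartedSpace (EuclideanSpace ℝ (Fin n)) M]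
    [IsManifold (𝓡 n) ∞ M] [RiemannianBundle (fun p : M => TangentSpace (𝓡 n) p)]
    [IsContMDiffRiemannianBundle (𝓡 n) ∞ (EuclideanSpace ℝ (Fin n))
      (fun p : M => TangentSpace (𝓡 n) p)] [MeasurableSpace M] [BorelSpace M]
    [SecondCountableTopology M] [Nonempty M] : Prop :=
  ∀ u p : M → ℝ, ContMDiff (𝓡 n) 𝓘(ℝ) ∞ u → HasCompactSupport u → LocallyLipschitz p →
    HasCompactSupport p →
    ∫ x, inner ℝ (Gr (n := n) u x) (Gr (n := n) p x) ∂(μHE[n] : Measure M) =
      - ∫ x, mLap n u x * p x ∂(μHE[n] : Measure M)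

/-- a.e. product rule with one smooth factor -/
theorem Gr_mul_ae {p L : M → ℝ} (hp : LocallyLipschitz p) (hL : ContMDiff (𝓡 n) 𝓘(ℝ) ∞ L) :
    ∀ᵐ x ∂(μHE[n] : Measure M), Gr (n := n) (fun y => p y * L y) x =
      p x • Gr (n := n) L x + L x • Gr (n := n) p x := by
  filter_upwards [ae_mdifferentiableAt (n := n) hp] with x hx
  exact Gr_mul hx ((hL x).mdifferentiableAt (by simp))

theorem norm_Gr_eq_sqrt (u : M → ℝ) (z : M) : ‖Gr (n := n) u z‖ = √(mGam n u u z) := by
  rw [← norm_Gr_mGam, Real.sqrt_sq (norm_nonneg _)]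

/-- `Gr u` is bounded for `u` in the core -/
theorem Gr_bdd {u : M → ℝ} (hu : u ∈ Core n M) : ∃ C : ℝ, ∀ x, ‖Gr (n := n) u x‖ ≤ C := by
  have h := mGam_core hu hu.1
  obtain ⟨C, hC⟩ := h.2.exists_bound_of_continuous h.1.continuous
  refine ⟨√C, fun x => ?_⟩
  rw [norm_Gr_eq_sqrt]
  refine Real.sqrt_le_sqrt ?_
  exact (le_abs_self _).trans (hC x)

variable (hdiv : Div n M)

include hdiv in
/-- **integrated Bochner identity** -/
theorem bochner_int [IsFiniteMeasureOnCompacts (μHE[n] : Measure M)]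
    (S : GradS M 𝔼 (μHE[n] : Measure M)) (hS : S.G = Gr (n := n))
    (htest : ∀ {u : M → ℝ}, u ∈ Core n M → LocallyLipschitz u)
    {u p : M → ℝ} (hu : u ∈ Core n M) (hp : IsT p) :
    ∫ x, p x * (‖Hf (n := n) u x‖ ^ 2 +
        inner ℝ (mv (Rf (n := n) x) (Gr (n := n) u x)) (Gr (n := n) u x)) ∂(μHE[n] : Measure M) =
      - ∫ x, inner ℝ (Gr (n := n) p x) (mv (Hf (n := n) u x) (Gr (n := n) u x))
          ∂(μHE[n] : Measure M) +
        ∫ x, tr (Hf (n := n) u x) * (p x * tr (Hf (n := n) u x) +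
          inner ℝ (Gr (n := n) p x) (Gr (n := n) u x)) ∂(μHE[n] : Measure M) := by
  set L : M → ℝ := mLap n u with hLdef
  set γ : M → ℝ := mGam n u u with hγdef
  have hL : L ∈ Core n M := mLap_core hu
  have hγ : γ ∈ Core n M := mGam_core hu hu.1
  have hpc : Continuous p := hp.1.continuous
  have hu2 : ∀ z, ContMDiffAt (𝓡 n) 𝓘(ℝ) 2 u z := fun z => (hu.1 z).of_le two_le_infty
  have hu3 : ∀ z, ContMDiffAt (𝓡 n) 𝓘(ℝ) 3 u z := fun z => (hu.1 z).of_le three_le_infty
  have htr : ∀ z, tr (Hf (n := n) u z) = L z := fun z => tr_Hf (hu2 z)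
  -- integrability
  have i1 : Integrable (fun x => p x * ((1 / 2) * mLap n γ x)) (μHE[n] : Measure M) := by
    have hc : Continuous (fun x => p x * ((1 / 2) * mLap n γ x)) :=
      hpc.mul (continuous_const.mul (mLap_core hγ).1.continuous)
    exact hc.integrable_of_hasCompactSupport hp.2.mul_right
  have i2 : Integrable (fun x => p x * mGam n u L x) (μHE[n] : Measure M) := by
    have hc : Continuous (fun x => p x * mGam n u L x) := hpc.mul (mGam_core hu hL.1).1.continuous
    exact hc.integrable_of_hasCompactSupport hp.2.mul_right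
  have i3 : Integrable (fun x => L x * inner ℝ (Gr (n := n) p x) (Gr (n := n) u x))
      (μHE[n] : Measure M) := by
    obtain ⟨C1, hC10, hC1, hC1'⟩ := Hes124.BochS.test_bdd S hp
    obtain ⟨C2, hC2⟩ := Gr_bdd hu
    have hm : AEStronglyMeasurable (fun x => inner ℝ (Gr (n := n) p x) (Gr (n := n) u x))
        (μHE[n] : Measure M) :=
      (measurable_Gr p).aestronglyMeasurable.inner (measurable_Gr u).aestronglyMeasurable
    have hi : Integrable L (μHE[n] : Measure M) := hL.1.continuous.integrable_of_hasCompactSupport hL.2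
    have := hi.mul_bdd (c := C1 * C2) hm (by
      filter_upwards [hC1'] with x hx
      rw [hS] at hx
      refine (norm_inner_le_norm _ _).trans ?_
      gcongr
      exact hC2 x)
    exact this
  have i4 : Integrable (fun x => L x * (p x * L x)) (μHE[n] : Measure M) := by
    have hc : Continuous (fun x => L x * (p x * L x)) :=
      hL.1.continuous.mul (hpc.mul hL.1.continuous)
    exact hc.integrable_of_hasCompactSupport hL.2.mul_right
  -- the left-hand side
  have e1 : ∫ x, p x * (‖Hf (n := n) u x‖ ^ 2 +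
        inner ℝ (mv (Rf (n := n) x) (Gr (n := n) u x)) (Gr (n := n) u x)) ∂(μHE[n] : Measure M) =
      ∫ x, p x * ((1 / 2) * mLap n γ x) ∂(μHE[n] : Measure M) -
        ∫ x, p x * mGam n u L x ∂(μHE[n] : Measure M) := by
    rw [← integral_sub i1 i2]
    refine integral_congr_ae (Eventually.of_forall fun x => ?_)
    have h := bochner_frame (hu3 x)
    rw [inner_Gr_mGam] at h
    simp only
    rw [hγdef, h]
    ring
  -- the first term
  have e2 : ∫ x, p x * ((1 / 2) * mLap n γ x) ∂(μHE[n] : Measure M) =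
      - ∫ x, inner ℝ (Gr (n := n) p x) (mv (Hf (n := n) u x) (Gr (n := n) u x))
          ∂(μHE[n] : Measure M) := by
    have h1 := hdiv γ p hγ.1 hγ.2 hp.1 hp.2
    have h2 : ∫ x, p x * ((1 / 2) * mLap n γ x) ∂(μHE[n] : Measure M) =
        (1 / 2) * ∫ x, mLap n γ x * p x ∂(μHE[n] : Measure M) := by
      rw [← integral_const_mul]
      refine integral_congr_ae (Eventually.of_forall fun x => ?_)
      simp only
      ring
    have h3 : ∫ x, inner ℝ (Gr (n := n) γ x) (Gr (n := n) p x) ∂(μHE[n] : Measure M) =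
        2 * ∫ x, inner ℝ (Gr (n := n) p x) (mv (Hf (n := n) u x) (Gr (n := n) u x))
          ∂(μHE[n] : Measure M) := by
      rw [← integral_const_mul]
      refine integral_congr_ae (Eventually.of_forall fun x => ?_)
      simp only
      rw [hγdef, Gr_mGam (hu2 x) (hu2 x), inner_add_left, real_inner_comm]
      ring
    rw [h2]
    rw [h3] at h1
    linarith
  -- the second term
  have e3 : ∫ x, p x * mGam n u L x ∂(μHE[n] : Measure M) =
      - ∫ x, L x * (p x * L x + inner ℝ (Gr (n := n) p x) (Gr (n := n) u x))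
          ∂(μHE[n] : Measure M) := by
    have hpL : LocallyLipschitz (fun y => p y * L y) := locLip_mul hp.1 (htest hL)
    have h1 := hdiv u (fun y => p y * L y) hu.1 hu.2 hpL hp.2.mul_right
    have h2 : ∫ x, inner ℝ (Gr (n := n) u x) (Gr (n := n) (fun y => p y * L y) x)
          ∂(μHE[n] : Measure M) =
        ∫ x, p x * mGam n u L x ∂(μHE[n] : Measure M) +
          ∫ x, L x * inner ℝ (Gr (n := n) p x) (Gr (n := n) u x) ∂(μHE[n] : Measure M) := by
      rw [← integral_add i2 i3]
      refine integral_congr_ae ?_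
      filter_upwards [Gr_mul_ae hp.1 hL.1] with x hx
      rw [hx, inner_add_right, inner_smul_right, inner_smul_right, inner_Gr_mGam,
        real_inner_comm (Gr (n := n) u x)]
    have h3 : ∫ x, L x * (p x * L x + inner ℝ (Gr (n := n) p x) (Gr (n := n) u x))
          ∂(μHE[n] : Measure M) = ∫ x, L x * (p x * L x) ∂(μHE[n] : Measure M) +
          ∫ x, L x * inner ℝ (Gr (n := n) p x) (Gr (n := n) u x) ∂(μHE[n] : Measure M) := by
      rw [← integral_add i4 i3]
      refine integral_congr_ae (Eventually.of_forall fun x => ?_)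
      simp only
      ring
    rw [h3]
    rw [h2] at h1
    linarith
  rw [e1, e2, e3]
  simp only [htr]
  ring

/-- **constructor of `BochS`** on the manifold -/
def mkBochS {κ : ℝ} [IsFiniteMeasureOnCompacts (μHE[n] : Measure M)]
    (S : GradS M 𝔼 (μHE[n] : Measure M)) (hS : S.G = Gr (n := n)) (hdiv : Div n M)
    (hκ : HasRicciLowerBound n M (-κ))
    (htest : ∀ {u : M → ℝ}, u ∈ Core n M → LocallyLipschitz u)
    (hHm : ∀ {u : M → ℝ}, u ∈ Core n M →
      AEStronglyMeasurable (Hf (n := n) u) (μHE[n] : Measure M))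
    (hHb : ∀ {u : M → ℝ}, u ∈ Core n M → ∃ C : ℝ, ∀ x, ‖Hf (n := n) u x‖ ≤ C)
    (hRm : AEStronglyMeasurable (Rf (n := n) (M := M)) (μHE[n] : Measure M))
    (hRb : ∀ K : Set M, IsCompact K → ∃ C : ℝ, ∀ x ∈ K, ‖Rf (n := n) x‖ ≤ C) :
    Hes124.BochS n κ M (μHE[n] : Measure M) :=
  { S with
    core := Core n M
    core_test := fun hu => ⟨htest hu, hu.2⟩
    core_sub := core_sub
    H := fun u => Hf u
    H_meas := hHm
    H_bdd := fun hu => (hHb hu).imp fun C hC => Eventually.of_forall hC
    H_supp := fun _ => Eventually.of_forall fun x hx => Hf_supp hx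
    H_sub := fun hu hv => Eventually.of_forall fun x =>
      Hf_sub ((hu.1 x).of_le two_le_infty) ((hv.1 x).of_le two_le_infty)
    half_sq := by
      intro u hu
      have hγ : mGam n u u ∈ Core n M := mGam_core hu hu.1
      have hu2 : ∀ z, ContMDiffAt (𝓡 n) 𝓘(ℝ) 2 u z :=
        fun z => (hu.1 z).of_le two_le_infty
      refine ⟨fun x => (1 / 2) * mGam n u u x, ⟨?_, ?_⟩, Eventually.of_forall fun x => ?_,
        Eventually.of_forall fun x => ?_⟩
      · exact locLip_mul (LocallyLipschitz.const (1 / 2 : ℝ)) (htest hγ)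
      · exact hγ.2.mul_left
      · rw [hS, norm_Gr_mGam]; ring
      · rw [hS, Gr_const_mul (1 / 2) ((hγ.1 x).mdifferentiableAt (by simp)),
          Gr_mGam (hu2 x) (hu2 x)]
        module
    div := by
      intro u p hu hp
      have hu2 : ∀ z, ContMDiffAt (𝓡 n) 𝓘(ℝ) 2 u z :=
        fun z => (hu.1 z).of_le two_le_infty
      have h := hdiv u p hu.1 hu.2 hp.1 hp.2
      rw [hS, h]
      simp only [tr_Hf (hu2 _)]
    Ric := Rf
    Ric_meas := hRm
    Ric_bdd := fun K hK => (hRb K hK).imp fun C hC => Eventually.of_forall hC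
    Ric_lb := Eventually.of_forall fun x v => Rf_lb hκ x v
    bochner := by
      intro u p hu hp
      have h := bochner_int hdiv S hS htest hu hp
      rw [hS]
      exact h }

end

end Crest.Agent.R247.Ib939
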