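import Crest.Agent.R247.App1_470
import Crest.Agent.R247.Ib2_939

/-!
R247, block (5), leaf P4 (helper470), part 2: partition of unity by smooth functions with compact
support on the manifold, product rule for the Laplacian on the core, and the passage from
approximation in charts to `Appr` on the manifold.
-/

set_option autoImplicit false
set_option maxSynthPendingDepth 3
set_option linter.unusedSectionVars false

open Bundle Bornology Set MeasureTheory Manifold Filter Metric
open scoped ENNReal ContDiff Topology NNReal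
open Crest.GeometryTopology.CoordMetric Crest.GeometryTopology.ChartCurvature
open Crest.Agent.R226.ChartMet842 Crest.Agent.R247.Ms322 Crest.Agent.R247.Bo84
open Crest.Agent.R247.Hes124 Crest.Agent.R247.Ib939

namespace Crest.Agent.R247.App470

noncomputable section

local notation "𝔼" => EuclideanSpace ℝ (Fin _)

section PU

variable {n : ℕ} {M : Type*} [MetricSpace M] [ChartedSpace (EuclideanSpace ℝ (Fin n)) M]
  [IsManifold (𝓡 n) ∞ M] [SecondCountableTopology M]

/-- finite partitions of unity near a compact set, by smooth functions with compact support -/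
theorem exists_pu {K : Set M} (hK : IsCompact K) {O : M → Set M} (hO : ∀ x, IsOpen (O x))
    (hx : ∀ x, x ∈ O x) : ∃ (s : Finset M) (χ : M → M → ℝ),
      (∀ a ∈ s, χ a ∈ Core n M ∧ (∀ x, 0 ≤ χ a x) ∧ tsupport (χ a) ⊆ O a) ∧
      (∀ x, ∑ a ∈ s, χ a x ≤ 1) ∧
      ∃ W : Set M, IsOpen W ∧ K ⊆ W ∧ ∀ x ∈ W, ∑ a ∈ s, χ a x = 1 := by
  classical
  have : LocallyCompactSpace M :=
    ChartedSpace.locallyCompactSpace (EuclideanSpace ℝ (Fin n)) M
  obtain ⟨K', hK'c, hK'⟩ := exists_compact_superset hK
  have hC : ∀ x : M, ∃ C : Set M, IsCompact C ∧ x ∈ interior C := fun x =>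
    let ⟨C, hC, hxC⟩ := exists_compact_mem_nhds x
    ⟨C, hC, mem_interior_iff_mem_nhds.2 hxC⟩
  choose C hCc hCx using hC
  obtain ⟨f, hf⟩ := SmoothPartitionOfUnity.exists_isSubordinate (𝓡 n) hK'c.isClosed
    (fun x => O x ∩ interior (C x)) (fun x => (hO x).inter isOpen_interior)
    (fun x _ => mem_iUnion.2 ⟨x, hx x, hCx x⟩)
  have hfin : {i | (Function.support (f i) ∩ K').Nonempty}.Finite :=
    f.locallyFinite.finite_nonempty_inter_compact hK'c
  refine ⟨hfin.toFinset, fun a => f a, fun a _ => ⟨⟨(f a).contMDiff, ?_⟩, fun x => f.nonneg a x,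
    (hf a).trans inter_subset_left⟩, fun x => ?_, interior K', isOpen_interior, hK', fun x hxK => ?_⟩
  · exact (hCc a).of_isClosed_subset (isClosed_tsupport _)
      ((hf a).trans (inter_subset_right.trans interior_subset))
  · have h1 : {i | f i x ≠ 0}.Finite := f.locallyFinite.point_finite x
    have h2 : ∑ᶠ i, f i x = ∑ i ∈ hfin.toFinset ∪ h1.toFinset, f i x := by
      refine finsum_eq_sum_of_support_subset _ fun i hi => ?_
      rw [Finset.coe_union, Finite.coe_toFinset, Finite.coe_toFinset]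
      exact Or.inr hi
    calc ∑ a ∈ hfin.toFinset, f a x ≤ ∑ i ∈ hfin.toFinset ∪ h1.toFinset, f i x :=
          Finset.sum_le_sum_of_subset_of_nonneg Finset.subset_union_left
            fun i _ _ => f.nonneg i x
      _ = ∑ᶠ i, f i x := h2.symm
      _ ≤ 1 := f.sum_le_one x
  · have hxK' : x ∈ K' := interior_subset hxK
    have h2 := f.sum_eq_one hxK'
    rw [finsum_eq_sum_of_support_subset] at h2
    · exact h2
    · intro i hi
      rw [Finite.coe_toFinset]
      exact ⟨x, hi, hxK'⟩

theorem zero_mem_core : (fun _ : M => (0:ℝ)) ∈ Core n M :=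
  ⟨contMDiff_const, HasCompactSupport.zero⟩

theorem mul_mem_core {u v : M → ℝ} (hu : u ∈ Core n M) (hv : v ∈ Core n M) :
    (fun x => u x * v x) ∈ Core n M :=
  ⟨hu.1.mul hv.1, hu.2.mul_right⟩

end PU

variable {n : ℕ} {M : Type*} [MetricSpace M] [ChartedSpace (EuclideanSpace ℝ (Fin n)) M]
  [IsManifold (𝓡 n) ∞ M]
  [RiemannianBundle (fun p : M => TangentSpace (𝓡 n) p)]
  [IsContMDiffRiemannianBundle (𝓡 n) ∞ (EuclideanSpace ℝ (Fin n)) (fun p : M => TangentSpace (𝓡 n) p)]
  [IsRiemannianManifold (𝓡 n) M]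
  [MeasurableSpace M] [BorelSpace M] [SecondCountableTopology M] [Nonempty M]
  [IsFiniteMeasureOnCompacts (μHE[n] : Measure M)] {κ : ℝ}

variable {B : BochS n κ M (μHE[n] : Measure M)}

theorem corePU_M (hc : B.core = Core n M) : CorePU B := by
  intro K hK O hO hx
  obtain ⟨s, χ, h1, h2, h3⟩ := exists_pu (n := n) hK hO hx
  exact ⟨s, χ, fun a ha => ⟨hc ▸ (h1 a ha).1, (h1 a ha).2⟩, h2, h3⟩

theorem coreMul_M (hG : B.G = Gr (n := n)) (hc : B.core = Core n M)
    (hT : ∀ w ∈ B.core, ∀ x, tr (B.H w x) = mLap n w x) : CoreMul B := by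
  intro u v hu hv
  rw [hc] at hu hv
  have huv : (fun x => u x * v x) ∈ B.core := by rw [hc]; exact mul_mem_core hu hv
  refine ⟨huv, Eventually.of_forall fun x => ?_⟩
  rw [hT _ huv, hT v (by rw [hc]; exact hv), hT u (by rw [hc]; exact hu), hG, inner_Gr_mGam]
  exact mLap_mul ((hu.1 x).of_le two_le_infty) ((hv.1 x).of_le two_le_infty)

/-- **`Appr` on the manifold from approximation in charts.** -/
theorem appr_M (hG : B.G = Gr (n := n)) (hc : B.core = Core n M)
    (hT : ∀ w ∈ B.core, ∀ x, tr (B.H w x) = mLap n w x)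
    (hloc : ∀ x₀ : M, ApprOn B (chartAt (EuclideanSpace ℝ (Fin n)) x₀).source) : Appr B :=
  appr_of_loc (by rw [hc]; exact zero_mem_core) (coreMul_M hG hc hT) (corePU_M hc)
    fun x₀ => ⟨_, (chartAt (EuclideanSpace ℝ (Fin n)) x₀).open_source,
      mem_chart_source _ x₀, hloc x₀⟩

end

end Crest.Agent.R247.App470
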