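import Crest.Agent.R247.Bs2_84
import Crest.Agent.R247.Ib2_939

/-!
Row 247, block (5-B) (helper84): the `BochS` term from a gradient structure with gradient `Gr` and the
integration by parts formula `Div`: all measurability / boundedness inputs of helper939's `mkBochS`.
-/

set_option autoImplicit false
set_option maxSynthPendingDepth 3
set_option linter.unusedSectionVars false

open scoped ContDiff Topology Manifold RealInnerProductSpace NNReal
open Filter Set Bundle MeasureTheory Metric
open Crest.GeometryTopology.CoordMetric Crest.GeometryTopology.ChartCurvature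
  Crest.GeometryTopology.PointedLimit
open Crest.Agent.R202.Tens Crest.Agent.R247.Bo84 Crest.Agent.R247.Ms322
open Crest.Agent.R247.Dir593 (GradS)

noncomputable section

namespace Crest.Agent.R247.Bs84

variable {n : ℕ} {M : Type*} [MetricSpace M] [ChartedSpace (EuclideanSpace ℝ (Fin n)) M]
  [IsManifold (𝓡 n) ∞ M]
  [RiemannianBundle (fun p : M => TangentSpace (𝓡 n) p)]
  [IsContMDiffRiemannianBundle (𝓡 n) ∞ (EuclideanSpace ℝ (Fin n))
    (fun p : M => TangentSpace (𝓡 n) p)]
  [IsRiemannianManifold (𝓡 n) M]
  [SecondCountableTopology M] [Nonempty M] [MeasurableSpace M] [BorelSpace M]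

local notation "𝔼" => EuclideanSpace ℝ (Fin n)

theorem Hf_eq (u : M → ℝ) (z : M) : Ib939.Hf (n := n) u z = Hf u z := rfl

theorem Rf_eq (z : M) : Ib939.Rf (n := n) z = Ricf z := rfl

/-- **The Bochner structure of the manifold**, from the gradient structure and `Div`. -/
def bochS {κ : ℝ} [IsFiniteMeasureOnCompacts (μHE[n] : Measure M)]
    (S : GradS M 𝔼 (μHE[n] : Measure M)) (hS : S.G = Gr (n := n)) (hdiv : Ib939.Div n M)
    (hκ : HasRicciLowerBound n M (-κ)) : Hes124.BochS n κ M (μHE[n] : Measure M) :=
  Ib939.mkBochS S hS hdiv hκ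
    (fun hu => (core_isT (n := n) hu).1)
    (fun hu => (measurable_Hf (hu.1.of_le two_le_infty)).aestronglyMeasurable)
    (fun hu => Hf_bdd hu)
    measurable_Ricf.aestronglyMeasurable
    (fun _ hK => Ricf_bdd hK)

end Crest.Agent.R247.Bs84
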