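import Crest.Agent.R247.Ms12_322
import Crest.Agent.R247.Bs3_84

/-!
R247, leaf (5-B) / P3 (helper939, helper84, helper322): the `BochS` structure of a complete (or any)
Riemannian manifold with `Ric ≥ -κ`, unconditionally.
-/

set_option autoImplicit false
set_option maxSynthPendingDepth 3
set_option linter.unusedSectionVars false

open Bundle Bornology Set MeasureTheory Manifold Filter Metric
open scoped ENNReal ContDiff Topology NNReal
open Crest.GeometryTopology.PointedLimit
open Crest.Agent.R247.Ms322

namespace Crest.Agent.R247.Gs939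

open Crest.Agent.R247.Dir593 Crest.Agent.R247.Dir593.GradS

noncomputable section

variable {n : ℕ} {M : Type*} [MetricSpace M] [ChartedSpace (EuclideanSpace ℝ (Fin n)) M]
  [IsManifold (𝓡 n) ∞ M]
  [RiemannianBundle (fun p : M => TangentSpace (𝓡 n) p)]
  [IsContMDiffRiemannianBundle (𝓡 n) ∞ (EuclideanSpace ℝ (Fin n)) (fun p : M => TangentSpace (𝓡 n) p)]
  [IsRiemannianManifold (𝓡 n) M]
  [MeasurableSpace M] [BorelSpace M] [SecondCountableTopology M] [Nonempty M]

local notation "𝔼" => EuclideanSpace ℝ (Fin n)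

variable (n M) in
/-- the divergence identity holds -/
theorem div_holds : Ib939.Div n M := by
  intro u p hu huc hp hpc
  have h := ibp_mLap (n := n) (U := univ) isOpen_univ (f := u) (φ := p)
    (fun z _ => (hu z).of_le Bo84.two_le_infty) hp hpc (subset_univ _)
  rw [h]
  simp only [mul_comm]

/-- the measure is finite on compact sets -/
theorem finOnCompacts : IsFiniteMeasureOnCompacts (μHE[n] : Measure M) := by
  have := isLocallyFiniteMeasure n M
  infer_instance

/-- **`BochS` of the manifold.** -/
def boch {κ : ℝ} (hκ : HasRicciLowerBound n M (-κ)) : Hes124.BochS n κ M (μHE[n] : Measure M) :=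
  haveI := finOnCompacts (n := n) (M := M)
  Bs84.bochS (Ms322.gradS n M) rfl (div_holds n M) hκ

theorem boch_toGradS {κ : ℝ} (hκ : HasRicciLowerBound n M (-κ)) :
    (boch hκ).toGradS = Ms322.gradS n M := rfl

theorem boch_G {κ : ℝ} (hκ : HasRicciLowerBound n M (-κ)) : (boch hκ).G = Gr (n := n) := rfl

theorem boch_H {κ : ℝ} (hκ : HasRicciLowerBound n M (-κ)) (u : M → ℝ) :
    (boch hκ).H u = Bs84.Hf u := rfl

theorem boch_Ric {κ : ℝ} (hκ : HasRicciLowerBound n M (-κ)) :
    (boch hκ).Ric = Bs84.Ricf (n := n) := rfl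

theorem boch_core {κ : ℝ} (hκ : HasRicciLowerBound n M (-κ)) :
    (boch hκ).core = {u : M → ℝ | ContMDiff (𝓡 n) 𝓘(ℝ) ∞ u ∧ HasCompactSupport u} := rfl

end

end Crest.Agent.R247.Gs939
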