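import Crest.Agent.R247.Prt7_657
import Crest.Agent.R247.App1_470
import Crest.Agent.R247.Gs2_939

/-!
R247, block (5), leaf P4 (helper657), file 8: the local half of `Appr` for the manifold:
`ApprOn B (chartAt 𝔼 x₀).source` for every `x₀`.
-/

set_option autoImplicit false
set_option maxSynthPendingDepth 3
set_option linter.unusedSectionVars false
open scoped ContDiff ENNReal NNReal Topology Manifold Bundle
open MeasureTheory Set Filter Metric Bundle
open Crest.GeometryTopology.CoordMetric Crest.GeometryTopology.ChartCurvature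
open Crest.GeometryTopology.PointedLimit
open Crest.Agent.R202.Ell Crest.Agent.R247.Ms322
open Crest.Agent.R247.Dir593 Crest.Agent.R247.Hes124 Crest.Agent.R247.App470
open Crest.Agent.R247.Bo84 (mLap)

namespace Crest.Agent.R247.Frd657

noncomputable section

variable {n : ℕ} {M : Type*} [MetricSpace M] [ChartedSpace (EuclideanSpace ℝ (Fin n)) M]
  [IsManifold (𝓡 n) ∞ M]
  [RiemannianBundle (fun p : M => TangentSpace (𝓡 n) p)]
  [IsContMDiffRiemannianBundle (𝓡 n) ∞ (EuclideanSpace ℝ (Fin n)) (fun p : M => TangentSpace (𝓡 n) p)]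
  [IsRiemannianManifold (𝓡 n) M] [MeasurableSpace M] [BorelSpace M] [SecondCountableTopology M]
  [Nonempty M]

local notation "𝔼" => EuclideanSpace ℝ (Fin n)

/-- **P4, local half** -/
theorem apprOn [IsFiniteMeasureOnCompacts (μHE[n] : Measure M)] {κ : ℝ}
    (B : BochS n κ M (μHE[n] : Measure M)) (hG : ∀ f, B.G f = Gr (n := n) f)
    (hcore : ∀ w : M → ℝ, ContMDiff (𝓡 n) 𝓘(ℝ, ℝ) ∞ w → HasCompactSupport w → w ∈ B.core)
    (htr : ∀ w ∈ B.core, ∀ x, tr (B.H w x) = mLap n w x) (x₀ : M) :
    ApprOn B (chartAt 𝔼 x₀).source := by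
  intro u f S0 hu hb hf heq K hK hKs ε hε
  obtain ⟨w, hw, hwc, hwb, hwi⟩ := exists_near B.toGradS hG x₀ hu hb hf heq hK hKs hε
  have hwB := hcore w hw hwc
  refine ⟨w, hwB, fun x => (hwb x).trans (by linarith), le_trans (le_of_eq ?_) hwi⟩
  refine integral_congr_ae (Eventually.of_forall fun z => ?_)
  simp only [hG, htr w hwB]

/-- the local half of `Appr` for the manifold -/
theorem apprOn_boch {κ : ℝ} (hκ : HasRicciLowerBound n M (-κ)) (x₀ : M) :
    haveI := Gs939.finOnCompacts (n := n) (M := M)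
    ApprOn (Gs939.boch (n := n) (M := M) hκ) (chartAt 𝔼 x₀).source := by
  haveI := Gs939.finOnCompacts (n := n) (M := M)
  refine apprOn _ (fun f => rfl) (fun w hw hc => ?_) (fun w hw x => ?_) x₀
  · rw [Gs939.boch_core]; exact ⟨hw, hc⟩
  · rw [Gs939.boch_core] at hw
    rw [Gs939.boch_H]
    exact Bs84.tr_Hf (n := n) (hw.1.of_le Bo84.two_le_infty).contMDiffAt

end

end Crest.Agent.R247.Frd657
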