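import Crest.Agent.R247.App2_470
import Crest.Agent.R247.Prt8_657

/-!
R247, block (5), leaf P4 (helper657, helper470): `Appr` holds on every Riemannian manifold
(`Gs939.boch` = the Bochner structure of the manifold).
-/

set_option autoImplicit false
set_option maxSynthPendingDepth 3
set_option linter.unusedSectionVars false

open Bundle Bornology Set MeasureTheory Manifold Filter Metric
open scoped ENNReal ContDiff Topology NNReal
open Crest.GeometryTopology.PointedLimit
open Crest.Agent.R247.Hes124 Crest.Agent.R247.Ib939

namespace Crest.Agent.R247.App470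

noncomputable section

variable {n : ℕ} {M : Type*} [MetricSpace M] [ChartedSpace (EuclideanSpace ℝ (Fin n)) M]
  [IsManifold (𝓡 n) ∞ M]
  [RiemannianBundle (fun p : M => TangentSpace (𝓡 n) p)]
  [IsContMDiffRiemannianBundle (𝓡 n) ∞ (EuclideanSpace ℝ (Fin n)) (fun p : M => TangentSpace (𝓡 n) p)]
  [IsRiemannianManifold (𝓡 n) M]
  [MeasurableSpace M] [BorelSpace M] [SecondCountableTopology M] [Nonempty M]

/-- the Laplacian of the Bochner structure is the Laplacian of the manifold on the core -/
theorem tr_boch {κ : ℝ} (hκ : HasRicciLowerBound n M (-κ)) {w : M → ℝ}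
    (hw : w ∈ (Gs939.boch hκ).core) (x : M) :
    tr ((Gs939.boch hκ).H w x) = Bo84.mLap n w x := by
  rw [Gs939.boch_core] at hw
  rw [Gs939.boch_H]
  exact Bs84.tr_Hf (n := n) (hw.1.of_le Bo84.two_le_infty).contMDiffAt

/-- **P4**: smooth approximation in the graph norm of the Laplacian, on every manifold. -/
theorem appr_boch {κ : ℝ} (hκ : HasRicciLowerBound n M (-κ)) :
    haveI := Gs939.finOnCompacts (n := n) (M := M)
    Appr (Gs939.boch (n := n) (M := M) hκ) := by
  have := Gs939.finOnCompacts (n := n) (M := M)
  exact appr_M (B := Gs939.boch (n := n) (M := M) hκ) rfl rfl (fun w hw x => tr_boch hκ hw x)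
    (fun x₀ => Frd657.apprOn_boch hκ x₀)

/-- the same, for any instance of finiteness on compact sets -/
theorem appr_boch' [IsFiniteMeasureOnCompacts (μHE[n] : Measure M)] {κ : ℝ}
    (hκ : HasRicciLowerBound n M (-κ)) : Appr (Gs939.boch (n := n) (M := M) hκ) :=
  appr_boch hκ

end

end Crest.Agent.R247.App470
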