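import Crest.Agent.R247.Ms3_322

/-!
# R247, block (3)/(I4): the area inequality, flat part (helper659)

* `abs_det_le_prod` : Hadamard, `|det L| ≤ ∏ ‖L_i‖` (`L_i` = the components of `L`);
* `flat_area` : if every component of `f : ℝⁿ → ℝⁿ` is `K`-Lipschitz on the open set `V`, then
  `volume (f '' B) ≤ Kⁿ volume B` for measurable `B ⊆ V`.
-/

set_option autoImplicit false
set_option linter.unusedSectionVars false
set_option linter.unusedVariables false

open Set MeasureTheory Filter Metric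
open scoped ENNReal Topology NNReal

namespace Crest.Agent.R247.Ar659

noncomputable section

variable {n : ℕ}

local notation "𝔼" => EuclideanSpace ℝ (Fin n)

/-- Hadamard's inequality for the vectors `v i` of `ℝⁿ`. -/
theorem abs_basis_det_le (v : Fin n → 𝔼) :
    |(EuclideanSpace.basisFun (Fin n) ℝ).toBasis.det v| ≤ ∏ i, ‖v i‖ := by
  have : Fact (Module.finrank ℝ 𝔼 = n) := ⟨finrank_euclideanSpace_fin⟩
  have h := ((EuclideanSpace.basisFun (Fin n) ℝ).toBasis.orientation).abs_volumeForm_apply_le v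
  rwa [Orientation.volumeForm_robust' _ (EuclideanSpace.basisFun (Fin n) ℝ) v] at h

/-- Hadamard's inequality: `|det L| ≤ ∏ ‖component i of L‖`. -/
theorem abs_det_le_prod (L : 𝔼 →L[ℝ] 𝔼) (l : Fin n → (𝔼 →L[ℝ] ℝ))
    (hl : ∀ i v, l i v = (L v) i) : |L.det| ≤ ∏ i, ‖l i‖ := by
  set b := (EuclideanSpace.basisFun (Fin n) ℝ) with hb
  have hfin : FiniteDimensional ℝ 𝔼 := inferInstance
  let R : Fin n → 𝔼 := fun i => (InnerProductSpace.toDual ℝ 𝔼).symm (l i)
  have hR : ∀ i v, inner ℝ (R i) v = (L v) i := by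
    intro i v
    rw [← hl]
    exact InnerProductSpace.toDual_symm_apply
  have hnorm : ∀ i, ‖R i‖ = ‖l i‖ := fun i => LinearIsometryEquiv.norm_map _ _
  have hdet : L.det = b.toBasis.det R := by
    have e1 : (L.det : ℝ) = (LinearMap.toMatrix b.toBasis b.toBasis (L : 𝔼 →ₗ[ℝ] 𝔼)).det := by
      rw [LinearMap.det_toMatrix]
    rw [e1, Module.Basis.det_apply, ← Matrix.det_transpose]
    congr 1
    ext i j
    rw [Matrix.transpose_apply, LinearMap.toMatrix_apply, Module.Basis.toMatrix_apply]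
    have h1 : (b.toBasis.repr (L (b.toBasis i))) j = (L (EuclideanSpace.single i 1)) j := by
      simp [hb]
    have h2 : (b.toBasis.repr (R j)) i = (R j) i := by
      simp [hb]
    have h3 : (R j) i = inner ℝ (R j) (EuclideanSpace.single i (1 : ℝ)) := by
      simp [EuclideanSpace.inner_single_right]
    rw [h2, h3, hR]
    exact h1
  rw [hdet]
  refine (abs_basis_det_le R).trans (le_of_eq ?_)
  exact Finset.prod_congr rfl fun i _ => hnorm i

/-- a map with Lipschitz components is Lipschitz. -/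
theorem lipschitzOnWith_of_components {X : Type*} [PseudoMetricSpace X] {K : ℝ≥0} {V : Set X}
    {f : X → 𝔼} (hf : ∀ i, LipschitzOnWith K (fun x => f x i) V) :
    LipschitzOnWith (NNReal.sqrt n * K) f V := by
  refine LipschitzOnWith.of_dist_le_mul fun x hx y hy => ?_
  rw [EuclideanSpace.dist_eq]
  have h1 : ∑ i, dist (f x i) (f y i) ^ 2 ≤ ∑ _i : Fin n, ((K : ℝ) * dist x y) ^ 2 := by
    refine Finset.sum_le_sum fun i _ => ?_
    have := (hf i).dist_le_mul x hx y hy
    gcongr
  have h2 : ∑ _i : Fin n, ((K : ℝ) * dist x y) ^ 2 = (√(n : ℝ) * ((K : ℝ) * dist x y)) ^ 2 := by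
    rw [Finset.sum_const, Finset.card_univ, Fintype.card_fin, nsmul_eq_mul,
      mul_pow (√(n : ℝ)), Real.sq_sqrt (Nat.cast_nonneg n)]
  rw [h2] at h1
  refine (Real.sqrt_le_sqrt h1).trans ?_
  rw [Real.sqrt_sq (by positivity)]
  simp [mul_assoc]

/-- **Area inequality, flat version.** -/
theorem flat_area {K : ℝ≥0} {V : Set 𝔼} (hV : IsOpen V) {f : 𝔼 → 𝔼}
    (hf : ∀ i, LipschitzOnWith K (fun x => f x i) V) {B : Set 𝔼} (hB : B ⊆ V)
    (hBm : MeasurableSet B) : volume (f '' B) ≤ (K : ℝ≥0∞) ^ n * volume B := by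
  have hL := lipschitzOnWith_of_components hf
  set D : Set 𝔼 := {x | DifferentiableAt ℝ f x} with hD
  have hDm : MeasurableSet D := measurableSet_of_differentiableAt ℝ f
  have hnull : volume (B \ D) = 0 := by
    have h := hL.ae_differentiableWithinAt_of_mem (μ := (volume : Measure 𝔼))
    refine measure_mono_null ?_ h
    intro x hx
    rw [mem_compl_iff, mem_ofPred_eq]
    intro hc
    refine hx.2 ?_
    have hxV := hB hx.1
    exact (hc hxV).differentiableAt (hV.mem_nhds hxV)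
  have hnull' : volume (f '' (B \ D)) = 0 := by
    have h := Ms322.muHE_image_le (n := n) (hL.mono (sdiff_subset.trans hB) : LipschitzOnWith _ f (B \ D))
    rw [EuclideanSpace.euclideanHausdorffMeasure_eq_volume, hnull, mul_zero] at h
    exact le_antisymm h bot_le
  have hmain : volume (f '' (B ∩ D)) ≤ (K : ℝ≥0∞) ^ n * volume (B ∩ D) := by
    have h1 : volume (f '' (B ∩ D)) ≤
        ∫⁻ x in B ∩ D, ENNReal.ofReal |(fderiv ℝ f x).det| := by
      refine addHaar_image_le_lintegral_abs_det_fderiv volume (hBm.inter hDm)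
        (fun x hx => ?_)
      exact (DifferentiableAt.hasFDerivAt hx.2).hasFDerivWithinAt
    refine h1.trans ?_
    rw [← setLIntegral_const]
    refine setLIntegral_mono' (hBm.inter hDm) fun x hx => ?_
    have hxV := hB hx.1
    have hdx : HasFDerivAt f (fderiv ℝ f x) x := DifferentiableAt.hasFDerivAt hx.2
    have hcomp : ∀ i, HasFDerivAt (fun y => f y i)
        ((EuclideanSpace.proj (𝕜 := ℝ) i : 𝔼 →L[ℝ] ℝ).comp (fderiv ℝ f x)) x := by
      intro i
      exact (EuclideanSpace.proj (𝕜 := ℝ) i : 𝔼 →L[ℝ] ℝ).hasFDerivAt.comp x hdx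
    have hle : ∀ i, ‖(EuclideanSpace.proj (𝕜 := ℝ) i : 𝔼 →L[ℝ] ℝ).comp (fderiv ℝ f x)‖ ≤ K :=
      fun i => (hcomp i).le_of_lipschitzOn (hV.mem_nhds hxV) (hf i)
    have h2 := abs_det_le_prod (fderiv ℝ f x)
      (fun i => (EuclideanSpace.proj (𝕜 := ℝ) i : 𝔼 →L[ℝ] ℝ).comp (fderiv ℝ f x))
      (fun i v => rfl)
    have h3 : |(fderiv ℝ f x).det| ≤ (K : ℝ) ^ n := by
      refine h2.trans ?_
      calc _ ≤ ∏ _i : Fin n, (K : ℝ) := Finset.prod_le_prod (fun i _ => norm_nonneg _)
            (fun i _ => hle i)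
        _ = (K : ℝ) ^ n := by simp
    calc ENNReal.ofReal |(fderiv ℝ f x).det| ≤ ENNReal.ofReal ((K : ℝ) ^ n) :=
          ENNReal.ofReal_le_ofReal h3
      _ = (K : ℝ≥0∞) ^ n := by
          rw [ENNReal.ofReal_pow (NNReal.coe_nonneg K), ENNReal.ofReal_coe_nnreal]
  calc volume (f '' B) = volume (f '' (B ∩ D) ∪ f '' (B \ D)) := by
        rw [← image_union, inter_union_sdiff]
    _ ≤ volume (f '' (B ∩ D)) + volume (f '' (B \ D)) := measure_union_le _ _
    _ = volume (f '' (B ∩ D)) := by rw [hnull', add_zero]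
    _ ≤ (K : ℝ≥0∞) ^ n * volume (B ∩ D) := hmain
    _ ≤ (K : ℝ≥0∞) ^ n * volume B := by gcongr; exact inter_subset_left

end

end Crest.Agent.R247.Ar659
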