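import Crest.Agent.R247.Ar1_659

/-!
# R247, block (3)/(I4): the area inequality on a Riemannian manifold (helper659)

* `area_on` : `U ⊆ M` open, every `b i` is `L`-Lipschitz on `U`, `A ⊆ U` measurable ⇒
  `volume ((b₁,…,bₙ) '' A) ≤ Lⁿ μHE[n] A`;
* `area` : the global `1`-Lipschitz form (field `area` of `VC402.Setup`).
-/

set_option autoImplicit false
set_option maxSynthPendingDepth 3
set_option linter.unusedSectionVars false
set_option linter.unusedVariables false

open Bundle Bornology Set MeasureTheory Manifold Filter Metric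
open scoped ENNReal ContDiff Topology NNReal
open Crest.GeometryTopology.CoordMetric Crest.GeometryTopology.ChartCurvature
open Crest.GeometryTopology.Geodesic
open Crest.Agent.R226.ChartMet842 Crest.Agent.R247.Ms322

namespace Crest.Agent.R247.Ar659

noncomputable section

variable {n : ℕ} {M : Type*} [MetricSpace M] [ChartedSpace (EuclideanSpace ℝ (Fin n)) M]
  [IsManifold (𝓡 n) ∞ M]
  [RiemannianBundle (fun p : M => TangentSpace (𝓡 n) p)]
  [IsContMDiffRiemannianBundle (𝓡 n) ∞ (EuclideanSpace ℝ (Fin n)) (fun p : M => TangentSpace (𝓡 n) p)]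

local notation "𝔼" => EuclideanSpace ℝ (Fin n)

/-- the map `(b₁,…,bₙ)`. -/
def mp (b : Fin n → M → ℝ) (x : M) : 𝔼 := WithLp.toLp 2 (fun i => b i x)

omit [MetricSpace M] [ChartedSpace (EuclideanSpace ℝ (Fin n)) M] [IsManifold (𝓡 n) ∞ M]
  [RiemannianBundle (fun p : M => TangentSpace (𝓡 n) p)]
  [IsContMDiffRiemannianBundle (𝓡 n) ∞ (EuclideanSpace ℝ (Fin n)) (fun p : M => TangentSpace (𝓡 n) p)] in
theorem mp_apply (b : Fin n → M → ℝ) (x : M) (i : Fin n) : mp b x i = b i x := rfl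

variable [IsRiemannianManifold (𝓡 n) M] [MeasurableSpace M] [BorelSpace M]

/-- local version. -/
theorem area_local {U : Set M} (hU : IsOpen U) {L : ℝ≥0} {b : Fin n → M → ℝ}
    (hb : ∀ i, LipschitzOnWith L (b i) U) {z : M} (hz : z ∈ U) {K : ℝ≥0} (hK : 1 < K) :
    ∃ W : Set M, IsOpen W ∧ z ∈ W ∧ W ⊆ U ∧ ∀ S ⊆ W, MeasurableSet S →
      volume (mp b '' S) ≤ (K : ℝ≥0∞) * ((L : ℝ≥0∞) ^ n * μHE[n] S) := by
  obtain ⟨η, hη, hηK⟩ : ∃ η : ℝ≥0, 0 < η ∧ (1 + η) ^ (n + n) ≤ K := by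
    have hc : ContinuousAt (fun t : ℝ≥0 => (1 + t) ^ (n + n)) 0 := by fun_prop
    have h1 : (fun t : ℝ≥0 => (1 + t) ^ (n + n)) 0 < K := by simpa using hK
    have h2 := hc.eventually_lt continuousAt_const h1
    obtain ⟨ε, hε, h3⟩ := Metric.eventually_nhds_iff.1 h2
    refine ⟨Real.toNNReal (ε / 2), Real.toNNReal_pos.2 (half_pos hε), le_of_lt (h3 ?_)⟩
    rw [NNReal.dist_eq, Real.coe_toNNReal _ (half_pos hε).le, NNReal.coe_zero, sub_zero,
      abs_of_pos (half_pos hε)]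
    linarith
  have hzs : z ∈ (chartAt 𝔼 z).source := mem_chart_source 𝔼 z
  set a : 𝔼 := chartAt 𝔼 z z with ha_def
  have ha : a ∈ (chartAt 𝔼 z).target := (chartAt 𝔼 z).map_source hzs
  obtain ⟨A, hA, -⟩ := exists_isometry z ha
  obtain ⟨r, hr0, hrt, hL1, hL2⟩ := exists_bilip z ha hA hη
  set u : Set M := (chartAt 𝔼 z).symm '' ball a r with hu
  have huo : IsOpen u := (chartAt 𝔼 z).symm.isOpen_image_of_subset_source isOpen_ball hrt
  have hus : u ⊆ (chartAt 𝔼 z).source := by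
    rintro _ ⟨c, hc, rfl⟩
    exact (chartAt 𝔼 z).map_target (hrt hc)
  have hzu : z ∈ u := ⟨a, mem_ball_self hr0, (chartAt 𝔼 z).left_inv hzs⟩
  refine ⟨u ∩ U, huo.inter hU, ⟨hzu, hz⟩, inter_subset_right, ?_⟩
  intro S hS hSm
  have hSu : S ⊆ u := hS.trans inter_subset_left
  have hSU : S ⊆ U := hS.trans inter_subset_right
  set F : 𝔼 → M := fun w => (chartAt 𝔼 z).symm (A.symm w) with hF
  set G : M → 𝔼 := fun y => A (chartAt 𝔼 z y) with hG
  have hFG : ∀ y ∈ u, F (G y) = y := by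
    intro y hy
    simp only [hF, hG, A.symm_apply_apply]
    exact (chartAt 𝔼 z).left_inv (hus hy)
  have hGF : ∀ w ∈ A '' ball a r, G (F w) = w := by
    rintro _ ⟨c, hc, rfl⟩
    simp only [hF, hG, A.symm_apply_apply]
    rw [(chartAt 𝔼 z).right_inv (hrt hc)]
  have hGu : MapsTo G u (A '' ball a r) := by
    rintro _ ⟨c, hc, rfl⟩
    refine ⟨c, hc, ?_⟩
    simp only [hG]
    rw [(chartAt 𝔼 z).right_inv (hrt hc)]
  have hAo : IsOpen (A '' ball a r) := A.isOpenMap _ isOpen_ball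
  have hFc : ContinuousOn F (A '' ball a r) := hL1.continuousOn
  set V : Set 𝔼 := (A '' ball a r) ∩ F ⁻¹' U with hV
  have hVo : IsOpen V := hFc.isOpen_inter_preimage hAo hU
  set B : Set 𝔼 := (A '' ball a r) ∩ F ⁻¹' S with hB
  have hBS : B = G '' S := by
    ext w
    constructor
    · rintro ⟨hw, hwS⟩
      exact ⟨F w, hwS, hGF w hw⟩
    · rintro ⟨y, hy, rfl⟩
      refine ⟨hGu (hSu hy), ?_⟩
      rw [mem_preimage, hFG y (hSu hy)]
      exact hy
  have hBm : MeasurableSet B := by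
    have h1 : Continuous (fun w : (A '' ball a r : Set 𝔼) => F w) :=
      hFc.comp_continuous continuous_subtype_val (fun w => w.2)
    have h2 := MeasurableSet.subtype_image hAo.measurableSet (h1.measurable hSm)
    convert h2 using 1
    ext w
    simp only [hB, mem_inter_iff, mem_preimage, mem_image, Subtype.exists, exists_and_right,
      exists_eq_right]
    constructor
    · rintro ⟨h, h'⟩; exact ⟨h, h'⟩
    · rintro ⟨h, h'⟩; exact ⟨h, h'⟩
  have hBV : B ⊆ V := fun w hw => ⟨hw.1, hSU hw.2⟩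
  have hcomp : ∀ i, LipschitzOnWith (L * (1 + η)) (fun w => (mp b (F w)) i) V := by
    intro i
    have h1 : LipschitzOnWith (1 + η) F V := hL1.mono inter_subset_left
    exact (hb i).comp h1 (fun w hw => hw.2)
  have h1 := flat_area hVo (f := fun w => mp b (F w)) hcomp hBV hBm
  have h2 : (fun w => mp b (F w)) '' B = mp b '' S := by
    rw [hBS, image_image]
    exact image_congr fun y hy => by rw [hFG y (hSu hy)]
  rw [h2] at h1
  have h3 : volume B ≤ ((1 + η : ℝ≥0) : ℝ≥0∞) ^ n * μHE[n] S := by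
    have h4 := muHE_image_le (n := n) (hL2.mono hSu)
    rw [EuclideanSpace.euclideanHausdorffMeasure_eq_volume] at h4
    rwa [hBS]
  calc volume (mp b '' S) ≤ ((L * (1 + η) : ℝ≥0) : ℝ≥0∞) ^ n * volume B := h1
    _ ≤ ((L * (1 + η) : ℝ≥0) : ℝ≥0∞) ^ n * (((1 + η : ℝ≥0) : ℝ≥0∞) ^ n * μHE[n] S) := by gcongr
    _ = (((1 + η) ^ (n + n) : ℝ≥0) : ℝ≥0∞) * ((L : ℝ≥0∞) ^ n * μHE[n] S) := by
        rw [ENNReal.coe_mul, ENNReal.coe_pow]; ring
    _ ≤ (K : ℝ≥0∞) * ((L : ℝ≥0∞) ^ n * μHE[n] S) := by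
        gcongr

theorem ennreal_key (a b : ℝ≥0∞) (h : ∀ K : ℝ≥0, 1 < K → a ≤ K * b) : a ≤ b := by
  rcases eq_or_ne b ⊤ with hb | hb
  · rw [hb]; exact le_top
  rcases eq_or_ne b 0 with hb0 | hb0
  · have := h 2 (by norm_num)
    rw [hb0, mul_zero] at this
    rw [hb0]; exact this
  refine ENNReal.le_of_forall_pos_le_add fun ε hε _ => ?_
  have hbp : 0 < b.toNNReal := ENNReal.toNNReal_pos hb0 hb
  have h1 := h (1 + ε / b.toNNReal) (by
    have : 0 < ε / b.toNNReal := div_pos hε hbp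
    exact lt_add_of_pos_right 1 this)
  refine h1.trans (le_of_eq ?_)
  have hb' : b = (b.toNNReal : ℝ≥0∞) := (ENNReal.coe_toNNReal hb).symm
  have h2 : (1 + ε / b.toNNReal) * b.toNNReal = b.toNNReal + ε := by
    field_simp
  calc ((1 + ε / b.toNNReal : ℝ≥0) : ℝ≥0∞) * b
      = (((1 + ε / b.toNNReal) * b.toNNReal : ℝ≥0) : ℝ≥0∞) := by
        rw [ENNReal.coe_mul, ← hb']
    _ = b + ε := by rw [h2, ENNReal.coe_add, ← hb']

/-- **Area inequality**, on an open set. -/
theorem area_on [SecondCountableTopology M] {U : Set M} (hU : IsOpen U) {L : ℝ≥0}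
    {b : Fin n → M → ℝ} (hb : ∀ i, LipschitzOnWith L (b i) U) {A : Set M} (hA : A ⊆ U)
    (hAm : MeasurableSet A) : volume (mp b '' A) ≤ (L : ℝ≥0∞) ^ n * μHE[n] A := by
  refine ennreal_key _ _ fun K hK => ?_
  choose W hWo hzW hWU hW using fun z : U => area_local hU hb (z := (z : M)) z.2 hK
  obtain ⟨T, hT, hTu⟩ := TopologicalSpace.isOpen_iUnion_countable W hWo
  have hcov : A ⊆ ⋃ z ∈ T, W z := by
    rw [hTu]
    intro y hy
    exact mem_iUnion.2 ⟨⟨y, hA hy⟩, hzW _⟩
  rcases T.eq_empty_or_nonempty with hTe | hTn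
  · have : A = ∅ := by
      rw [hTe] at hcov
      simpa using hcov
    subst this
    simp
  obtain ⟨f, hf⟩ := hT.exists_eq_range hTn
  set Wf : ℕ → Set M := fun k => W (f k) with hWf
  have hcov' : A ⊆ ⋃ k, Wf k := by
    intro y hy
    have := hcov hy
    rw [hf] at this
    simpa [hWf] using this
  set P : ℕ → Set M := fun k => A ∩ disjointed Wf k with hP
  have hWm : ∀ k, MeasurableSet (Wf k) := fun k => (hWo _).measurableSet
  have hPm : ∀ k, MeasurableSet (P k) := fun k => hAm.inter (MeasurableSet.disjointed hWm k)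
  have hPd : Pairwise (Function.onFun Disjoint P) := by
    intro i j hij
    exact ((disjoint_disjointed Wf) hij).mono inter_subset_right inter_subset_right
  have hPW : ∀ k, P k ⊆ Wf k := fun k => inter_subset_right.trans (disjointed_subset Wf k)
  have hPA : A = ⋃ k, P k := by
    rw [hP, ← inter_iUnion, iUnion_disjointed]
    exact (inter_eq_left.2 hcov').symm
  calc volume (mp b '' A) = volume (⋃ k, mp b '' P k) := by rw [← image_iUnion, ← hPA]
    _ ≤ ∑' k, volume (mp b '' P k) := measure_iUnion_le _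
    _ ≤ ∑' k, (K : ℝ≥0∞) * ((L : ℝ≥0∞) ^ n * μHE[n] (P k)) :=
        ENNReal.tsum_le_tsum fun k => hW (f k) (P k) (hPW k) (hPm k)
    _ = (K : ℝ≥0∞) * ((L : ℝ≥0∞) ^ n * ∑' k, μHE[n] (P k)) := by
        rw [ENNReal.tsum_mul_left, ENNReal.tsum_mul_left]
    _ = (K : ℝ≥0∞) * ((L : ℝ≥0∞) ^ n * μHE[n] A) := by
        rw [← measure_iUnion hPd hPm, ← hPA]

/-- **Area inequality**, global `1`-Lipschitz form. -/
theorem area [SecondCountableTopology M] (b : Fin n → M → ℝ)
    (hb : ∀ i x y, |b i x - b i y| ≤ dist x y) (A : Set M) (hAm : MeasurableSet A) :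
    volume ((fun x => (WithLp.toLp 2 (fun i => b i x) : 𝔼)) '' A) ≤ μHE[n] A := by
  have h := area_on (U := univ) isOpen_univ (L := 1) (b := b) (fun i => by
    refine LipschitzOnWith.of_dist_le_mul fun x _ y _ => ?_
    rw [Real.dist_eq]
    simpa using hb i x y) (subset_univ A) hAm
  rw [ENNReal.coe_one, one_pow, one_mul] at h
  exact h

end

end Crest.Agent.R247.Ar659
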