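import Crest.Agent.R247.Ms6_322
import Crest.Agent.R247.VC1_402
import Crest.Agent.R247.HR_216

/-!
# R247: the pointwise calculus of the gradient `Gr` (helper659)

* `Gr_comp` : chain rule for a function of finitely many functions;
* `Gr_congr` : locality;
* `norm_Gr_le_pt`, `ev_le` : `‖Gr f z‖` = pointwise Lipschitz constant of `f` at `z`;
* `norm_Gr_dist` : `‖Gr (dist q ·) z‖ = 1` at every `z ≠ q` where `dist q ·` is differentiable;
* `cdc : VC402.Cdc M`.
-/

set_option autoImplicit false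
set_option maxSynthPendingDepth 3
set_option linter.unusedSectionVars false
set_option linter.unusedVariables false

open Bundle Bornology Set MeasureTheory Manifold Filter Metric
open scoped ENNReal ContDiff Topology NNReal
open Crest.GeometryTopology.CoordMetric Crest.GeometryTopology.ChartCurvature
open Crest.GeometryTopology.Geodesic
open Crest.Agent.R226.ChartMet842 Crest.Agent.R247.Ms322

namespace Crest.Agent.R247.Ar659

noncomputable section

variable {n : ℕ} {M : Type*} [MetricSpace M] [ChartedSpace (EuclideanSpace ℝ (Fin n)) M]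
  [IsManifold (𝓡 n) ∞ M]
  [RiemannianBundle (fun p : M => TangentSpace (𝓡 n) p)]
  [IsContMDiffRiemannianBundle (𝓡 n) ∞ (EuclideanSpace ℝ (Fin n)) (fun p : M => TangentSpace (𝓡 n) p)]

local notation "𝔼" => EuclideanSpace ℝ (Fin n)

variable [SecondCountableTopology M] [Nonempty M]

/-- differentiability in the selected chart -/
theorem hasFDerivAt_sel {f : M → ℝ} {z : M} (hf : MDifferentiableAt (𝓡 n) 𝓘(ℝ) f z) :
    HasFDerivAt (fun b : 𝔼 => f ((chartAt 𝔼 (sel n z)).symm b))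
      (fderiv ℝ (fun b : 𝔼 => f ((chartAt 𝔼 (sel n z)).symm b)) (crd n z)) (crd n z) :=
  ((mdifferentiableAt_iff_chart (sel n z) (mem_sel z) f).1 hf).hasFDerivAt

/-- Chain rule. -/
theorem mdiff_comp {k : ℕ} {F : (Fin k → ℝ) → ℝ} {F' : (Fin k → ℝ) →L[ℝ] ℝ} {u : Fin k → M → ℝ}
    {z : M} (hu : ∀ i, MDifferentiableAt (𝓡 n) 𝓘(ℝ) (u i) z)
    (hF : HasFDerivAt F F' (fun i => u i z)) :
    MDifferentiableAt (𝓡 n) 𝓘(ℝ) (fun y => F (fun i => u i y)) z ∧
      Gr (n := n) (fun y => F (fun i => u i y)) z =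
        ∑ i, F' (Pi.single i 1) • Gr (n := n) (u i) z := by
  have h1 : HasFDerivAt (fun b : 𝔼 => fun i => u i ((chartAt 𝔼 (sel n z)).symm b))
      (ContinuousLinearMap.pi fun i =>
        fderiv ℝ (fun b : 𝔼 => u i ((chartAt 𝔼 (sel n z)).symm b)) (crd n z)) (crd n z) :=
    hasFDerivAt_pi.2 fun i => hasFDerivAt_sel (hu i)
  have h2 : HasFDerivAt F F' ((fun b : 𝔼 => fun i => u i ((chartAt 𝔼 (sel n z)).symm b))
      (crd n z)) := by
    simp only [symm_crd]
    exact hF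
  have h3 := h2.comp (crd n z) h1
  refine ⟨(mdifferentiableAt_iff_chart (sel n z) (mem_sel z) _).2 h3.differentiableAt, ?_⟩
  ext j
  rw [Gr_apply_chart]
  have h4 : fderiv ℝ (fun b : 𝔼 => F fun i => u i ((chartAt 𝔼 (sel n z)).symm b)) (crd n z) =
      F'.comp (ContinuousLinearMap.pi fun i =>
        fderiv ℝ (fun b : 𝔼 => u i ((chartAt 𝔼 (sel n z)).symm b)) (crd n z)) := h3.fderiv
  rw [h4, ContinuousLinearMap.comp_apply]
  set w : Fin k → ℝ := fun i =>
    fderiv ℝ (fun b : 𝔼 => u i ((chartAt 𝔼 (sel n z)).symm b)) (crd n z)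
      (colv (sel n z) (crd n z) j) with hw
  have h5 : (ContinuousLinearMap.pi fun i =>
        fderiv ℝ (fun b : 𝔼 => u i ((chartAt 𝔼 (sel n z)).symm b)) (crd n z))
          (colv (sel n z) (crd n z) j) = w := rfl
  rw [h5]
  have h6 : w = ∑ i, w i • (Pi.single i (1 : ℝ) : Fin k → ℝ) := by
    funext i
    simp [Finset.sum_apply, Pi.single_apply]
  conv_lhs => rw [h6, map_sum]
  simp only [map_smul, smul_eq_mul, WithLp.ofLp_sum, WithLp.ofLp_smul, Finset.sum_apply,
    Pi.smul_apply]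
  refine Finset.sum_congr rfl fun i _ => ?_
  rw [Gr_apply_chart, mul_comm]

/-- Locality. -/
theorem Gr_congr {f g : M → ℝ} {z : M} (h : f =ᶠ[𝓝 z] g) : Gr (n := n) f z = Gr (n := n) g z := by
  ext j
  rw [Gr_apply, Gr_apply]
  unfold df
  rw [h.mfderiv_eq]

/-- The isometric picture at `z`. -/
theorem exists_isom_at (z : M) : ∃ A : 𝔼 ≃L[ℝ] 𝔼,
    (∀ u v, inner ℝ (A u) (A v) = gm (sel n z) (crd n z) u v) ∧
    (∀ v : TangentSpace (𝓡 n) z, ‖A (dC (sel n z) z v)‖ = ‖v‖) := by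
  obtain ⟨A, hA, -⟩ := exists_isometry (sel n z) (crd_mem (n := n) z)
  refine ⟨A, hA, fun v => ?_⟩
  have h1 : ‖A (dC (sel n z) z v)‖ ^ 2 = ‖v‖ ^ 2 := by
    rw [← real_inner_self_eq_norm_sq, hA, norm_sq_eq_gm (sel n z) (mem_sel z) v]
    rfl
  exact (sq_eq_sq₀ (norm_nonneg _) (norm_nonneg _)).1 h1

theorem df_sel (f : M → ℝ) (z : M) (v : TangentSpace (𝓡 n) z) :
    df f z v = fderiv ℝ (fun b : 𝔼 => f ((chartAt 𝔼 (sel n z)).symm b)) (crd n z)
      (dC (sel n z) z v) := df_eq_fderiv (sel n z) (mem_sel z) f v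

variable [IsRiemannianManifold (𝓡 n) M]

/-- `‖Gr f z‖ ≤` the pointwise Lipschitz constant. -/
theorem norm_Gr_le_pt {f : M → ℝ} {z : M} {K : ℝ} (hK : 0 ≤ K)
    (hf : MDifferentiableAt (𝓡 n) 𝓘(ℝ) f z)
    (h : ∀ᶠ y in 𝓝 z, |f y - f z| ≤ K * dist y z) : ‖Gr (n := n) f z‖ ≤ K := by
  obtain ⟨A, hA, hAn⟩ := exists_isom_at (n := n) z
  have key : ∀ η : ℝ≥0, 0 < η → ‖Gr (n := n) f z‖ ≤ K * (1 + η) := by
    intro η hη
    obtain ⟨r, hr0, hrt, hL1, -⟩ := exists_bilip (sel n z) (crd_mem (n := n) z) hA hη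
    set φ := chartAt 𝔼 (sel n z) with hφ
    set a := crd n z with ha
    have hfd := hasFDerivAt_sel hf
    set D := fderiv ℝ (fun b : 𝔼 => f (φ.symm b)) a with hD
    have hAs : HasFDerivAt (fun w : 𝔼 => A.symm w) (A.symm : 𝔼 →L[ℝ] 𝔼) (A a) :=
      (A.symm : 𝔼 →L[ℝ] 𝔼).hasFDerivAt
    have hfd' : HasFDerivAt (fun b : 𝔼 => f (φ.symm b)) D ((fun w : 𝔼 => A.symm w) (A a)) := by
      simp only [A.symm_apply_apply]; exact hfd
    have hcomp := hfd'.comp (A a) hAs
    have hAo : IsOpen (A '' ball a r) := A.isOpenMap _ isOpen_ball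
    have hmem : A a ∈ A '' ball a r := ⟨a, mem_ball_self hr0, rfl⟩
    have hev1 : ∀ᶠ w in 𝓝 (A a), w ∈ A '' ball a r := hAo.mem_nhds hmem
    have hcont : ContinuousAt (fun w : 𝔼 => φ.symm (A.symm w)) (A a) :=
      (hL1.continuousOn).continuousAt (hAo.mem_nhds hmem)
    have hz : (fun w : 𝔼 => φ.symm (A.symm w)) (A a) = z := by
      simp only [A.symm_apply_apply]; exact symm_crd z
    have hev2 : ∀ᶠ w in 𝓝 (A a), |f (φ.symm (A.symm w)) - f z| ≤
        K * dist (φ.symm (A.symm w)) z := by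
      have h' : Tendsto (fun w : 𝔼 => φ.symm (A.symm w)) (𝓝 (A a)) (𝓝 z) := by
        have h'' := hcont.tendsto
        have hz' : φ.symm (A.symm (A a)) = z := hz
        rwa [hz'] at h''
      exact h'.eventually h
    have hle : ‖D.comp (A.symm : 𝔼 →L[ℝ] 𝔼)‖ ≤ K * (1 + η) := by
      refine HasFDerivAt.le_of_lip' hcomp (by positivity) ?_
      filter_upwards [hev1, hev2] with w hw1 hw2
      simp only [Function.comp_apply, A.symm_apply_apply]
      have e0 : φ.symm a = z := symm_crd z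
      rw [e0, Real.norm_eq_abs]
      have h3 := hL1.dist_le_mul w hw1 (A a) hmem
      simp only [A.symm_apply_apply] at h3
      rw [e0, dist_eq_norm w] at h3
      calc |f (φ.symm (A.symm w)) - f z| ≤ K * dist (φ.symm (A.symm w)) z := hw2
        _ ≤ K * (((1 + η : ℝ≥0) : ℝ) * ‖w - A a‖) := by gcongr
        _ = K * (1 + η) * ‖w - A a‖ := by push_cast; ring
    refine norm_Gr_le (by positivity) fun v => ?_
    rw [df_sel]
    have e1 : D (dC (sel n z) z v) = (D.comp (A.symm : 𝔼 →L[ℝ] 𝔼)) (A (dC (sel n z) z v)) := by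
      simp
    rw [← hD, e1, ← Real.norm_eq_abs]
    calc ‖(D.comp (A.symm : 𝔼 →L[ℝ] 𝔼)) (A (dC (sel n z) z v))‖
        ≤ ‖D.comp (A.symm : 𝔼 →L[ℝ] 𝔼)‖ * ‖A (dC (sel n z) z v)‖ :=
          ContinuousLinearMap.le_opNorm _ _
      _ ≤ K * (1 + η) * ‖v‖ := by rw [hAn]; gcongr
  refine le_of_forall_pos_le_add fun ε hε => ?_
  have h1 := key (Real.toNNReal (ε / (K + 1))) (Real.toNNReal_pos.2 (by positivity))
  rw [Real.coe_toNNReal _ (by positivity)] at h1
  refine h1.trans ?_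
  have h2 : K * (ε / (K + 1)) ≤ ε := by
    rw [mul_div_assoc', div_le_iff₀ (by positivity)]
    nlinarith
  linarith

/-- the pointwise Lipschitz constant is `≤ ‖Gr f z‖`. -/
theorem ev_le {f : M → ℝ} {z : M} (hf : MDifferentiableAt (𝓡 n) 𝓘(ℝ) f z) {ε : ℝ} (hε : 0 < ε) :
    ∀ᶠ y in 𝓝 z, |f y - f z| ≤ (‖Gr (n := n) f z‖ + ε) * dist y z := by
  obtain ⟨A, hA, hAn⟩ := exists_isom_at (n := n) z
  set N := ‖Gr (n := n) f z‖ with hN
  have hN0 : 0 ≤ N := norm_nonneg _
  obtain ⟨η, hη, hηε⟩ : ∃ η : ℝ≥0, 0 < η ∧ (N + η) * (1 + η) ≤ N + ε := by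
    have hc : ContinuousAt (fun t : ℝ => (N + t) * (1 + t)) 0 := by fun_prop
    have h1 : (fun t : ℝ => (N + t) * (1 + t)) 0 < N + ε := by simpa using hε
    have h2 := hc.eventually_lt continuousAt_const h1
    obtain ⟨δ, hδ, h3⟩ := Metric.eventually_nhds_iff.1 h2
    refine ⟨Real.toNNReal (δ / 2), Real.toNNReal_pos.2 (half_pos hδ), ?_⟩
    rw [Real.coe_toNNReal _ (half_pos hδ).le]
    refine le_of_lt (h3 ?_)
    rw [Real.dist_eq, sub_zero, abs_of_pos (half_pos hδ)]
    linarith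
  obtain ⟨r, hr0, hrt, hL1, hL2⟩ := exists_bilip (sel n z) (crd_mem (n := n) z) hA hη
  set φ := chartAt 𝔼 (sel n z) with hφ
  set a := crd n z with ha
  have hzs : z ∈ φ.source := mem_sel z
  have haz : φ z = a := rfl
  have e0 : φ.symm a = z := symm_crd z
  have hfd := hasFDerivAt_sel hf
  set D := fderiv ℝ (fun b : 𝔼 => f (φ.symm b)) a with hD
  have hAs : HasFDerivAt (fun w : 𝔼 => A.symm w) (A.symm : 𝔼 →L[ℝ] 𝔼) (A a) :=
    (A.symm : 𝔼 →L[ℝ] 𝔼).hasFDerivAt
  have hfd' : HasFDerivAt (fun b : 𝔼 => f (φ.symm b)) D ((fun w : 𝔼 => A.symm w) (A a)) := by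
    simp only [A.symm_apply_apply]; exact hfd
  have hcomp := hfd'.comp (A a) hAs
  set D' := D.comp (A.symm : 𝔼 →L[ℝ] 𝔼) with hD'
  have hnorm : ‖D'‖ ≤ N := by
    refine ContinuousLinearMap.opNorm_le_bound _ hN0 fun w => ?_
    let v : TangentSpace (𝓡 n) z := (dSe (sel n z) (crd_mem (n := n) z) (A.symm w) : 𝔼)
    have hv : dC (sel n z) z v = A.symm w := by
      have h := dC_dS (sel n z) (crd_mem (n := n) z) (A.symm w)
      have key : ∀ (w' : M) (hw' : w' = z), dC (sel n z) w'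
          (dS (sel n z) (crd n z) (A.symm w) : 𝔼) =
          dC (sel n z) z (dS (sel n z) (crd n z) (A.symm w) : 𝔼) := by
        intro w' hw'; subst hw'; rfl
      rw [← h]
      exact (key _ (symm_crd (n := n) z)).symm
    have h1 := abs_df_le (n := n) f z v
    rw [df_sel, hv] at h1
    have h2 : ‖v‖ = ‖w‖ := by
      rw [← hAn v, hv, A.apply_symm_apply]
    rw [h2] at h1
    exact h1
  have hgc : ContinuousAt (fun y => A (φ y)) z :=
    A.continuous.continuousAt.comp (φ.continuousAt hzs)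
  have hlit : ∀ᶠ w in 𝓝 (A a), |f (φ.symm (A.symm w)) - f z| ≤ (N + η) * ‖w - A a‖ := by
    have hη' : (0 : ℝ) < η := hη
    have h1 := (hcomp.isLittleO).def hη'
    filter_upwards [h1] with w hw
    simp only [Function.comp_apply, A.symm_apply_apply, e0] at hw
    have h2 : |D' (w - A a)| ≤ N * ‖w - A a‖ := by
      rw [← Real.norm_eq_abs]
      exact (D'.le_opNorm _).trans (by gcongr)
    rw [Real.norm_eq_abs] at hw
    have h3 : |f (φ.symm (A.symm w)) - f z| ≤
        |f (φ.symm (A.symm w)) - f z - D' (w - A a)| + |D' (w - A a)| := by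
      have := abs_add_le (f (φ.symm (A.symm w)) - f z - D' (w - A a)) (D' (w - A a))
      simpa using this
    linarith
  have hev1 : ∀ᶠ y in 𝓝 z, |f (φ.symm (A.symm (A (φ y)))) - f z| ≤
      (N + η) * ‖A (φ y) - A a‖ := by
    have h1 : Tendsto (fun y => A (φ y)) (𝓝 z) (𝓝 (A a)) := hgc.tendsto
    exact h1.eventually hlit
  have huo : IsOpen (φ.symm '' ball a r) := φ.symm.isOpen_image_of_subset_source isOpen_ball hrt
  have hzu : z ∈ φ.symm '' ball a r := ⟨a, mem_ball_self hr0, e0⟩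
  filter_upwards [hev1, huo.mem_nhds hzu, φ.open_source.mem_nhds hzs] with y hy1 hy2 hy3
  rw [A.symm_apply_apply, φ.left_inv hy3] at hy1
  have h4 := hL2.dist_le_mul y hy2 z hzu
  rw [dist_eq_norm] at h4
  calc |f y - f z| ≤ (N + η) * ‖A (φ y) - A a‖ := hy1
    _ ≤ (N + η) * (((1 + η : ℝ≥0) : ℝ) * dist y z) := by
        gcongr
        exact h4
    _ = ((N + η) * (1 + η)) * dist y z := by push_cast; ring
    _ ≤ (N + ε) * dist y z := by gcongr

variable (n) in
/-- **Unit gradient of the distance.** -/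
theorem norm_Gr_dist [CompleteSpace M] {q z : M} (hz : z ≠ q)
    (hf : MDifferentiableAt (𝓡 n) 𝓘(ℝ) (fun y => dist q y) z) :
    ‖Gr (n := n) (fun y => dist q y) z‖ = 1 := by
  refine le_antisymm ?_ ?_
  · refine norm_Gr_le_pt zero_le_one hf (Eventually.of_forall fun y => ?_)
    rw [one_mul, dist_comm q y, dist_comm q z]
    exact abs_dist_sub_le y z q
  · obtain ⟨γ, h0, h1, hγ⟩ := HR216.exists_geodesic_of_riemannian n z q
    refine le_of_forall_pos_le_add fun ε hε => ?_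
    have hev := ev_le hf hε
    set ℓ := dist z q with hℓ
    have hℓ0 : 0 < ℓ := dist_pos.2 hz
    obtain ⟨δ, hδ, hball⟩ := Metric.eventually_nhds_iff.1 hev
    set s : ℝ := min 1 (δ / (2 * ℓ)) with hs
    have hs0 : 0 < s := lt_min one_pos (by positivity)
    have hs1 : s ≤ 1 := min_le_left _ _
    have hd1 : dist (γ s) z = s * ℓ := by
      have := hγ s ⟨hs0.le, hs1⟩ 0 ⟨le_rfl, zero_le_one⟩
      rw [h0, sub_zero, abs_of_pos hs0] at this
      exact this
    have hd2 : dist q (γ s) = (1 - s) * ℓ := by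
      have := hγ 1 ⟨zero_le_one, le_rfl⟩ s ⟨hs0.le, hs1⟩
      rw [h1, abs_of_nonneg (by linarith)] at this
      exact this
    have hlt : dist (γ s) z < δ := by
      rw [hd1]
      have : s * ℓ ≤ δ / 2 := by
        calc s * ℓ ≤ (δ / (2 * ℓ)) * ℓ := by gcongr; exact min_le_right _ _
          _ = δ / 2 := by field_simp
      linarith
    have h2 := hball hlt
    rw [hd2, dist_comm q z, ← hℓ, hd1] at h2
    have h3 : |(1 - s) * ℓ - ℓ| = s * ℓ := by
      rw [show (1 - s) * ℓ - ℓ = -(s * ℓ) by ring, abs_neg, abs_of_pos (by positivity)]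
    rw [h3] at h2
    have h4 : 0 < s * ℓ := by positivity
    by_contra hcon
    rw [not_le] at hcon
    nlinarith

variable (n M) in
/-- The carré-du-champ calculus of a Riemannian manifold. -/
def cdc : VC402.Cdc M where
  D f x := MDifferentiableAt (𝓡 n) 𝓘(ℝ) f x
  Γ f g x := inner ℝ (Gr (n := n) f x) (Gr (n := n) g x)
  symm f g x := real_inner_comm _ _
  chain F F' u x hu hF := by
    have h := mdiff_comp hu hF
    refine ⟨h.1, fun g _ => ?_⟩
    rw [h.2, sum_inner]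
    refine Finset.sum_congr rfl fun i _ => ?_
    rw [real_inner_smul_left]
  congr f f' x h hf := by
    refine ⟨hf.congr_of_eventuallyEq h.symm, fun g _ => ?_⟩
    rw [Gr_congr h]
  nonneg f x _ := real_inner_self_nonneg
  le_lip f x K hf hK h := by
    rw [real_inner_self_eq_norm_sq]
    have := norm_Gr_le_pt hK hf (Eventually.of_forall h)
    exact pow_le_pow_left₀ (norm_nonneg _) this 2

end

end Crest.Agent.R247.Ar659
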