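import Crest.Agent.R247.Ar2_659
import Crest.Agent.R247.Ar3_659
import Crest.Agent.R247.Ms8_322
import Crest.Agent.R247.VC2_402

/-!
# R247, block (3): the instance `setup : VC402.Setup n M μHE[n]` (helper659)

`M` a complete Riemannian manifold of dimension `n ≥ 1` (for `n = 0` the field `unit` is false).
-/

set_option autoImplicit false
set_option maxSynthPendingDepth 3
set_option linter.unusedSectionVars false
set_option linter.unusedVariables false

open Bundle Bornology Set MeasureTheory Manifold Filter Metric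
open scoped ENNReal ContDiff Topology NNReal
open Crest.Agent.R247.Ms322

namespace Crest.Agent.R247.Ar659

noncomputable section

variable {n : ℕ} {M : Type*} [MetricSpace M] [ChartedSpace (EuclideanSpace ℝ (Fin n)) M]
  [IsManifold (𝓡 n) ∞ M]
  [RiemannianBundle (fun p : M => TangentSpace (𝓡 n) p)]
  [IsContMDiffRiemannianBundle (𝓡 n) ∞ (EuclideanSpace ℝ (Fin n)) (fun p : M => TangentSpace (𝓡 n) p)]

local notation "𝔼" => EuclideanSpace ℝ (Fin n)

/-- points are null in dimension `≥ 1`. -/
theorem muHE_singleton {X : Type*} [MetricSpace X] [MeasurableSpace X] [BorelSpace X] {n : ℕ}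
    (hn : 1 ≤ n) (q : X) : (μHE[n] : Measure X) {q} = 0 := by
  rw [Measure.euclideanHausdorffMeasure_def, Measure.smul_apply]
  have : (μH[(n : ℝ)] : Measure X) {q} = 0 := by
    haveI := Measure.noAtoms_hausdorff X (d := (n : ℝ)) (by exact_mod_cast hn)
    exact measure_singleton q
  rw [this, smul_zero]

variable [SecondCountableTopology M] [Nonempty M] [IsRiemannianManifold (𝓡 n) M]
  [MeasurableSpace M] [BorelSpace M]

/-- `|∇ d_q| = 1` a.e. -/
theorem ae_norm_Gr_dist [CompleteSpace M] (hn : 1 ≤ n) (q : M) :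
    ∀ᵐ z ∂(μHE[n] : Measure M), ‖Gr (n := n) (fun y => dist q y) z‖ = 1 := by
  have h1 : ∀ᵐ z ∂(μHE[n] : Measure M), MDifferentiableAt (𝓡 n) 𝓘(ℝ) (fun y => dist q y) z :=
    ae_mdifferentiableAt (LipschitzWith.dist_right q).locallyLipschitz
  have h2 : ∀ᵐ z ∂(μHE[n] : Measure M), z ≠ q := by
    rw [ae_iff]
    simpa using muHE_singleton hn q
  filter_upwards [h1, h2] with z hz hzq
  exact norm_Gr_dist n hzq hz

variable (n M) in
/-- **The instance.** -/
def setup [CompleteSpace M] (hn : 1 ≤ n) : VC402.Setup n M (μHE[n] : Measure M) where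
  cd := cdc n M
  rad f hf := by
    obtain ⟨K, hK⟩ := hf
    exact ae_mdifferentiableAt hK.locallyLipschitz
  meas f g _ _ :=
    ((measurable_Gr (n := n) f).inner (measurable_Gr (n := n) g)).aestronglyMeasurable
  unit q := by
    filter_upwards [ae_norm_Gr_dist (n := n) hn q] with z hz
    show inner ℝ (Gr (n := n) (fun y => dist q y) z) (Gr (n := n) (fun y => dist q y) z) = 1
    rw [real_inner_self_eq_norm_sq, hz, one_pow]
  area b hb A hA := area b hb A hA

end

end Crest.Agent.R247.Ar659
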