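import Crest.Agent.R247.GluM3_923
import Crest.Agent.R247.Scal4_386
import Crest.Agent.R247.Asm2_951

/-!
# R247, assembly (3): rescaling of the output of blocks (1), (2)

`GluM923.GlueDataT A n` is `GluM923.GlueData n` under the hypothesis of volume pinching at all
scales `≤ A` (instead of `≤ 1`).  By rescaling it implies `GlueData n`.
-/

set_option autoImplicit false
noncomputable section
open Set Filter Topology MeasureTheory Metric
open scoped ContDiff Manifold ENNReal NNReal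
open Bundle Crest.GeometryTopology.CoordMetric Crest.GeometryTopology.ChartCurvature
  Crest.GeometryTopology.PointedLimit
open Crest.Agent.R247.Scal386

namespace Crest.Agent.R247.Asm951

universe u

/-- **Volume pinching passes to the rescaled manifold**: if `M` is pinched at all scales `≤ s₁` on
`ball q (r * R₀)`, then `Sc r M` (distances divided by `r`) is pinched at all scales `≤ s₁ / r` on
`ball q R₀`. -/
theorem pinch_sc {n : ℕ} {M : Type u} [MetricSpace M] [MeasurableSpace M] [BorelSpace M]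
    (r : {r : ℝ // 0 < r}) {q : M} {R₀ δ s₁ A : ℝ} (hA : r.1 * A ≤ s₁)
    (h : ∀ x ∈ ball q (r.1 * R₀), ∀ s : ℝ, 0 < s → s ≤ s₁ →
      ENNReal.ofReal (1 - δ) * volume (ball (0 : EuclideanSpace ℝ (Fin n)) s) ≤
        Measure.euclideanHausdorffMeasure n (ball x s)) :
    ∀ x ∈ ball (toSc r q) R₀, ∀ s : ℝ, 0 < s → s ≤ A →
      ENNReal.ofReal (1 - δ) * volume (ball (0 : EuclideanSpace ℝ (Fin n)) s) ≤
        Measure.euclideanHausdorffMeasure n (ball x s) := by
  intro x hx s hs hsA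
  have hr := r.2
  have hx' : ofSc r x ∈ ball q (r.1 * R₀) := by
    have := ball_sc r q R₀
    rw [← this] at hx
    exact hx
  have h1 := h (ofSc r x) hx' (r.1 * s) (by positivity)
    ((mul_le_mul_of_nonneg_left hsA hr.le).trans hA)
  have h2 := h1.trans (muHE_sc r n (ball (ofSc r x) (r.1 * s)))
  have h3 := ball_sc r (ofSc r x) s
  have h4 : toSc r (ofSc r x) = x := rfl
  rw [h4] at h3
  rw [h3, volume_ball_scale (r.1 * s) (by positivity), mul_pow,
    ENNReal.ofReal_mul (by positivity)] at h2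
  rw [volume_ball_scale s hs]
  have h5 : ENNReal.ofReal (r.1 ^ n) ≠ 0 := by
    rw [Ne, ENNReal.ofReal_eq_zero, not_le]; positivity
  refine (ENNReal.mul_le_mul_iff_right h5 ENNReal.ofReal_ne_top).1 ?_
  refine le_trans (le_of_eq ?_) h2
  ring

/-- The data of the gluing theorem are scale invariant. -/
theorem glueOn_sc {M H : Type u} [MetricSpace M] [NormedAddCommGroup H] [InnerProductSpace ℝ H]
    {n : ℕ} (r : {r : ℝ // 0 < r}) {Ψ : Sc r M → H} {P : ℕ → Sc r M → H →L[ℝ] H}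
    {D : ℕ → Sc r M → ℝ} {q : M} {R C c η : ℝ}
    (h : GluM923.GlueOn n Ψ P D (ball (toSc r q) (R / 2)) R C c η) :
    GluM923.GlueOn n (fun x : M => r.1 • Ψ (toSc r x)) (fun k x => P k (toSc r x))
      (fun k x => D k (toSc r x)) (ball q (r.1 * R / 2)) (r.1 * R) C c η := by
  have hr := r.2
  have hmem : ∀ x ∈ ball q (r.1 * R / 2), toSc r x ∈ ball (toSc r q) (R / 2) := by
    intro x hx
    rw [← ball_sc r q (R / 2)]
    rw [mul_div_assoc] at hx
    exact hx
  have hd : ∀ x y : M, dist x y = r.1 * dist (toSc r x) (toSc r y) := by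
    intro x y
    rw [dist_toSc, ← mul_assoc, mul_inv_cancel₀ hr.ne', one_mul]
  have hn : ∀ v : H, ‖r.1 • v‖ = r.1 * ‖v‖ := by
    intro v
    rw [norm_smul, Real.norm_eq_abs, abs_of_pos hr]
  have hR : ∀ k : ℕ, r.1 * R / 2 ^ k = r.1 * (R / 2 ^ k) := fun k => by ring
  refine ⟨?_, ?_, ?_, ?_, ?_, ?_, ?_, ?_, ?_⟩
  · intro x hx y hy
    rw [← smul_sub, hn, hd]
    exact mul_le_mul_of_nonneg_left (h.Ψ_le _ (hmem x hx) _ (hmem y hy)) hr.le
  · intro x hx y hy
    rw [← smul_sub, hn, hd]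
    have h1 := h.near _ (hmem x hx) _ (hmem y hy)
    have h2 : c * (r.1 * ‖Ψ (toSc r x) - Ψ (toSc r y)‖) - r.1 * dist (toSc r x) (toSc r y) =
        r.1 * (c * ‖Ψ (toSc r x) - Ψ (toSc r y)‖ - dist (toSc r x) (toSc r y)) := by ring
    rw [h2, abs_mul, abs_of_pos hr]
    calc r.1 * |c * ‖Ψ (toSc r x) - Ψ (toSc r y)‖ - dist (toSc r x) (toSc r y)|
        ≤ r.1 * (η * dist (toSc r x) (toSc r y)) := mul_le_mul_of_nonneg_left h1 hr.le
      _ = _ := by ring
  · exact fun k hk x hx => h.D_nonneg k hk _ (hmem x hx)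
  · exact fun x hx m => h.D_sum _ (hmem x hx) m
  · exact fun k hk x hx => h.proj k hk _ (hmem x hx)
  · exact fun x hx => h.rank _ (hmem x hx)
  · intro k hk x hx y hy hxy
    rw [hR, hd] at hxy
    have hxy' : dist (toSc r x) (toSc r y) ≤ 8 * (R / 2 ^ k) := by
      refine le_of_mul_le_mul_left ?_ hr
      linarith
    have h1 := h.A1 k hk _ (hmem x hx) _ (hmem y hy) hxy'
    rw [← smul_sub, map_smul, hn, hR]
    calc r.1 * ‖(1 - P k (toSc r x)) (Ψ (toSc r y) - Ψ (toSc r x))‖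
        ≤ r.1 * (C * (Real.sqrt (D k (toSc r x)) + Real.sqrt (D k (toSc r y))) * (R / 2 ^ k)) :=
          mul_le_mul_of_nonneg_left h1 hr.le
      _ = _ := by ring
  · intro k hk x hx y hy hxy
    rw [hR, hd] at hxy
    refine h.A2 k hk _ (hmem x hx) _ (hmem y hy) ?_
    refine le_of_mul_le_mul_left ?_ hr
    linarith
  · exact fun k hk x hx => h.A3 k hk _ (hmem x hx)

/-- **Rescaling**: pinching at all scales `≤ A` in the hypothesis of `GlueData` costs nothing. -/
theorem glueData_of_T {n : ℕ} {A : ℝ} (hA : 1 ≤ A) (h : GluM923.GlueDataT.{u} A n) :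
    GluM923.GlueData.{u} n := by
  have hA0 : 0 < A := by linarith
  obtain ⟨C, hC, c, hc, h⟩ := h
  refine ⟨C, hC, c, hc, fun η hη => ?_⟩
  obtain ⟨R, hR, hR1, R₀, hR₀, δ, hδ, h⟩ := h η hη
  set r : {r : ℝ // 0 < r} := ⟨A⁻¹, by positivity⟩ with hr
  have hr1 : r.1 ≤ 1 := inv_le_one_of_one_le₀ hA
  have hr0 : 0 < r.1 := r.2
  refine ⟨r.1 * R, by positivity, mul_le_one₀ hr1 hR.le hR1, R₀, hR₀, δ, hδ, ?_⟩
  intro M _ _ _ _ _ _ _ _ _ _ q hRic hpin
  have hRic' : HasRicciLowerBound n (Sc r M) (-δ) := by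
    have h1 := ricciLB_sc r hRic
    refine ricci_mono ?_ h1
    have : r.1 ^ 2 ≤ 1 := pow_le_one₀ hr0.le hr1
    nlinarith
  have hpin' := pinch_sc (n := n) (q := q) (R₀ := R₀) (δ := δ) (s₁ := 1) (A := A) r
    (le_of_eq (inv_mul_cancel₀ hA0.ne')) (fun x hx s hs hs1 =>
      hpin x (ball_subset_ball (by nlinarith) hx) s hs hs1)
  obtain ⟨H, i1, i2, i3, Ψ, P, D, hG⟩ := h (Sc r M) (toSc r q) hRic' hpin'
  exact ⟨H, i1, i2, i3, _, _, _, glueOn_sc r hG⟩

/-- The joint theorem: blocks (1), (2) under pinching at all scales `≤ A` give `EFF2`. -/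
theorem eff2_of_glueDataT {n : ℕ} {A : ℝ} (hA : 1 ≤ A) (hBG : BGr.{u} n)
    (h : GluM923.GlueDataT.{u} A n) : EFF2.{u} n :=
  GluM923.eff2_of_glueData hBG (glueData_of_T hA h)

end Crest.Agent.R247.Asm951
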