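import Crest.Agent.R247.Bgr_546
import Crest.Agent.R247.Mcp8_688

/-!
# R247: `RAD n` from the local contraction estimate

`LOC n` : on every complete Riemannian `n`-manifold with `Ric ≥ -κ` the local contraction estimates
`Mcp688.LocAll n κ M` hold (leaf of 816). `rad_of_loc : (1 ≤ n → LOC n) → RAD n` (dimension `0`
included) and `bgr_of_loc`.
-/

set_option autoImplicit false
noncomputable section
open Set Filter Topology MeasureTheory Metric
open scoped ContDiff Manifold ENNReal
open Bundle Crest.GeometryTopology.CoordMetric Crest.GeometryTopology.ChartCurvature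
  Crest.GeometryTopology.PointedLimit

namespace Crest.Agent.R247.Bgr546

open Crest.Agent.R247.Mcp688

universe u

/-- The local contraction estimates on every complete manifold with `Ric ≥ -κ`. -/
def LOC (n : ℕ) : Prop := ∀ κ : ℝ, 0 ≤ κ →
  ∀ (M : Type u) [MetricSpace M] [CompleteSpace M] [ConnectedSpace M]
    [ChartedSpace (EuclideanSpace ℝ (Fin n)) M]
    [IsManifold 𝓘(ℝ, EuclideanSpace ℝ (Fin n)) ∞ M]
    [RiemannianBundle (fun x : M => TangentSpace 𝓘(ℝ, EuclideanSpace ℝ (Fin n)) x)]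
    [IsContMDiffRiemannianBundle 𝓘(ℝ, EuclideanSpace ℝ (Fin n)) ∞ (EuclideanSpace ℝ (Fin n))
      (fun x : M => TangentSpace 𝓘(ℝ, EuclideanSpace ℝ (Fin n)) x)]
    [IsRiemannianManifold 𝓘(ℝ, EuclideanSpace ℝ (Fin n)) M]
    [MeasurableSpace M] [BorelSpace M],
    HasRicciLowerBound n M (-κ) → LocAll n κ M

theorem exM_of_riemannian (n : ℕ) (M : Type*) [MetricSpace M] [CompleteSpace M]
    [ChartedSpace (EuclideanSpace ℝ (Fin n)) M]
    [RiemannianBundle (fun x : M => TangentSpace 𝓘(ℝ, EuclideanSpace ℝ (Fin n)) x)]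
    [IsRiemannianManifold 𝓘(ℝ, EuclideanSpace ℝ (Fin n)) M] : Sm879.ExM M := by
  intro a b t ht
  exact HR216.exactMid_of_riemannian n M a b t ht.1 ht.2

theorem rad_of_loc {n : ℕ} (h : 1 ≤ n → LOC.{u} n) : RAD.{u} n := by
  intro κ hκ M _ _ _ _ _ _ _ _ _ _ hric
  rcases Nat.eq_zero_or_pos n with hn | hn
  · subst hn
    have := subsingleton_of_zero M
    exact ⟨radZero κ M _⟩
  · have := HR216.properSpace_of_riemannian n M
    exact ⟨radM hn (exM_of_riemannian n M) hκ (h hn κ hκ M hric)⟩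

theorem bgr_of_loc {n : ℕ} (h : 1 ≤ n → LOC.{u} n) : Asm951.BGr.{u} n :=
  bgr_of_rad (rad_of_loc h)

theorem uniq_all {n : ℕ} : UNIQ.{u} n := by
  intro M _ _ _ _ _ _ _ _ _ _ x
  have := HR216.properSpace_of_riemannian n M
  exact ae_uniq n (exM_of_riemannian n M) x

end Crest.Agent.R247.Bgr546
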