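import Crest.Agent.R247.Lc3_582

/-!
Row 247, leaf (c-prime), file 4 (helper582): pointwise Laplacian comparison on the manifold and the
exact integral formula along minimisers.
-/

set_option autoImplicit false
set_option maxSynthPendingDepth 3
set_option linter.unusedSectionVars false

open Bundle Set Filter Topology MeasureTheory
open scoped Manifold ContDiff NNReal
open Crest.GeometryTopology.CoordMetric Crest.GeometryTopology.ChartCurvature
  Crest.GeometryTopology.PointedLimit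
open Crest.GeometryTopology.MTW
open Crest.Agent.R226.CutSmooth77 (SC)
open Crest.Agent.R202.Tens Crest.Agent.R247.Bo84
open Crest.Agent.R247.Sm879 (ExM fz exists_grad_chart gam_fz contDiffAt_fz sc_of_btw
  nonempty_localNear LN_sc Om isOpen_Om)

noncomputable section

namespace Crest.Agent.R247.Lc582

variable {n : ℕ} {M : Type*} [MetricSpace M] [ChartedSpace (EuclideanSpace ℝ (Fin n)) M]
  [IsManifold (𝓡 n) ∞ M]
  [RiemannianBundle (fun p : M => TangentSpace (𝓡 n) p)]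
  [IsContMDiffRiemannianBundle (𝓡 n) ∞ (EuclideanSpace ℝ (Fin n)) (fun p : M => TangentSpace (𝓡 n) p)]
  [IsRiemannianManifold (𝓡 n) M]

local notation "𝔼" => EuclideanSpace ℝ (Fin n)

theorem contMDiffAt_cost {z y : M} (h : SC n z y) :
    ContMDiffAt (𝓡 n) 𝓘(ℝ) ∞ (halfDistSq z) y := by
  have h1 : ContMDiffAt (𝓡 n) ((𝓡 n).prod (𝓡 n)) ∞ (fun q : M => (z, q)) y :=
    contMDiffAt_const.prodMk contMDiffAt_id
  exact ContMDiffAt.comp y (g := fun q : M × M => halfDistSq q.1 q.2) h h1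

/-- `|Hess f - g|² + Ric(∇f, ∇f)` on the manifold. -/
def mDev (n : ℕ) {M : Type*} [TopologicalSpace M] [ChartedSpace (EuclideanSpace ℝ (Fin n)) M]
    [IsManifold (𝓡 n) ∞ M]
    [RiemannianBundle (fun p : M => TangentSpace (𝓡 n) p)]
    [IsContMDiffRiemannianBundle (𝓡 n) ∞ (EuclideanSpace ℝ (Fin n)) (fun p : M => TangentSpace (𝓡 n) p)]
    (f : M → ℝ) (p : M) : ℝ :=
  (mHessSq n f p - 2 * mLap n f p + n) + mRic n p (mgrad n f p) (mgrad n f p)

theorem mDev_eq (f : M → ℝ) (p : M) : mDev n f p =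
    hessDev (chartMetric n M p) (inCh n p f) (chartCentre n M p) +
      ricQ (chartMetric n M p) (inCh n p f) (chartCentre n M p) := by
  unfold mDev hessDev ricQ mRic
  rw [dCh_mgrad]
  rfl

/-- `|Hess f - g|² ≥ 0` and `Ric ≥ K`. -/
theorem mDev_ge {K : ℝ} (hK : HasRicciLowerBound n M K) {f : M → ℝ} {p : M}
    (hf : ContMDiffAt (𝓡 n) 𝓘(ℝ) ∞ f p) : K * mGam n f f p ≤ mDev n f p := by
  rw [mDev_eq]
  have hg := isRiemannianOn_chartMetric (n := n) p
  have hc : chartCentre n M p ∈ (chartAt 𝔼 p).target := mem_chart_target 𝔼 p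
  have hf2 : ContDiffAt ℝ 2 (inCh n p f) (chartCentre n M p) :=
    contDiffAt_centre (by norm_cast) (hf.of_le (by norm_cast))
  have h1 := hessDev_nonneg hg hc hf2
  have h2 := ricQ_lower hg hc (inCh n p f) (K := K) (hK p)
  have h3 : mGam n f f p = gam (chartMetric n M p) (inCh n p f) (inCh n p f) (chartCentre n M p) :=
    rfl
  rw [h3]
  linarith

theorem inCh_eq_fz (z x₀ : M) : inCh n x₀ (halfDistSq z) = fz z x₀ := rfl

section curve

variable {z : M} {γ : ℝ → M} {D : ℝ}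

/-- the eikonal equation near an interior point. -/
theorem eikonal_near [ProperSpace M] (hm : ExM M) {q x₀ : M}
    (hq : q ∈ (chartAt 𝔼 x₀).source) (h : (z, q) ∈ Om M) :
    ∀ᶠ b in 𝓝 (chartAt 𝔼 x₀ q), gam (chartMetric n M x₀) (fz z x₀) (fz z x₀) b = 2 * fz z x₀ b := by
  set φ := chartAt 𝔼 x₀ with hφ
  have ht : φ q ∈ φ.target := φ.map_source hq
  have h1 : Tendsto (fun b => (z, φ.symm b)) (𝓝 (φ q)) (𝓝 (z, φ.symm (φ q))) :=
    (continuousAt_const.prodMk (φ.continuousAt_symm ht))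
  have h2 : Om M ∈ 𝓝 (z, φ.symm (φ q)) := by
    rw [φ.left_inv hq]; exact (isOpen_Om n hm).mem_nhds h
  filter_upwards [h1 h2, φ.open_target.mem_nhds ht] with b hb1 hb2
  obtain ⟨y', hy1, hy2⟩ := hb1
  exact gam_fz hm hb2 (sc_of_btw hm hy2 hy1)

/-- derivative of `s (n - Δf)` along a minimiser. -/
theorem hasDerivAt_defect [ProperSpace M] (hm : ExM M)
    (hγ : ∀ s ∈ Icc 0 D, ∀ t ∈ Icc 0 D, dist (γ s) (γ t) = |s - t|) (h0 : γ 0 = z)
    {s : ℝ} (hs : s ∈ Ioo 0 D) :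
    HasDerivAt (fun t => t * (n - mLap n (halfDistSq z) (γ t))) (mDev n (halfDistSq z) (γ s)) s := by
  have hD : (0:ℝ) ≤ D := (hs.1.trans hs.2).le
  have hDm : D ∈ Icc 0 D := ⟨hD, le_rfl⟩
  have h0m : (0:ℝ) ∈ Icc 0 D := ⟨le_rfl, hD⟩
  have hdz : ∀ t ∈ Icc 0 D, dist z (γ t) = t := by
    intro t ht
    rw [← h0, hγ 0 h0m t ht, zero_sub, abs_neg, abs_of_nonneg ht.1]
  have hmem : ∀ t ∈ Ioo 0 D, (z, γ t) ∈ Om M := by
    intro t ht
    have ht' : t ∈ Icc 0 D := ⟨ht.1.le, ht.2.le⟩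
    have e1 : dist (γ t) (γ D) = D - t := by
      rw [hγ t ht' D hDm, abs_sub_comm, abs_of_nonneg (by linarith [ht.2])]
    refine ⟨γ D, ?_, ?_⟩
    · intro h
      have h' : γ t = γ D := h
      rw [h', dist_self] at e1
      linarith [ht.2]
    · change dist z (γ t) + dist (γ t) (γ D) = dist z (γ D)
      rw [e1, hdz t ht', hdz D hDm]; ring
  have hsc : ∀ t ∈ Ioo 0 D, SC n z (γ t) := by
    intro t ht
    obtain ⟨y', hy1, hy2⟩ := hmem t ht
    exact sc_of_btw hm hy2 hy1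
  have hIoo : ∀ᶠ t in 𝓝 s, t ∈ Ioo 0 D := Ioo_mem_nhds hs.1 hs.2
  set x₀ := γ s with hx₀
  have hsrc : γ s ∈ (chartAt 𝔼 x₀).source := mem_chart_source 𝔼 _
  have hvel := velocity (n := n) (x₀ := x₀) hm hs.1 hsrc (hsc s hs)
    (by filter_upwards [hIoo] with t ht using hdz t ⟨ht.1.le, ht.2.le⟩)
    (by
      filter_upwards [hIoo] with t ht
      exact (hγ t ⟨ht.1.le, ht.2.le⟩ s ⟨hs.1.le, hs.2.le⟩).le)
  have ha : chartAt 𝔼 x₀ (γ s) ∈ (chartAt 𝔼 x₀).target := (chartAt 𝔼 x₀).map_source hsrc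
  have hsa : (chartAt 𝔼 x₀).symm (chartAt 𝔼 x₀ (γ s)) = γ s := (chartAt 𝔼 x₀).left_inv hsrc
  have h1 := hasDerivAt_along (isRiemannianOn_chartMetric (n := n) x₀) (f := fz z x₀)
    (c := fun t => chartAt 𝔼 x₀ (γ t)) hs.1.ne' ha
    (contDiffAt_fz ha (by rw [hsa]; exact hsc s hs))
    (eikonal_near hm hsrc (hmem s hs)) hvel
  rw [mDev_eq]
  refine h1.congr_of_eventuallyEq ?_
  have hcγ : Tendsto γ (𝓝 s) (𝓝 (γ s)) := by
    rw [tendsto_iff_dist_tendsto_zero]
    have h1 : Tendsto (fun t : ℝ => |t - s|) (𝓝 s) (𝓝 0) := by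
      have : Tendsto (fun t : ℝ => |t - s|) (𝓝 s) (𝓝 |s - s|) :=
        ((continuous_id.sub continuous_const).abs).tendsto s
      simpa using this
    refine squeeze_zero' (Eventually.of_forall fun t => dist_nonneg) ?_ h1
    filter_upwards [hIoo] with t ht
    exact (hγ t ⟨ht.1.le, ht.2.le⟩ s ⟨hs.1.le, hs.2.le⟩).le
  filter_upwards [hIoo, hcγ ((chartAt 𝔼 x₀).open_source.mem_nhds hsrc)] with t ht1 ht2
  have h3 : ContMDiffAt (𝓡 n) 𝓘(ℝ) 2 (halfDistSq z) (γ t) :=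
    (contMDiffAt_cost (hsc t ht1)).of_le (by norm_cast)
  rw [mLap_chart' ht2 h3]
  rfl

theorem continuousAt_mLap {y : M} (h : SC n z y) :
    ContinuousAt (mLap n (halfDistSq z)) y :=
  (contMDiffAt_mLap (m := 0) (contMDiffAt_cost h) (by norm_cast) le_rfl).continuousAt

variable [ProperSpace M]

theorem aux_all (hm : ExM M) {κ : ℝ} (hK : HasRicciLowerBound n M (-κ))
    (hD : 0 < D) (hγ : ∀ s ∈ Icc 0 D, ∀ t ∈ Icc 0 D, dist (γ s) (γ t) = |s - t|) (h0 : γ 0 = z)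
    (hend : SC n z (γ D)) :
    ∃ δ B : ℝ, 0 < δ ∧ (∀ s ∈ Ioo 0 δ, |(n:ℝ) - mLap n (halfDistSq z) (γ s)| ≤ B) ∧
    ContinuousOn (fun s => (n:ℝ) - mLap n (halfDistSq z) (γ s)) (Ioc 0 D) ∧
    (∀ s ∈ Ioo 0 D, HasDerivAt (fun t => t * (n - mLap n (halfDistSq z) (γ t)))
      (mDev n (halfDistSq z) (γ s)) s) ∧
    (∀ s ∈ Ioo 0 D, -κ * s ^ 2 ≤ mDev n (halfDistSq z) (γ s)) := by
  have hDm : D ∈ Icc 0 D := ⟨hD.le, le_rfl⟩
  have h0m : (0:ℝ) ∈ Icc 0 D := ⟨le_rfl, hD.le⟩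
  have hdz : ∀ t ∈ Icc 0 D, dist z (γ t) = t := by
    intro t ht
    rw [← h0, hγ 0 h0m t ht, zero_sub, abs_neg, abs_of_nonneg ht.1]
  have hsc : ∀ t ∈ Icc 0 D, SC n z (γ t) := by
    intro t ht
    rcases eq_or_lt_of_le ht.2 with h | h
    · rw [h]; exact hend
    · have e1 : dist (γ t) (γ D) = D - t := by
        rw [hγ t ht D hDm, abs_sub_comm, abs_of_nonneg (by linarith)]
      refine sc_of_btw (y' := γ D) hm ?_ ?_
      · rw [e1, hdz t ht, hdz D hDm]; ring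
      · intro h'
        rw [h', dist_self] at e1
        linarith
  have hγc : ContinuousOn γ (Icc 0 D) := by
    have : LipschitzOnWith 1 γ (Icc 0 D) := by
      refine LipschitzOnWith.of_dist_le_mul fun s hs t ht => ?_
      rw [hγ s hs t ht, Real.dist_eq]; simp
    exact this.continuousOn
  have hwc : ContinuousOn (fun s => (n:ℝ) - mLap n (halfDistSq z) (γ s)) (Icc 0 D) := by
    intro s hs
    refine continuousWithinAt_const.sub ?_
    exact (continuousAt_mLap (hsc s hs)).comp_continuousWithinAt (hγc s hs)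
  obtain ⟨B, hB⟩ := (isCompact_Icc.image_of_continuousOn hwc).isBounded.exists_norm_le
  refine ⟨D, B, hD, ?_, hwc.mono Ioc_subset_Icc_self, ?_, ?_⟩
  · intro s hs
    exact hB _ ⟨s, ⟨hs.1.le, hs.2.le⟩, rfl⟩
  · intro s hs
    exact hasDerivAt_defect hm hγ h0 hs
  · intro s hs
    have hs' : s ∈ Icc 0 D := ⟨hs.1.le, hs.2.le⟩
    have h1 := mDev_ge hK (contMDiffAt_cost (hsc s hs'))
    have h2 : mGam n (halfDistSq z) (halfDistSq z) (γ s) = s ^ 2 := by
      have hsrc := mem_chart_source 𝔼 (γ s)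
      rw [mGam_chart' hsrc, inCh_eq_fz, gam_fz hm ((chartAt 𝔼 (γ s)).map_source hsrc)
        (by rw [(chartAt 𝔼 (γ s)).left_inv hsrc]; exact hsc s hs'), fz,
        (chartAt 𝔼 (γ s)).left_inv hsrc, halfDistSq, hdz s hs']
      ring
    rw [h2] at h1
    exact h1

/-- **exact formula along a minimiser**. -/
theorem mLap_integral (hm : ExM M) {κ : ℝ}
    (hK : HasRicciLowerBound n M (-κ)) (hD : 0 < D)
    (hγ : ∀ s ∈ Icc 0 D, ∀ t ∈ Icc 0 D, dist (γ s) (γ t) = |s - t|) (h0 : γ 0 = z)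
    (hend : SC n z (γ D)) :
    IntervalIntegrable (fun s => mDev n (halfDistSq z) (γ s)) volume 0 D ∧
      ∫ s in (0 : ℝ)..D, mDev n (halfDistSq z) (γ s) =
        D * (n - mLap n (halfDistSq z) (γ D)) := by
  obtain ⟨δ, B, hδ, h1, h2, h3, h4⟩ := aux_all hm hK hD hγ h0 hend
  exact ode_integral hD hδ h1 h2 h3 h4

theorem mLap_le_curve (hm : ExM M) {κ : ℝ}
    (hK : HasRicciLowerBound n M (-κ)) (hD : 0 < D)
    (hγ : ∀ s ∈ Icc 0 D, ∀ t ∈ Icc 0 D, dist (γ s) (γ t) = |s - t|) (h0 : γ 0 = z)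
    (hend : SC n z (γ D)) : mLap n (halfDistSq z) (γ D) ≤ n + κ * D ^ 2 / 3 := by
  obtain ⟨δ, B, hδ, h1, h2, h3, h4⟩ := aux_all hm hK hD hγ h0 hend
  have := ode_lower hD hδ h1 h2 h3 h4
  linarith

end curve

/-- minimisers with unit speed. -/
theorem exists_unit [ProperSpace M] (hm : ExM M) (z y : M) :
    ∃ γ : ℝ → M, γ 0 = z ∧ γ (dist z y) = y ∧
      ∀ s ∈ Icc 0 (dist z y), ∀ t ∈ Icc 0 (dist z y), dist (γ s) (γ t) = |s - t| := by
  have hE : HR216.ExactMid M := fun a b t h0 h1 => hm a b t ⟨h0, h1⟩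
  obtain ⟨γ, h0, h1, h2⟩ := hE.exists_geodesic z y
  rcases eq_or_lt_of_le (dist_nonneg (x := z) (y := y)) with h | h
  · refine ⟨γ, h0, ?_, ?_⟩
    · rw [← h, h0]; exact dist_eq_zero.1 h.symm
    · intro s hs t ht
      rw [← h] at hs ht
      have e1 : s = 0 := le_antisymm hs.2 hs.1
      have e2 : t = 0 := le_antisymm ht.2 ht.1
      rw [e1, e2]; simp
  · set D := dist z y with hD
    refine ⟨fun t => γ (t / D), by simp [h0], ?_, ?_⟩
    · simp [h.ne', h1]
    · intro s hs t ht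
      rw [h2 (s / D) ⟨by have := hs.1; positivity, (div_le_one h).2 hs.2⟩ (t / D)
        ⟨by have := ht.1; positivity, (div_le_one h).2 ht.2⟩, ← sub_div, abs_div, abs_of_pos h]
      field_simp

/-- at the centre. -/
theorem mLap_le_self [ProperSpace M] (hm : ExM M) (z : M) : mLap n (halfDistSq z) z ≤ n := by
  obtain ⟨L⟩ := nonempty_localNear (n := n) z
  have hg := isRiemannianOn_chartMetric (n := n) z
  set φ := chartAt 𝔼 z with hφ
  have hsrc : z ∈ φ.source := mem_chart_source 𝔼 z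
  have ha : φ z ∈ φ.target := mem_chart_target 𝔼 z
  have hL : ∀ᶠ b in 𝓝 (φ z), b ∈ φ.target ∧ SC n z (φ.symm b) := by
    have h1 : Tendsto φ.symm (𝓝 (φ z)) (𝓝 z) := by
      have := φ.continuousAt_symm ha
      rw [ContinuousAt, φ.left_inv hsrc] at this
      exact this
    have h2 : Metric.ball z L.r ∈ 𝓝 z := Metric.ball_mem_nhds z L.r_pos
    filter_upwards [h1 h2, φ.open_target.mem_nhds ha] with b hb1 hb2
    refine ⟨hb2, LN_sc L L.mem_W ?_⟩
    rw [dist_comm]; exact hb1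
  have he : ∀ᶠ b in 𝓝 (φ z), gam (chartMetric n M z) (fz z z) (fz z z) b = 2 * fz z z b := by
    filter_upwards [hL] with b hb using gam_fz hm hb.1 hb.2
  have hf : ContDiffAt ℝ ∞ (fz (n := n) z z) (φ z) := contDiffAt_fz ha hL.self_of_nhds.2
  have hmain := gam_defect hg ha hf he
  have h0 : gam (chartMetric n M z) (fz z z) (fz z z) (φ z) = 0 := by
    rw [he.self_of_nhds, fz, ← hφ, φ.left_inv hsrc, halfDistSq, dist_self]; ring
  have hgr : grad (chartMetric n M z) (fz z z) (φ z) = 0 := by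
    by_contra hne
    have := bil_pos hg ha hne
    rw [← gam_eq_bil hg ha, h0] at this
    exact lt_irrefl _ this
  have h1 : gam (chartMetric n M z) (fz z z) (defect (chartMetric n M z) (fz z z)) (φ z) = 0 := by
    rw [gam_eq_fderiv_grad' hg ha, hgr, map_zero]
  have h2 : ricQ (chartMetric n M z) (fz z z) (φ z) = 0 := by
    unfold ricQ
    rw [hgr]
    simp
  rw [h1, h2] at hmain
  have h3 := hessDev_nonneg hg ha (hf.of_le (m := 2) (by norm_cast))
  have h4 : mLap n (halfDistSq z) z = laplaceBeltrami (chartMetric n M z) (fz z z) (φ z) := rfl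
  rw [h4]
  unfold defect at hmain
  linarith

/-- **pointwise Laplacian comparison**. -/
theorem mLap_le [ProperSpace M] (hm : ExM M) {κ : ℝ}
    (hK : HasRicciLowerBound n M (-κ)) {z y : M} (h : SC n z y) :
    mLap n (halfDistSq z) y ≤ n + κ * dist z y ^ 2 / 3 := by
  rcases eq_or_ne z y with rfl | hne
  · rw [dist_self]
    have := mLap_le_self (n := n) hm z
    linarith
  · obtain ⟨γ, h0, h1, h2⟩ := exists_unit hm z y
    have := mLap_le_curve hm hK (dist_pos.2 hne) h2 h0 (by rw [h1]; exact h)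
    rwa [h1] at this

/-- **pointwise Laplacian comparison in a chart** (816's literal form). -/
theorem lap_chart_le [ProperSpace M] (hm : ExM M) {κ : ℝ}
    (hK : HasRicciLowerBound n M (-κ)) {z x₀ : M} {a : 𝔼} (ha : a ∈ (chartAt 𝔼 x₀).target)
    (h : SC n z ((chartAt 𝔼 x₀).symm a)) :
    laplaceBeltrami (chartMetric n M x₀) (fun b => halfDistSq z ((chartAt 𝔼 x₀).symm b)) a ≤
      n + κ * dist z ((chartAt 𝔼 x₀).symm a) ^ 2 / 3 := by
  have h1 := mLap_le hm hK h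
  rw [mLap_chart ha ((contMDiffAt_cost h).of_le (by norm_cast))] at h1
  exact h1

end Crest.Agent.R247.Lc582
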