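import Crest.Agent.R247.Mcs12_816

/-!
Row 247, block (6c)/(6d) (helper816), file 13: **the contraction property (MCP) of the Riemannian
volume** in set form, from the Laplacian comparison `LapC`.
-/

set_option autoImplicit false
set_option maxSynthPendingDepth 3
set_option linter.unusedSectionVars false

open Bundle Set Filter Topology MeasureTheory Metric
open scoped Manifold ContDiff ENNReal NNReal
open Crest.GeometryTopology.CoordMetric Crest.GeometryTopology.ChartCurvature
open Crest.GeometryTopology.PointedLimit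
open Crest.GeometryTopology.MTW Crest.Agent.R244 Crest.Agent.R226
open Crest.Agent.R226.ChartMet842
open Crest.Agent.R226.CutSmooth77 (SC)
open Crest.Agent.R202.Tens Crest.Agent.R247.Ms322 Crest.Agent.R247.Sm879

noncomputable section

namespace Crest.Agent.R247.Mcs816

theorem muHE_singleton {X : Type*} [MetricSpace X] [MeasurableSpace X] [BorelSpace X] {n : ℕ}
    (hn : 1 ≤ n) (x : X) : (μHE[n] : Measure X) {x} = 0 := by
  have : NullSingletonClass (μH[(n : ℝ)] : Measure X) :=
    Measure.nullSingletonClass_hausdorff X (by exact_mod_cast hn)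
  rw [Measure.euclideanHausdorffMeasure_def, Measure.smul_apply, measure_singleton, smul_zero]

variable {n : ℕ} {M : Type*} [MetricSpace M] [ChartedSpace (EuclideanSpace ℝ (Fin n)) M]
  [IsManifold (𝓡 n) ∞ M]
  [RiemannianBundle (fun p : M => TangentSpace (𝓡 n) p)]
  [IsContMDiffRiemannianBundle (𝓡 n) ∞ (EuclideanSpace ℝ (Fin n)) (fun p : M => TangentSpace (𝓡 n) p)]
  [IsRiemannianManifold (𝓡 n) M] [MeasurableSpace M] [BorelSpace M]

local notation "𝔼" => EuclideanSpace ℝ (Fin n)

variable (n M) in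
theorem locFin : IsLocallyFiniteMeasure (μHE[n] : Measure M) := by
  refine ⟨fun x => ?_⟩
  obtain ⟨r, hr, hrt⟩ := nhds_basis_closedBall.mem_iff.1
    ((chartAt 𝔼 x).open_target.mem_nhds (mem_chart_target 𝔼 x))
  have hbt : ball (chartAt 𝔼 x x) r ⊆ (chartAt 𝔼 x).target := ball_subset_closedBall.trans hrt
  refine ⟨(chartAt 𝔼 x).symm '' ball (chartAt 𝔼 x x) r, ?_, ?_⟩
  · have ho : IsOpen ((chartAt 𝔼 x).symm '' ball (chartAt 𝔼 x x) r) :=
      (chartAt 𝔼 x).symm.isOpen_image_of_subset_source isOpen_ball hbt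
    refine ho.mem_nhds ⟨chartAt 𝔼 x x, mem_ball_self hr, ?_⟩
    exact (chartAt 𝔼 x).left_inv (mem_chart_source _ x)
  · rw [muHE_symm_image x hbt measurableSet_ball]
    obtain ⟨m, hm⟩ := (isCompact_closedBall (chartAt 𝔼 x x) r).exists_bound_of_continuousOn
      ((continuousOn_dens x).mono hrt)
    calc ∫⁻ b in ball (chartAt 𝔼 x x) r, ENNReal.ofReal (dens x b)
        ≤ ∫⁻ b in ball (chartAt 𝔼 x x) r, ENNReal.ofReal m := by
          refine setLIntegral_mono' measurableSet_ball fun b hb => ?_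
          exact ENNReal.ofReal_le_ofReal ((le_abs_self _).trans (hm b (ball_subset_closedBall hb)))
      _ = ENNReal.ofReal m * volume (ball (chartAt 𝔼 x x) r) := by
          rw [setLIntegral_const]
      _ < ⊤ := ENNReal.mul_lt_top ENNReal.ofReal_lt_top measure_ball_lt_top

variable [ProperSpace M]

/-- **MCP in set form** (exponential parametrisation). -/
theorem mcp_exp (hn : 1 ≤ n) (hm : ExM M) {κ : ℝ} (hκ : 0 ≤ κ) (hL : LapC n M κ) (x : M)
    {τ R : ℝ} (hτ : 0 ≤ τ) (hR : 0 ≤ R) {A : Set M} (hA : IsCompact A) (hAR : A ⊆ closedBall x R) :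
    ENNReal.ofReal (Real.exp (-(n * τ + κ * R ^ 2 * (1 - Real.exp (-(2 * τ))) / 2))) *
      (μHE[n] : Measure M) A ≤ (μHE[n] : Measure M) (Ipt x (Real.exp (-τ)) A) := by
  have := locFin n M
  exact contraction (nonBr n hm x) (muHE_singleton hn x) hκ
    (fun y hy ε hε => exists_locC hm hκ hL hy hε) hR hA hAR hτ

/-- **MCP in set form**. -/
theorem mcp_set (hn : 1 ≤ n) (hm : ExM M) {κ : ℝ} (hκ : 0 ≤ κ) (hL : LapC n M κ) (x : M)
    {t : ℝ} (ht : t ∈ Ioc (0 : ℝ) 1) (R : ℝ) (A : Set M) (hA : IsCompact A)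
    (hAR : A ⊆ closedBall x R) :
    ENNReal.ofReal (t ^ n * Real.exp (-(κ * R ^ 2 * (1 - t ^ 2) / 2))) *
      (μHE[n] : Measure M) A ≤ (μHE[n] : Measure M) (Ipt x t A) := by
  rcases lt_or_ge R 0 with hR | hR
  · have hAe : A = ∅ := by
      rw [closedBall_eq_empty.2 hR] at hAR
      exact subset_empty_iff.1 hAR
    rw [hAe, measure_empty, mul_zero]
    exact zero_le
  have hlog : 0 ≤ -Real.log t := by
    have := Real.log_nonpos ht.1.le ht.2
    linarith
  have h1 := mcp_exp hn hm hκ hL x hlog hR hA hAR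
  have e1 : Real.exp (-(-Real.log t)) = t := by rw [neg_neg, Real.exp_log ht.1]
  have e2 : Real.exp (-(2 * (-Real.log t))) = t ^ 2 := by
    have : -(2 * (-Real.log t)) = Real.log t + Real.log t := by ring
    rw [this, Real.exp_add, Real.exp_log ht.1]; ring
  have e3 : Real.exp (-(n * (-Real.log t) + κ * R ^ 2 * (1 - t ^ 2) / 2)) =
      t ^ n * Real.exp (-(κ * R ^ 2 * (1 - t ^ 2) / 2)) := by
    have : -(n * (-Real.log t) + κ * R ^ 2 * (1 - t ^ 2) / 2) =
        n * Real.log t + -(κ * R ^ 2 * (1 - t ^ 2) / 2) := by ring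
    rw [this, Real.exp_add, Real.exp_nat_mul, Real.exp_log ht.1]
  rw [e2, e1, e3] at h1
  exact h1

end Crest.Agent.R247.Mcs816
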