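import Crest.Agent.R247.Bgr2_546
import Crest.Agent.R247.Mcs13_816
import Crest.Agent.R247.Lc4_582

/-!
# R247: unconditional `RAD n` and Bishop–Gromov

`rad_all n : RAD n`, `bgr_all n : Asm951.BGr n`, from 816's set form of the contraction property,
582's Laplacian comparison and 688's constructor.
-/

set_option autoImplicit false
noncomputable section
open Set Filter Topology MeasureTheory Metric
open scoped ContDiff Manifold ENNReal
open Bundle Crest.GeometryTopology.CoordMetric Crest.GeometryTopology.ChartCurvature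
  Crest.GeometryTopology.PointedLimit

namespace Crest.Agent.R247.Bgr546

open Crest.Agent.R247.Mcp688

universe u

/-- Laplacian comparison in 816's form. -/
theorem lapC_of_ricci {n : ℕ} {M : Type*} [MetricSpace M] [CompleteSpace M]
    [ChartedSpace (EuclideanSpace ℝ (Fin n)) M]
    [IsManifold 𝓘(ℝ, EuclideanSpace ℝ (Fin n)) ∞ M]
    [RiemannianBundle (fun x : M => TangentSpace 𝓘(ℝ, EuclideanSpace ℝ (Fin n)) x)]
    [IsContMDiffRiemannianBundle 𝓘(ℝ, EuclideanSpace ℝ (Fin n)) ∞ (EuclideanSpace ℝ (Fin n))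
      (fun x : M => TangentSpace 𝓘(ℝ, EuclideanSpace ℝ (Fin n)) x)]
    [IsRiemannianManifold 𝓘(ℝ, EuclideanSpace ℝ (Fin n)) M] {κ : ℝ} (hκ : 0 ≤ κ)
    (hric : HasRicciLowerBound n M (-κ)) : Mcs816.LapC n M κ := by
  have := HR216.properSpace_of_riemannian n M
  intro z y0 a ha hsc
  refine (Lc582.lap_chart_le (exM_of_riemannian n M) hric ha hsc).trans ?_
  have : 0 ≤ κ * dist z ((chartAt (EuclideanSpace ℝ (Fin n)) y0).symm a) ^ 2 := by positivity
  linarith

theorem setf_all {n : ℕ} (hn : 1 ≤ n) : SETF.{u} n := by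
  intro κ hκ M _ _ _ _ _ _ _ _ _ _ hric x t ht R A hA hAR
  have := HR216.properSpace_of_riemannian n M
  have key := Mcs816.mcp_set hn (exM_of_riemannian n M) hκ (lapC_of_ricci hκ hric) x ht R A hA hAR
  rwa [ipt_eq_mid x t A ht.2] at key

/-- **Every complete Riemannian manifold with `Ric ≥ -κ` carries the radial contraction
structure.** -/
theorem rad_all (n : ℕ) : RAD.{u} n := rad_of_parts (fun _ => uniq_all) setf_all

/-- **Bishop–Gromov**. -/
theorem bgr_all (n : ℕ) : Asm951.BGr.{u} n := bgr_of_rad (rad_all n)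

end Crest.Agent.R247.Bgr546
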