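import Crest.Agent.R247.Ms2_322

/-!
R247, block (0) (helper322), part 3: EXACT CHART FORMULA.
`muHE[n] (φ⁻¹ B) = ∫_B √(det g)`, `φ = chartAt x`, `g = chartMetric n M x`.
-/

set_option autoImplicit false
set_option maxSynthPendingDepth 3
set_option linter.unusedSectionVars false
set_option linter.unusedVariables false

open Bundle Bornology Set MeasureTheory Manifold Filter Metric
open scoped ENNReal ContDiff Topology NNReal
open Crest.GeometryTopology.CoordMetric Crest.GeometryTopology.ChartCurvature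
open Crest.GeometryTopology.Geodesic
open Crest.Agent.R226.ChartMet842

namespace Crest.Agent.R247.Ms322

noncomputable section

/-- Lipschitz maps and the Euclidean Hausdorff measure. -/
theorem muHE_image_le {X Y : Type*} [MetricSpace X] [MeasurableSpace X] [BorelSpace X]
    [MetricSpace Y] [MeasurableSpace Y] [BorelSpace Y] {f : X → Y} {s : Set X} {K : ℝ≥0} {n : ℕ}
    (h : LipschitzOnWith K f s) : μHE[n] (f '' s) ≤ (K : ℝ≥0∞) ^ n * μHE[n] s := by
  rw [Measure.euclideanHausdorffMeasure_def, Measure.smul_apply,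
    Measure.euclideanHausdorffMeasure_def, Measure.smul_apply]
  have h1 := h.hausdorffMeasure_image_le (d := (n : ℝ)) (by positivity)
  rw [ENNReal.smul_def, ENNReal.smul_def, smul_eq_mul, smul_eq_mul]
  calc _ ≤ _ * ((K : ℝ≥0∞) ^ (n : ℝ) * μH[(n : ℝ)] s) := by gcongr
    _ = _ := by rw [ENNReal.rpow_natCast]; ring

variable {n : ℕ} {M : Type*} [MetricSpace M] [ChartedSpace (EuclideanSpace ℝ (Fin n)) M]
  [IsManifold (𝓡 n) ∞ M]
  [RiemannianBundle (fun p : M => TangentSpace (𝓡 n) p)]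
  [IsContMDiffRiemannianBundle (𝓡 n) ∞ (EuclideanSpace ℝ (Fin n)) (fun p : M => TangentSpace (𝓡 n) p)]

local notation "𝔼" => EuclideanSpace ℝ (Fin n)

/-- the volume density in the chart at `x`. -/
def dens (x : M) (a : 𝔼) : ℝ := √(chartMetric n M x a).det

theorem det_pos (x : M) {a : 𝔼} (ha : a ∈ (chartAt 𝔼 x).target) :
    0 < (chartMetric n M x a).det :=
  ((isRiemannianOn_chartMetric x).posDef a ha).det_pos

theorem dens_pos (x : M) {a : 𝔼} (ha : a ∈ (chartAt 𝔼 x).target) : 0 < dens (n := n) x a :=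
  Real.sqrt_pos.2 (det_pos x ha)

theorem dens_nonneg (x : M) (a : 𝔼) : 0 ≤ dens (n := n) x a := Real.sqrt_nonneg _

theorem contDiffOn_det (x : M) :
    ContDiffOn ℝ ∞ (fun a : 𝔼 => (chartMetric n M x a).det) (chartAt 𝔼 x).target := by
  simp only [Matrix.det_apply]
  refine ContDiffOn.sum fun σ _ => ?_
  refine ContDiffOn.const_smul _ ?_
  refine contDiffOn_prod fun i _ => ?_
  exact (isRiemannianOn_chartMetric (n := n) x).contDiffOn _ _

theorem contDiffOn_dens (x : M) :
    ContDiffOn ℝ ∞ (dens (n := n) x) (chartAt 𝔼 x).target :=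
  (contDiffOn_det x).sqrt (fun a ha => (det_pos x ha).ne')

theorem continuousOn_dens (x : M) : ContinuousOn (dens (n := n) x) (chartAt 𝔼 x).target :=
  (contDiffOn_dens x).continuousOn

variable [IsRiemannianManifold (𝓡 n) M] [MeasurableSpace M] [BorelSpace M]

theorem local_compare (x : M) {a : 𝔼} (ha : a ∈ (chartAt 𝔼 x).target) {K : ℝ≥0} (hK : 1 < K) :
    ∃ r : ℝ, 0 < r ∧ ball a r ⊆ (chartAt 𝔼 x).target ∧ ∀ B ⊆ ball a r, MeasurableSet B →
      μHE[n] ((chartAt 𝔼 x).symm '' B) ≤ K * ∫⁻ b in B, ENNReal.ofReal (dens x b) ∧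
      ∫⁻ b in B, ENNReal.ofReal (dens x b) ≤ K * μHE[n] ((chartAt 𝔼 x).symm '' B) := by
  obtain ⟨η, hη, hηK⟩ : ∃ η : ℝ≥0, 0 < η ∧ (1 + η) ^ (n + 1) ≤ K := by
    have hc : ContinuousAt (fun t : ℝ≥0 => (1 + t) ^ (n + 1)) 0 := by fun_prop
    have h1 : (fun t : ℝ≥0 => (1 + t) ^ (n + 1)) 0 < K := by simpa using hK
    have h2 := hc.eventually_lt continuousAt_const h1
    obtain ⟨ε, hε, h3⟩ := Metric.eventually_nhds_iff.1 h2
    refine ⟨Real.toNNReal (ε / 2), Real.toNNReal_pos.2 (half_pos hε), le_of_lt (h3 ?_)⟩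
    rw [NNReal.dist_eq, Real.coe_toNNReal _ (half_pos hε).le, NNReal.coe_zero, sub_zero,
      abs_of_pos (half_pos hε)]
    linarith
  obtain ⟨A, hA, hdet⟩ := exists_isometry x ha
  obtain ⟨r1, hr1, hb1, hL1, hL2⟩ := exists_bilip x ha hA hη
  have hd : dens (n := n) x a = |(A : 𝔼 →L[ℝ] 𝔼).det| := hdet.symm
  have hdp := dens_pos (n := n) x ha
  have hcd : ContinuousAt (dens (n := n) x) a :=
    (continuousOn_dens x).continuousAt ((chartAt 𝔼 x).open_target.mem_nhds ha)
  have hη' : (0 : ℝ) < η := hη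
  have hev : ∀ᶠ b in 𝓝 a, dens (n := n) x b ≤ (1 + η) * dens (n := n) x a ∧
      dens (n := n) x a ≤ (1 + η) * dens (n := n) x b := by
    have h1 : dens (n := n) x a < (1 + η) * dens (n := n) x a := by nlinarith
    have e1 := hcd.eventually_lt (continuousAt_const (y := (1 + (η : ℝ)) * dens (n := n) x a)) h1
    have e2 := (continuousAt_const (x := a) (y := dens (n := n) x a)).eventually_lt
      (hcd.const_mul (1 + (η : ℝ))) h1
    filter_upwards [e1, e2] with b hb1 hb2
    exact ⟨hb1.le, hb2.le⟩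
  obtain ⟨r2, hr2, hb2⟩ := Metric.mem_nhds_iff.1 hev
  refine ⟨min r1 r2, lt_min hr1 hr2, (ball_subset_ball (min_le_left _ _)).trans hb1, ?_⟩
  intro B hB hBm
  have hB1 : B ⊆ ball a r1 := hB.trans (ball_subset_ball (min_le_left _ _))
  have hB2 : B ⊆ ball a r2 := hB.trans (ball_subset_ball (min_le_right _ _))
  -- the Lebesgue measure of `A '' B`
  have hvol : μHE[n] (A '' B) = ENNReal.ofReal (dens x a) * volume B := by
    rw [EuclideanSpace.euclideanHausdorffMeasure_eq_volume, hd]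
    exact Measure.addHaar_image_continuousLinearMap _ (A : 𝔼 →L[ℝ] 𝔼) B
  -- upper bound
  have hup : μHE[n] ((chartAt 𝔼 x).symm '' B) ≤ ((1 + η : ℝ≥0) : ℝ≥0∞) ^ n * μHE[n] (A '' B) := by
    have h1 := muHE_image_le (n := n) (hL1.mono (image_mono hB1))
    rw [image_image] at h1
    simpa using h1
  have hlo : μHE[n] (A '' B) ≤ ((1 + η : ℝ≥0) : ℝ≥0∞) ^ n * μHE[n] ((chartAt 𝔼 x).symm '' B) := by
    have h1 := muHE_image_le (n := n) (hL2.mono (image_mono hB1))
    rw [image_image] at h1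
    have h2 : (fun b => A (chartAt 𝔼 x ((chartAt 𝔼 x).symm b))) '' B = A '' B :=
      image_congr (fun b hb => by rw [(chartAt 𝔼 x).right_inv (hb1 (hB1 hb))])
    rwa [h2] at h1
  have hint1 : ENNReal.ofReal (dens x a) * volume B ≤
      ((1 + η : ℝ≥0) : ℝ≥0∞) * ∫⁻ b in B, ENNReal.ofReal (dens x b) := by
    rw [← setLIntegral_const, ← lintegral_const_mul' _ _ ENNReal.coe_ne_top]
    refine setLIntegral_mono' hBm (fun b hb => ?_)
    have h1 := (hb2 (hB2 hb)).2
    calc ENNReal.ofReal (dens x a) ≤ ENNReal.ofReal ((1 + η) * dens x b) :=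
          ENNReal.ofReal_le_ofReal h1
      _ = _ := by
          rw [ENNReal.ofReal_mul (by positivity)]
          congr 1
          rw [ENNReal.ofReal_add (by norm_num) (by positivity)]
          simp
  have hint2 : ∫⁻ b in B, ENNReal.ofReal (dens x b) ≤
      ((1 + η : ℝ≥0) : ℝ≥0∞) * (ENNReal.ofReal (dens x a) * volume B) := by
    rw [← mul_assoc, ← setLIntegral_const]
    refine setLIntegral_mono' hBm (fun b hb => ?_)
    have h1 := (hb2 (hB2 hb)).1
    calc ENNReal.ofReal (dens x b) ≤ ENNReal.ofReal ((1 + η) * dens x a) :=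
          ENNReal.ofReal_le_ofReal h1
      _ = _ := by
          rw [ENNReal.ofReal_mul (by positivity)]
          congr 1
          rw [ENNReal.ofReal_add (by norm_num) (by positivity)]
          simp
  have hKK : ((1 + η : ℝ≥0) : ℝ≥0∞) ^ n * ((1 + η : ℝ≥0) : ℝ≥0∞) ≤ K := by
    rw [← pow_succ]; exact_mod_cast hηK
  constructor
  · calc μHE[n] ((chartAt 𝔼 x).symm '' B)
        ≤ ((1 + η : ℝ≥0) : ℝ≥0∞) ^ n * μHE[n] (A '' B) := hup
      _ ≤ ((1 + η : ℝ≥0) : ℝ≥0∞) ^ n *
          (((1 + η : ℝ≥0) : ℝ≥0∞) * ∫⁻ b in B, ENNReal.ofReal (dens x b)) := by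
          rw [hvol]; gcongr
      _ = (((1 + η : ℝ≥0) : ℝ≥0∞) ^ n * ((1 + η : ℝ≥0) : ℝ≥0∞)) *
          ∫⁻ b in B, ENNReal.ofReal (dens x b) := by ring
      _ ≤ K * ∫⁻ b in B, ENNReal.ofReal (dens x b) := by gcongr
  · calc ∫⁻ b in B, ENNReal.ofReal (dens x b)
        ≤ ((1 + η : ℝ≥0) : ℝ≥0∞) * μHE[n] (A '' B) := by rw [hvol]; exact hint2
      _ ≤ ((1 + η : ℝ≥0) : ℝ≥0∞) *
          (((1 + η : ℝ≥0) : ℝ≥0∞) ^ n * μHE[n] ((chartAt 𝔼 x).symm '' B)) := by gcongr
      _ = (((1 + η : ℝ≥0) : ℝ≥0∞) ^ n * ((1 + η : ℝ≥0) : ℝ≥0∞)) *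
          μHE[n] ((chartAt 𝔼 x).symm '' B) := by ring
      _ ≤ K * μHE[n] ((chartAt 𝔼 x).symm '' B) := by gcongr

theorem measurableSet_symm_image (x : M) {B : Set 𝔼} (hB : B ⊆ (chartAt 𝔼 x).target)
    (hBm : MeasurableSet B) : MeasurableSet ((chartAt 𝔼 x).symm '' B) := by
  have e : (chartAt 𝔼 x).symm '' B = (chartAt 𝔼 x).source ∩ (chartAt 𝔼 x) ⁻¹' B := by
    ext z
    constructor
    · rintro ⟨b, hb, rfl⟩
      refine ⟨(chartAt 𝔼 x).map_target (hB hb), ?_⟩
      rw [mem_preimage, (chartAt 𝔼 x).right_inv (hB hb)]; exact hb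
    · rintro ⟨hz, hzb⟩
      exact ⟨_, hzb, (chartAt 𝔼 x).left_inv hz⟩
  rw [e]
  have h1 : Continuous (fun z : (chartAt 𝔼 x).source => chartAt 𝔼 x z) :=
    (chartAt 𝔼 x).continuousOn.comp_continuous continuous_subtype_val (fun z => z.2)
  have h2 := MeasurableSet.subtype_image (chartAt 𝔼 x).open_source.measurableSet
    (h1.measurable hBm)
  convert h2 using 1
  ext z
  simp only [mem_inter_iff, mem_preimage, mem_image, Subtype.exists, exists_and_right,
    exists_eq_right]
  constructor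
  · rintro ⟨h, h'⟩; exact ⟨h, h'⟩
  · rintro ⟨h, h'⟩; exact ⟨h, h'⟩

/-- **Exact chart formula**, set form. -/
theorem muHE_symm_image (x : M) {B : Set 𝔼} (hB : B ⊆ (chartAt 𝔼 x).target)
    (hBm : MeasurableSet B) :
    μHE[n] ((chartAt 𝔼 x).symm '' B) = ∫⁻ b in B, ENNReal.ofReal (dens x b) := by
  -- one-sided inequality up to `K > 1`
  have main : ∀ K : ℝ≥0, 1 < K →
      μHE[n] ((chartAt 𝔼 x).symm '' B) ≤ K * ∫⁻ b in B, ENNReal.ofReal (dens x b) ∧
      ∫⁻ b in B, ENNReal.ofReal (dens x b) ≤ K * μHE[n] ((chartAt 𝔼 x).symm '' B) := by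
    intro K hK
    choose r hr0 hrt hr using fun a : (chartAt 𝔼 x).target =>
      local_compare (n := n) x (a := (a : 𝔼)) a.2 hK
    -- countable subcover
    obtain ⟨T, hT, hTu⟩ := TopologicalSpace.isOpen_iUnion_countable
      (fun a : (chartAt 𝔼 x).target => ball (a : 𝔼) (r a)) (fun a => isOpen_ball)
    have hcov : B ⊆ ⋃ a ∈ T, ball (a : 𝔼) (r a) := by
      rw [hTu]
      intro b hb
      exact mem_iUnion.2 ⟨⟨b, hB hb⟩, mem_ball_self (hr0 _)⟩
    rcases T.eq_empty_or_nonempty with hTe | hTn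
    · have : B = ∅ := by
        rw [hTe] at hcov
        simpa using hcov
      subst this
      simp
    obtain ⟨f, hf⟩ := hT.exists_eq_range hTn
    set U : ℕ → Set 𝔼 := fun k => ball (f k : 𝔼) (r (f k)) with hU
    have hcov' : B ⊆ ⋃ k, U k := by
      intro b hb
      have := hcov hb
      rw [hf] at this
      simpa [hU] using this
    set P : ℕ → Set 𝔼 := fun k => B ∩ disjointed U k with hP
    have hUm : ∀ k, MeasurableSet (U k) := fun k => isOpen_ball.measurableSet
    have hPm : ∀ k, MeasurableSet (P k) := fun k => hBm.inter (MeasurableSet.disjointed hUm k)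
    have hPd : Pairwise (Function.onFun Disjoint P) := by
      intro i j hij
      exact ((disjoint_disjointed U) hij).mono inter_subset_right inter_subset_right
    have hPU : ∀ k, P k ⊆ U k := fun k => inter_subset_right.trans (disjointed_subset U k)
    have hPB : B = ⋃ k, P k := by
      rw [hP, ← inter_iUnion, iUnion_disjointed]
      exact (inter_eq_left.2 hcov').symm
    have hPt : ∀ k, P k ⊆ (chartAt 𝔼 x).target := fun k => inter_subset_left.trans hB
    have hQd : Pairwise (Function.onFun Disjoint fun k => (chartAt 𝔼 x).symm '' P k) := by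
      intro i j hij
      have hinj : InjOn (chartAt 𝔼 x).symm (chartAt 𝔼 x).target := (chartAt 𝔼 x).symm.injOn
      refine Set.disjoint_left.2 ?_
      rintro z ⟨b, hb, rfl⟩ ⟨c, hc, hcb⟩
      have : c = b := hinj (hPt j hc) (hPt i hb) hcb
      subst this
      exact (Set.disjoint_left.1 (hPd hij)) hb hc
    have hQm : ∀ k, MeasurableSet ((chartAt 𝔼 x).symm '' P k) := fun k =>
      measurableSet_symm_image x (hPt k) (hPm k)
    have hsum1 : μHE[n] ((chartAt 𝔼 x).symm '' B) = ∑' k, μHE[n] ((chartAt 𝔼 x).symm '' P k) := by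
      conv_lhs => rw [hPB, image_iUnion]
      exact measure_iUnion hQd hQm
    have hsum2 : ∫⁻ b in B, ENNReal.ofReal (dens x b) =
        ∑' k, ∫⁻ b in P k, ENNReal.ofReal (dens x b) := by
      conv_lhs => rw [hPB]
      exact lintegral_iUnion hPm hPd _
    rw [hsum1, hsum2]
    constructor
    · rw [← ENNReal.tsum_mul_left]
      exact ENNReal.tsum_le_tsum fun k => (hr (f k) (P k) (hPU k) (hPm k)).1
    · rw [← ENNReal.tsum_mul_left]
      exact ENNReal.tsum_le_tsum fun k => (hr (f k) (P k) (hPU k) (hPm k)).2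
  have key : ∀ a b : ℝ≥0∞, (∀ K : ℝ≥0, 1 < K → a ≤ K * b) → a ≤ b := by
    intro a b h
    rcases eq_or_ne b ⊤ with hb | hb
    · rw [hb]; exact le_top
    rcases eq_or_ne b 0 with hb0 | hb0
    · have := h 2 (by norm_num)
      rw [hb0, mul_zero] at this
      rw [hb0]; exact this
    refine ENNReal.le_of_forall_pos_le_add fun ε hε _ => ?_
    have hbp : 0 < b.toNNReal := ENNReal.toNNReal_pos hb0 hb
    have h1 := h (1 + ε / b.toNNReal) (by
      have : 0 < ε / b.toNNReal := div_pos hε hbp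
      exact lt_add_of_pos_right 1 this)
    refine h1.trans (le_of_eq ?_)
    have hb' : b = (b.toNNReal : ℝ≥0∞) := (ENNReal.coe_toNNReal hb).symm
    have h2 : (1 + ε / b.toNNReal) * b.toNNReal = b.toNNReal + ε := by
      field_simp
    calc ((1 + ε / b.toNNReal : ℝ≥0) : ℝ≥0∞) * b
        = (((1 + ε / b.toNNReal) * b.toNNReal : ℝ≥0) : ℝ≥0∞) := by
          rw [ENNReal.coe_mul, ← hb']
      _ = b + ε := by rw [h2, ENNReal.coe_add, ← hb']
  exact le_antisymm (key _ _ fun K hK => (main K hK).1) (key _ _ fun K hK => (main K hK).2)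

end

end Crest.Agent.R247.Ms322
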