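import Crest.Agent.R247.Glu6_923
import Crest.Agent.R247.Opn_79
import Crest.Agent.R247.Asm1_951
import Crest.Agent.R247.HR_216
import Crest.Agent.R247.Ms3_322

/-!
# R247, block (4), assembly on the manifold (1): finiteness of the volume, packing
-/

set_option autoImplicit false
noncomputable section
open Set Filter Topology MeasureTheory Metric
open scoped ContDiff Manifold ENNReal NNReal
open Bundle Crest.GeometryTopology.CoordMetric Crest.GeometryTopology.ChartCurvature
  Crest.GeometryTopology.PointedLimit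

namespace Crest.Agent.R247.GluM923

/-! ### local finiteness of the Riemannian volume -/

section finite

variable {n : ℕ} {M : Type*} [MetricSpace M] [ChartedSpace (EuclideanSpace ℝ (Fin n)) M]
  [IsManifold 𝓘(ℝ, EuclideanSpace ℝ (Fin n)) ∞ M]
  [RiemannianBundle (fun x : M => TangentSpace 𝓘(ℝ, EuclideanSpace ℝ (Fin n)) x)]
  [IsContMDiffRiemannianBundle 𝓘(ℝ, EuclideanSpace ℝ (Fin n)) ∞ (EuclideanSpace ℝ (Fin n))
    (fun x : M => TangentSpace 𝓘(ℝ, EuclideanSpace ℝ (Fin n)) x)]
  [IsRiemannianManifold 𝓘(ℝ, EuclideanSpace ℝ (Fin n)) M]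
  [MeasurableSpace M] [BorelSpace M]

variable (n M) in
/-- The Riemannian volume is locally finite. -/
theorem isLocallyFinite : IsLocallyFiniteMeasure (μHE[n] : Measure M) := by
  refine ⟨fun x => ?_⟩
  set e := chartAt (EuclideanSpace ℝ (Fin n)) x with he
  have ha : e x ∈ e.target := e.map_source (mem_chart_source _ x)
  obtain ⟨r, hr, hrt, hB⟩ := Ms322.local_compare (n := n) x ha (K := 2) (by norm_num)
  have hcl : closedBall (e x) (r / 2) ⊆ e.target :=
    (closedBall_subset_ball (by linarith)).trans hrt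
  have hsub : ball (e x) (r / 2) ⊆ ball (e x) r := ball_subset_ball (by linarith)
  refine ⟨e.symm '' ball (e x) (r / 2), ?_, ?_⟩
  · have ho : IsOpen (e.symm '' ball (e x) (r / 2)) :=
      e.symm.isOpen_image_of_subset_source isOpen_ball (hsub.trans hrt)
    refine ho.mem_nhds ⟨e x, mem_ball_self (by linarith), ?_⟩
    exact e.left_inv (mem_chart_source _ x)
  · have h1 := (hB (ball (e x) (r / 2)) hsub measurableSet_ball).1
    refine h1.trans_lt (ENNReal.mul_lt_top (by simp) ?_)
    obtain ⟨m, hm⟩ := (isCompact_closedBall (e x) (r / 2)).exists_bound_of_continuousOn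
      ((Ms322.continuousOn_dens x).mono hcl)
    calc ∫⁻ b in ball (e x) (r / 2), ENNReal.ofReal (Ms322.dens x b)
        ≤ ∫⁻ b in ball (e x) (r / 2), ENNReal.ofReal m := by
          refine setLIntegral_mono' measurableSet_ball fun b hb => ?_
          exact ENNReal.ofReal_le_ofReal ((le_abs_self _).trans (hm b (ball_subset_closedBall hb)))
      _ = ENNReal.ofReal m * volume (ball (e x) (r / 2)) := by
          rw [setLIntegral_const]
      _ < ⊤ := ENNReal.mul_lt_top ENNReal.ofReal_lt_top measure_ball_lt_top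

variable (n M) in
theorem ball_lt_top [CompleteSpace M] (x : M) (r : ℝ) : μHE[n] (ball x r) < ⊤ := by
  have := HR216.properSpace_of_riemannian n M
  have := isLocallyFinite n M
  exact (measure_mono ball_subset_closedBall).trans_lt (isCompact_closedBall x r).measure_lt_top

end finite

/-! ### packing -/

/-- Packing from a doubling inequality. -/
theorem packing_of_doubling {X : Type*} [MetricSpace X] [MeasurableSpace X] [BorelSpace X]
    (μ : Measure X) {x : X} {r : ℝ} {K : ℝ} {N : ℕ} (hKN : K ≤ N)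
    (h0 : 0 < μ (ball x (4 * r))) (h1 : μ (ball x (4 * r)) < ⊤)
    (hd : ∀ a, dist x a ≤ 3 * r →
      μ (ball a (8 * r)) ≤ ENNReal.ofReal K * μ (ball a (r / 2)))
    (t : Finset X) (ht : ∀ a ∈ t, dist x a ≤ 3 * r)
    (hs : ∀ a ∈ t, ∀ b ∈ t, a ≠ b → r ≤ dist a b) (hr : 0 < r) : t.card ≤ N := by
  classical
  have hdisj : (t : Set X).PairwiseDisjoint fun a => ball a (r / 2) := by
    intro a ha b hb hab
    apply ball_disjoint_ball
    have := hs a ha b hb hab
    linarith
  have hsub : ⋃ a ∈ t, ball a (r / 2) ⊆ ball x (4 * r) := by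
    intro z hz
    simp only [mem_iUnion, mem_ball, exists_prop] at hz ⊢
    obtain ⟨a, ha, hz⟩ := hz
    have h2 := ht a ha
    have h3 := dist_triangle z a x
    rw [dist_comm a x] at h3
    linarith
  have hsum : ∑ a ∈ t, μ (ball a (r / 2)) ≤ μ (ball x (4 * r)) := by
    rw [← measure_biUnion_finset hdisj fun a _ => measurableSet_ball]
    exact measure_mono hsub
  have hone : ∀ a ∈ t, μ (ball x (4 * r)) ≤ ENNReal.ofReal K * μ (ball a (r / 2)) := by
    intro a ha
    refine (measure_mono ?_).trans (hd a (ht a ha))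
    apply ball_subset_ball'
    have := ht a ha
    linarith
  have hcard : (t.card : ℝ≥0∞) * μ (ball x (4 * r)) ≤
      (N : ℝ≥0∞) * μ (ball x (4 * r)) := by
    calc (t.card : ℝ≥0∞) * μ (ball x (4 * r)) = ∑ a ∈ t, μ (ball x (4 * r)) := by
          rw [Finset.sum_const, nsmul_eq_mul]
      _ ≤ ∑ a ∈ t, ENNReal.ofReal K * μ (ball a (r / 2)) := Finset.sum_le_sum hone
      _ = ENNReal.ofReal K * ∑ a ∈ t, μ (ball a (r / 2)) := by rw [Finset.mul_sum]
      _ ≤ ENNReal.ofReal K * μ (ball x (4 * r)) := by gcongr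
      _ ≤ (N : ℝ≥0∞) * μ (ball x (4 * r)) := by
          gcongr
          rw [← ENNReal.ofReal_natCast]
          exact ENNReal.ofReal_le_ofReal hKN
  have h2 := (ENNReal.mul_le_mul_iff_left h0.ne' h1.ne).1 hcard
  exact_mod_cast h2

end Crest.Agent.R247.GluM923
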