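import Crest.Agent.R247.Mcp6_688
import Crest.Agent.R247.Mcs6_816
import Crest.Agent.R247.Asm1_951
import Crest.Agent.R247.GluM1_923

/-!
# R247: the radial contraction structure of a complete Riemannian manifold, and Bishop–Gromov

* `RAD n`  : every complete connected Riemannian `n`-manifold with `Ric ≥ -κ` carries 688's
  structure `Rad n κ M μHE[n]`;
* `UNIQ n` : almost every pair is joined by exactly one minimising geodesic (leaf);
* `SETF n` : the set form of the measure contraction property (leaf);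
* `rad_of_parts` : `UNIQ n → SETF n → RAD n` (`n = 0` included);
* `bgr_of_rad` : `RAD n → BGr n`.
-/

set_option autoImplicit false
noncomputable section
open Set Filter Topology MeasureTheory Metric
open scoped ContDiff Manifold ENNReal
open Bundle Crest.GeometryTopology.CoordMetric Crest.GeometryTopology.ChartCurvature
  Crest.GeometryTopology.PointedLimit

namespace Crest.Agent.R247.Bgr546

open Crest.Agent.R247.Mcp688

universe u

/-- The radial contraction structure on every complete manifold with `Ric ≥ -κ`. -/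
def RAD (n : ℕ) : Prop := ∀ κ : ℝ, 0 ≤ κ →
  ∀ (M : Type u) [MetricSpace M] [CompleteSpace M] [ConnectedSpace M]
    [ChartedSpace (EuclideanSpace ℝ (Fin n)) M]
    [IsManifold 𝓘(ℝ, EuclideanSpace ℝ (Fin n)) ∞ M]
    [RiemannianBundle (fun x : M => TangentSpace 𝓘(ℝ, EuclideanSpace ℝ (Fin n)) x)]
    [IsContMDiffRiemannianBundle 𝓘(ℝ, EuclideanSpace ℝ (Fin n)) ∞ (EuclideanSpace ℝ (Fin n))
      (fun x : M => TangentSpace 𝓘(ℝ, EuclideanSpace ℝ (Fin n)) x)]
    [IsRiemannianManifold 𝓘(ℝ, EuclideanSpace ℝ (Fin n)) M]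
    [MeasurableSpace M] [BorelSpace M],
    HasRicciLowerBound n M (-κ) → Nonempty (Rad n κ M (Measure.euclideanHausdorffMeasure n))

/-- Almost every pair is joined by exactly one minimising geodesic. -/
def UNIQ (n : ℕ) : Prop :=
  ∀ (M : Type u) [MetricSpace M] [CompleteSpace M] [ConnectedSpace M]
    [ChartedSpace (EuclideanSpace ℝ (Fin n)) M]
    [IsManifold 𝓘(ℝ, EuclideanSpace ℝ (Fin n)) ∞ M]
    [RiemannianBundle (fun x : M => TangentSpace 𝓘(ℝ, EuclideanSpace ℝ (Fin n)) x)]
    [IsContMDiffRiemannianBundle 𝓘(ℝ, EuclideanSpace ℝ (Fin n)) ∞ (EuclideanSpace ℝ (Fin n))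
      (fun x : M => TangentSpace 𝓘(ℝ, EuclideanSpace ℝ (Fin n)) x)]
    [IsRiemannianManifold 𝓘(ℝ, EuclideanSpace ℝ (Fin n)) M]
    [MeasurableSpace M] [BorelSpace M] (x : M),
    ∀ᵐ z ∂(Measure.euclideanHausdorffMeasure n : Measure M), (x, z) ∈ Uniq M

/-- Set form of the measure contraction property. -/
def SETF (n : ℕ) : Prop := ∀ κ : ℝ, 0 ≤ κ →
  ∀ (M : Type u) [MetricSpace M] [CompleteSpace M] [ConnectedSpace M]
    [ChartedSpace (EuclideanSpace ℝ (Fin n)) M]
    [IsManifold 𝓘(ℝ, EuclideanSpace ℝ (Fin n)) ∞ M]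
    [RiemannianBundle (fun x : M => TangentSpace 𝓘(ℝ, EuclideanSpace ℝ (Fin n)) x)]
    [IsContMDiffRiemannianBundle 𝓘(ℝ, EuclideanSpace ℝ (Fin n)) ∞ (EuclideanSpace ℝ (Fin n))
      (fun x : M => TangentSpace 𝓘(ℝ, EuclideanSpace ℝ (Fin n)) x)]
    [IsRiemannianManifold 𝓘(ℝ, EuclideanSpace ℝ (Fin n)) M]
    [MeasurableSpace M] [BorelSpace M],
    HasRicciLowerBound n M (-κ) →
    ∀ x : M, ∀ t ∈ Ioc (0 : ℝ) 1, ∀ R : ℝ, ∀ A : Set M, IsCompact A →
      A ⊆ Metric.closedBall x R →
      ENNReal.ofReal (t ^ n * Real.exp (-(κ * R ^ 2 * (1 - t ^ 2) / 2))) *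
          (Measure.euclideanHausdorffMeasure n : Measure M) A ≤
        (Measure.euclideanHausdorffMeasure n : Measure M) (Mid x t A)

/-- The set form of the contraction property in 816's notation. -/
def SETF' (n : ℕ) : Prop := ∀ κ : ℝ, 0 ≤ κ →
  ∀ (M : Type u) [MetricSpace M] [CompleteSpace M] [ConnectedSpace M]
    [ChartedSpace (EuclideanSpace ℝ (Fin n)) M]
    [IsManifold 𝓘(ℝ, EuclideanSpace ℝ (Fin n)) ∞ M]
    [RiemannianBundle (fun x : M => TangentSpace 𝓘(ℝ, EuclideanSpace ℝ (Fin n)) x)]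
    [IsContMDiffRiemannianBundle 𝓘(ℝ, EuclideanSpace ℝ (Fin n)) ∞ (EuclideanSpace ℝ (Fin n))
      (fun x : M => TangentSpace 𝓘(ℝ, EuclideanSpace ℝ (Fin n)) x)]
    [IsRiemannianManifold 𝓘(ℝ, EuclideanSpace ℝ (Fin n)) M]
    [MeasurableSpace M] [BorelSpace M],
    HasRicciLowerBound n M (-κ) →
    ∀ (x : M) (R : ℝ), 0 ≤ R → ∀ A : Set M, IsCompact A → A ⊆ Metric.closedBall x R →
      ∀ τ : ℝ, 0 ≤ τ →
      ENNReal.ofReal (Real.exp (-(n * τ + κ * R ^ 2 * (1 - Real.exp (-(2 * τ))) / 2))) *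
          (Measure.euclideanHausdorffMeasure n : Measure M) A ≤
        (Measure.euclideanHausdorffMeasure n : Measure M) (Mcs816.Ipt x (Real.exp (-τ)) A)

/-! ### translation between the two set forms -/

lemma ipt_eq_mid {M : Type*} [MetricSpace M] (x : M) (t : ℝ) (A : Set M) (_ht : t ≤ 1) :
    Mcs816.Ipt x t A = Mid x t A := by
  ext y
  constructor
  · rintro ⟨z, hz, h1, h2⟩
    exact ⟨z, hz, h1, h2⟩
  · rintro ⟨z, hz, h1, h2⟩
    exact ⟨z, hz, h1, h2⟩

theorem setf_of_setf' {n : ℕ} (h : SETF'.{u} n) : SETF.{u} n := by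
  intro κ hκ M _ _ _ _ _ _ _ _ _ _ hric x t ht R A hA hAR
  have ht0 := ht.1
  rcases A.eq_empty_or_nonempty with rfl | ⟨a, ha⟩
  · simp
  have hR : 0 ≤ R := by
    have := mem_closedBall.1 (hAR ha)
    exact dist_nonneg.trans this
  have hτ : 0 ≤ -Real.log t := by
    have := Real.log_nonpos ht0.le ht.2
    linarith
  have key := h κ hκ M hric x R hR A hA hAR (-Real.log t) hτ
  have e1 : Real.exp (-(-Real.log t)) = t := by rw [neg_neg, Real.exp_log ht0]
  have e2 : Real.exp (-(2 * -Real.log t)) = t ^ 2 := by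
    rw [show -(2 * -Real.log t) = Real.log t + Real.log t by ring, Real.exp_add,
      Real.exp_log ht0]
    ring
  have e3 : Real.exp (-((n : ℝ) * -Real.log t + κ * R ^ 2 * (1 - t ^ 2) / 2)) =
      t ^ n * Real.exp (-(κ * R ^ 2 * (1 - t ^ 2) / 2)) := by
    rw [show -((n : ℝ) * -Real.log t + κ * R ^ 2 * (1 - t ^ 2) / 2) =
      (n : ℝ) * Real.log t + -(κ * R ^ 2 * (1 - t ^ 2) / 2) by ring, Real.exp_add,
      Real.exp_nat_mul, Real.exp_log ht0]
  rw [e1, e2, e3, ipt_eq_mid x t A ht.2] at key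
  exact key

/-! ### exact intermediate points -/

theorem exMid_of_riemannian (n : ℕ) (M : Type*) [MetricSpace M] [CompleteSpace M]
    [ChartedSpace (EuclideanSpace ℝ (Fin n)) M]
    [RiemannianBundle (fun x : M => TangentSpace 𝓘(ℝ, EuclideanSpace ℝ (Fin n)) x)]
    [IsRiemannianManifold 𝓘(ℝ, EuclideanSpace ℝ (Fin n)) M] : ExMid M := by
  intro a b t ht
  exact HR216.exactMid_of_riemannian n M a b t ht.1 ht.2

/-! ### dimension zero -/

/-- A connected `0`-dimensional manifold is a point. -/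
theorem subsingleton_of_zero (M : Type*) [MetricSpace M] [ConnectedSpace M]
    [ChartedSpace (EuclideanSpace ℝ (Fin 0)) M] : Subsingleton M := by
  have : DiscreteTopology M := by
    rw [discreteTopology_iff_isOpen_singleton]
    intro x
    set e := chartAt (EuclideanSpace ℝ (Fin 0)) x
    have hx : x ∈ e.source := mem_chart_source _ x
    have : ({x} : Set M) = e.source := by
      ext y
      constructor
      · rintro rfl
        exact hx
      · intro hy
        exact e.injOn hy hx (Subsingleton.elim _ _)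
    rw [this]
    exact e.open_source
  exact PreconnectedSpace.trivial_of_discrete

/-- The radial structure on a point. -/
def radZero (κ : ℝ) (M : Type*) [MetricSpace M] [Subsingleton M] [MeasurableSpace M]
    [BorelSpace M] (μ : Measure M) : Rad 0 κ M μ where
  U := univ
  T := fun x _ _ => x
  measU := MeasurableSet.univ
  measT := measurable_fst
  ae_U := fun x => Eventually.of_forall fun _ => mem_univ _
  symm := fun _ _ _ => mem_univ _
  T_symm := fun _ _ _ _ _ => Subsingleton.elim _ _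
  sub := fun _ _ _ _ _ => mem_univ _
  comp := fun _ _ _ _ _ _ _ => rfl
  T_one := fun _ _ _ => Subsingleton.elim _ _
  T_zero := fun _ _ _ => rfl
  dist_T := fun x z _ s _ t _ => by
    have : x = z := Subsingleton.elim _ _
    subst this
    simp
  contr := fun x t ht => by
    have h1 : (fun _ : M => x) = id := by
      funext z
      exact Subsingleton.elim _ _
    show (wm μ κ x).map (fun _ : M => x) ≤ _
    rw [h1, Measure.map_id]
    simp

/-! ### assembly -/

theorem rad_of_parts {n : ℕ} (hU : 1 ≤ n → UNIQ.{u} n) (hS : 1 ≤ n → SETF.{u} n) :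
    RAD.{u} n := by
  intro κ hκ M _ _ _ _ _ _ _ _ _ _ hric
  rcases Nat.eq_zero_or_pos n with hn | hn
  · subst hn
    have := subsingleton_of_zero M
    exact ⟨radZero κ M _⟩
  · have := HR216.properSpace_of_riemannian n M
    have := GluM923.isLocallyFinite n M
    exact ⟨Rad.ofSet _ (exMid_of_riemannian n M) hκ (hU hn M) (hS hn κ hκ M hric)⟩

theorem bgr_of_rad {n : ℕ} (h : RAD.{u} n) : Asm951.BGr.{u} n := by
  intro δ hδ M _ _ _ _ _ _ _ _ _ _ x r R hric hr hrR
  obtain ⟨C⟩ := h δ hδ M hric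
  exact C.mu_ball_le hδ x hr hrR

end Crest.Agent.R247.Bgr546
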