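import Crest.Agent.R247.Ms6_322
import Crest.Agent.R247.Bo1_84

/-!
R247, block (0) (helper322), part 7: properties of the frame gradient: chart formula in every chart,
measurability, Rademacher, the Lipschitz bound, sum / product / chain rules.
-/

set_option autoImplicit false
set_option maxSynthPendingDepth 3
set_option linter.unusedSectionVars false
set_option linter.unusedVariables false

open Bundle Bornology Set MeasureTheory Manifold Filter Metric
open scoped ENNReal ContDiff Topology NNReal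
open Crest.GeometryTopology.CoordMetric Crest.GeometryTopology.ChartCurvature
open Crest.GeometryTopology.Geodesic
open Crest.Agent.R226.ChartMet842

namespace Crest.Agent.R247.Ms322

noncomputable section

variable {n : ℕ} {M : Type*} [MetricSpace M] [ChartedSpace (EuclideanSpace ℝ (Fin n)) M]
  [IsManifold (𝓡 n) ∞ M]
  [RiemannianBundle (fun p : M => TangentSpace (𝓡 n) p)]
  [IsContMDiffRiemannianBundle (𝓡 n) ∞ (EuclideanSpace ℝ (Fin n)) (fun p : M => TangentSpace (𝓡 n) p)]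

local notation "𝔼" => EuclideanSpace ℝ (Fin n)

theorem fderiv_eq_sum (F : 𝔼 → ℝ) (a w : 𝔼) : fderiv ℝ F a w = ∑ i, w i * pderiv i F a := by
  conv_lhs => rw [vec_eq_sum w]
  rw [map_sum]
  refine Finset.sum_congr rfl fun i _ => ?_
  rw [map_smul, smul_eq_mul]; rfl

section Sel

variable [SecondCountableTopology M] [Nonempty M]

/-- **Chart formula** of the pairing of the gradients, in EVERY chart. -/
theorem inner_Gr_chart (x : M) {z : M} (hz : z ∈ (chartAt 𝔼 x).source) (f g : M → ℝ) :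
    inner ℝ (Gr (n := n) f z) (Gr (n := n) g z) =
      Bo84.gam (chartMetric n M x) (fun b => f ((chartAt 𝔼 x).symm b))
        (fun b => g ((chartAt 𝔼 x).symm b)) (chartAt 𝔼 x z) := by
  set a : 𝔼 := chartAt 𝔼 x z with ha
  have hat : a ∈ (chartAt 𝔼 x).target := (chartAt 𝔼 x).map_source hz
  have hpos := (isRiemannianOn_chartMetric (n := n) x).posDef a hat
  set W : Matrix (Fin n) (Fin n) ℝ := Matrix.of fun i j => (dC x z (fr z j) : 𝔼) i with hW
  have h1 : W.transpose * chartMetric n M x a * W = 1 := by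
    ext j k
    have e := inner_eq_gm (n := n) x hz (fr z j) (fr z k)
    rw [inner_fr, gm_eq_sum] at e
    rw [Matrix.one_apply, e, Matrix.mul_apply]
    simp only [Matrix.mul_apply, Finset.sum_mul, Matrix.transpose_apply, hW, Matrix.of_apply]
    rw [Finset.sum_comm]
    refine Finset.sum_congr rfl fun l _ => Finset.sum_congr rfl fun i _ => ?_
    ring
  have h2 := mul_transpose_eq_inv hpos h1
  rw [inner_Gr]
  have h3 : ∀ (h : M → ℝ) (j : Fin n), df (n := n) h z (fr z j) =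
      ∑ i, W i j * pderiv i (fun b => h ((chartAt 𝔼 x).symm b)) a := by
    intro h j
    rw [df_eq_fderiv x hz, fderiv_eq_sum]
    rfl
  simp only [h3]
  unfold Bo84.gam inverseField
  simp only [← h2, Matrix.mul_apply, Matrix.transpose_apply, Finset.sum_mul, Finset.mul_sum]
  conv_rhs => rw [Finset.sum_comm]
  rw [Finset.sum_comm]
  refine Finset.sum_congr rfl fun i _ => ?_
  rw [Finset.sum_comm]
  refine Finset.sum_congr rfl fun l _ => Finset.sum_congr rfl fun j _ => ?_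
  ring

/-! ### pointwise rules -/

theorem df_add {f g : M → ℝ} {z : M} (hf : MDifferentiableAt (𝓡 n) 𝓘(ℝ) f z)
    (hg : MDifferentiableAt (𝓡 n) 𝓘(ℝ) g z) :
    df (n := n) (fun y => f y + g y) z = df f z + df g z :=
  (hf.hasMFDerivAt.add hg.hasMFDerivAt).mfderiv

theorem df_const_mul {f : M → ℝ} {z : M} (c : ℝ) (hf : MDifferentiableAt (𝓡 n) 𝓘(ℝ) f z) :
    df (n := n) (fun y => c * f y) z = c • df f z :=
  (hf.hasMFDerivAt.const_smul c).mfderiv

theorem df_comp {f : M → ℝ} {χ : ℝ → ℝ} {z : M} (hf : MDifferentiableAt (𝓡 n) 𝓘(ℝ) f z)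
    (hχ : DifferentiableAt ℝ χ (f z)) :
    df (n := n) (fun y => χ (f y)) z = deriv χ (f z) • df f z := by
  have h1 : HasMFDerivAt 𝓘(ℝ) 𝓘(ℝ) χ (f z) (ContinuousLinearMap.toSpanSingleton ℝ (deriv χ (f z))) :=
    hχ.hasDerivAt.hasFDerivAt.hasMFDerivAt
  have h2 := (h1.comp z hf.hasMFDerivAt).mfderiv
  have h3 : df (n := n) (fun y => χ (f y)) z =
      (ContinuousLinearMap.toSpanSingleton ℝ (deriv χ (f z))).comp (df f z) := h2
  rw [h3]
  ext v
  simp [mul_comm]

theorem df_mul {f g : M → ℝ} {z : M} (hf : MDifferentiableAt (𝓡 n) 𝓘(ℝ) f z)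
    (hg : MDifferentiableAt (𝓡 n) 𝓘(ℝ) g z) :
    df (n := n) (fun y => f y * g y) z = f z • df g z + g z • df f z :=
  (hf.hasMFDerivAt.mul hg.hasMFDerivAt).mfderiv

theorem Gr_add {f g : M → ℝ} {z : M} (hf : MDifferentiableAt (𝓡 n) 𝓘(ℝ) f z)
    (hg : MDifferentiableAt (𝓡 n) 𝓘(ℝ) g z) :
    Gr (n := n) (fun y => f y + g y) z = Gr f z + Gr g z := by
  ext j
  rw [Gr_apply, df_add hf hg]
  rfl

theorem Gr_const_mul {f : M → ℝ} {z : M} (c : ℝ) (hf : MDifferentiableAt (𝓡 n) 𝓘(ℝ) f z) :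
    Gr (n := n) (fun y => c * f y) z = c • Gr f z := by
  ext j
  rw [Gr_apply, df_const_mul c hf]
  rfl

theorem Gr_comp {f : M → ℝ} {χ : ℝ → ℝ} {z : M} (hf : MDifferentiableAt (𝓡 n) 𝓘(ℝ) f z)
    (hχ : DifferentiableAt ℝ χ (f z)) :
    Gr (n := n) (fun y => χ (f y)) z = deriv χ (f z) • Gr f z := by
  ext j
  rw [Gr_apply, df_comp hf hχ]
  rfl

theorem Gr_mul {f g : M → ℝ} {z : M} (hf : MDifferentiableAt (𝓡 n) 𝓘(ℝ) f z)
    (hg : MDifferentiableAt (𝓡 n) 𝓘(ℝ) g z) :
    Gr (n := n) (fun y => f y * g y) z = f z • Gr g z + g z • Gr f z := by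
  ext j
  rw [Gr_apply, df_mul hf hg]
  rfl

theorem Gr_congr {f g : M → ℝ} {z : M} (h : f =ᶠ[𝓝 z] g) : Gr (n := n) f z = Gr g z := by
  ext j
  rw [Gr_apply, Gr_apply]
  unfold df
  rw [h.mfderiv_eq]

/-! ### the Lipschitz bound -/

/-- `‖Gr f z‖ ≤ K` if `f` is `K`-Lipschitz near `z`. -/
theorem norm_Gr_le_of_lipschitzOn [IsRiemannianManifold (𝓡 n) M] {f : M → ℝ} {z : M} {K : ℝ≥0}
    {U : Set M} (hU : U ∈ 𝓝 z) (hf : LipschitzOnWith K f U) : ‖Gr (n := n) f z‖ ≤ K := by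
  -- it suffices to prove the bound with `(1+η) K`
  have key : ∀ η : ℝ≥0, 0 < η → ‖Gr (n := n) f z‖ ≤ K * (1 + η) := by
    intro η hη
    refine norm_Gr_le (by positivity) ?_
    intro v
    have hz : z ∈ (chartAt 𝔼 z).source := mem_chart_source 𝔼 z
    set a : 𝔼 := chartAt 𝔼 z z with ha
    have hat : a ∈ (chartAt 𝔼 z).target := (chartAt 𝔼 z).map_source hz
    have hza : (chartAt 𝔼 z).symm a = z := (chartAt 𝔼 z).left_inv hz
    obtain ⟨A, hA, _⟩ := exists_isometry (n := n) z hat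
    obtain ⟨r, hr0, hrt, hL, _⟩ := exists_bilip (n := n) z hat hA hη
    rw [df_eq_fderiv z hz]
    -- the function in the coordinates `A`
    set F : 𝔼 → ℝ := fun b => f ((chartAt 𝔼 z).symm b) with hF
    set H : 𝔼 → ℝ := fun w => F (A.symm w) with hH
    have hcont : ContinuousAt (chartAt 𝔼 z).symm a := (chartAt 𝔼 z).continuousAt_symm hat
    have hU' : U ∈ 𝓝 ((chartAt 𝔼 z).symm a) := by rw [hza]; exact hU
    obtain ⟨r', hr'0, hr'⟩ := Metric.mem_nhds_iff.1 (hcont.preimage_mem_nhds hU')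
    have hlip : LipschitzOnWith (K * (1 + η)) H (A '' ball a (min r r')) := by
      have h1 : LipschitzOnWith (1 + η) (fun w => (chartAt 𝔼 z).symm (A.symm w))
          (A '' ball a (min r r')) := hL.mono (image_mono (ball_subset_ball (min_le_left _ _)))
      refine hf.comp h1 ?_
      rintro _ ⟨b, hb, rfl⟩
      have : b ∈ (chartAt 𝔼 z).symm ⁻¹' U := hr' (ball_subset_ball (min_le_right _ _) hb)
      simpa using this
    have hnh : A '' ball a (min r r') ∈ 𝓝 (A a) :=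
      (A.isOpenMap _ isOpen_ball).mem_nhds (mem_image_of_mem _ (mem_ball_self (lt_min hr0 hr'0)))
    have hnorm : ‖fderiv ℝ H (A a)‖ ≤ K * (1 + η) := by
      have := norm_fderiv_le_of_lipschitzOn ℝ hnh hlip
      simpa using this
    have hchain : fderiv ℝ F a = (fderiv ℝ H (A a)).comp (A : 𝔼 →L[ℝ] 𝔼) := by
      have e1 : F = H ∘ A := by
        funext b; simp [hH]
      rw [e1]
      exact A.comp_right_fderiv
    rw [hchain]
    have h5 : ‖A (dC z z v)‖ = ‖v‖ := by
      have h6 := norm_sq_eq_gm (n := n) z hz v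
      have h7 : ‖A (dC z z v)‖ ^ 2 = gm z a (dC z z v) (dC z z v) := by
        rw [← hA, real_inner_self_eq_norm_sq]
      rw [← h6] at h7
      have h8 : (0 : ℝ) ≤ ‖A (dC z z v)‖ := norm_nonneg _
      have h9 : (0 : ℝ) ≤ ‖v‖ := norm_nonneg _
      nlinarith [sq_nonneg (‖A (dC z z v)‖ - ‖v‖), sq_nonneg (‖A (dC z z v)‖ + ‖v‖)]
    calc |((fderiv ℝ H (A a)).comp (A : 𝔼 →L[ℝ] 𝔼)) (dC z z v)|
        = ‖(fderiv ℝ H (A a)) (A (dC z z v))‖ := by rw [Real.norm_eq_abs]; rfl
      _ ≤ ‖fderiv ℝ H (A a)‖ * ‖A (dC z z v)‖ := ContinuousLinearMap.le_opNorm _ _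
      _ ≤ K * (1 + η) * ‖v‖ := by rw [h5]; gcongr
  by_contra hlt
  rw [not_le] at hlt
  have h1 : ContinuousAt (fun η : ℝ => (K : ℝ) * (1 + η)) 0 := by fun_prop
  have h2 : (fun η : ℝ => (K : ℝ) * (1 + η)) 0 < ‖Gr (n := n) f z‖ := by simpa using hlt
  obtain ⟨ε, hε, h3⟩ := Metric.eventually_nhds_iff.1 (h1.eventually_lt continuousAt_const h2)
  have h4 := h3 (y := ε / 2) (by rw [Real.dist_eq, sub_zero, abs_of_pos (half_pos hε)]; linarith)
  have h5 := key (Real.toNNReal (ε / 2)) (Real.toNNReal_pos.2 (half_pos hε))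
  rw [Real.coe_toNNReal _ (half_pos hε).le] at h5
  linarith

end Sel

end

end Crest.Agent.R247.Ms322
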