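import Crest.Agent.R247.Bo8_84
import Crest.Agent.R247.Ms7_322
import Crest.Agent.R247.Hes1_124

/-!
Row 247, block (5-B), pointwise part 1 (helper84): the Hessian and the Ricci form in the measurable
orthonormal frame `fr` of helper322, in the matrix form used by helper124.
-/

set_option autoImplicit false
set_option maxSynthPendingDepth 3
set_option linter.unusedSectionVars false

open scoped ContDiff Topology Manifold RealInnerProductSpace
open Filter Set Bundle
open Crest.GeometryTopology.CoordMetric Crest.GeometryTopology.ChartCurvature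
  Crest.GeometryTopology.PointedLimit
open Crest.Agent.R202.Tens Crest.Agent.R247.Bo84 Crest.Agent.R247.Ms322
open Crest.Agent.R247.Hes124 (F S mv tr idm)

noncomputable section

namespace Crest.Agent.R247.Bs84

variable {n : ℕ} {M : Type*} [MetricSpace M] [ChartedSpace (EuclideanSpace ℝ (Fin n)) M]
  [IsManifold (𝓡 n) ∞ M]
  [RiemannianBundle (fun p : M => TangentSpace (𝓡 n) p)]
  [IsContMDiffRiemannianBundle (𝓡 n) ∞ (EuclideanSpace ℝ (Fin n))
    (fun p : M => TangentSpace (𝓡 n) p)]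
  [SecondCountableTopology M] [Nonempty M]

local notation "𝔼" => EuclideanSpace ℝ (Fin n)

/-- the Hessian in the frame -/
def Hf (u : M → ℝ) (z : M) : S n :=
  WithLp.toLp 2 fun ij => mHess n u z (fr z ij.1) (fr z ij.2)

/-- the Ricci form in the frame -/
def Ricf (z : M) : S n :=
  WithLp.toLp 2 fun ij => mRic n z (fr z ij.1) (fr z ij.2)

/-- the vector with given coordinates in the frame -/
def vf (z : M) (v : F n) : TangentSpace (𝓡 n) z := ∑ j, v j • (fr z j : TangentSpace (𝓡 n) z)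

variable {u h : M → ℝ} {z : M}

lemma Hf_apply (u : M → ℝ) (z : M) (i j : Fin n) :
    Hf u z (i, j) = mHess n u z (fr z i) (fr z j) := rfl

lemma Ricf_apply (z : M) (i j : Fin n) :
    Ricf (n := n) z (i, j) = mRic n z (fr z i) (fr z j) := rfl

lemma fr_orth (z : M) (a b : Fin n) :
    inner ℝ (fr z a : TangentSpace (𝓡 n) z) (fr z b) = if a = b then (1:ℝ) else 0 :=
  inner_fr z a b

/-- the trace of the Hessian is the Laplacian. -/
theorem tr_Hf (hu : ContMDiffAt (𝓡 n) 𝓘(ℝ, ℝ) 2 u z) : tr (Hf (n := n) u z) = mLap n u z :=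
  (mLap_frame hu (fr_orth z)).symm

/-- the norm of the Hessian. -/
theorem norm_Hf_sq (hu : ContMDiffAt (𝓡 n) 𝓘(ℝ, ℝ) 2 u z) :
    ‖Hf (n := n) u z‖ ^ 2 = mHessSq n u z := by
  rw [Hes124.norm_sq_S, mHessSq_frame hu (fr_orth z)]
  rfl

theorem Hf_symm (hu : ContMDiffAt (𝓡 n) 𝓘(ℝ, ℝ) 2 u z) (i j : Fin n) :
    Hf (n := n) u z (i, j) = Hf u z (j, i) := mHess_symm hu _ _

lemma Gr_apply' (f : M → ℝ) (z : M) (j : Fin n) : Gr (n := n) f z j = dM n f z (fr z j) := rfl

lemma Gr_apply'' (f : M → ℝ) (z : M) (j : Fin n) :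
    Gr (n := n) f z j = inner ℝ (mgrad n f z) (fr z j) := by
  rw [inner_mgrad']; rfl

/-- the frame gradient is the gradient. -/
theorem vf_Gr (f : M → ℝ) (z : M) : vf z (Gr (n := n) f z) = mgrad n f z := by
  rw [mgrad_frame (fr_orth z) (mgrad n f z)]
  refine Finset.sum_congr rfl fun j _ => ?_
  rw [Gr_apply'']

/-- `⟨Gr f, Gr h⟩ = mGam`. -/
theorem inner_Gr_eq (f h : M → ℝ) (z : M) :
    inner ℝ (Gr (n := n) f z) (Gr (n := n) h z) = mGam n f h z := by
  rw [mGam_frame (fr_orth z), inner_Gr]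
  rfl

theorem norm_Gr_sq_eq (f : M → ℝ) (z : M) : ‖Gr (n := n) f z‖ ^ 2 = mGam n f f z := by
  rw [← inner_Gr_eq, real_inner_self_eq_norm_sq]

lemma mHess_vf_left (u : M → ℝ) (z : M) (v : F n) (w : TangentSpace (𝓡 n) z) :
    mHess n u z (vf z v) w = ∑ j, v j * mHess n u z (fr z j) w := by
  let L : TangentSpace (𝓡 n) z →ₗ[ℝ] ℝ :=
    { toFun := fun v => mHess n u z v w
      map_add' := fun a b => mHess_add_left u z a b w
      map_smul' := fun c a => mHess_smul_left u z c a w }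
  change L (vf z v) = ∑ j, v j * L (fr z j)
  rw [vf, map_sum]
  exact Finset.sum_congr rfl fun j _ => by rw [map_smul, smul_eq_mul]

lemma mHess_vf_right (u : M → ℝ) (z : M) (v : F n) (w : TangentSpace (𝓡 n) z) :
    mHess n u z w (vf z v) = ∑ j, v j * mHess n u z w (fr z j) := by
  let L : TangentSpace (𝓡 n) z →ₗ[ℝ] ℝ :=
    { toFun := fun v => mHess n u z w v
      map_add' := fun a b => mHess_add_right u z w a b
      map_smul' := fun c a => mHess_smul_right u z c w a }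
  change L (vf z v) = ∑ j, v j * L (fr z j)
  rw [vf, map_sum]
  exact Finset.sum_congr rfl fun j _ => by rw [map_smul, smul_eq_mul]

/-- the Hessian matrix applied to vectors. -/
theorem inner_mv_Hf (hu : ContMDiffAt (𝓡 n) 𝓘(ℝ, ℝ) 2 u z) (v w : F n) :
    ⟪mv (Hf u z) v, w⟫ = mHess n u z (vf z v) (vf z w) := by
  rw [mHess_symm hu, mHess_vf_left, PiLp.inner_apply]
  refine Finset.sum_congr rfl fun i _ => ?_
  rw [mHess_vf_right, Hes124.mv_apply]
  simp only [RCLike.inner_apply, conj_trivial]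
  congr 1
  exact Finset.sum_congr rfl fun j _ => by rw [Hf_apply, mul_comm]

lemma mv_Hf_apply (u : M → ℝ) (z : M) (v : F n) (i : Fin n) :
    mv (Hf u z) v i = mHess n u z (fr z i) (vf z v) := by
  rw [mHess_vf_right, Hes124.mv_apply]
  exact Finset.sum_congr rfl fun j _ => by rw [Hf_apply, mul_comm]

/-- the potential `½ |∇u|²`. -/
def hsq (n : ℕ) {M : Type*} [TopologicalSpace M] [ChartedSpace (EuclideanSpace ℝ (Fin n)) M]
    [RiemannianBundle (fun p : M => TangentSpace (𝓡 n) p)] (u : M → ℝ) (z : M) : ℝ :=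
  (1 / 2) * mGam n u u z

lemma mdifferentiableAt_mGam (hu : ContMDiffAt (𝓡 n) 𝓘(ℝ, ℝ) 2 u z)
    (hh : ContMDiffAt (𝓡 n) 𝓘(ℝ, ℝ) 2 h z) :
    MDifferentiableAt (𝓡 n) 𝓘(ℝ, ℝ) (mGam n u h) z :=
  (contMDiffAt_mGam (m := 1) hu hh (by norm_num) two_le_infty).mdifferentiableAt (by norm_num)

/-- gradient of `½ |∇u|²`. -/
theorem Gr_hsq (hu : ContMDiffAt (𝓡 n) 𝓘(ℝ, ℝ) 2 u z) :
    Gr (n := n) (hsq n u) z = mv (Hf u z) (Gr u z) := by
  ext i
  rw [mv_Hf_apply, vf_Gr]
  have h1 : Gr (n := n) (hsq n u) z = (1 / 2 : ℝ) • Gr (n := n) (mGam n u u) z :=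
    Gr_const_mul (1 / 2) (mdifferentiableAt_mGam hu hu)
  have h2 : Gr (n := n) (mGam n u u) z i = 2 * mHess n u z (fr z i) (mgrad n u z) := by
    have h3 := mfderiv_mGam hu hu (fr z i)
    rw [Gr_apply', dM_eq, h3]; ring
  rw [h1, PiLp.smul_apply, h2, smul_eq_mul]
  ring

lemma hsq_eq (u : M → ℝ) (z : M) : hsq n u z = ‖Gr (n := n) u z‖ ^ 2 / 2 := by
  rw [hsq, norm_Gr_sq_eq]; ring

/-! ### the Ricci form -/

lemma dCh_vf (z : M) (v : F n) : dCh z z (vf z v) = ∑ k, v k • dCh z z (fr z k) := by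
  let L : TangentSpace (𝓡 n) z →ₗ[ℝ] 𝔼 :=
    { toFun := fun w => dCh z z w
      map_add' := fun a b => (dCh z z).map_add a b
      map_smul' := fun c a => (dCh z z).map_smul c a }
  change L (vf z v) = ∑ k, v k • L (fr z k)
  rw [vf, map_sum]
  exact Finset.sum_congr rfl fun k _ => by rw [map_smul]

lemma mRic_vf_left (z : M) (v : F n) (w : TangentSpace (𝓡 n) z) :
    mRic n z (vf z v) w = ∑ k, v k * mRic n z (fr z k) w := by
  have h1 := dCh_vf z v
  simp only [mRic, h1]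
  have h2 : ∀ i, (∑ k, v k • dCh z z (fr z k) : 𝔼) i = ∑ k, v k * dCh z z (fr z k) i := by
    intro i
    rw [WithLp.ofLp_sum, Finset.sum_apply]
    rfl
  simp only [h2, Finset.mul_sum, Finset.sum_mul]
  rw [Finset.sum_comm_cycle]
  refine Finset.sum_congr rfl fun k _ => Finset.sum_congr rfl fun i _ =>
    Finset.sum_congr rfl fun j _ => by ring

lemma mRic_vf_right (z : M) (v : F n) (w : TangentSpace (𝓡 n) z) :
    mRic n z w (vf z v) = ∑ k, v k * mRic n z w (fr z k) := by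
  have h1 := dCh_vf z v
  simp only [mRic, h1]
  have h2 : ∀ i, (∑ k, v k • dCh z z (fr z k) : 𝔼) i = ∑ k, v k * dCh z z (fr z k) i := by
    intro i
    rw [WithLp.ofLp_sum, Finset.sum_apply]
    rfl
  simp only [h2, Finset.mul_sum]
  rw [Finset.sum_comm_cycle]
  refine Finset.sum_congr rfl fun k _ => Finset.sum_congr rfl fun i _ =>
    Finset.sum_congr rfl fun j _ => by ring

/-- the Ricci matrix applied to a vector. -/
theorem inner_mv_Ricf (z : M) (v : F n) :
    ⟪mv (Ricf z) v, v⟫ = mRic n z (vf z v) (vf z v) := by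
  rw [mRic_vf_left, PiLp.inner_apply]
  refine Finset.sum_congr rfl fun i _ => ?_
  rw [mRic_vf_right, Hes124.mv_apply]
  simp only [RCLike.inner_apply, conj_trivial]
  congr 1
  exact Finset.sum_congr rfl fun j _ => by rw [Ricf_apply, mul_comm]

lemma norm_vf_sq (z : M) (v : F n) : ‖vf z v‖ ^ 2 = ‖v‖ ^ 2 := by
  rw [← real_inner_self_eq_norm_sq, inner_frame (fr_orth z), EuclideanSpace.real_norm_sq_eq]
  refine Finset.sum_congr rfl fun a _ => ?_
  have h1 : (inner ℝ (vf z v) (fr z a) : ℝ) = v a := by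
    rw [vf, sum_inner]
    simp only [real_inner_smul_left, fr_orth]
    simp
  rw [h1, sq]

/-- lower bound for the Ricci matrix. -/
theorem Ricf_lb {K : ℝ} (hK : HasRicciLowerBound n M K) (z : M) (v : F n) :
    K * ‖v‖ ^ 2 ≤ ⟪mv (Ricf z) v, v⟫ := by
  rw [inner_mv_Ricf, ← norm_vf_sq z v]
  exact mRic_ge hK z (vf z v)

/-- **pointwise Bochner identity** in frame form. -/
theorem bochner_pt (hu : ContMDiffAt (𝓡 n) 𝓘(ℝ, ℝ) 3 u z) :
    mLap n (hsq n u) z = ‖Hf (n := n) u z‖ ^ 2 +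
      inner ℝ (Gr (n := n) u z) (Gr (n := n) (mLap n u) z) +
      ⟪mv (Ricf (n := n) z) (Gr (n := n) u z), Gr (n := n) u z⟫ := by
  have hu2 : ContMDiffAt (𝓡 n) 𝓘(ℝ, ℝ) 2 u z := hu.of_le (by norm_num)
  have h1 : mLap n (hsq n u) z = (1 / 2) * mLap n (mGam n u u) z :=
    mLap_const_mul (1 / 2) (contMDiffAt_mGam (m := 2) hu hu (by norm_num) three_le_infty)
  rw [h1, mBochner hu, norm_Hf_sq hu2, inner_Gr_eq, inner_mv_Ricf, vf_Gr]

end Crest.Agent.R247.Bs84
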