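import Crest.Agent.R247.Ms1_322
import Crest.Agent.R226.ChartMet_842
import Crest.Prelude.Def_PointedLimit

/-!
R247, block (0) (helper322), part 2: the metric in a chart; near a point `a₀` of the target the chart
composed with an isometry `A : (ℝⁿ, gm a₀) → ℝⁿ` is `(1+η)`-bi-Lipschitz.
-/

set_option autoImplicit false
set_option maxSynthPendingDepth 3
set_option linter.unusedSectionVars false
set_option linter.unusedVariables false

open Bundle Bornology Set MeasureTheory Manifold Filter Metric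
open scoped ENNReal ContDiff Topology NNReal
open Crest.GeometryTopology.CoordMetric Crest.GeometryTopology.ChartCurvature
open Crest.GeometryTopology.Geodesic
open Crest.Agent.R226.ChartMet842

namespace Crest.Agent.R247.Ms322

noncomputable section

variable {n : ℕ} {M : Type*} [MetricSpace M] [ChartedSpace (EuclideanSpace ℝ (Fin n)) M]
  [IsManifold (𝓡 n) ∞ M]
  [RiemannianBundle (fun p : M => TangentSpace (𝓡 n) p)]
  [IsContMDiffRiemannianBundle (𝓡 n) ∞ (EuclideanSpace ℝ (Fin n)) (fun p : M => TangentSpace (𝓡 n) p)]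

local notation "𝔼" => EuclideanSpace ℝ (Fin n)

/-- The Prelude's coordinate metric field of the bundle metric. -/
theorem chartMetric_eq (x : M) : chartMetric n M x = metricInChart (gR n M) x := by
  funext a
  ext i j
  exact (gS_apply _ _ _).symm

theorem chartMetric_apply (x : M) (a : 𝔼) (i j : Fin n) :
    chartMetric n M x a i j = gm x a (EuclideanSpace.single i 1) (EuclideanSpace.single j 1) := by
  rw [gm_apply]; rfl

theorem isRiemannianOn_chartMetric (x : M) :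
    IsRiemannianOn (chartMetric n M x) (chartAt 𝔼 x).target := by
  rw [chartMetric_eq]
  exact Crest.Agent.R244.isRiemannianOn_metricInChart (gR n M) x

theorem gm_continuousAt (x : M) {a : 𝔼} (ha : a ∈ (chartAt 𝔼 x).target) :
    ContinuousAt (gm (n := n) x) a :=
  (isLC_gm x).g_smooth.continuousOn.continuousAt ((chartAt 𝔼 x).open_target.mem_nhds ha)

theorem gm_self_nonneg (x : M) (a u : 𝔼) : 0 ≤ gm x a u u := by
  rw [← norm_sq_dS]; positivity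

theorem gm_self_pos (x : M) {a : 𝔼} (ha : a ∈ (chartAt 𝔼 x).target) {u : 𝔼} (hu : u ≠ 0) :
    0 < gm x a u u := (isLC_gm x).g_pos a ha u hu

/-- the derivative of the inverse chart as a continuous linear equivalence. -/
def dSe (x : M) {a : 𝔼} (ha : a ∈ (chartAt 𝔼 x).target) :
    𝔼 ≃ₗ[ℝ] TangentSpace (𝓡 n) ((chartAt 𝔼 x).symm a) :=
  LinearEquiv.ofBijective (dS x a : 𝔼 →ₗ[ℝ] TangentSpace (𝓡 n) ((chartAt 𝔼 x).symm a)) (by
    have hinj : Function.Injective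
        (dS x a : 𝔼 →ₗ[ℝ] TangentSpace (𝓡 n) ((chartAt 𝔼 x).symm a)) := by
      intro u v huv
      have h1 := dC_dS x ha u
      have h2 := dC_dS x ha v
      have h3 : dS x a u = dS x a v := huv
      rw [h3] at h1
      exact h1.symm.trans h2
    refine ⟨hinj, ?_⟩
    intro w
    have hz := (chartAt 𝔼 x).map_target ha
    have h := dS_dC x hz w
    refine ⟨dC x ((chartAt 𝔼 x).symm a) w, ?_⟩
    have hr : (chartAt 𝔼 x) ((chartAt 𝔼 x).symm a) = a := (chartAt 𝔼 x).right_inv ha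
    rw [hr] at h
    exact h)

theorem dSe_apply (x : M) {a : 𝔼} (ha : a ∈ (chartAt 𝔼 x).target) (u : 𝔼) :
    dSe x ha u = dS x a u := rfl

/-- An isometry from `(ℝⁿ, gm x a)` to `ℝⁿ`. -/
theorem exists_isometry (x : M) {a : 𝔼} (ha : a ∈ (chartAt 𝔼 x).target) :
    ∃ A : 𝔼 ≃L[ℝ] 𝔼, (∀ u v, inner ℝ (A u) (A v) = gm x a u v) ∧
      |(A : 𝔼 →L[ℝ] 𝔼).det| = √(chartMetric n M x a).det := by
  have hfr : Module.finrank ℝ (TangentSpace (𝓡 n) ((chartAt 𝔼 x).symm a)) = n := by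
    rw [← (dSe x ha).finrank_eq]
    exact finrank_euclideanSpace_fin
  have : FiniteDimensional ℝ (TangentSpace (𝓡 n) ((chartAt 𝔼 x).symm a)) :=
    (dSe x ha).finiteDimensional
  let b : OrthonormalBasis (Fin n) ℝ (TangentSpace (𝓡 n) ((chartAt 𝔼 x).symm a)) :=
    (stdOrthonormalBasis ℝ (TangentSpace (𝓡 n) ((chartAt 𝔼 x).symm a))).reindex (finCongr hfr)
  let A0 : 𝔼 ≃ₗ[ℝ] 𝔼 := (dSe x ha).trans b.repr.toLinearEquiv
  let A : 𝔼 ≃L[ℝ] 𝔼 := A0.toContinuousLinearEquiv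
  have hA : ∀ u v, inner ℝ (A u) (A v) = gm x a u v := by
    intro u v
    rw [gm_apply]
    exact b.repr.inner_map_map _ _
  refine ⟨A, hA, ?_⟩
  have e : (chartMetric n M x a) =
      (LinearMap.toMatrix (EuclideanSpace.basisFun (Fin n) ℝ).toBasis
        (EuclideanSpace.basisFun (Fin n) ℝ).toBasis (A : 𝔼 →ₗ[ℝ] 𝔼)).transpose *
      (LinearMap.toMatrix (EuclideanSpace.basisFun (Fin n) ℝ).toBasis
        (EuclideanSpace.basisFun (Fin n) ℝ).toBasis (A : 𝔼 →ₗ[ℝ] 𝔼)) := by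
    ext i j
    rw [chartMetric_apply, ← hA, Matrix.mul_apply]
    simp only [PiLp.inner_apply, Matrix.transpose_apply, LinearMap.toMatrix_apply]
    refine Finset.sum_congr rfl fun k _ => ?_
    simp [mul_comm]
  rw [e, Matrix.det_mul, Matrix.det_transpose, LinearMap.det_toMatrix]
  rw [← sq, Real.sqrt_sq_eq_abs]
  rfl

/-- Near `a` the quadratic form `gm x b` is within a factor `(1+η)²` of `‖A ·‖²`. -/
theorem eventually_gm_le (x : M) {a : 𝔼} (ha : a ∈ (chartAt 𝔼 x).target) {A : 𝔼 ≃L[ℝ] 𝔼}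
    (hA : ∀ u v, inner ℝ (A u) (A v) = gm x a u v) {η : ℝ} (hη : 0 < η) :
    ∀ᶠ b in 𝓝 a, ∀ v, gm x b v v ≤ ((1 + η) * ‖A v‖) ^ 2 ∧ ‖A v‖ ^ 2 ≤ (1 + η) ^ 2 * gm x b v v := by
  set K : ℝ := ‖(A.symm : 𝔼 →L[ℝ] 𝔼)‖ with hK
  have hK0 : 0 ≤ K := norm_nonneg _
  have hv : ∀ v : 𝔼, ‖v‖ ≤ K * ‖A v‖ := by
    intro v
    have := (A.symm : 𝔼 →L[ℝ] 𝔼).le_opNorm (A v)
    simpa using this
  set ε : ℝ := η / (1 + η) with hε
  have hε0 : 0 < ε := by positivity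
  have hδ : 0 < ε / (K ^ 2 + 1) := by positivity
  have hc := (gm_continuousAt (n := n) x ha)
  have hev := (Metric.tendsto_nhds.1 hc.tendsto) _ hδ
  filter_upwards [hev] with b hb v
  rw [dist_eq_norm] at hb
  have h1 : |gm x b v v - gm x a v v| ≤ ε * ‖A v‖ ^ 2 := by
    have h2 : |(gm x b - gm x a) v v| ≤ ‖gm x b - gm x a‖ * ‖v‖ * ‖v‖ := by
      rw [← Real.norm_eq_abs]
      exact (gm x b - gm x a).le_opNorm₂ v v
    have h3 : (gm x b - gm x a) v v = gm x b v v - gm x a v v := rfl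
    rw [h3] at h2
    have h4 : ‖v‖ * ‖v‖ ≤ (K * ‖A v‖) * (K * ‖A v‖) :=
      mul_le_mul (hv v) (hv v) (norm_nonneg _) (by positivity)
    have h5 : ‖gm x b - gm x a‖ * (K ^ 2 + 1) ≤ ε := by
      rw [← le_div_iff₀ (by positivity)]; exact hb.le
    calc |gm x b v v - gm x a v v| ≤ ‖gm x b - gm x a‖ * (‖v‖ * ‖v‖) := by rw [← mul_assoc]; exact h2
      _ ≤ ‖gm x b - gm x a‖ * ((K * ‖A v‖) * (K * ‖A v‖)) := by gcongr
      _ = (‖gm x b - gm x a‖ * K ^ 2) * ‖A v‖ ^ 2 := by ring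
      _ ≤ ε * ‖A v‖ ^ 2 := by
          gcongr
          nlinarith [norm_nonneg (gm x b - gm x a)]
  have h6 : gm x a v v = ‖A v‖ ^ 2 := by rw [← hA, real_inner_self_eq_norm_sq]
  rw [h6, abs_le] at h1
  have h7 : (0 : ℝ) ≤ ‖A v‖ ^ 2 := by positivity
  have h8 : ε ≤ η := by
    rw [hε, div_le_iff₀ (by positivity)]; nlinarith
  have h9 : (1 + η) ^ 2 * (1 - ε) = 1 + η := by
    rw [hε]; field_simp; ring
  constructor
  · have : (1 + ε) ≤ (1 + η) ^ 2 := by nlinarith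
    calc gm x b v v ≤ (1 + ε) * ‖A v‖ ^ 2 := by linarith
      _ ≤ (1 + η) ^ 2 * ‖A v‖ ^ 2 := by gcongr
      _ = ((1 + η) * ‖A v‖) ^ 2 := by ring
  · calc ‖A v‖ ^ 2 ≤ (1 + η) * ‖A v‖ ^ 2 := by nlinarith
      _ = (1 + η) ^ 2 * ((1 - ε) * ‖A v‖ ^ 2) := by rw [← mul_assoc, h9]
      _ ≤ (1 + η) ^ 2 * gm x b v v := by
          gcongr
          linarith

/-- The chart at `x`, composed with the isometry `A` of `gm x a`, is `(1+η)`-bi-Lipschitz near `a`. -/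
theorem exists_bilip [IsRiemannianManifold (𝓡 n) M] (x : M) {a : 𝔼}
    (ha : a ∈ (chartAt 𝔼 x).target) {A : 𝔼 ≃L[ℝ] 𝔼}
    (hA : ∀ u v, inner ℝ (A u) (A v) = gm x a u v) {η : ℝ≥0} (hη : 0 < η) :
    ∃ r : ℝ, 0 < r ∧ ball a r ⊆ (chartAt 𝔼 x).target ∧
      LipschitzOnWith (1 + η) (fun w => (chartAt 𝔼 x).symm (A.symm w)) (A '' ball a r) ∧
      LipschitzOnWith (1 + η) (fun z => A (chartAt 𝔼 x z)) ((chartAt 𝔼 x).symm '' ball a r) := by
  have hη' : (0 : ℝ) < η := hη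
  have hev := eventually_gm_le x ha hA hη'
  obtain ⟨r, hr0, hr⟩ : ∃ r > 0, ball a r ⊆ (chartAt 𝔼 x).target ∩ {b | ∀ v, gm x b v v ≤
      ((1 + (η : ℝ)) * ‖A v‖) ^ 2 ∧ ‖A v‖ ^ 2 ≤ (1 + (η : ℝ)) ^ 2 * gm x b v v} :=
    Metric.mem_nhds_iff.1 (inter_mem ((chartAt 𝔼 x).open_target.mem_nhds ha) hev)
  have hrt : ball a r ⊆ (chartAt 𝔼 x).target := hr.trans inter_subset_left
  have hAimg : IsOpen (A '' ball a r) := A.isOpenMap _ isOpen_ball
  -- the set `u` in `M`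
  set u : Set M := (chartAt 𝔼 x).symm '' ball a r with hu
  have huo : IsOpen u := (chartAt 𝔼 x).symm.isOpen_image_of_subset_source isOpen_ball hrt
  have hus : u ⊆ (chartAt 𝔼 x).source := by
    rintro _ ⟨b, hb, rfl⟩
    exact (chartAt 𝔼 x).map_target (hrt hb)
  -- Lipschitz bound 1
  have hL1 : LipschitzOnWith (1 + η) (fun w => (chartAt 𝔼 x).symm (A.symm w)) (A '' ball a r) := by
    intro w1 hw1 w2 hw2
    have hconv : Convex ℝ (A '' ball a r) := (convex_ball a r).linear_image (A : 𝔼 →ₗ[ℝ] 𝔼)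
    have hmaps : MapsTo (fun w => A.symm w) (A '' ball a r) (chartAt 𝔼 x).target := by
      rintro _ ⟨b, hb, rfl⟩
      simpa using hrt hb
    have hsm : ContMDiffOn 𝓘(ℝ, 𝔼) (𝓡 n) 1 (fun w => (chartAt 𝔼 x).symm (A.symm w))
        (A '' ball a r) := by
      have h1 : ContMDiffOn 𝓘(ℝ, 𝔼) (𝓡 n) 1 (chartAt 𝔼 x).symm (chartAt 𝔼 x).target :=
        (contMDiffOn_chart_symm (n := ∞)).of_le (by exact_mod_cast le_top)
      have h2 : ContMDiff 𝓘(ℝ, 𝔼) 𝓘(ℝ, 𝔼) 1 (fun w => A.symm w) :=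
        (A.symm.contDiff (n := 1)).contMDiff
      exact h1.comp h2.contMDiffOn hmaps
    refine edist_le_of_convex (I := 𝓡 n) hconv hAimg hsm ?_ hw1 hw2
    rintro _ ⟨b, hb, rfl⟩ v
    have hd : HasMFDerivAt 𝓘(ℝ, 𝔼) (𝓡 n) (fun w => (chartAt 𝔼 x).symm (A.symm w)) (A b)
        ((dS x (A.symm (A b))).comp (A.symm : 𝔼 →L[ℝ] 𝔼)) := by
      have h2 : HasMFDerivAt 𝓘(ℝ, 𝔼) 𝓘(ℝ, 𝔼) (fun w => A.symm w) (A b)
          (A.symm : 𝔼 →L[ℝ] 𝔼) := (A.symm : 𝔼 →L[ℝ] 𝔼).hasFDerivAt.hasMFDerivAt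
      have h1 : HasMFDerivAt 𝓘(ℝ, 𝔼) (𝓡 n) (chartAt 𝔼 x).symm (A.symm (A b))
          (dS x (A.symm (A b))) :=
        ((mdifferentiable_chart' x).symm.mdifferentiableAt (by simpa using hrt hb)).hasMFDerivAt
      exact h1.comp (A b) h2
    rw [hd.mfderiv]
    have h4 : ‖dS x (A.symm (A b)) (A.symm v)‖ ≤ (1 + (η : ℝ)) * ‖v‖ := by
      have h5 := norm_sq_dS (n := n) x (A.symm (A b)) (A.symm v)
      have h6 := ((hr hb).2 (A.symm v)).1
      rw [A.apply_symm_apply] at h6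
      have h7 : gm (n := n) x (A.symm (A b)) = gm x b := by rw [A.symm_apply_apply]
      rw [h7] at h5
      refine le_of_sq_le_sq ?_ (by positivity)
      rw [h5]
      exact h6
    refine le_trans (le_of_eq (?_ : _ = ENNReal.ofReal ‖dS x (A.symm (A b)) (A.symm v)‖)) ?_
    · exact (ofReal_norm _).symm
    calc ENNReal.ofReal ‖dS x (A.symm (A b)) (A.symm v)‖ ≤ ENNReal.ofReal ((1 + (η : ℝ)) * ‖v‖) :=
          ENNReal.ofReal_le_ofReal h4
      _ = ((1 + η : ℝ≥0) : ℝ≥0∞) * ENNReal.ofReal ‖v‖ := by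
          rw [ENNReal.ofReal_mul (by positivity)]
          congr 1
          rw [ENNReal.ofReal_add (by norm_num) (by positivity)]
          simp
      _ = _ := by rw [ofReal_norm]
  -- Lipschitz bound 2
  have hg1 : ContMDiffOn (𝓡 n) 𝓘(ℝ, 𝔼) 1 (fun z => A (chartAt 𝔼 x z)) u := by
    have h1 : ContMDiffOn (𝓡 n) 𝓘(ℝ, 𝔼) 1 (chartAt 𝔼 x) (chartAt 𝔼 x).source :=
      (contMDiffOn_chart (n := ∞)).of_le (by exact_mod_cast le_top)
    have h2 : ContMDiff 𝓘(ℝ, 𝔼) 𝓘(ℝ, 𝔼) 1 (fun w => A w) := (A.contDiff (n := 1)).contMDiff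
    exact h2.comp_contMDiffOn (h1.mono hus)
  have hg2 : ∀ z ∈ u, ∀ v : TangentSpace (𝓡 n) z, ∀ w : 𝔼,
      mfderiv (𝓡 n) 𝓘(ℝ, 𝔼) (fun z => A (chartAt 𝔼 x z)) z v = w →
      ‖w‖ₑ ≤ ((1 + η : ℝ≥0) : ℝ≥0∞) * ‖v‖ₑ := by
    rintro z hz v w hw
    have hzs := hus hz
    have hd : HasMFDerivAt (𝓡 n) 𝓘(ℝ, 𝔼) (fun z => A (chartAt 𝔼 x z)) z
        ((A : 𝔼 →L[ℝ] 𝔼).comp (dC x z)) := by
      have h1 : HasMFDerivAt (𝓡 n) 𝓘(ℝ, 𝔼) (chartAt 𝔼 x) z (dC x z) :=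
        ((mdifferentiable_chart' x).mdifferentiableAt hzs).hasMFDerivAt
      have h2 : HasMFDerivAt 𝓘(ℝ, 𝔼) 𝓘(ℝ, 𝔼) (fun w => A w) (chartAt 𝔼 x z)
          (A : 𝔼 →L[ℝ] 𝔼) := (A : 𝔼 →L[ℝ] 𝔼).hasFDerivAt.hasMFDerivAt
      exact h2.comp z h1
    have hmem : chartAt 𝔼 x z ∈ ball a r := by
      obtain ⟨b, hb, rfl⟩ := hz
      rwa [(chartAt 𝔼 x).right_inv (hrt hb)]
    have h4 : ‖A (dC x z v)‖ ≤ (1 + (η : ℝ)) * ‖v‖ := by
      have h5 := norm_sq_eq_gm (n := n) x hzs v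
      have h6 := ((hr hmem).2 (dC x z v)).2
      rw [← h5] at h6
      refine le_of_sq_le_sq ?_ (by positivity)
      rw [mul_pow]
      exact h6
    have h5 : w = A (dC x z v) := by
      rw [← hw, hd.mfderiv]; rfl
    rw [h5, ← ofReal_norm, ← ofReal_norm]
    calc ENNReal.ofReal ‖A (dC x z v)‖ ≤ ENNReal.ofReal ((1 + (η : ℝ)) * ‖v‖) :=
          ENNReal.ofReal_le_ofReal h4
      _ = ((1 + η : ℝ≥0) : ℝ≥0∞) * ENNReal.ofReal ‖v‖ := by
          rw [ENNReal.ofReal_mul (by positivity)]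
          congr 1
          rw [ENNReal.ofReal_add (by norm_num) (by positivity)]
          simp
  have hau : (chartAt 𝔼 x).symm a ∈ u := ⟨a, mem_ball_self hr0, rfl⟩
  obtain ⟨V, hV, hVu, hL2⟩ := exists_lipschitzOnWith_of_bound' (I := 𝓡 n) (F := 𝔼)
    (C := 1 + η) (by positivity) huo hg1 hg2 hau
  have hcont : ContinuousAt (chartAt 𝔼 x).symm a := (chartAt 𝔼 x).continuousAt_symm ha
  obtain ⟨r', hr'0, hr'⟩ := Metric.mem_nhds_iff.1 (hcont.preimage_mem_nhds hV)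
  refine ⟨min r r', lt_min hr0 hr'0, (ball_subset_ball (min_le_left _ _)).trans hrt, ?_, ?_⟩
  · exact hL1.mono (image_mono (ball_subset_ball (min_le_left _ _)))
  · refine hL2.mono ?_
    rintro _ ⟨b, hb, rfl⟩
    exact hr' (ball_subset_ball (min_le_right _ _) hb)

end

end Crest.Agent.R247.Ms322
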