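import Crest.Agent.R247.Bs1_342
import Crest.Agent.R247.Lc2_582
import Crest.Agent.R247.Ms2_322

/-!
R247 (helper342), block (1-B), file 2: the infinitesimal inequality for the gradient flow of `f` in
coordinates: `(L_{∇f} g)(ζ,ζ) = 2 Hess f(ζ,ζ) ≥ 2 (1 - |Hess f - g|) g(ζ,ζ)`.
-/

set_option autoImplicit false
set_option maxSynthPendingDepth 3

open scoped ContDiff Topology Manifold
open Filter Set
open Crest.GeometryTopology.CoordMetric Crest.GeometryTopology.ChartCurvature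
open Crest.Agent.R202.Tens
open Crest.Agent.R247.Bo84 Crest.Agent.R247.Lc582

noncomputable section

namespace Crest.Agent.R247.Bs342

variable {n : ℕ}

local notation "𝔼" => EuclideanSpace ℝ (Fin n)

variable {g : MetricField n} {U : Set (EuclideanSpace ℝ (Fin n))} {x : EuclideanSpace ℝ (Fin n)}

/-- `(Hess f (X,Y) - ⟨X,Y⟩)² ≤ |Hess f - g|² |X|² |Y|²`. -/
theorem dev_sq_le (hg : IsRiemannianOn g U) (hx : x ∈ U) {f : 𝔼 → ℝ}
    (hf : ContDiffAt ℝ 2 f x) (X Y : 𝔼) :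
    (hess g f x X Y - bil (g x) X Y) ^ 2 ≤ hessDev g f x * bil (g x) X X * bil (g x) Y Y := by
  obtain ⟨ξ, hξ⟩ := exists_frame hg hx
  set p : Fin n → ℝ := fun a => bil (g x) X (ξ a) with hp
  set q : Fin n → ℝ := fun a => bil (g x) Y (ξ a) with hq
  set B : 𝔼 →L[ℝ] 𝔼 →L[ℝ] ℝ := hess g f x - bil (g x) with hB
  have hBX : ∀ X Y, B X Y = hess g f x X Y - bil (g x) X Y := by
    intro X Y; rw [hB]; rfl
  have h1 : B X Y = ∑ ab : Fin n × Fin n, B (ξ ab.1) (ξ ab.2) * (p ab.1 * q ab.2) := by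
    rw [Fintype.sum_prod_type]
    have e1 : B X = ∑ a, p a • B (ξ a) := by
      conv_lhs => rw [hξ.expand hg hx X]
      rw [map_sum]
      exact Finset.sum_congr rfl fun a _ => map_smul _ _ _
    rw [e1, sum_apply]
    refine Finset.sum_congr rfl fun a _ => ?_
    rw [smul_apply]
    conv_lhs => rw [hξ.expand hg hx Y]
    rw [map_sum, Finset.smul_sum]
    refine Finset.sum_congr rfl fun b _ => ?_
    rw [map_smul, smul_eq_mul, smul_eq_mul]
    ring
  rw [← hBX, h1, hessDev_frame hg hx hf hξ, hξ.bil_eq hg hx X X, hξ.bil_eq hg hx Y Y]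
  refine (Finset.sum_mul_sq_le_sq_mul_sq _ _ _).trans (le_of_eq ?_)
  rw [Fintype.sum_prod_type, Fintype.sum_prod_type, mul_assoc]
  congr 1
  · refine Finset.sum_congr rfl fun a _ => Finset.sum_congr rfl fun b _ => ?_
    rw [hBX, hξ.orth]
  rw [Finset.sum_mul_sum]
  refine Finset.sum_congr rfl fun a _ => Finset.sum_congr rfl fun b _ => ?_
  simp only [hp, hq]
  ring

theorem hess_self_ge (hg : IsRiemannianOn g U) (hx : x ∈ U) {f : 𝔼 → ℝ}
    (hf : ContDiffAt ℝ 2 f x) (X : 𝔼) :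
    (1 - √(hessDev g f x)) * bil (g x) X X ≤ hess g f x X X := by
  have h1 := dev_sq_le hg hx hf X X
  have h0 : 0 ≤ bil (g x) X X := bil_self_nonneg hg hx X
  have h2 : (hess g f x X X - bil (g x) X X) ^ 2 ≤ (√(hessDev g f x) * bil (g x) X X) ^ 2 := by
    rw [mul_pow, Real.sq_sqrt (hessDev_nonneg hg hx hf)]
    calc _ ≤ _ := h1
      _ = _ := by ring
  have h3 := abs_le_of_sq_le_sq h2 (by positivity)
  linarith [(abs_le.1 h3).1]

theorem Gf_apply' (g : MetricField n) (y X Y : 𝔼) : Gf g y X Y = bil (g y) X Y := rfl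

/-- **the Lie derivative of the metric along a gradient field** -/
theorem lieq_grad (hg : IsRiemannianOn g U) (hx : x ∈ U) {f : 𝔼 → ℝ}
    (hf : ContDiffAt ℝ 2 f x) (ζ : 𝔼) :
    lieq (Gf g) (grad g f) (fderiv ℝ (grad g f) x) x ζ = 2 * hess g f x ζ ζ := by
  have h1 := metric_compat hg hx (grad g f x) ζ ζ
  have h2 : hessE g f x ζ = fderiv ℝ (grad g f) x ζ + Gam g x (grad g f x) ζ := by
    rw [hessE_apply, Gam_symm hg hx]
  have h3 := bil_hessE hg hx hf ζ ζ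
  have h4 := bil_symm hg hx ζ (hessE g f x ζ)
  rw [h3] at h4
  unfold lieq
  rw [Gf_apply', Gf_apply', h1]
  rw [h2, map_add, add_apply] at h3
  rw [h2, map_add] at h4
  linarith

theorem lieq_lower (hg : IsRiemannianOn g U) (hx : x ∈ U) {f : 𝔼 → ℝ}
    (hf : ContDiffAt ℝ 2 f x) (ζ : 𝔼) :
    2 * (1 - √(hessDev g f x)) * Gf g x ζ ζ ≤
      lieq (Gf g) (grad g f) (fderiv ℝ (grad g f) x) x ζ := by
  rw [lieq_grad hg hx hf, Gf_apply']
  have := hess_self_ge hg hx hf ζ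
  linarith

theorem contDiffAt_Gf (hg : IsRiemannianOn g U) (hx : x ∈ U) : ContDiffAt ℝ ∞ (Gf g) x := by
  have h : Gf g = fun y => ∑ i, ∑ j, g y i j • eij i j := rfl
  rw [h]
  refine ContDiffAt.sum fun i _ => ContDiffAt.sum fun j _ => ?_
  exact (contDiffAt_entry hg hx i j).smul contDiffAt_const

/-- **local differential inequality** for two solutions of the gradient flow near `x` -/
theorem grad_near (hg : IsRiemannianOn g U) (hx : x ∈ U) {f : 𝔼 → ℝ}
    (hf : ContDiffAt ℝ ∞ f x) {c : ℝ} (hc : 0 < c) (hco : ∀ ζ, c * ‖ζ‖ ^ 2 ≤ bil (g x) ζ ζ)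
    {ε : ℝ} (hε : 0 < ε) :
    ∀ᶠ r : 𝔼 × 𝔼 in 𝓝 (x, x), (2 * (1 - √(hessDev g f x)) - ε) * Gf g r.1 (r.2 - r.1) (r.2 - r.1) ≤
      fderiv ℝ (Gf g) r.1 (grad g f r.1) (r.2 - r.1) (r.2 - r.1) +
        Gf g r.1 (grad g f r.2 - grad g f r.1) (r.2 - r.1) +
        Gf g r.1 (r.2 - r.1) (grad g f r.2 - grad g f r.1) := by
  have hf2 : ContDiffAt ℝ 2 f x := hf.of_le (by norm_cast)
  have h1 : ContDiffAt ℝ 1 (grad g f) x := contDiffAt_grad hg hx hf2 (by norm_num) (by simp)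
  have h2 : HasStrictFDerivAt (grad g f) (fderiv ℝ (grad g f) x) x :=
    h1.hasStrictFDerivAt (by norm_num)
  have h3 := contDiffAt_Gf hg hx
  have h4 : ContinuousAt (fderiv ℝ (Gf g)) x :=
    (h3.fderiv_right (m := 0) (by norm_cast)).continuousAt
  exact lie_near h2 h3.continuousAt h4 hc hco (fun ζ => lieq_lower hg hx hf2 ζ) hε

end Crest.Agent.R247.Bs342
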