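import Crest.Agent.R247.Bs1_84
import Crest.Agent.R247.Hes2_124

/-!
Row 247, block (5-B), pointwise part 2 (helper84): regularity, boundedness and measurability of the
frame Hessian and of the frame Ricci form; the smooth core of compactly supported functions.
-/

set_option autoImplicit false
set_option maxSynthPendingDepth 3
set_option linter.unusedSectionVars false

open scoped ContDiff Topology Manifold RealInnerProductSpace NNReal
open Filter Set Bundle MeasureTheory Metric
open Crest.GeometryTopology.CoordMetric Crest.GeometryTopology.ChartCurvature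
  Crest.GeometryTopology.PointedLimit
open Crest.Agent.R202.Tens Crest.Agent.R247.Bo84 Crest.Agent.R247.Ms322
open Crest.Agent.R247.Hes124 (F S mv tr idm)
open Crest.Agent.R247.Dir593.GradS (IsT)

noncomputable section

namespace Crest.Agent.R247.Bs84

section Coord

variable {n : ℕ}

local notation "𝔼" => EuclideanSpace ℝ (Fin n)

variable {g : MetricField n} {U : Set (EuclideanSpace ℝ (Fin n))} {x : EuclideanSpace ℝ (Fin n)}
  {f : EuclideanSpace ℝ (Fin n) → ℝ}

lemma contDiffAt_hessE (hg : IsRiemannianOn g U) (hx : x ∈ U) {a m : WithTop ℕ∞}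
    (hf : ContDiffAt ℝ a f x) (h : m + 2 ≤ a) (hm : m + 1 ≤ ∞) :
    ContDiffAt ℝ m (hessE g f) x := by
  have h1 : m + 1 + 1 ≤ a := by
    rw [add_assoc]; norm_num; exact h
  have h2 : ContDiffAt ℝ (m + 1) (grad g f) x := contDiffAt_grad hg hx hf h1 hm
  exact contDiffAt_cov hg hx h2 le_rfl (le_self_add.trans hm)

lemma contDiffAt_hessSq (hg : IsRiemannianOn g U) (hx : x ∈ U) {a m : WithTop ℕ∞}
    (hf : ContDiffAt ℝ a f x) (h : m + 2 ≤ a) (hm : m + 1 ≤ ∞) :
    ContDiffAt ℝ m (hessSq g f) x := by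
  have h1 := contDiffAt_hessE hg hx hf h hm
  exact trL.contDiff.contDiffAt.comp x (h1.clm_comp h1)

lemma contDiffAt_hess (hg : IsRiemannianOn g U) (hx : x ∈ U) {a m : WithTop ℕ∞}
    (hf : ContDiffAt ℝ a f x) (h : m + 2 ≤ a) (hm : m ≤ ∞) :
    ContDiffAt ℝ m (hess g f) x := by
  have h1 : m + 1 + 1 ≤ a := by
    rw [add_assoc]; norm_num; exact h
  have h2 : ContDiffAt ℝ (m + 1) (fderiv ℝ f) x := hf.fderiv_right h1
  have h3 : ContDiffAt ℝ m (fderiv ℝ (fderiv ℝ f)) x := h2.fderiv_right le_rfl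
  refine h3.sub ?_
  refine ContDiffAt.clm_comp ?_ ((contDiffAt_Gam hg hx).of_le hm)
  exact (ContinuousLinearMap.contDiff _).contDiffAt.comp x (h2.of_le le_self_add)

end Coord

variable {n : ℕ} {M : Type*} [MetricSpace M] [ChartedSpace (EuclideanSpace ℝ (Fin n)) M]
  [IsManifold (𝓡 n) ∞ M]
  [RiemannianBundle (fun p : M => TangentSpace (𝓡 n) p)]
  [IsContMDiffRiemannianBundle (𝓡 n) ∞ (EuclideanSpace ℝ (Fin n))
    (fun p : M => TangentSpace (𝓡 n) p)]

local notation "𝔼" => EuclideanSpace ℝ (Fin n)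

/-- continuity from the charts -/
lemma continuousAt_of_chart {α : Type*} [TopologicalSpace α] {F : M → α} {x : M} {z : M}
    (hz : z ∈ (chartAt 𝔼 x).source)
    (h : ContinuousAt (fun y => F ((chartAt 𝔼 x).symm y)) (chartAt 𝔼 x z)) : ContinuousAt F z := by
  have h1 : ContinuousAt (fun p => F ((chartAt 𝔼 x).symm (chartAt 𝔼 x p))) z :=
    ContinuousAt.comp (f := chartAt 𝔼 x) (x := z) h ((chartAt 𝔼 x).continuousAt hz)
  refine h1.congr ?_
  filter_upwards [(chartAt 𝔼 x).open_source.mem_nhds hz] with p hp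
  rw [(chartAt 𝔼 x).left_inv hp]

theorem continuousAt_mHessSq {f : M → ℝ} {z : M} (hf : ContMDiffAt (𝓡 n) 𝓘(ℝ, ℝ) 2 f z) :
    ContinuousAt (mHessSq n f) z := by
  have hz : z ∈ (chartAt 𝔼 z).source := mem_chart_source 𝔼 z
  have ht : chartAt 𝔼 z z ∈ (chartAt 𝔼 z).target := (chartAt 𝔼 z).map_source hz
  refine continuousAt_of_chart hz ?_
  have hfs : ContMDiffAt (𝓡 n) 𝓘(ℝ, ℝ) 2 f ((chartAt 𝔼 z).symm (chartAt 𝔼 z z)) := by
    rw [(chartAt 𝔼 z).left_inv hz]; exact hf
  have h1 : ContDiffAt ℝ 2 (inCh n z f) (chartAt 𝔼 z z) := contDiffAt_inCh two_le_infty ht hfs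
  have h2 : ContDiffAt ℝ 0 (hessSq (chartMetric n M z) (inCh n z f)) (chartAt 𝔼 z z) :=
    contDiffAt_hessSq (Bo84.isRiemannianOn_chartMetric z) ht h1 (by norm_num)
      (by norm_num)
  refine h2.continuousAt.congr ?_
  have h3 : ∀ᶠ p in 𝓝 z, ContMDiffAt (𝓡 n) 𝓘(ℝ, ℝ) 2 f p := by
    have : IsManifold (𝓡 n) 2 M := IsManifold.of_le two_le_infty
    exact (contMDiffAt_iff_contMDiffAt_nhds (by norm_num)).1 hf
  have h4 : ∀ᶠ y in 𝓝 (chartAt 𝔼 z z),
      ContMDiffAt (𝓡 n) 𝓘(ℝ, ℝ) 2 f ((chartAt 𝔼 z).symm y) := by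
    have := (chartAt 𝔼 z).continuousAt_symm ht
    refine this.eventually ?_
    rw [(chartAt 𝔼 z).left_inv hz]; exact h3
  filter_upwards [h4, (chartAt 𝔼 z).open_target.mem_nhds ht] with y hy hyt
  exact (mHessSq_chart hyt hy).symm

/-- a function `C¹` near `z` is Lipschitz near `z`. -/
theorem exists_lipschitzOnWith_of_contMDiffAt [IsRiemannianManifold (𝓡 n) M] {f : M → ℝ} {z : M}
    (hf : ContMDiffAt (𝓡 n) 𝓘(ℝ, ℝ) 1 f z) : ∃ K : ℝ≥0, ∃ t ∈ 𝓝 z, LipschitzOnWith K f t := by
  set a : 𝔼 := chartAt 𝔼 z z with ha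
  have hz : z ∈ (chartAt 𝔼 z).source := mem_chart_source 𝔼 z
  have hat : a ∈ (chartAt 𝔼 z).target := (chartAt 𝔼 z).map_source hz
  have hza : (chartAt 𝔼 z).symm a = z := (chartAt 𝔼 z).left_inv hz
  obtain ⟨A, hA, _⟩ := exists_isometry (n := n) z hat
  obtain ⟨r, hr0, hrt, _, hL⟩ := exists_bilip (n := n) z hat hA (η := 1) one_pos
  have hF : ContDiffAt ℝ 1 (inCh n z f) a := contDiffAt_inCh one_le_infty hat (by rw [hza]; exact hf)
  have hH : ContDiffAt ℝ 1 (fun w => inCh n z f (A.symm w)) (A a) := by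
    refine ContDiffAt.comp (g := inCh n z f) (f := fun w => A.symm w) (A a) ?_
      A.symm.contDiff.contDiffAt
    rw [A.symm_apply_apply]; exact hF
  obtain ⟨K, t, ht, hK⟩ := hH.exists_lipschitzOnWith
  have hmaps : MapsTo (fun y => A (chartAt 𝔼 z y))
      ((chartAt 𝔼 z).symm '' ball a r ∩ (fun y => A (chartAt 𝔼 z y)) ⁻¹' t) t :=
    fun y hy => hy.2
  refine ⟨K * (1 + 1), (chartAt 𝔼 z).symm '' ball a r ∩ (fun y => A (chartAt 𝔼 z y)) ⁻¹' t,
    ?_, ?_⟩
  · refine inter_mem ?_ ?_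
    · have ho : IsOpen ((chartAt 𝔼 z).symm '' ball a r) :=
        (chartAt 𝔼 z).symm.isOpen_image_of_subset_source isOpen_ball hrt
      exact ho.mem_nhds ⟨a, mem_ball_self hr0, hza⟩
    · have hc : ContinuousAt (fun y => A (chartAt 𝔼 z y)) z :=
        A.continuous.continuousAt.comp ((chartAt 𝔼 z).continuousAt hz)
      exact hc.preimage_mem_nhds ht
  · have h1 := hK.comp (hL.mono inter_subset_left) hmaps
    intro p hp q hq
    have e : ∀ y ∈ (chartAt 𝔼 z).symm '' ball a r,
        inCh n z f (A.symm (A (chartAt 𝔼 z y))) = f y := by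
      rintro _ ⟨b, hb, rfl⟩
      rw [A.symm_apply_apply, (chartAt 𝔼 z).right_inv (hrt hb)]
      rfl
    have h2 := h1 hp hq
    simp only [Function.comp_apply] at h2
    rwa [e p hp.1, e q hq.1] at h2

/-- a `C¹` function is locally Lipschitz. -/
theorem locallyLipschitz_of_contMDiff [IsRiemannianManifold (𝓡 n) M] {f : M → ℝ}
    (hf : ContMDiff (𝓡 n) 𝓘(ℝ, ℝ) 1 f) : LocallyLipschitz f :=
  fun z => exists_lipschitzOnWith_of_contMDiffAt (hf z)

/-! ### the smooth core -/

/-- smooth functions with compact support -/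
def core (n : ℕ) (M : Type*) [TopologicalSpace M] [ChartedSpace (EuclideanSpace ℝ (Fin n)) M] :
    Set (M → ℝ) := {u | ContMDiff (𝓡 n) 𝓘(ℝ, ℝ) ∞ u ∧ HasCompactSupport u}

variable {u v : M → ℝ}

lemma core_at (hu : u ∈ core n M) {k : WithTop ℕ∞} (hk : k ≤ ∞) (z : M) :
    ContMDiffAt (𝓡 n) 𝓘(ℝ, ℝ) k u z := (hu.1 z).of_le hk

theorem core_isT [IsRiemannianManifold (𝓡 n) M] (hu : u ∈ core n M) : IsT u :=
  ⟨locallyLipschitz_of_contMDiff (hu.1.of_le one_le_infty), hu.2⟩

theorem core_sub (hu : u ∈ core n M) (hv : v ∈ core n M) : (fun x => u x - v x) ∈ core n M := by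
  refine ⟨hu.1.sub hv.1, ?_⟩
  have h1 : HasCompactSupport (fun x => u x + (-1) * v x) := hu.2.add hv.2.mul_left
  have e : (fun x => u x - v x) = fun x => u x + (-1) * v x := by
    funext x; ring
  rw [e]; exact h1

theorem core_mul (hu : u ∈ core n M) (hv : ContMDiff (𝓡 n) 𝓘(ℝ, ℝ) ∞ v) :
    (fun x => u x * v x) ∈ core n M := ⟨hu.1.mul hv, hu.2.mul_right⟩

theorem contMDiff_mGam (hu : ContMDiff (𝓡 n) 𝓘(ℝ, ℝ) ∞ u) (hv : ContMDiff (𝓡 n) 𝓘(ℝ, ℝ) ∞ v) :
    ContMDiff (𝓡 n) 𝓘(ℝ, ℝ) ∞ (mGam n u v) :=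
  fun z => contMDiffAt_mGam (hu z) (hv z) (by simp) (by simp)

theorem contMDiff_mLap (hu : ContMDiff (𝓡 n) 𝓘(ℝ, ℝ) ∞ u) :
    ContMDiff (𝓡 n) 𝓘(ℝ, ℝ) ∞ (mLap n u) :=
  fun z => contMDiffAt_mLap (hu z) (by simp) (by simp)

lemma eventually_zero {z : M} (hz : z ∉ tsupport u) : u =ᶠ[𝓝 z] fun _ => (0 : ℝ) :=
  notMem_tsupport_iff_eventuallyEq.1 hz

lemma mGam_eq_zero {z : M} (hz : z ∉ tsupport u) : mGam n u v z = 0 := by
  rw [mGam_congr (eventually_zero hz) (Filter.EventuallyEq.refl _ v), mGam_const_left]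

lemma mLap_eq_zero {z : M} (hz : z ∉ tsupport u) : mLap n u z = 0 := by
  rw [mLap_congr (eventually_zero hz), mLap_const]

theorem core_hsq (hu : u ∈ core n M) : hsq n u ∈ core n M := by
  refine ⟨contMDiff_const.mul (contMDiff_mGam hu.1 hu.1), ?_⟩
  refine HasCompactSupport.intro hu.2.isCompact fun z hz => ?_
  rw [hsq, mGam_eq_zero hz, mul_zero]

theorem core_mLap (hu : u ∈ core n M) : mLap n u ∈ core n M :=
  ⟨contMDiff_mLap hu.1, HasCompactSupport.intro hu.2.isCompact fun _ hz => mLap_eq_zero hz⟩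

theorem core_mGam (hu : u ∈ core n M) (hv : ContMDiff (𝓡 n) 𝓘(ℝ, ℝ) ∞ v) :
    mGam n u v ∈ core n M :=
  ⟨contMDiff_mGam hu.1 hv, HasCompactSupport.intro hu.2.isCompact fun _ hz => mGam_eq_zero hz⟩

lemma mHess_const (c : ℝ) (z : M) (v w : TangentSpace (𝓡 n) z) :
    mHess n (fun _ : M => c) z v w = 0 := by
  have e : inCh n z (fun _ : M => c) = fun _ => c := rfl
  rw [mHess, e, hess_apply]
  have h1 : fderiv ℝ (fun _ : 𝔼 => c) = fun _ => 0 := by
    funext y; exact fderiv_const_apply c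
  rw [h1]
  simp

section Chart

variable {x₀ : M}

lemma mRic_congr_point {p q : M} (hpq : p = q) (v w : 𝔼) :
    @mRic n M _ _ _ p v w = @mRic n M _ _ _ q v w := by
  subst hpq; rfl

lemma mRic_chart'_aux {p : M} (hp : p ∈ (chartAt 𝔼 x₀).source) (v w : 𝔼) :
    @mRic n M _ _ _ p v w = ∑ i, ∑ j, ricci (chartMetric n M x₀) (chartAt 𝔼 x₀ p) i j *
      (dCh x₀ p v) i * (dCh x₀ p w) j := by
  have h1 := (chartAt 𝔼 x₀).left_inv hp
  rw [← mRic_chart ((chartAt 𝔼 x₀).map_source hp), dSy_dCh x₀ hp, dSy_dCh x₀ hp]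
  exact mRic_congr_point h1.symm v w

/-- the Ricci form in every chart, from a point of the source. -/
theorem mRic_chart' {p : M} (hp : p ∈ (chartAt 𝔼 x₀).source) (v w : TangentSpace (𝓡 n) p) :
    mRic n p v w = ∑ i, ∑ j, ricci (chartMetric n M x₀) (chartAt 𝔼 x₀ p) i j *
      (dCh x₀ p v) i * (dCh x₀ p w) j := mRic_chart'_aux hp v w

/-- an orthonormal family gives a frame of the chart metric in every chart. -/
lemma isFrame_chart {p : M} (hp : p ∈ (chartAt 𝔼 x₀).source) {e : Fin n → TangentSpace (𝓡 n) p}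
    (he : ∀ a b, inner ℝ (e a) (e b) = if a = b then (1:ℝ) else 0) :
    IsFrame (chartMetric n M x₀ (chartAt 𝔼 x₀ p)) (fun a => dCh x₀ p (e a)) :=
  isFrame_of_orth fun a b => (inner_eq_bil x₀ hp (e a) (e b)).symm.trans (he a b)

end Chart

section Sel

variable [SecondCountableTopology M] [Nonempty M]

theorem Hf_congr {z : M} (h : u =ᶠ[𝓝 z] v) : Hf (n := n) u z = Hf v z := by
  ext ij
  exact mHess_congr h _ _

theorem Hf_supp {z : M} (hz : z ∉ tsupport u) : Hf (n := n) u z = 0 := by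
  rw [Hf_congr (eventually_zero hz)]
  ext ij
  rw [Hf_apply, mHess_const]
  rfl

theorem Hf_sub {z : M} (hu : ContMDiffAt (𝓡 n) 𝓘(ℝ, ℝ) 2 u z)
    (hv : ContMDiffAt (𝓡 n) 𝓘(ℝ, ℝ) 2 v z) :
    Hf (n := n) (fun y => u y - v y) z = Hf u z - Hf v z := by
  ext ij
  exact mHess_sub hu hv _ _

theorem Hf_bdd (hu : u ∈ core n M) : ∃ C : ℝ, ∀ z, ‖Hf (n := n) u z‖ ≤ C := by
  have hc : Continuous (mHessSq n u) :=
    continuous_iff_continuousAt.2 fun z => continuousAt_mHessSq (core_at hu two_le_infty z)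
  have hs : HasCompactSupport (mHessSq n u) := by
    refine HasCompactSupport.intro hu.2.isCompact fun z hz => ?_
    rw [← norm_Hf_sq (core_at hu two_le_infty z), Hf_supp hz]
    simp
  obtain ⟨C, hC⟩ := hs.exists_bound_of_continuous hc
  refine ⟨√C, fun z => ?_⟩
  refine Real.le_sqrt_of_sq_le ?_
  rw [norm_Hf_sq (core_at hu two_le_infty z)]
  exact (le_abs_self _).trans (hC z)

/-! ### measurability by pieces -/

theorem measurable_of_sel [MeasurableSpace M] [BorelSpace M] {α : Type*} [TopologicalSpace α]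
    [MeasurableSpace α] [BorelSpace α] {f : M → α} (F : ℕ → M → α)
    (hF : ∀ k, ContinuousOn (F k) (chartAt 𝔼 (cen n M k)).source)
    (h : ∀ z, f z = F (idx n z) z) : Measurable f := by
  classical
  rcases isEmpty_or_nonempty α with hα | hα
  · have : IsEmpty M := ⟨fun z => hα.false (f z)⟩
    exact measurable_of_empty f
  obtain ⟨c⟩ := hα
  set G : ℕ → M → α := fun k => (chartAt 𝔼 (cen n M k)).source.piecewise (F k) fun _ => c with hG
  have hGm : ∀ k, Measurable (G k) := fun k =>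
    (hF k).measurable_piecewise continuousOn_const (chartAt 𝔼 (cen n M k)).open_source.measurableSet
  have h1 : Measurable fun z => G (Nat.find (cen_spec (n := n) z)) z :=
    Measurable.find (p := fun k z => z ∈ (chartAt 𝔼 (cen n M k)).source) hGm
      (fun k => (chartAt 𝔼 (cen n M k)).open_source.measurableSet) (cen_spec (n := n))
  convert h1 using 1
  funext z
  rw [h z, hG]
  have h2 : z ∈ (chartAt 𝔼 (cen n M (Nat.find (cen_spec (n := n) z)))).source :=
    Nat.find_spec (cen_spec (n := n) z)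
  simp only [Set.piecewise_eq_of_mem _ _ _ h2]
  rfl

lemma continuousOn_matrix {X : Type*} [TopologicalSpace X] {s : Set X}
    {A : X → Matrix (Fin n) (Fin n) ℝ} (h : ∀ i j, ContinuousOn (fun x => A x i j) s) :
    ContinuousOn A s :=
  continuousOn_pi.2 fun i => continuousOn_pi.2 fun j => h i j

lemma continuousOn_chartMetric (x : M) :
    ContinuousOn (chartMetric n M x) (chartAt 𝔼 x).target :=
  continuousOn_matrix fun i j => (contDiffOn_chartMetric x i j).continuousOn

lemma continuousOn_colv (x : M) (j : Fin n) :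
    ContinuousOn (fun a => colv x a j) (chartAt 𝔼 x).target := by
  have h1 : ContinuousOn (fun a i => isq (chartMetric n M x a) i j) (chartAt 𝔼 x).target := by
    rw [continuousOn_pi]
    intro i
    exact continuousOn_isq (continuousOn_chartMetric x)
      (fun a ha => (Bo84.isRiemannianOn_chartMetric x).posDef a ha) i j
  exact (PiLp.continuous_toLp 2 _).comp_continuousOn h1

lemma dCh_fr (z : M) (j : Fin n) :
    dCh (sel n z) z (fr z j) = colv (sel n z) (crd n z) j := dC_fr z j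

/-- the frame Hessian is a measurable function. -/
theorem measurable_Hf [MeasurableSpace M] [BorelSpace M]
    (hu : ContMDiff (𝓡 n) 𝓘(ℝ, ℝ) 2 u) : Measurable (Hf (n := n) u) := by
  refine measurable_of_sel (n := n) (fun k z => WithLp.toLp 2 fun ij : Fin n × Fin n =>
    hess (chartMetric n M (cen n M k)) (inCh n (cen n M k) u) (chartAt 𝔼 (cen n M k) z)
      (colv (cen n M k) (chartAt 𝔼 (cen n M k) z) ij.1)
      (colv (cen n M k) (chartAt 𝔼 (cen n M k) z) ij.2)) ?_ ?_
  · intro k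
    set x : M := cen n M k with hx
    have hch : ContinuousOn (chartAt 𝔼 x) (chartAt 𝔼 x).source := (chartAt 𝔼 x).continuousOn
    have hm : MapsTo (chartAt 𝔼 x) (chartAt 𝔼 x).source (chartAt 𝔼 x).target :=
      (chartAt 𝔼 x).mapsTo
    have h0 : ContinuousOn (hess (chartMetric n M x) (inCh n x u)) (chartAt 𝔼 x).target := by
      intro y hy
      have h1 : ContDiffAt ℝ 2 (inCh n x u) y := contDiffAt_inCh two_le_infty hy (hu _)
      exact (contDiffAt_hess (m := 0) (Bo84.isRiemannianOn_chartMetric x) hy h1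
        (by norm_num) (by norm_num)).continuousAt.continuousWithinAt
    refine (PiLp.continuous_toLp 2 _).comp_continuousOn (continuousOn_pi.2 fun ij => ?_)
    exact ((h0.comp hch hm).clm_apply ((continuousOn_colv x ij.1).comp hch hm)).clm_apply
      ((continuousOn_colv x ij.2).comp hch hm)
  · intro z
    ext ij
    rw [Hf_apply, mHess_chart' (mem_sel z) (hu z), dCh_fr, dCh_fr]
    rfl

/-- the frame Ricci form is a measurable function. -/
theorem measurable_Ricf [MeasurableSpace M] [BorelSpace M] :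
    Measurable (Ricf (n := n) (M := M)) := by
  refine measurable_of_sel (n := n) (fun k z => WithLp.toLp 2 fun ij : Fin n × Fin n =>
    ∑ i, ∑ j, ricci (chartMetric n M (cen n M k)) (chartAt 𝔼 (cen n M k) z) i j *
      (colv (cen n M k) (chartAt 𝔼 (cen n M k) z) ij.1) i *
      (colv (cen n M k) (chartAt 𝔼 (cen n M k) z) ij.2) j) ?_ ?_
  · intro k
    set x : M := cen n M k with hx
    have hch : ContinuousOn (chartAt 𝔼 x) (chartAt 𝔼 x).source := (chartAt 𝔼 x).continuousOn
    have hm : MapsTo (chartAt 𝔼 x) (chartAt 𝔼 x).source (chartAt 𝔼 x).target :=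
      (chartAt 𝔼 x).mapsTo
    refine (PiLp.continuous_toLp 2 _).comp_continuousOn (continuousOn_pi.2 fun ij => ?_)
    refine continuousOn_finsetSum _ fun i _ => continuousOn_finsetSum _ fun j _ => ?_
    have hc : ∀ (a i : Fin n), ContinuousOn
        (fun z => (colv x (chartAt 𝔼 x z) a) i) (chartAt 𝔼 x).source := fun a i =>
      (EuclideanSpace.proj (𝕜 := ℝ) i).continuous.comp_continuousOn
        ((continuousOn_colv x a).comp hch hm)
    exact (((continuousOn_ricci (Bo84.isRiemannianOn_chartMetric x) i j).comp hch hm).mul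
      (hc _ i)).mul (hc _ j)
  · intro z
    ext ij
    rw [Ricf_apply, mRic_chart' (mem_sel z), dCh_fr, dCh_fr]
    rfl

/-! ### the norm of the Ricci form -/

lemma frob_frame {R A X : Matrix (Fin n) (Fin n) ℝ} (h : X * X.transpose = A) :
    ∑ a, ∑ b, (∑ i, ∑ j, R i j * X i a * X j b) ^ 2 = (R.transpose * A * (R * A)).trace := by
  have h1 : ∀ a b, ∑ i, ∑ j, R i j * X i a * X j b = (X.transpose * R * X) a b := by
    intro a b
    rw [Matrix.mul_apply]
    simp only [Matrix.mul_apply, Matrix.transpose_apply, Finset.sum_mul]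
    rw [Finset.sum_comm]
    refine Finset.sum_congr rfl fun i _ => Finset.sum_congr rfl fun j _ => by ring
  have h2 : ∑ a, ∑ b, (∑ i, ∑ j, R i j * X i a * X j b) ^ 2 =
      ((X.transpose * R * X).transpose * (X.transpose * R * X)).trace := by
    simp only [h1, Matrix.trace, Matrix.diag_apply, Matrix.mul_apply (M := (X.transpose * R * X).transpose)]
    rw [Finset.sum_comm]
    refine Finset.sum_congr rfl fun i _ => Finset.sum_congr rfl fun j _ => ?_
    rw [Matrix.transpose_apply (X.transpose * R * X), sq]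
  rw [h2, Matrix.transpose_mul, Matrix.transpose_mul, Matrix.transpose_transpose, ← h]
  calc (X.transpose * (R.transpose * X) * (X.transpose * R * X)).trace
      = ((R.transpose * (X * X.transpose) * R * X) * X.transpose).trace := by
        rw [Matrix.trace_mul_comm _ X.transpose]
        simp only [Matrix.mul_assoc]
    _ = _ := by simp only [Matrix.mul_assoc]

lemma norm_Ricf_sq (x₀ : M) {z : M} (hz : z ∈ (chartAt 𝔼 x₀).source) :
    ‖Ricf (n := n) z‖ ^ 2 =
      ((Matrix.of (ricci (chartMetric n M x₀) (chartAt 𝔼 x₀ z))).transpose *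
        (chartMetric n M x₀ (chartAt 𝔼 x₀ z))⁻¹ *
        (Matrix.of (ricci (chartMetric n M x₀) (chartAt 𝔼 x₀ z)) *
          (chartMetric n M x₀ (chartAt 𝔼 x₀ z))⁻¹)).trace := by
  have h1 := isFrame_chart hz (fr_orth z)
  rw [← frob_frame (X := Matrix.of fun i a => dCh x₀ z (fr z a) i)
    (h := by
      ext i j
      rw [Matrix.mul_apply, h1.inv]
      rfl), Hes124.norm_sq_S]
  refine Finset.sum_congr rfl fun a _ => Finset.sum_congr rfl fun b _ => ?_
  rw [Ricf_apply, mRic_chart' hz]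
  rfl

theorem continuous_norm_Ricf_sq : Continuous fun z : M => ‖Ricf (n := n) z‖ ^ 2 := by
  refine continuous_iff_continuousAt.2 fun z₀ => ?_
  have hz : z₀ ∈ (chartAt 𝔼 z₀).source := mem_chart_source 𝔼 z₀
  have hR : ContinuousOn (fun y => Matrix.of (ricci (chartMetric n M z₀) y))
      (chartAt 𝔼 z₀).target :=
    continuousOn_matrix fun i j => continuousOn_ricci (Bo84.isRiemannianOn_chartMetric z₀) i j
  have hA : ContinuousOn (fun y => (chartMetric n M z₀ y)⁻¹) (chartAt 𝔼 z₀).target :=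
    continuousOn_matrix fun i j y hy =>
      (contDiffAt_inv (Bo84.isRiemannianOn_chartMetric z₀) hy i j).continuousAt.continuousWithinAt
  have h1 : ContinuousOn (fun y => ((Matrix.of (ricci (chartMetric n M z₀) y)).transpose *
        (chartMetric n M z₀ y)⁻¹ * (Matrix.of (ricci (chartMetric n M z₀) y) *
          (chartMetric n M z₀ y)⁻¹)).trace) (chartAt 𝔼 z₀).target := by
    have e1 : ContinuousOn (fun y => (Matrix.of (ricci (chartMetric n M z₀) y)).transpose)
        (chartAt 𝔼 z₀).target := (continuous_id.matrix_transpose).comp_continuousOn hR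
    have e2 : ContinuousOn (fun y => ((Matrix.of (ricci (chartMetric n M z₀) y)).transpose *
        (chartMetric n M z₀ y)⁻¹ * (Matrix.of (ricci (chartMetric n M z₀) y) *
          (chartMetric n M z₀ y)⁻¹))) (chartAt 𝔼 z₀).target := (e1.mul hA).mul (hR.mul hA)
    exact (continuous_id.matrix_trace).comp_continuousOn e2
  have h2 := (h1.comp (chartAt 𝔼 z₀).continuousOn (chartAt 𝔼 z₀).mapsTo).continuousAt
    ((chartAt 𝔼 z₀).open_source.mem_nhds hz)
  refine h2.congr ?_
  filter_upwards [(chartAt 𝔼 z₀).open_source.mem_nhds hz] with z hz'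
  exact (norm_Ricf_sq z₀ hz').symm

theorem Ricf_bdd {K : Set M} (hK : IsCompact K) : ∃ C : ℝ, ∀ z ∈ K, ‖Ricf (n := n) z‖ ≤ C := by
  obtain ⟨C, hC⟩ := hK.exists_bound_of_continuousOn
    (continuous_norm_Ricf_sq (n := n) (M := M)).continuousOn
  refine ⟨√C, fun z hz => Real.le_sqrt_of_sq_le ((le_abs_self _).trans (hC z hz))⟩

end Sel

end Crest.Agent.R247.Bs84
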