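import Crest.Agent.R247.Sm4_879

/-!
R247 (helper97), block (6f), part 2: minimisers are `C¹` in charts, with velocity the gradient of
the cost (no exponential map, no Rademacher): the pointwise argument
`|q - σw|² = |q|² - 2σ⟨q,w⟩ + |w|² → 0`.
-/

set_option autoImplicit false
set_option maxSynthPendingDepth 3
set_option linter.unusedSectionVars false

open Bundle Set Filter Topology Metric
open scoped Manifold ContDiff NNReal
open Crest.GeometryTopology.CoordMetric Crest.GeometryTopology.ChartCurvature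
open Crest.GeometryTopology.MTW Crest.Agent.R244 Crest.Agent.R226
open Crest.Agent.R226.ChartMet842
open Crest.Agent.R226.CutSmooth77 (SC)
open Crest.Agent.R202.Tens Crest.Agent.R247.Ms322 Crest.Agent.R247.Bo84
open Crest.Agent.R247.Sm879

namespace Crest.Agent.R247.Ray97

lemma hasDerivAt_q (c ℓ s : ℝ) :
    HasDerivAt (fun t : ℝ => c * ((ℓ * t) ^ 2 / 2)) (c * (ℓ ^ 2 * s)) s := by
  have h := ((((hasDerivAt_id' s).const_mul ℓ).fun_pow 2).div_const 2).const_mul c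
  refine h.congr_deriv ?_
  norm_num
  ring_nf
  tauto

lemma hasDerivAt_q' (c ℓ b s : ℝ) :
    HasDerivAt (fun t : ℝ => c * ((ℓ * (b - t)) ^ 2 / 2)) (-(c * (ℓ ^ 2 * (b - s)))) s := by
  have h := (((((hasDerivAt_id' s).const_sub b).const_mul ℓ).fun_pow 2).div_const 2).const_mul c
  refine h.congr_deriv ?_
  norm_num
  ring_nf

section
variable {n : ℕ} {M : Type*} [MetricSpace M] [ChartedSpace (EuclideanSpace ℝ (Fin n)) M]
  [IsManifold (𝓡 n) ∞ M]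
  [RiemannianBundle (fun p : M => TangentSpace (𝓡 n) p)]
  [IsContMDiffRiemannianBundle (𝓡 n) ∞ (EuclideanSpace ℝ (Fin n)) (fun p : M => TangentSpace (𝓡 n) p)]
  [IsRiemannianManifold (𝓡 n) M]

local notation "𝔼" => EuclideanSpace ℝ (Fin n)

/-- **pointwise velocity lemma.**  A curve with `dist (γ s) p ≤ L |s - s₀|`, along which `F`
increases at the maximal rate `σ L²`, `|∇F(p)| = L`, has velocity `σ ∇F(p)` at `s₀`. -/
theorem hasDerivWithinAt_chart (x₀ : M) {γ : ℝ → M} {S : Set ℝ} {s₀ : ℝ} {p : M}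
    (hp : p ∈ (chartAt 𝔼 x₀).source) (hγ : γ s₀ = p) {L : ℝ} (hL : 0 ≤ L)
    (hLip : ∀ᶠ s in 𝓝[S] s₀, dist (γ s) p ≤ L * |s - s₀|)
    {F : 𝔼 → ℝ} {w : 𝔼} (hF : DifferentiableAt ℝ F (chartAt 𝔼 x₀ p))
    (hw : ∀ ξ, fderiv ℝ F (chartAt 𝔼 x₀ p) ξ = gm x₀ (chartAt 𝔼 x₀ p) w ξ)
    (hww : gm x₀ (chartAt 𝔼 x₀ p) w w = L ^ 2) {σ : ℝ} (hσ : σ ^ 2 = 1)
    (hD : HasDerivWithinAt (fun s => F (chartAt 𝔼 x₀ (γ s))) (σ * L ^ 2) S s₀) :
    HasDerivWithinAt (fun s => chartAt 𝔼 x₀ (γ s)) (σ • w) S s₀ := by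
  set a : 𝔼 := chartAt 𝔼 x₀ p with ha_def
  have ha : a ∈ (chartAt 𝔼 x₀).target := (chartAt 𝔼 x₀).map_source hp
  obtain ⟨A, hA, -⟩ := exists_isometry (n := n) x₀ ha
  set K : ℝ := ‖(A.symm : 𝔼 →L[ℝ] 𝔼)‖ with hK
  have hK0 : 0 ≤ K := norm_nonneg _
  have hKv : ∀ v : 𝔼, ‖v‖ ≤ K * ‖A v‖ := by
    intro v
    have := (A.symm : 𝔼 →L[ℝ] 𝔼).le_opNorm (A v)
    simpa using this
  have hps : (chartAt 𝔼 x₀).symm a = p := (chartAt 𝔼 x₀).left_inv hp
  -- continuity of `γ` and of `c` at `s₀`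
  have hγc : Tendsto γ (𝓝[S] s₀) (𝓝 p) := by
    rw [tendsto_iff_dist_tendsto_zero]
    have h0 : Tendsto (fun s : ℝ => L * |s - s₀|) (𝓝[S] s₀) (𝓝 0) := by
      have : Tendsto (fun s : ℝ => L * |s - s₀|) (𝓝 s₀) (𝓝 (L * |s₀ - s₀|)) :=
        (by fun_prop : Continuous fun s : ℝ => L * |s - s₀|).tendsto s₀
      rw [sub_self, abs_zero, mul_zero] at this
      exact this.mono_left nhdsWithin_le_nhds
    exact tendsto_of_tendsto_of_tendsto_of_le_of_le' tendsto_const_nhds h0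
      (Eventually.of_forall fun _ => dist_nonneg) hLip
  have hcc : Tendsto (fun s => chartAt 𝔼 x₀ (γ s)) (𝓝[S] s₀) (𝓝 a) :=
    ((chartAt 𝔼 x₀).continuousAt hp).tendsto.comp hγc
  rw [hasDerivWithinAt_iff_isLittleO, Asymptotics.isLittleO_iff]
  intro ε hε
  -- constants
  set θ : ℝ := (ε / (K + 1)) ^ 2 with hθ
  have hθ0 : 0 < θ := by positivity
  set η : ℝ := min 1 (θ / (6 * (L ^ 2 + 1))) with hη
  have hη0 : 0 < η := by rw [hη]; positivity
  have hη1 : η ≤ 1 := min_le_left _ _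
  have hη2 : ((1 + η) ^ 2 - 1) * L ^ 2 ≤ θ / 2 := by
    have h1 : η * (6 * (L ^ 2 + 1)) ≤ θ := by
      have := min_le_right 1 (θ / (6 * (L ^ 2 + 1)))
      rw [← hη, le_div_iff₀ (by positivity)] at this
      exact this
    have h2 : (1 + η) ^ 2 - 1 ≤ 3 * η := by nlinarith
    have h3 : 0 ≤ L ^ 2 := sq_nonneg L
    nlinarith
  set ε₁ : ℝ := θ / (16 * (K + 1) * (L + 1)) with hε₁
  have hε₁0 : 0 < ε₁ := by positivity
  -- the three estimates
  set ηn : ℝ≥0 := Real.toNNReal η with hηn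
  have hηc : (ηn : ℝ) = η := Real.coe_toNNReal _ hη0.le
  obtain ⟨r, hr0, hrt, -, hLb⟩ := exists_bilip (n := n) x₀ ha hA (η := ηn)
    (Real.toNNReal_pos.2 hη0)
  have hnb : (chartAt 𝔼 x₀).symm '' ball a r ∈ 𝓝 p := by
    have ho : IsOpen ((chartAt 𝔼 x₀).symm '' ball a r) :=
      (chartAt 𝔼 x₀).symm.isOpen_image_of_subset_source isOpen_ball hrt
    exact ho.mem_nhds ⟨a, mem_ball_self hr0, hps⟩
  have hpm : p ∈ (chartAt 𝔼 x₀).symm '' ball a r := mem_of_mem_nhds hnb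
  have hev1 : ∀ᶠ s in 𝓝[S] s₀, γ s ∈ (chartAt 𝔼 x₀).symm '' ball a r := hγc.eventually hnb
  have hFo := (hasFDerivAt_iff_isLittleO.1 hF.hasFDerivAt)
  have hev2 := hcc.eventually ((Asymptotics.isLittleO_iff.1 hFo) hε₁0)
  have hev3 := (Asymptotics.isLittleO_iff.1 (hasDerivWithinAt_iff_isLittleO.1 hD))
    (show (0 : ℝ) < θ / 8 by positivity)
  filter_upwards [hLip, hev1, hev2, hev3] with s h1 h2 h3 h4
  have hca : chartAt 𝔼 x₀ (γ s₀) = a := by rw [hγ]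
  rw [hca] at h4 ⊢
  set q : 𝔼 := chartAt 𝔼 x₀ (γ s) - a with hq
  set h : ℝ := s - s₀ with hh
  have hqA : ‖A q‖ ≤ (1 + η) * (L * |h|) := by
    have h5 := hLb.dist_le_mul _ h2 _ hpm
    rw [dist_eq_norm, ← map_sub] at h5
    have h6 : ((1 + ηn : ℝ≥0) : ℝ) = 1 + η := by push_cast; rw [hηc]
    rw [h6] at h5
    calc ‖A q‖ ≤ (1 + η) * dist (γ s) p := h5
      _ ≤ _ := by gcongr
  have hqn : ‖q‖ ≤ K * (2 * (L * |h|)) := by
    refine (hKv q).trans ?_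
    gcongr
    refine hqA.trans ?_
    gcongr
    linarith
  have hgw : gm x₀ a w q = fderiv ℝ F a q := (hw q).symm
  have h5 : |F (chartAt 𝔼 x₀ (γ s)) - F a - fderiv ℝ F a q| ≤ θ / 8 * |h| := by
    rw [Real.norm_eq_abs] at h3
    refine h3.trans ?_
    have hL' : 0 ≤ L * |h| := by positivity
    calc ε₁ * ‖q‖ ≤ ε₁ * (K * (2 * (L * |h|))) := by gcongr
      _ = θ / 8 * |h| * ((K / (K + 1)) * (L / (L + 1))) := by
          rw [hε₁]; field_simp; ring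
      _ ≤ θ / 8 * |h| * (1 * 1) := by
          gcongr
          · rw [div_le_one (by positivity)]; linarith
          · rw [div_le_one (by positivity)]; linarith
      _ = θ / 8 * |h| := by ring
  have h6 : |F (chartAt 𝔼 x₀ (γ s)) - F a - h * (σ * L ^ 2)| ≤ θ / 8 * |h| := by
    simpa [Real.norm_eq_abs, smul_eq_mul] using h4
  have h7 : |fderiv ℝ F a q - h * (σ * L ^ 2)| ≤ θ / 4 * |h| := by
    have := abs_sub_le (fderiv ℝ F a q) (F (chartAt 𝔼 x₀ (γ s)) - F a) (h * (σ * L ^ 2))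
    rw [abs_sub_comm] at h5
    have e : θ / 4 * |h| = θ / 8 * |h| + θ / 8 * |h| := by ring
    rw [e]
    refine this.trans (add_le_add h5 h6)
  have hσ1 : |σ| = 1 := by
    rw [← Real.sqrt_sq_eq_abs, hσ, Real.sqrt_one]
  have h8 : |h * σ * fderiv ℝ F a q - h ^ 2 * L ^ 2| ≤ θ / 4 * h ^ 2 := by
    have e : h * σ * fderiv ℝ F a q - h ^ 2 * L ^ 2 =
        (h * σ) * (fderiv ℝ F a q - h * (σ * L ^ 2)) := by
      have : h ^ 2 * L ^ 2 = h ^ 2 * L ^ 2 * σ ^ 2 := by rw [hσ, mul_one]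
      rw [this]; ring
    rw [e, abs_mul, abs_mul, hσ1, mul_one]
    calc |h| * |fderiv ℝ F a q - h * (σ * L ^ 2)| ≤ |h| * (θ / 4 * |h|) := by gcongr
      _ = θ / 4 * (|h| * |h|) := by ring
      _ = θ / 4 * h ^ 2 := by rw [abs_mul_abs_self, sq]
  have hA1 : ‖A (q - h • σ • w)‖ ^ 2 = ‖A q‖ ^ 2 - 2 * (h * σ * fderiv ℝ F a q) + h ^ 2 * L ^ 2 := by
    have e1 : inner ℝ (A q) (A w) = fderiv ℝ F a q := by
      rw [real_inner_comm, hA, hgw]
    have e2 : ‖A w‖ ^ 2 = L ^ 2 := by rw [← real_inner_self_eq_norm_sq, hA, hww]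
    rw [map_sub, map_smul, map_smul, norm_sub_sq_real, inner_smul_right, inner_smul_right, e1,
      norm_smul, norm_smul, mul_pow, mul_pow, e2, Real.norm_eq_abs, Real.norm_eq_abs, sq_abs,
      sq_abs, hσ]
    ring
  have hA2 : ‖A q‖ ^ 2 ≤ (1 + η) ^ 2 * (L ^ 2 * h ^ 2) := by
    calc ‖A q‖ ^ 2 ≤ ((1 + η) * (L * |h|)) ^ 2 := by gcongr
      _ = (1 + η) ^ 2 * (L ^ 2 * |h| ^ 2) := by ring
      _ = _ := by rw [sq_abs]
  have hA3 : ‖A (q - h • σ • w)‖ ^ 2 ≤ θ * h ^ 2 := by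
    rw [hA1]
    rw [abs_le] at h8
    have h9 : 0 ≤ h ^ 2 := sq_nonneg h
    have h10 : ((1 + η) ^ 2 - 1) * L ^ 2 * h ^ 2 ≤ θ / 2 * h ^ 2 :=
      mul_le_mul_of_nonneg_right hη2 h9
    have h11 : (1 + η) ^ 2 * (L ^ 2 * h ^ 2) = ((1 + η) ^ 2 - 1) * L ^ 2 * h ^ 2 + h ^ 2 * L ^ 2 := by
      ring
    rw [h11] at hA2
    generalize ((1 + η) ^ 2 - 1) * L ^ 2 * h ^ 2 = X at *
    generalize h ^ 2 * L ^ 2 = Y at *
    generalize h * σ * (fderiv ℝ F a) q = Z at *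
    linarith [h8.1]
  have hA4 : ‖A (q - h • σ • w)‖ ≤ ε / (K + 1) * |h| := by
    refine le_of_sq_le_sq ?_ (by positivity)
    rw [mul_pow, sq_abs, ← hθ]
    exact hA3
  calc ‖q - h • σ • w‖ ≤ K * ‖A (q - h • σ • w)‖ := hKv _
    _ ≤ K * (ε / (K + 1) * |h|) := by gcongr
    _ = ε * |h| * (K / (K + 1)) := by field_simp
    _ ≤ ε * |h| * 1 := by
        gcongr
        rw [div_le_one (by positivity)]; linarith
    _ = ε * ‖h‖ := by rw [mul_one, Real.norm_eq_abs]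

/-- the gradient of the cost in a chart, in 84's form -/
theorem grad_fz (hm : ExM M) {z x₀ : M} {a : 𝔼} (ha : a ∈ (chartAt 𝔼 x₀).target)
    (h : SC n z ((chartAt 𝔼 x₀).symm a)) :
    (∀ ξ, fderiv ℝ (fz z x₀) a ξ = gm x₀ a (grad (chartMetric n M x₀) (fz z x₀) a) ξ) ∧
    gm x₀ a (grad (chartMetric n M x₀) (fz z x₀) a) (grad (chartMetric n M x₀) (fz z x₀) a) =
      dist z ((chartAt 𝔼 x₀).symm a) ^ 2 := by
  have hg := isRiemannianOn_chartMetric (n := n) (M := M) x₀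
  refine ⟨fun ξ => ?_, ?_⟩
  · rw [← bil_grad hg ha, bil_chartMetric]
  · rw [← bil_chartMetric, ← gam_eq_bil hg ha, gam_fz hm ha h]
    unfold fz halfDistSq
    ring

theorem differentiableAt_fz {z x₀ : M} {a : 𝔼} (ha : a ∈ (chartAt 𝔼 x₀).target)
    (h : SC n z ((chartAt 𝔼 x₀).symm a)) : DifferentiableAt ℝ (fz z x₀) a :=
  (contDiffAt_fz ha h).differentiableAt (by simp)

/-- **velocity of a minimiser issued from `x`** (one- or two-sided, in any chart). -/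
theorem hasDerivWithinAt_from (hm : ExM M) (x₀ : M) {x : M} {γ : ℝ → M} {S : Set ℝ} {s ℓ : ℝ}
    (hs : 0 < s) (hp : γ s ∈ (chartAt 𝔼 x₀).source) (h : SC n x (γ s)) (hℓ : 0 ≤ ℓ)
    (hxs : dist x (γ s) = ℓ * s) (hx : ∀ᶠ t in 𝓝[S] s, dist x (γ t) = ℓ * t)
    (hd : ∀ᶠ t in 𝓝[S] s, dist (γ t) (γ s) ≤ ℓ * |t - s|) :
    HasDerivWithinAt (fun t => chartAt 𝔼 x₀ (γ t))
      (s⁻¹ • grad (chartMetric n M x₀) (fz x x₀) (chartAt 𝔼 x₀ (γ s))) S s := by
  set a : 𝔼 := chartAt 𝔼 x₀ (γ s) with ha_def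
  have ha : a ∈ (chartAt 𝔼 x₀).target := (chartAt 𝔼 x₀).map_source hp
  have hsa : (chartAt 𝔼 x₀).symm a = γ s := (chartAt 𝔼 x₀).left_inv hp
  have h' : SC n x ((chartAt 𝔼 x₀).symm a) := by rw [hsa]; exact h
  obtain ⟨g1, g2⟩ := grad_fz hm ha h'
  have hdf := differentiableAt_fz ha h'
  have hγc : Tendsto γ (𝓝[S] s) (𝓝 (γ s)) := by
    rw [tendsto_iff_dist_tendsto_zero]
    have h0 : Tendsto (fun t : ℝ => ℓ * |t - s|) (𝓝[S] s) (𝓝 0) := by
      have : Tendsto (fun t : ℝ => ℓ * |t - s|) (𝓝 s) (𝓝 (ℓ * |s - s|)) :=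
        (by fun_prop : Continuous fun t : ℝ => ℓ * |t - s|).tendsto s
      rw [sub_self, abs_zero, mul_zero] at this
      exact this.mono_left nhdsWithin_le_nhds
    exact tendsto_of_tendsto_of_tendsto_of_le_of_le' tendsto_const_nhds h0
      (Eventually.of_forall fun _ => dist_nonneg) hd
  have key := hasDerivWithinAt_chart (n := n) x₀ (γ := γ) (S := S) (s₀ := s) (p := γ s) hp rfl hℓ hd
    (F := fun b => s⁻¹ * fz x x₀ b)
    (w := s⁻¹ • grad (chartMetric n M x₀) (fz x x₀) a) (hdf.const_mul _)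
    (fun ξ => by
      rw [← ha_def, fderiv_const_mul hdf, map_smul, smul_apply, smul_apply, g1])
    (by
      rw [← ha_def, map_smul, map_smul, smul_apply, g2, hsa, hxs]
      simp only [smul_eq_mul]
      field_simp)
    (σ := 1) (by norm_num) (by
      have e : (fun t => s⁻¹ * fz x x₀ (chartAt 𝔼 x₀ (γ t))) =ᶠ[𝓝[S] s]
          fun t => s⁻¹ * ((ℓ * t) ^ 2 / 2) := by
        filter_upwards [hx, hγc.eventually ((chartAt 𝔼 x₀).open_source.mem_nhds hp)] with t h1 h2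
        unfold fz halfDistSq
        rw [(chartAt 𝔼 x₀).left_inv h2, h1]
      have e0 : s⁻¹ * fz x x₀ (chartAt 𝔼 x₀ (γ s)) = s⁻¹ * ((ℓ * s) ^ 2 / 2) := by
        unfold fz halfDistSq
        rw [(chartAt 𝔼 x₀).left_inv hp, hxs]
      refine HasDerivWithinAt.congr_of_eventuallyEq ?_ e e0
      refine (hasDerivAt_q s⁻¹ ℓ s).hasDerivWithinAt.congr_deriv ?_
      field_simp)
  rw [one_smul] at key
  exact key

/-- **velocity of a minimiser ending at `v`** (one- or two-sided, in any chart). -/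
theorem hasDerivWithinAt_to (hm : ExM M) (x₀ : M) {v : M} {γ : ℝ → M} {S : Set ℝ} {s b ℓ : ℝ}
    (hs : s < b) (hp : γ s ∈ (chartAt 𝔼 x₀).source) (h : SC n v (γ s)) (hℓ : 0 ≤ ℓ)
    (hxs : dist v (γ s) = ℓ * (b - s)) (hx : ∀ᶠ t in 𝓝[S] s, dist v (γ t) = ℓ * (b - t))
    (hd : ∀ᶠ t in 𝓝[S] s, dist (γ t) (γ s) ≤ ℓ * |t - s|) :
    HasDerivWithinAt (fun t => chartAt 𝔼 x₀ (γ t))
      (-((b - s)⁻¹ • grad (chartMetric n M x₀) (fz v x₀) (chartAt 𝔼 x₀ (γ s)))) S s := by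
  set a : 𝔼 := chartAt 𝔼 x₀ (γ s) with ha_def
  have hbs : 0 < b - s := sub_pos.2 hs
  have ha : a ∈ (chartAt 𝔼 x₀).target := (chartAt 𝔼 x₀).map_source hp
  have hsa : (chartAt 𝔼 x₀).symm a = γ s := (chartAt 𝔼 x₀).left_inv hp
  have h' : SC n v ((chartAt 𝔼 x₀).symm a) := by rw [hsa]; exact h
  obtain ⟨g1, g2⟩ := grad_fz hm ha h'
  have hdf := differentiableAt_fz ha h'
  have hγc : Tendsto γ (𝓝[S] s) (𝓝 (γ s)) := by
    rw [tendsto_iff_dist_tendsto_zero]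
    have h0 : Tendsto (fun t : ℝ => ℓ * |t - s|) (𝓝[S] s) (𝓝 0) := by
      have : Tendsto (fun t : ℝ => ℓ * |t - s|) (𝓝 s) (𝓝 (ℓ * |s - s|)) :=
        (by fun_prop : Continuous fun t : ℝ => ℓ * |t - s|).tendsto s
      rw [sub_self, abs_zero, mul_zero] at this
      exact this.mono_left nhdsWithin_le_nhds
    exact tendsto_of_tendsto_of_tendsto_of_le_of_le' tendsto_const_nhds h0
      (Eventually.of_forall fun _ => dist_nonneg) hd
  have key := hasDerivWithinAt_chart (n := n) x₀ (γ := γ) (S := S) (s₀ := s) (p := γ s) hp rfl hℓ hd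
    (F := fun c => (b - s)⁻¹ * fz v x₀ c)
    (w := (b - s)⁻¹ • grad (chartMetric n M x₀) (fz v x₀) a) (hdf.const_mul _)
    (fun ξ => by
      rw [← ha_def, fderiv_const_mul hdf, map_smul, smul_apply, smul_apply, g1])
    (by
      rw [← ha_def, map_smul, map_smul, smul_apply, g2, hsa, hxs]
      simp only [smul_eq_mul]
      field_simp)
    (σ := -1) (by norm_num) (by
      have e : (fun t => (b - s)⁻¹ * fz v x₀ (chartAt 𝔼 x₀ (γ t))) =ᶠ[𝓝[S] s]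
          fun t => (b - s)⁻¹ * ((ℓ * (b - t)) ^ 2 / 2) := by
        filter_upwards [hx, hγc.eventually ((chartAt 𝔼 x₀).open_source.mem_nhds hp)] with t h1 h2
        unfold fz halfDistSq
        rw [(chartAt 𝔼 x₀).left_inv h2, h1]
      have e0 : (b - s)⁻¹ * fz v x₀ (chartAt 𝔼 x₀ (γ s)) = (b - s)⁻¹ * ((ℓ * (b - s)) ^ 2 / 2) := by
        unfold fz halfDistSq
        rw [(chartAt 𝔼 x₀).left_inv hp, hxs]
      refine HasDerivWithinAt.congr_of_eventuallyEq ?_ e e0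
      refine (hasDerivAt_q' (b - s)⁻¹ ℓ b s).hasDerivWithinAt.congr_deriv ?_
      field_simp)
  rw [neg_one_smul] at key
  exact key

/-- chain rule along a curve in a chart, for a function differentiable in the chart -/
theorem hasDerivWithinAt_comp_chart (x₀ : M) {φ : M → ℝ} {γ : ℝ → M} {S : Set ℝ} {s : ℝ} {v : 𝔼}
    (hp : γ s ∈ (chartAt 𝔼 x₀).source) (hγ : Tendsto γ (𝓝[S] s) (𝓝 (γ s)))
    (hc : HasDerivWithinAt (fun t => chartAt 𝔼 x₀ (γ t)) v S s)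
    (hφ : DifferentiableAt ℝ (fun b => φ ((chartAt 𝔼 x₀).symm b)) (chartAt 𝔼 x₀ (γ s))) :
    HasDerivWithinAt (fun t => φ (γ t))
      (fderiv ℝ (fun b => φ ((chartAt 𝔼 x₀).symm b)) (chartAt 𝔼 x₀ (γ s)) v) S s := by
  have h1 := hφ.hasFDerivAt.comp_hasDerivWithinAt s hc
  refine h1.congr_of_eventuallyEq ?_ ?_
  · filter_upwards [hγ.eventually ((chartAt 𝔼 x₀).open_source.mem_nhds hp)] with t ht
    simp only [Function.comp_apply]
    rw [(chartAt 𝔼 x₀).left_inv ht]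
  · simp only [Function.comp_apply]
    rw [(chartAt 𝔼 x₀).left_inv hp]

end

end Crest.Agent.R247.Ray97
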