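import Crest.Agent.R247.Sm4_879

/-!
R247 (helper879), block (6b), file 5: the set `Om` of pairs `(x, y)` with `y` interior to a
minimiser from `x` is open; the cost is `C^∞` on the open set `Om`; the point at fraction `t` of
the minimiser is a `C^∞` function of the end points on `Om`.
-/

set_option autoImplicit false
set_option maxSynthPendingDepth 3
set_option linter.unusedSectionVars false

open Bundle Set Filter Topology
open scoped Manifold ContDiff
open Crest.GeometryTopology.MTW Crest.Agent.R244 Crest.Agent.R226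
open Crest.Agent.R226.EucMin77 Crest.Agent.R226.ChartCost77 Crest.Agent.R226.Index77
open Crest.Agent.R226.NearLem90 (dL halfDistSq_comm)
open Crest.Agent.R226.NearDiagThm996
open Crest.Agent.R226.ChartMet842
open Crest.Agent.R226.CutSmooth77 (SC three_point)

namespace Crest.Agent.R247.Sm879

section euc
variable {E : Type*} [NormedAddCommGroup E] [NormedSpace ℝ E]

/-- `value_step2` with the injectivity of the second partial derivative of the minimiser. -/
theorem value_step3 [FiniteDimensional ℝ E] {f₁ f₂ : E × E → ℝ} {V : E × E → ℝ} {a₀ ζ₀ β₀ : E}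
    (h1 : ContDiffAt ℝ ∞ f₁ (a₀, ζ₀)) (h2 : ContDiffAt ℝ ∞ f₂ (ζ₀, β₀))
    (n2 : ND f₂ (ζ₀, β₀))
    (hpos : ∀ h : E, h ≠ 0 → 0 < fderiv ℝ (fderiv ℝ f₁) (a₀, ζ₀) (0, h) (0, h) +
      fderiv ℝ (fderiv ℝ f₂) (ζ₀, β₀) (h, 0) (h, 0))
    {ζ : E × E → E} (hζ : Tendsto ζ (𝓝 (a₀, β₀)) (𝓝 ζ₀))
    (hV : ∀ᶠ p in 𝓝 (a₀, β₀), V p = 2 * f₁ (p.1, ζ p) + 2 * f₂ (ζ p, p.2))
    (hmin : ∀ᶠ p in 𝓝 (a₀, β₀),
      IsLocalMin (fun z => 2 * f₁ (p.1, z) + 2 * f₂ (z, p.2)) (ζ p)) :
    ContDiffAt ℝ ∞ ζ (a₀, β₀) ∧ (∀ k : E, fderiv ℝ ζ (a₀, β₀) (0, k) = 0 → k = 0) := by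
  have : CompleteSpace E := FiniteDimensional.complete ℝ E
  let L₁ : (E × E) × E →L[ℝ] E × E :=
    ((ContinuousLinearMap.fst ℝ E E) ∘L (ContinuousLinearMap.fst ℝ (E × E) E)).prod
      (ContinuousLinearMap.snd ℝ (E × E) E)
  let L₂ : (E × E) × E →L[ℝ] E × E :=
    (ContinuousLinearMap.snd ℝ (E × E) E).prod
      ((ContinuousLinearMap.snd ℝ E E) ∘L (ContinuousLinearMap.fst ℝ (E × E) E))
  have hL₁ : ∀ q : (E × E) × E, L₁ q + 0 = (q.1.1, q.2) := by intro q; simp [L₁]
  have hL₂ : ∀ q : (E × E) × E, L₂ q + 0 = (q.2, q.1.2) := by intro q; simp [L₂]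
  set g : (E × E) × E → ℝ := fun q => 2 * f₁ (L₁ q + 0) + 2 * f₂ (L₂ q + 0) with hg
  have hgq : ∀ (p : E × E) (z : E), g (p, z) = 2 * f₁ (p.1, z) + 2 * f₂ (z, p.2) := by
    intro p z; simp only [hg, hL₁, hL₂]
  have h1' : ContDiffAt ℝ ∞ f₁ (L₁ ((a₀, β₀), ζ₀) + 0) := by rw [hL₁]; exact h1
  have h2' : ContDiffAt ℝ ∞ f₂ (L₂ ((a₀, β₀), ζ₀) + 0) := by rw [hL₂]; exact h2
  have hg1 : ContDiffAt ℝ ∞ (fun q => f₁ (L₁ q + 0)) ((a₀, β₀), ζ₀) :=
    ContDiffAt.comp _ (f := fun q => L₁ q + 0) h1' (by fun_prop)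
  have hg2 : ContDiffAt ℝ ∞ (fun q => f₂ (L₂ q + 0)) ((a₀, β₀), ζ₀) :=
    ContDiffAt.comp _ (f := fun q => L₂ q + 0) h2' (by fun_prop)
  have hg1' : ContDiffAt ℝ ∞ (fun q => 2 * f₁ (L₁ q + 0)) ((a₀, β₀), ζ₀) :=
    contDiffAt_const.mul hg1
  have hg2' : ContDiffAt ℝ ∞ (fun q => 2 * f₂ (L₂ q + 0)) ((a₀, β₀), ζ₀) :=
    contDiffAt_const.mul hg2
  have hgs : ContDiffAt ℝ ∞ g ((a₀, β₀), ζ₀) := hg1'.add hg2'
  have h2le : (2 : WithTop ℕ∞) ≤ ∞ := ENat.LEInfty.out
  have hD : ∀ u v : (E × E) × E, fderiv ℝ (fderiv ℝ g) ((a₀, β₀), ζ₀) u v =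
      2 * fderiv ℝ (fderiv ℝ f₁) (a₀, ζ₀) (L₁ u) (L₁ v) +
      2 * fderiv ℝ (fderiv ℝ f₂) (ζ₀, β₀) (L₂ u) (L₂ v) := by
    intro u v
    have e1 := hess_add (f := fun q => 2 * f₁ (L₁ q + 0)) (g := fun q => 2 * f₂ (L₂ q + 0))
      (hg1'.of_le h2le) (hg2'.of_le h2le) u v
    have e3 := hess_const_mul (hg1.of_le h2le) 2 u v
    have e4 := hess_const_mul (hg2.of_le h2le) 2 u v
    have e5 := hess_comp_affine L₁ 0 (h1'.of_le h2le) u v
    have e6 := hess_comp_affine L₂ 0 (h2'.of_le h2le) u v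
    rw [hL₁] at e5
    rw [hL₂] at e6
    rw [hg, e1, e3, e4, e5, e6]
  obtain ⟨r1, _, _, r4⟩ := argmin_smooth (V := V) hgs
    (fun h hh => by
      rw [hD]
      have := hpos h hh
      have e1 : L₁ (0, h) = (0, h) := by simp [L₁]
      have e2 : L₂ (0, h) = (h, 0) := by simp [L₂]
      rw [e1, e2]
      linarith) hζ
    (by filter_upwards [hV] with p hp; rw [hgq, hp])
    (by filter_upwards [hmin] with p hp; simpa only [hgq] using hp)
  refine ⟨r1, ?_⟩
  intro k hk
  apply n2.symm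
  intro j
  have h := r4 (0, k) j
  rw [hk, hD] at h
  have e1 : L₁ (((0 : E), k), (0 : E)) = 0 := by simp [L₁]
  have e2 : L₂ (((0 : E), k), (0 : E)) = (0, k) := by simp [L₂]
  have e3 : L₂ (0, j) = (j, 0) := by simp [L₂]
  rw [e1, e2, e3] at h
  simpa using h

/-- a map `p ↦ (p.1, ζ p)` with injective second partial derivative is locally onto -/
theorem nhds_le_map [FiniteDimensional ℝ E] {ζ : E × E → E} {p₀ : E × E}
    (hζ : ContDiffAt ℝ ∞ ζ p₀) (hinj : ∀ k : E, fderiv ℝ ζ p₀ (0, k) = 0 → k = 0) :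
    map (fun p : E × E => (p.1, ζ p)) (𝓝 p₀) = 𝓝 (p₀.1, ζ p₀) := by
  have : CompleteSpace E := FiniteDimensional.complete ℝ E
  have hs : HasStrictFDerivAt ζ (fderiv ℝ ζ p₀) p₀ := hζ.hasStrictFDerivAt (by simp)
  have h1 : HasStrictFDerivAt (fun p : E × E => (p.1, ζ p))
      ((ContinuousLinearMap.fst ℝ E E).prod (fderiv ℝ ζ p₀)) p₀ :=
    hasStrictFDerivAt_fst.prodMk hs
  set L := (ContinuousLinearMap.fst ℝ E E).prod (fderiv ℝ ζ p₀) with hL
  have hLi : Function.Injective (L : E × E →ₗ[ℝ] E × E) := by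
    rw [injective_iff_map_eq_zero]
    rintro ⟨h, k⟩ hk
    have h2 : (h, fderiv ℝ ζ p₀ (h, k)) = (0, 0) := hk
    obtain ⟨h3, h4⟩ := Prod.mk.inj h2
    subst h3
    rw [hinj k h4]; rfl
  let e : (E × E) ≃L[ℝ] (E × E) :=
    (LinearEquiv.ofInjectiveEndo (L : E × E →ₗ[ℝ] E × E) hLi).toContinuousLinearEquiv
  have he : (e : E × E →L[ℝ] E × E) = L := by
    ext x <;> rfl
  rw [← he] at h1
  exact h1.map_nhds_eq_of_equiv

theorem nd_const_mul {f : E × E → ℝ} {p : E × E} (hf : ContDiffAt ℝ 2 f p) {c : ℝ} (hc : c ≠ 0)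
    (H : ND f p) : ND (fun q => c * f q) p := by
  intro h hh
  apply H
  intro k
  have := hh k
  rw [hess_const_mul hf] at this
  exact (mul_eq_zero.1 this).resolve_left hc

end euc

section metric
variable {M : Type*} [MetricSpace M]

theorem le_frac {t : ℝ} (ht0 : 0 < t) (ht1 : t < 1) (a b c : M) :
    halfDistSq a b ≤ halfDistSq a c / t + halfDistSq c b / (1 - t) := by
  unfold halfDistSq
  have h1 := dist_triangle a c b
  have h2 := dist_nonneg (x := a) (y := b)
  have h3 : 0 < 1 - t := by linarith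
  have h4 : dist a b ^ 2 ≤ (dist a c + dist c b) ^ 2 := by gcongr
  have h5 : dist a c ^ 2 / 2 / t + dist c b ^ 2 / 2 / (1 - t) -
      (dist a c + dist c b) ^ 2 / 2 =
      ((1 - t) * dist a c - t * dist c b) ^ 2 / (2 * t * (1 - t)) := by
    field_simp
    ring
  have h6 : 0 ≤ ((1 - t) * dist a c - t * dist c b) ^ 2 / (2 * t * (1 - t)) := by positivity
  linarith

/-- convergence of points at fraction `t` -/
theorem tendsto_frac [ProperSpace M] {t : ℝ} (ht0 : 0 < t) (ht1 : t < 1) {m : M × M → M}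
    (hm : ∀ q : M × M, dist q.1 (m q) = t * dist q.1 q.2 ∧
      dist (m q) q.2 = (1 - t) * dist q.1 q.2)
    {x y z : M} (hz : ∀ c, dist x c = t * dist x y → dist c y = (1 - t) * dist x y → c = z) :
    Tendsto m (𝓝 (x, y)) (𝓝 z) := by
  have hc1 : Tendsto (fun q : M × M => dist q.1 q.2) (𝓝 (x, y)) (𝓝 (dist x y)) :=
    (continuous_fst.dist continuous_snd).tendsto (x, y)
  have hc2 : Tendsto (fun q : M × M => dist x q.1) (𝓝 (x, y)) (𝓝 (dist x x)) :=
    (continuous_const.dist continuous_fst).tendsto (x, y)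
  refine (isCompact_closedBall x (dist x y + 2)).tendsto_nhds_of_unique_mapClusterPt ?_ ?_
  · have e1 : ∀ᶠ q in 𝓝 (x, y), dist q.1 q.2 < dist x y + 1 :=
      hc1.eventually (gt_mem_nhds (by linarith))
    have e2 : ∀ᶠ q : M × M in 𝓝 (x, y), dist x q.1 < 1 :=
      hc2.eventually (gt_mem_nhds (by rw [dist_self]; norm_num))
    filter_upwards [e1, e2] with q h1 h2
    rw [Metric.mem_closedBall, dist_comm]
    have h3 := (hm q).1
    have h4 := dist_triangle x q.1 (m q)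
    have h5 := dist_nonneg (x := q.1) (y := q.2)
    have h6 := dist_nonneg (x := x) (y := y)
    have h7 : t * dist q.1 q.2 ≤ dist q.1 q.2 := by nlinarith
    linarith
  · intro c _ hc
    obtain ⟨U, hU, hUc⟩ := mapClusterPt_iff_ultrafilter.1 hc
    have l1 : Tendsto (fun q : M × M => q.1) U (𝓝 x) := (continuous_fst.tendsto (x, y)).mono_left hU
    have l2 : Tendsto (fun q : M × M => q.2) U (𝓝 y) := (continuous_snd.tendsto (x, y)).mono_left hU
    have l3 : Tendsto (fun q : M × M => dist q.1 (m q)) U (𝓝 (dist x c)) := l1.dist hUc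
    have l4 : Tendsto (fun q : M × M => dist (m q) q.2) U (𝓝 (dist c y)) := hUc.dist l2
    have l5 : Tendsto (fun q : M × M => dist q.1 q.2) U (𝓝 (dist x y)) := l1.dist l2
    apply hz
    · exact tendsto_nhds_unique l3 ((l5.const_mul t).congr fun q => ((hm q).1).symm)
    · exact tendsto_nhds_unique l4 ((l5.const_mul (1 - t)).congr fun q => ((hm q).2).symm)

theorem ExM.frac (hm : ExM M) {t : ℝ} (ht0 : 0 < t) (ht1 : t < 1) :
    ∃ m : M × M → M, ∀ q : M × M, dist q.1 (m q) = t * dist q.1 q.2 ∧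
      dist (m q) q.2 = (1 - t) * dist q.1 q.2 := by
  choose m hmm using fun q : M × M => hm q.1 q.2 t ⟨ht0.le, ht1.le⟩
  exact ⟨m, hmm⟩

end metric

section
variable {n : ℕ} {M : Type*} [MetricSpace M] [ChartedSpace (EuclideanSpace ℝ (Fin n)) M]
  [IsManifold (𝓡 n) ∞ M]

/-- the point at fraction `t`, in charts -/
theorem frac_step {x z y y' : M} {t : ℝ} (ht0 : 0 < t) (ht1 : t < 1)
    (h1 : SC n x z) (h2 : SC n z y) (n2 : ND (cc (n := n) z y) (o z, o y)) (h3 : SC n y y')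
    (d1 : dist x z = t * dist x y) (d2 : dist z y = (1 - t) * dist x y)
    (hb : dist x y + dist y y' = dist x y') (hxy : x ≠ y) (hy : y ≠ y')
    {m : M × M → M} (hmm : ∀ q : M × M, dist q.1 (m q) = t * dist q.1 q.2 ∧
      dist (m q) q.2 = (1 - t) * dist q.1 q.2) (htend : Tendsto m (𝓝 (x, y)) (𝓝 z)) :
    ContDiffAt ℝ ∞ (fun p : EE n × EE n => extChartAt (𝓡 n) z
        (m ((extChartAt (𝓡 n) x).symm p.1, (extChartAt (𝓡 n) y).symm p.2))) (o x, o y) ∧
      (∀ k : EE n, fderiv ℝ (fun p : EE n × EE n => extChartAt (𝓡 n) z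
        (m ((extChartAt (𝓡 n) x).symm p.1, (extChartAt (𝓡 n) y).symm p.2))) (o x, o y) (0, k) = 0 →
        k = 0) := by
  have h2le : (2 : WithTop ℕ∞) ≤ ∞ := ENat.LEInfty.out
  have ht1' : 0 < 1 - t := by linarith
  let X : EE n × EE n → M × M := fun p =>
    ((extChartAt (𝓡 n) x).symm p.1, (extChartAt (𝓡 n) y).symm p.2)
  have hX : Tendsto X (𝓝 (o x, o y)) (𝓝 (x, y)) :=
    ((tendsto_symm x).comp (continuous_fst.tendsto ((o x : EE n), (o y : EE n)))).prodMk_nhds
      ((tendsto_symm y).comp (continuous_snd.tendsto ((o x : EE n), (o y : EE n))))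
  have hmX : Tendsto (fun p => m (X p)) (𝓝 (o x, o y)) (𝓝 z) := htend.comp hX
  have hsrc : ∀ᶠ p in 𝓝 ((o x : EE n), (o y : EE n)), m (X p) ∈ (extChartAt (𝓡 n) z).source :=
    hmX.eventually (extChartAt_source_mem_nhds (I := 𝓡 n) z)
  have hmid : ∀ q : M × M, halfDistSq q.1 q.2 =
      halfDistSq q.1 (m q) / t + halfDistSq (m q) q.2 / (1 - t) := by
    intro q
    unfold halfDistSq
    rw [(hmm q).1, (hmm q).2]
    field_simp
    ring
  set f₁ : EE n × EE n → ℝ := fun p => (1 / (2 * t)) * cc (n := n) x z p with hf₁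
  set f₂ : EE n × EE n → ℝ := fun p => (1 / (2 * (1 - t))) * cc (n := n) z y p with hf₂
  have c1 := cc_contDiffAt h1
  have c2 := cc_contDiffAt h2
  have hval : ∀ᶠ p in 𝓝 ((o x : EE n), (o y : EE n)), cc (n := n) x y p =
      2 * f₁ (p.1, extChartAt (𝓡 n) z (m (X p))) +
      2 * f₂ (extChartAt (𝓡 n) z (m (X p)), p.2) := by
    filter_upwards [hsrc] with p hp
    simp only [hf₁, hf₂, cc, (extChartAt (𝓡 n) z).left_inv hp]
    have := hmid (X p)
    simp only [X] at this ⊢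
    rw [this]
    field_simp
  have hpos : ∀ h : EE n, h ≠ 0 → 0 < fderiv ℝ (fderiv ℝ f₁) (o x, o z) (0, h) (0, h) +
      fderiv ℝ (fderiv ℝ f₂) (o z, o y) (h, 0) (h, 0) := by
    intro h hh
    set D := dist x y with hD
    have hD0 : 0 < D := dist_pos.2 hxy
    set e := dist y y' with he
    have he0 : 0 < e := dist_pos.2 hy
    have hc3 : ContDiffAt ℝ 2 (fun b : EE n => D / e * cc (n := n) y y' (b, o y')) (o y) :=
      contDiffAt_const.mul ((contDiffAt_slice' h3).of_le h2le)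
    refine index_euc (f₃ := fun b : EE n => D / e * cc (n := n) y y' (b, o y'))
      ((contDiffAt_const.mul c1).of_le h2le) ((contDiffAt_const.mul c2).of_le h2le) hc3 ?_ ?_ hh
    · refine Filter.Eventually.of_forall fun q => ?_
      set q1 := (extChartAt (𝓡 n) z).symm q.1
      set q2 := (extChartAt (𝓡 n) y).symm q.2
      have e1 : 2 * f₁ (o x, q.1) + 2 * f₂ q + D / e * cc (n := n) y y' (q.2, o y') =
          halfDistSq x q1 / t + halfDistSq q1 q2 / (1 - t) + D / e * halfDistSq q2 y' := by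
        simp only [hf₁, hf₂, cc, symm_o, q1, q2]
        field_simp
      have e0 : 2 * f₁ (o x, o z) + 2 * f₂ (o z, o y) + D / e * cc (n := n) y y' (o y, o y') =
          D * (D + e) / 2 := by
        simp only [hf₁, hf₂, cc_o]
        unfold halfDistSq
        rw [d1, d2, ← he]
        field_simp
        ring
      show 2 * f₁ (o x, o z) + 2 * f₂ (o z, o y) + D / e * cc (n := n) y y' (o y, o y') ≤
        2 * f₁ (o x, q.1) + 2 * f₂ q + D / e * cc (n := n) y y' (q.2, o y')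
      rw [e0, e1]
      have t1 := le_frac ht0 ht1 x q2 q1
      have t2 : D + e ≤ dist x q2 + dist q2 y' := by
        rw [hb]; exact dist_triangle _ _ _
      have t3 : D * (D + e) / 2 ≤ halfDistSq x q2 + D / e * halfDistSq q2 y' := by
        unfold halfDistSq
        have e2 : dist x q2 ^ 2 / 2 + D / e * (dist q2 y' ^ 2 / 2) =
            D * ((dist x q2 + dist q2 y') - (D + e)) + D * (D + e) / 2 +
            ((dist x q2 - D) ^ 2 / 2 + D / e * ((dist q2 y' - e) ^ 2 / 2)) := by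
          field_simp
          ring
        have e3 : 0 ≤ (dist x q2 - D) ^ 2 / 2 + D / e * ((dist q2 y' - e) ^ 2 / 2) := by
          positivity
        nlinarith
      linarith
    · intro h hh
      exact nd_const_mul (c2.of_le h2le) (by positivity) n2 h hh
  refine value_step3 (f₁ := f₁) (f₂ := f₂) (V := cc (n := n) x y) (ζ₀ := o z)
    (contDiffAt_const.mul c1) (contDiffAt_const.mul c2)
    (nd_const_mul (c2.of_le h2le) (by positivity) n2) hpos ((tendsto_chart z).comp hmX) hval ?_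
  filter_upwards [hval] with p hp
  refine Filter.Eventually.of_forall fun ζ => ?_
  show 2 * f₁ (p.1, extChartAt (𝓡 n) z (m (X p))) +
    2 * f₂ (extChartAt (𝓡 n) z (m (X p)), p.2) ≤ 2 * f₁ (p.1, ζ) + 2 * f₂ (ζ, p.2)
  rw [← hp]
  have := le_frac ht0 ht1 ((extChartAt (𝓡 n) x).symm p.1) ((extChartAt (𝓡 n) y).symm p.2)
    ((extChartAt (𝓡 n) z).symm ζ)
  simp only [hf₁, hf₂, cc]
  calc _ ≤ _ := this
    _ = _ := by field_simp

/-- smoothness of the point at fraction `t` on `M` -/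
theorem contMDiffAt_of_chart {x z y : M} {m : M × M → M} (hmc : ContinuousAt m (x, y))
    (hmz : m (x, y) = z)
    (h : ContDiffAt ℝ ∞ (fun p : EE n × EE n => extChartAt (𝓡 n) z
        (m ((extChartAt (𝓡 n) x).symm p.1, (extChartAt (𝓡 n) y).symm p.2))) (o x, o y)) :
    ContMDiffAt ((𝓡 n).prod (𝓡 n)) (𝓡 n) ∞ m (x, y) := by
  have h1 : ContMDiffAt ((𝓡 n).prod (𝓡 n)) 𝓘(ℝ, EE n) ∞
      (fun q : M × M => extChartAt (𝓡 n) x q.1) (x, y) :=
    ContMDiffAt.comp (x, y) (g := extChartAt (𝓡 n) x) (f := Prod.fst)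
      contMDiffAt_extChartAt contMDiffAt_fst
  have h2 : ContMDiffAt ((𝓡 n).prod (𝓡 n)) 𝓘(ℝ, EE n) ∞
      (fun q : M × M => extChartAt (𝓡 n) y q.2) (x, y) :=
    ContMDiffAt.comp (x, y) (g := extChartAt (𝓡 n) y) (f := Prod.snd)
      contMDiffAt_extChartAt contMDiffAt_snd
  have h3 := h1.prodMk_space h2
  have h4 := contMDiffAt_iff_contDiffAt.2 h
  have h5 : ContMDiffAt ((𝓡 n).prod (𝓡 n)) 𝓘(ℝ, EE n) ∞
      ((fun p : EE n × EE n => extChartAt (𝓡 n) z
        (m ((extChartAt (𝓡 n) x).symm p.1, (extChartAt (𝓡 n) y).symm p.2))) ∘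
        fun q : M × M => (extChartAt (𝓡 n) x q.1, extChartAt (𝓡 n) y q.2)) (x, y) :=
    ContMDiffAt.comp (x, y) (f := fun q : M × M => (extChartAt (𝓡 n) x q.1, extChartAt (𝓡 n) y q.2))
      h4 h3
  have h6 : ContMDiffAt ((𝓡 n).prod (𝓡 n)) 𝓘(ℝ, EE n) ∞
      (fun q : M × M => extChartAt (𝓡 n) z (m q)) (x, y) := by
    refine h5.congr_of_eventuallyEq ?_
    have hx : ∀ᶠ q : M × M in 𝓝 (x, y), q.1 ∈ (extChartAt (𝓡 n) x).source :=
      continuousAt_fst.eventually (extChartAt_source_mem_nhds (I := 𝓡 n) x)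
    have hy : ∀ᶠ q : M × M in 𝓝 (x, y), q.2 ∈ (extChartAt (𝓡 n) y).source :=
      continuousAt_snd.eventually (extChartAt_source_mem_nhds (I := 𝓡 n) y)
    filter_upwards [hx, hy] with q hq1 hq2
    simp only [Function.comp_apply, (extChartAt (𝓡 n) x).left_inv hq1,
      (extChartAt (𝓡 n) y).left_inv hq2]
  have h7 : ContMDiffAt 𝓘(ℝ, EE n) (𝓡 n) ∞ (extChartAt (𝓡 n) z).symm
      (extChartAt (𝓡 n) z (m (x, y))) := by
    rw [hmz]; exact contMDiffAt_symm z
  have h8 := ContMDiffAt.comp (x, y) (f := fun q : M × M => extChartAt (𝓡 n) z (m q)) h7 h6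
  refine h8.congr_of_eventuallyEq ?_
  have hz : ∀ᶠ q : M × M in 𝓝 (x, y), m q ∈ (extChartAt (𝓡 n) z).source := by
    apply hmc.eventually
    rw [hmz]
    exact extChartAt_source_mem_nhds (I := 𝓡 n) z
  filter_upwards [hz] with q hq
  simp only [Function.comp_apply, (extChartAt (𝓡 n) z).left_inv hq]

end

section
variable {n : ℕ} {M : Type*} [MetricSpace M] [ChartedSpace (EuclideanSpace ℝ (Fin n)) M]
  [IsManifold (𝓡 n) ∞ M]
  [RiemannianBundle (fun p : M => TangentSpace (𝓡 n) p)]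
  [IsContMDiffRiemannianBundle (𝓡 n) ∞ (EuclideanSpace ℝ (Fin n)) (fun p : M => TangentSpace (𝓡 n) p)]
  [IsRiemannianManifold (𝓡 n) M] [ProperSpace M]

/-- pairs `(x, y)` with `y` interior to a minimiser from `x` -/
def Om (M : Type*) [MetricSpace M] : Set (M × M) :=
  {q | ∃ y' : M, q.2 ≠ y' ∧ dist q.1 q.2 + dist q.2 y' = dist q.1 y'}

theorem exists_near_ext (hm : ExM M) {y y' : M} (hy : y ≠ y') :
    ∃ e : M, y ≠ e ∧ dist y e + dist e y' = dist y y' ∧ SC n y e := by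
  obtain ⟨L⟩ := nonempty_localNear (n := n) y
  have hr := L.r_pos
  have h0 : 0 < dist y y' := dist_pos.2 hy
  obtain ⟨e, he1, he2⟩ := hm.pt y y' (t := min (dist y y') (L.r / 2)) (by positivity)
    (min_le_left _ _)
  have he0 : 0 < dist y e := by rw [he1]; positivity
  refine ⟨e, dist_pos.1 he0, by rw [he1, he2]; ring, LN_sc L L.mem_W ?_⟩
  rw [he1]
  exact (min_le_right _ _).trans_lt (by linarith)

/-- the point at fraction `t` is a smooth function of the end points -/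
theorem frac_smooth (hm : ExM M) {x y : M} (h : (x, y) ∈ Om M) (hxy : x ≠ y) {t : ℝ}
    (ht0 : 0 < t) (ht1 : t < 1)
    {m : M × M → M} (hmm : ∀ q : M × M, dist q.1 (m q) = t * dist q.1 q.2 ∧
      dist (m q) q.2 = (1 - t) * dist q.1 q.2) :
    Tendsto m (𝓝 (x, y)) (𝓝 (m (x, y))) ∧
    ContDiffAt ℝ ∞ (fun p : EE n × EE n => extChartAt (𝓡 n) (m (x, y))
        (m ((extChartAt (𝓡 n) x).symm p.1, (extChartAt (𝓡 n) y).symm p.2))) (o x, o y) ∧
      (∀ k : EE n, fderiv ℝ (fun p : EE n × EE n => extChartAt (𝓡 n) (m (x, y))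
        (m ((extChartAt (𝓡 n) x).symm p.1, (extChartAt (𝓡 n) y).symm p.2))) (o x, o y) (0, k) = 0 →
        k = 0) := by
  obtain ⟨y', hy, hb⟩ := h
  dsimp only at hy hb
  have hxy0 : 0 < dist x y := dist_pos.2 hxy
  set z := m (x, y) with hz
  have hz1 : dist x z = t * dist x y := (hmm (x, y)).1
  have hz2 : dist z y = (1 - t) * dist x y := (hmm (x, y)).2
  have hzy : z ≠ y := by
    intro hcon
    rw [hcon, dist_self] at hz2
    have : 0 < (1 - t) * dist x y := mul_pos (by linarith) hxy0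
    linarith
  have hbz : dist z y + dist y y' = dist z y' := by
    apply le_antisymm _ (dist_triangle z y y')
    have := dist_triangle x z y'
    nlinarith
  have huniq : ∀ c, dist x c = t * dist x y → dist c y = (1 - t) * dist x y → c = z := by
    intro c hc1 hc2
    exact mid_unique n hm hb hy (by rw [hc1, hc2]; ring) (by rw [hz1, hz2]; ring)
      (by rw [hc2, hz2])
  have htend := tendsto_frac ht0 ht1 hmm huniq
  obtain ⟨e, hye, he, hse⟩ := exists_near_ext (n := n) hm hy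
  have hbe : dist x y + dist y e = dist x e := by
    apply le_antisymm _ (dist_triangle x y e)
    have := dist_triangle x e y'
    linarith
  have s1 : SC n x z := sc_of_btw hm (x := x) (y := z) (y' := y) (by rw [hz1, hz2]; ring) hzy
  have s2 := sn_of_btw (n := n) hm hbz hy
  exact ⟨htend, frac_step ht0 ht1 s1 s2.1 s2.2 hse hz1 hz2 hbe hxy hye hmm htend⟩

/-- the point at fraction `t` is a smooth function of the end points, manifold form -/
theorem contMDiffAt_frac (hm : ExM M) {x y : M} (h : (x, y) ∈ Om M) (hxy : x ≠ y) {t : ℝ}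
    (ht0 : 0 < t) (ht1 : t < 1)
    {m : M × M → M} (hmm : ∀ q : M × M, dist q.1 (m q) = t * dist q.1 q.2 ∧
      dist (m q) q.2 = (1 - t) * dist q.1 q.2) :
    ContMDiffAt ((𝓡 n).prod (𝓡 n)) (𝓡 n) ∞ m (x, y) := by
  obtain ⟨h1, h2, -⟩ := frac_smooth (n := n) hm h hxy ht0 ht1 hmm
  exact contMDiffAt_of_chart h1 rfl h2

variable (n) in
include n in
/-- **openness** of the set of interior pairs -/
theorem isOpen_Om (hm : ExM M) : IsOpen (Om M) := by
  rw [isOpen_iff_mem_nhds]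
  rintro ⟨x, y⟩ ⟨y', hy, hb⟩
  dsimp only at hy hb
  rcases eq_or_ne x y with rfl | hxy
  · -- near the diagonal
    obtain ⟨L⟩ := nonempty_localNear (n := n) x
    have hr := L.r_pos
    have e1 : ∀ᶠ q : M × M in 𝓝 (x, x), q.1 ∈ L.W :=
      continuousAt_fst.eventually (L.isOpen_W.mem_nhds L.mem_W)
    have e2 : ∀ᶠ q : M × M in 𝓝 (x, x), dist q.1 q.2 < L.r / 2 := by
      have hc1 : Tendsto (fun q : M × M => dist q.1 q.2) (𝓝 (x, x)) (𝓝 (dist x x)) :=
        (continuous_fst.dist continuous_snd).tendsto (x, x)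
      exact hc1.eventually (gt_mem_nhds (by rw [dist_self]; linarith))
    filter_upwards [e1, e2] with q h1 h2
    obtain ⟨a, b⟩ := q
    dsimp only at h1 h2
    rcases eq_or_ne a b with rfl | hab
    · rcases eq_or_ne a x with rfl | hax
      · exact ⟨y', hy, by simp⟩
      · exact ⟨x, hax, by simp⟩
    · obtain ⟨v, hv, hve⟩ := L.surj a h1 b (by linarith)
      set w := (2 : ℝ) • v with hw
      have hwn : ‖w‖ = 2 * dist a b := by
        rw [hw, norm_smul, hv]; norm_num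
      have hwr : ‖w‖ < L.r := by rw [hwn]; linarith
      have hhalf : (1 / 2 : ℝ) • w = v := by rw [hw, smul_smul]; norm_num
      have k1 := L.dist_eq a h1 w hwr (1 / 2) 1 (by rw [abs_of_pos] <;> norm_num) (by simp)
      have k2 := L.dist_eq a h1 w hwr 0 1 (by simp) (by simp)
      rw [hhalf, hve, one_smul] at k1
      rw [zero_smul, L.e_zero a h1, one_smul] at k2
      have hpos : 0 < dist a b := dist_pos.2 hab
      have k3 : dist b (L.e a w) = dist a b := by
        rw [k1, hwn, abs_of_neg (by norm_num)]; ring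
      have k4 : dist a (L.e a w) = 2 * dist a b := by
        rw [k2, hwn]; simp
      refine ⟨L.e a w, ?_, ?_⟩
      · apply dist_pos.1
        show 0 < dist b (L.e a w)
        rw [k3]; exact hpos
      · show dist a b + dist b (L.e a w) = dist a (L.e a w)
        rw [k3, k4]; ring
  · have hxy0 : 0 < dist x y := dist_pos.2 hxy
    have hyy0 : 0 < dist y y' := dist_pos.2 hy
    -- a point `w` between `y` and `y'`
    obtain ⟨w, hw1, hw2⟩ := hm.pt y y' (t := dist y y' / 2) (by positivity) (by linarith)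
    have hyw : y ≠ w := dist_pos.1 (by rw [hw1]; positivity)
    have hwy : w ≠ y' := dist_pos.1 (by rw [hw2]; linarith)
    have hxw : dist x w = dist x y + dist y w := by
      apply le_antisymm (dist_triangle x y w)
      have := dist_triangle x w y'
      linarith
    have hOm : (x, w) ∈ Om M := by
      refine ⟨y', hwy, ?_⟩
      show dist x w + dist w y' = dist x y'
      rw [hxw, hw2, ← hb, hw1]; ring
    have hxw0 : 0 < dist x w := by rw [hxw]; linarith [dist_nonneg (x := y) (y := w)]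
    have hxwne : x ≠ w := dist_pos.1 hxw0
    set t := dist x y / dist x w with ht
    have ht0 : 0 < t := by positivity
    have ht1 : t < 1 := by
      rw [ht, div_lt_one hxw0, hxw]
      linarith [dist_pos.2 hyw]
    obtain ⟨m, hmm⟩ := hm.frac ht0 ht1
    have htw : t * dist x w = dist x y := by rw [ht]; field_simp
    have hmy : m (x, w) = y := by
      obtain ⟨q1, q2⟩ := hmm (x, w)
      dsimp only at q1 q2
      obtain ⟨y'', hy2, hb2⟩ := hOm
      refine mid_unique n hm hb2 hy2 ?_ hxw.symm ?_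
      · show dist x (m (x, w)) + dist (m (x, w)) w = dist x w
        rw [q1, q2]; ring
      · show dist (m (x, w)) w = dist y w
        rw [q2]
        have : (1 - t) * dist x w = dist x w - dist x y := by rw [sub_mul, one_mul, htw]
        rw [this, hxw]; ring
    obtain ⟨k1, k2, k3⟩ := frac_smooth (n := n) hm hOm hxwne ht0 ht1 hmm
    rw [hmy] at k1 k2 k3
    have key := nhds_le_map k2 k3
    let X : EE n × EE n → M × M := fun p =>
      ((extChartAt (𝓡 n) x).symm p.1, (extChartAt (𝓡 n) w).symm p.2)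
    have hX : Tendsto X (𝓝 (o x, o w)) (𝓝 (x, w)) :=
      ((tendsto_symm x).comp (continuous_fst.tendsto ((o x : EE n), (o w : EE n)))).prodMk_nhds
        ((tendsto_symm w).comp (continuous_snd.tendsto ((o x : EE n), (o w : EE n))))
    have hval : extChartAt (𝓡 n) y (m (X ((o x : EE n), (o w : EE n)))) = o y := by
      have : X ((o x : EE n), (o w : EE n)) = (x, w) := by
        simp only [X, symm_o]
      rw [this, hmy]; rfl
    have hP : ∀ᶠ p in 𝓝 ((o x : EE n), (o w : EE n)),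
        m (X p) ∈ (extChartAt (𝓡 n) y).source ∧ 0 < dist (X p).1 (X p).2 := by
      have hmX : Tendsto (fun p => m (X p)) (𝓝 (o x, o w)) (𝓝 y) := k1.comp hX
      have p1 := hmX.eventually (extChartAt_source_mem_nhds (I := 𝓡 n) y)
      have p2 : ∀ᶠ q : M × M in 𝓝 (x, w), 0 < dist q.1 q.2 :=
        ((continuous_fst.dist continuous_snd).tendsto (x, w)).eventually (lt_mem_nhds hxw0)
      exact p1.and (hX.eventually p2)
    have himg : (fun p : EE n × EE n => (p.1, extChartAt (𝓡 n) y (m (X p)))) ''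
        {p | m (X p) ∈ (extChartAt (𝓡 n) y).source ∧ 0 < dist (X p).1 (X p).2} ∈
        𝓝 ((o x : EE n), (o y : EE n)) := by
      have h5 := image_mem_map (m := fun p : EE n × EE n => (p.1, extChartAt (𝓡 n) y (m (X p)))) hP
      have h6 : map (fun p : EE n × EE n => (p.1, extChartAt (𝓡 n) y (m (X p))))
          (𝓝 ((o x : EE n), (o w : EE n))) = 𝓝 ((o x : EE n), (o y : EE n)) := by
        rw [← hval]
        exact key
      rwa [h6] at h5
    have hpull : ∀ᶠ q : M × M in 𝓝 (x, y),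
        (extChartAt (𝓡 n) x q.1, extChartAt (𝓡 n) y q.2) ∈
        (fun p : EE n × EE n => (p.1, extChartAt (𝓡 n) y (m (X p)))) ''
        {p | m (X p) ∈ (extChartAt (𝓡 n) y).source ∧ 0 < dist (X p).1 (X p).2} := by
      have h7 : Tendsto (fun q : M × M => (extChartAt (𝓡 n) x q.1, extChartAt (𝓡 n) y q.2))
          (𝓝 (x, y)) (𝓝 ((o x : EE n), (o y : EE n))) :=
        ((tendsto_chart x).comp (continuous_fst.tendsto (x, y))).prodMk_nhds
          ((tendsto_chart y).comp (continuous_snd.tendsto (x, y)))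
      exact h7.eventually himg
    have hx : ∀ᶠ q : M × M in 𝓝 (x, y), q.1 ∈ (extChartAt (𝓡 n) x).source :=
      continuousAt_fst.eventually (extChartAt_source_mem_nhds (I := 𝓡 n) x)
    have hyy : ∀ᶠ q : M × M in 𝓝 (x, y), q.2 ∈ (extChartAt (𝓡 n) y).source :=
      continuousAt_snd.eventually (extChartAt_source_mem_nhds (I := 𝓡 n) y)
    filter_upwards [hpull, hx, hyy] with q hq hq1 hq2
    obtain ⟨p, ⟨hp1, hp2⟩, hpe⟩ := hq
    obtain ⟨e1, e2⟩ := Prod.mk.inj hpe
    have hq1' : (X p).1 = q.1 := by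
      show (extChartAt (𝓡 n) x).symm p.1 = q.1
      rw [e1, (extChartAt (𝓡 n) x).left_inv hq1]
    have hq2' : m (X p) = q.2 := by
      have := congrArg (extChartAt (𝓡 n) y).symm e2
      rwa [(extChartAt (𝓡 n) y).left_inv hp1, (extChartAt (𝓡 n) y).left_inv hq2] at this
    obtain ⟨g1, g2⟩ := hmm (X p)
    rw [hq1', hq2'] at g1
    rw [hq1', hq2'] at g2
    rw [hq1'] at hp2
    refine ⟨(X p).2, ?_, ?_⟩
    · apply dist_pos.1
      rw [g2]
      exact mul_pos (by linarith) hp2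
    · rw [g1, g2]; ring

/-- the cost is smooth on `Om` -/
theorem contMDiffOn_Om (hm : ExM M) :
    ContMDiffOn ((𝓡 n).prod (𝓡 n)) 𝓘(ℝ) ∞ (fun q : M × M => halfDistSq q.1 q.2) (Om M) := by
  rintro ⟨x, y⟩ ⟨y', hy, hb⟩
  exact (sc_of_btw (n := n) hm (x := x) (y := y) (y' := y') hb hy).contMDiffWithinAt

/-- the open set of `y` interior to a minimiser from `x` -/
def OmA (x : M) : Set M := {y | (x, y) ∈ Om M}

variable (n) in
include n in
theorem isOpen_OmA (hm : ExM M) (x : M) : IsOpen (OmA x) :=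
  (isOpen_Om n hm).preimage (Continuous.prodMk_right x)

local notation "𝔼" => EuclideanSpace ℝ (Fin n)

theorem sc_of_Om (hm : ExM M) {x y : M} (h : (x, y) ∈ Om M) : SC n x y := by
  obtain ⟨y', hy, hb⟩ := h
  exact sc_of_btw (n := n) hm (x := x) (y := y) (y' := y') hb hy

theorem sc_of_Om' (hm : ExM M) {x y : M} (h : (y, x) ∈ Om M) : SC n x y :=
  sc_symm (sc_of_Om hm h)

theorem mem_Om_of_btw {x y y' : M} (hy : y ≠ y') (hb : dist x y + dist y y' = dist x y') :
    (x, y) ∈ Om M := ⟨y', hy, hb⟩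

/-- `z` beyond-extendable: `(y, z) ∈ Om` when `z` lies strictly between `x` and `y` -/
theorem mem_Om_of_btw' {x z y : M} (hx : x ≠ z) (hb : dist x z + dist z y = dist x y) :
    (y, z) ∈ Om M := by
  refine ⟨x, hx.symm, ?_⟩
  show dist y z + dist z x = dist y x
  rw [dist_comm y z, dist_comm z x, dist_comm y x, add_comm]
  exact hb

variable (n) in
/-- the set of coordinates of pairs in a set of pairs -/
theorem isOpen_coord {O : Set (M × M)} (hO : IsOpen O) (x₀ y₀ : M) :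
    IsOpen {p : 𝔼 × 𝔼 | p.1 ∈ (chartAt 𝔼 x₀).target ∧ p.2 ∈ (chartAt 𝔼 y₀).target ∧
      ((chartAt 𝔼 x₀).symm p.1, (chartAt 𝔼 y₀).symm p.2) ∈ O} := by
  have h1 : ContinuousOn (fun p : 𝔼 × 𝔼 => ((chartAt 𝔼 x₀).symm p.1, (chartAt 𝔼 y₀).symm p.2))
      ((chartAt 𝔼 x₀).target ×ˢ (chartAt 𝔼 y₀).target) := by
    refine ContinuousOn.prodMk ?_ ?_
    · exact (chartAt 𝔼 x₀).continuousOn_symm.comp continuousOn_fst fun p hp => hp.1
    · exact (chartAt 𝔼 y₀).continuousOn_symm.comp continuousOn_snd fun p hp => hp.2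
  have h2 := h1.isOpen_inter_preimage
    ((chartAt 𝔼 x₀).open_target.prod (chartAt 𝔼 y₀).open_target) hO
  convert h2 using 1
  ext p
  simp only [mem_ofPred_eq, mem_inter_iff, mem_prod, mem_preimage, and_assoc]

/-- **joint smoothness in charts on the open set of interior pairs** -/
theorem contDiffOn_coord (hm : ExM M) (x₀ y₀ : M) :
    ContDiffOn ℝ ∞ (fun p : 𝔼 × 𝔼 => halfDistSq ((chartAt 𝔼 x₀).symm p.1)
      ((chartAt 𝔼 y₀).symm p.2))
      {p : 𝔼 × 𝔼 | p.1 ∈ (chartAt 𝔼 x₀).target ∧ p.2 ∈ (chartAt 𝔼 y₀).target ∧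
        ((chartAt 𝔼 x₀).symm p.1, (chartAt 𝔼 y₀).symm p.2) ∈ Om M} := by
  rintro ⟨a, b⟩ ⟨ha, hb, hab⟩
  exact (contDiffAt_pair ha hb (sc_of_Om hm hab)).contDiffWithinAt

/-- the same on the mirror image -/
theorem contDiffOn_coord' (hm : ExM M) (x₀ y₀ : M) :
    ContDiffOn ℝ ∞ (fun p : 𝔼 × 𝔼 => halfDistSq ((chartAt 𝔼 x₀).symm p.1)
      ((chartAt 𝔼 y₀).symm p.2))
      {p : 𝔼 × 𝔼 | p.1 ∈ (chartAt 𝔼 x₀).target ∧ p.2 ∈ (chartAt 𝔼 y₀).target ∧
        ((chartAt 𝔼 y₀).symm p.2, (chartAt 𝔼 x₀).symm p.1) ∈ Om M} := by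
  rintro ⟨a, b⟩ ⟨ha, hb, hab⟩
  exact (contDiffAt_pair ha hb (sc_of_Om' hm hab)).contDiffWithinAt

theorem contDiffOn_fz (hm : ExM M) (z x₀ : M) :
    ContDiffOn ℝ ∞ (fz (n := n) z x₀)
      ((chartAt 𝔼 x₀).target ∩ (chartAt 𝔼 x₀).symm ⁻¹' OmA z) := by
  rintro a ⟨ha, hb⟩
  exact (contDiffAt_fz ha (sc_of_Om hm hb)).contDiffWithinAt

variable (n) in
theorem isOpen_coordA (hm : ExM M) (z x₀ : M) :
    IsOpen ((chartAt 𝔼 x₀).target ∩ (chartAt 𝔼 x₀).symm ⁻¹' OmA z) :=
  (chartAt 𝔼 x₀).symm.isOpen_inter_preimage (isOpen_OmA n hm z)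

end

end Crest.Agent.R247.Sm879
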