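import Crest.Agent.R247.Bs2_342
import Crest.Agent.R247.Ray2_97
import Crest.Agent.R247.Sm5_879

/-!
R247 (helper342), block (1-B), file 3: the local lemma on the manifold.  Near a point `P₀` of the
smooth locus of `d_x²/2`, two minimisers issued from `x` spread at a rate controlled by
`|Hess f - g|(P₀)`.
-/

set_option autoImplicit false
set_option maxSynthPendingDepth 3
set_option linter.unusedSectionVars false

open Bundle Set Filter Topology Metric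
open scoped Manifold ContDiff NNReal
open Crest.GeometryTopology.CoordMetric Crest.GeometryTopology.ChartCurvature
open Crest.GeometryTopology.MTW Crest.Agent.R244 Crest.Agent.R226
open Crest.Agent.R226.ChartMet842
open Crest.Agent.R226.CutSmooth77 (SC)
open Crest.Agent.R202.Tens Crest.Agent.R247.Ms322 Crest.Agent.R247.Bo84
open Crest.Agent.R247.Sm879 Crest.Agent.R247.Lc582

noncomputable section

namespace Crest.Agent.R247.Bs342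

/-- a piece of a minimiser issued from `x`, with speed `ℓ`, defined on `[a,b]` -/
structure RayP {M : Type*} [MetricSpace M] (x : M) (γ : ℝ → M) (a b ℓ : ℝ) : Prop where
  nonneg : 0 ≤ ℓ
  left : ∀ t ∈ Icc a b, dist x (γ t) = ℓ * t
  lip : ∀ s ∈ Icc a b, ∀ t ∈ Icc a b, dist (γ s) (γ t) = |s - t| * ℓ

section
variable {n : ℕ} {M : Type*} [MetricSpace M] [ChartedSpace (EuclideanSpace ℝ (Fin n)) M]
  [IsManifold (𝓡 n) ∞ M]
  [RiemannianBundle (fun p : M => TangentSpace (𝓡 n) p)]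
  [IsContMDiffRiemannianBundle (𝓡 n) ∞ (EuclideanSpace ℝ (Fin n)) (fun p : M => TangentSpace (𝓡 n) p)]

local notation "𝔼" => EuclideanSpace ℝ (Fin n)

/-- squared length of `φ Q - φ P` for the metric at `P`, in the chart `φ` at `x₀` -/
def wq (x₀ P Q : M) : ℝ :=
  gm (n := n) x₀ (chartAt 𝔼 x₀ P) (chartAt 𝔼 x₀ Q - chartAt 𝔼 x₀ P)
    (chartAt 𝔼 x₀ Q - chartAt 𝔼 x₀ P)

theorem wq_nonneg (x₀ P Q : M) : 0 ≤ wq (n := n) x₀ P Q := gm_self_nonneg _ _ _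

/-- coercivity of the metric at a point of the chart -/
theorem exists_coercive (x₀ : M) {a : 𝔼} (ha : a ∈ (chartAt 𝔼 x₀).target) :
    ∃ c : ℝ, 0 < c ∧ ∀ ζ : 𝔼, c * ‖ζ‖ ^ 2 ≤ gm x₀ a ζ ζ := by
  obtain ⟨A, hA, -⟩ := exists_isometry (n := n) x₀ ha
  set K : ℝ := ‖(A.symm : 𝔼 →L[ℝ] 𝔼)‖ + 1 with hK
  have hK0 : 0 < K := by positivity
  refine ⟨(K ^ 2)⁻¹, by positivity, fun ζ => ?_⟩
  have h1 : gm x₀ a ζ ζ = ‖A ζ‖ ^ 2 := by rw [← hA, real_inner_self_eq_norm_sq]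
  have h2 : ‖ζ‖ ≤ K * ‖A ζ‖ := by
    calc ‖ζ‖ = ‖A.symm (A ζ)‖ := by rw [A.symm_apply_apply]
      _ ≤ ‖(A.symm : 𝔼 →L[ℝ] 𝔼)‖ * ‖A ζ‖ := (A.symm : 𝔼 →L[ℝ] 𝔼).le_opNorm _
      _ ≤ K * ‖A ζ‖ := by gcongr; rw [hK]; linarith
  rw [h1]
  have h3 : ‖ζ‖ ^ 2 ≤ K ^ 2 * ‖A ζ‖ ^ 2 := by
    rw [← mul_pow]; gcongr
  calc (K ^ 2)⁻¹ * ‖ζ‖ ^ 2 ≤ (K ^ 2)⁻¹ * (K ^ 2 * ‖A ζ‖ ^ 2) := by gcongr
    _ = ‖A ζ‖ ^ 2 := by field_simp

variable (n) in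
/-- `|Hess f - g|²` at `P` for `f = d_x²/2` -/
def devA (x P : M) : ℝ :=
  hessDev (chartMetric n M P) (fz (n := n) x P) (chartAt (EuclideanSpace ℝ (Fin n)) P P)

variable [IsRiemannianManifold (𝓡 n) M] [ProperSpace M]

variable (n) in
/-- **local lemma** -/
theorem local_lemma (hm : ExM M) {x P₀ : M} (h : (x, P₀) ∈ Om M) {ε : ℝ} (hε : 0 < ε) :
    ∃ δ > 0, ball P₀ δ ⊆ (chartAt (EuclideanSpace ℝ (Fin n)) P₀).source ∧
      ∀ (γ₁ γ₂ : ℝ → M) (a b ℓ₁ ℓ₂ : ℝ), 0 < a → a ≤ b → RayP x γ₁ a b ℓ₁ → RayP x γ₂ a b ℓ₂ →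
        (∀ t ∈ Icc a b, γ₁ t ∈ ball P₀ δ) → (∀ t ∈ Icc a b, γ₂ t ∈ ball P₀ δ) →
        wq (n := n) P₀ (γ₁ a) (γ₂ a) ≤
          Real.exp ((2 * (1 - √(devA n x P₀)) - ε) * (Real.log a - Real.log b)) *
            wq (n := n) P₀ (γ₁ b) (γ₂ b) := by
  have hg := isRiemannianOn_chartMetric (n := n) (M := M) P₀
  set a₀ : 𝔼 := chartAt 𝔼 P₀ P₀ with ha₀
  have hsrc : P₀ ∈ (chartAt 𝔼 P₀).source := mem_chart_source 𝔼 P₀
  have ha : a₀ ∈ (chartAt 𝔼 P₀).target := (chartAt 𝔼 P₀).map_source hsrc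
  have hsa : (chartAt 𝔼 P₀).symm a₀ = P₀ := (chartAt 𝔼 P₀).left_inv hsrc
  have hf : ContDiffAt ℝ ∞ (fz (n := n) x P₀) a₀ := by
    refine contDiffAt_fz ha ?_
    rw [hsa]
    exact sc_of_Om hm h
  obtain ⟨c, hc, hco⟩ := exists_coercive (n := n) P₀ ha
  have hco' : ∀ ζ : 𝔼, c * ‖ζ‖ ^ 2 ≤ bil (chartMetric n M P₀ a₀) ζ ζ := by
    intro ζ
    rw [bil_chartMetric]
    exact hco ζ
  have hev := grad_near hg ha hf hc hco' hε
  rw [nhds_prod_eq] at hev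
  obtain ⟨r, hr, hr'⟩ := (Metric.nhds_basis_ball.prod_self).eventually_iff.1 hev
  have hev2 : ∀ᶠ z in 𝓝 P₀, z ∈ (chartAt 𝔼 P₀).source ∧ chartAt 𝔼 P₀ z ∈ ball a₀ r ∧
      z ∈ OmA x := by
    have e1 : ∀ᶠ z in 𝓝 P₀, z ∈ (chartAt 𝔼 P₀).source :=
      (chartAt 𝔼 P₀).open_source.mem_nhds hsrc
    have e2 : ∀ᶠ z in 𝓝 P₀, chartAt 𝔼 P₀ z ∈ ball a₀ r :=
      ((chartAt 𝔼 P₀).continuousAt hsrc).eventually (ball_mem_nhds _ hr)
    have e3 : ∀ᶠ z in 𝓝 P₀, z ∈ OmA x := (isOpen_OmA n hm x).mem_nhds h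
    exact e1.and (e2.and e3)
  obtain ⟨δ, hδ, hδ'⟩ := Metric.eventually_nhds_iff_ball.1 hev2
  refine ⟨δ, hδ, fun z hz => (hδ' z hz).1, ?_⟩
  intro γ₁ γ₂ a b ℓ₁ ℓ₂ ha0 hab h₁ h₂ hi₁ hi₂
  have cont : ∀ (γ : ℝ → M) (ℓ : ℝ), RayP x γ a b ℓ → (∀ t ∈ Icc a b, γ t ∈ ball P₀ δ) →
      ContinuousOn (fun s => chartAt 𝔼 P₀ (γ s)) (Icc a b) := by
    intro γ ℓ hγ hi
    have hγc : ContinuousOn γ (Icc a b) := by
      have : LipschitzOnWith ⟨ℓ, hγ.nonneg⟩ γ (Icc a b) := by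
        apply LipschitzOnWith.of_dist_le_mul
        intro s hs t ht
        rw [hγ.lip s hs t ht, Real.dist_eq, mul_comm]
        rfl
      exact this.continuousOn
    exact (chartAt 𝔼 P₀).continuousOn.comp hγc fun s hs => (hδ' _ (hi s hs)).1
  have der : ∀ (γ : ℝ → M) (ℓ : ℝ), RayP x γ a b ℓ → (∀ t ∈ Icc a b, γ t ∈ ball P₀ δ) →
      ∀ s ∈ Ioo a b, HasDerivAt (fun s => chartAt 𝔼 P₀ (γ s))
        (s⁻¹ • grad (chartMetric n M P₀) (fz x P₀) (chartAt 𝔼 P₀ (γ s))) s := by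
    intro γ ℓ hγ hi s hs
    have hs' : s ∈ Icc a b := Ioo_subset_Icc_self hs
    obtain ⟨q1, _, q3⟩ := hδ' _ (hi s hs')
    have hnb : ∀ᶠ t in 𝓝[univ] s, t ∈ Icc a b := by
      rw [nhdsWithin_univ]
      exact Icc_mem_nhds hs.1 hs.2
    have := Ray97.hasDerivWithinAt_from (n := n) hm P₀ (x := x) (γ := γ) (S := univ) (s := s)
      (ℓ := ℓ) (ha0.trans hs.1) q1 (sc_of_Om hm q3) hγ.nonneg (hγ.left s hs')
      (hnb.mono fun t ht => hγ.left t ht)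
      (hnb.mono fun t ht => by rw [hγ.lip t ht s hs', mul_comm])
    exact hasDerivWithinAt_univ.1 this
  have key := ode_pair (G := Gf (chartMetric n M P₀)) (V := grad (chartMetric n M P₀) (fz x P₀))
    (lam := 2 * (1 - √(devA n x P₀)) - ε)
    (p := fun s => chartAt 𝔼 P₀ (γ₁ s)) (q := fun s => chartAt 𝔼 P₀ (γ₂ s)) ha0 hab
    (cont γ₁ ℓ₁ h₁ hi₁) (cont γ₂ ℓ₂ h₂ hi₂) (der γ₁ ℓ₁ h₁ hi₁) (der γ₂ ℓ₂ h₂ hi₂)
    (fun s hs => (contDiffAt_Gf hg ((chartAt 𝔼 P₀).map_source (hδ' _ (hi₁ s hs)).1)).continuousAt)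
    (fun s hs => (contDiffAt_Gf hg ((chartAt 𝔼 P₀).map_source
      (hδ' _ (hi₁ s (Ioo_subset_Icc_self hs))).1)).differentiableAt (by simp))
    (fun s hs => by
      have hs' := Ioo_subset_Icc_self hs
      exact hr' (x := (chartAt 𝔼 P₀ (γ₁ s), chartAt 𝔼 P₀ (γ₂ s)))
        ⟨(hδ' _ (hi₁ s hs')).2.1, (hδ' _ (hi₂ s hs')).2.1⟩)
  simp only [Gf_apply', bil_chartMetric] at key
  exact key

end

end Crest.Agent.R247.Bs342
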