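import Crest.Agent.R247.Bs3_342

/-!
R247 (helper342), block (1-B), file 4: conversion between the distance and the metric at a point,
and the continuation argument along the whole ray.
-/

set_option autoImplicit false
set_option maxSynthPendingDepth 3
set_option linter.unusedSectionVars false

open Bundle Set Filter Topology Metric MeasureTheory
open scoped Manifold ContDiff NNReal
open Crest.GeometryTopology.CoordMetric Crest.GeometryTopology.ChartCurvature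
open Crest.GeometryTopology.MTW Crest.Agent.R244 Crest.Agent.R226
open Crest.Agent.R226.ChartMet842
open Crest.Agent.R226.CutSmooth77 (SC)
open Crest.Agent.R202.Tens Crest.Agent.R247.Ms322 Crest.Agent.R247.Bo84
open Crest.Agent.R247.Sm879 Crest.Agent.R247.Lc582

noncomputable section

namespace Crest.Agent.R247.Bs342

/-- real induction, downwards from `1` -/
theorem real_ind {tmin : ℝ} (h01 : tmin ≤ 1) {K : ℝ → Prop} (h1 : K 1)
    (hstep : ∀ t₀ ∈ Icc tmin 1, ∃ δ > 0, ∀ a b, a ∈ Icc tmin 1 → b ∈ Icc tmin 1 → a ≤ b →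
      |a - t₀| < δ → |b - t₀| < δ → K b → K a) : K tmin := by
  set S : Set ℝ := {t | t ∈ Icc tmin 1 ∧ K t} with hS
  have hne : S.Nonempty := ⟨1, right_mem_Icc.2 h01, h1⟩
  have hbdd : BddBelow S := ⟨tmin, fun t ht => ht.1.1⟩
  set s := sInf S with hs
  have hs0 : tmin ≤ s := le_csInf hne fun t ht => ht.1.1
  have hs1 : s ≤ 1 := csInf_le hbdd ⟨right_mem_Icc.2 h01, h1⟩
  obtain ⟨δ, hδ, hδ'⟩ := hstep s ⟨hs0, hs1⟩
  obtain ⟨b, hb, hbs⟩ := exists_lt_of_csInf_lt hne (show sInf S < s + δ by rw [← hs]; linarith)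
  have hsb : s ≤ b := csInf_le hbdd hb
  set a := max tmin (s - δ / 2) with ha
  have ha0 : tmin ≤ a := le_max_left _ _
  have has : a ≤ s := max_le hs0 (by linarith)
  have ha1 : s - δ / 2 ≤ a := le_max_right _ _
  have hKa : K a := hδ' a b ⟨ha0, has.trans hs1⟩ hb.1 (has.trans hsb)
    (by rw [abs_lt]; constructor <;> linarith) (by rw [abs_lt]; constructor <;> linarith) hb.2
  have hsa : s ≤ a := csInf_le hbdd ⟨⟨ha0, has.trans hs1⟩, hKa⟩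
  have : a = tmin := by
    rcases max_choice tmin (s - δ / 2) with h | h
    · rw [ha, h]
    · rw [← ha] at h
      linarith
  rw [← this]
  exact hKa

section
variable {n : ℕ} {M : Type*} [MetricSpace M] [ChartedSpace (EuclideanSpace ℝ (Fin n)) M]
  [IsManifold (𝓡 n) ∞ M]
  [RiemannianBundle (fun p : M => TangentSpace (𝓡 n) p)]
  [IsContMDiffRiemannianBundle (𝓡 n) ∞ (EuclideanSpace ℝ (Fin n)) (fun p : M => TangentSpace (𝓡 n) p)]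
  [IsRiemannianManifold (𝓡 n) M]

local notation "𝔼" => EuclideanSpace ℝ (Fin n)

variable (n) in
/-- comparison of `dist P' Q` and `wq` as `Q → P'` -/
theorem conv_point (x₀ : M) {P : M} (hP : P ∈ (chartAt (EuclideanSpace ℝ (Fin n)) x₀).source)
    {η : ℝ} (hη : 0 < η) :
    ∃ ρ > 0, ∀ Q, dist Q P < ρ → wq (n := n) x₀ P Q ≤ ((1 + η) * dist Q P) ^ 2 ∧
      dist Q P ^ 2 ≤ (1 + η) ^ 2 * wq (n := n) x₀ P Q := by
  set a : 𝔼 := chartAt 𝔼 x₀ P with ha'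
  have ha : a ∈ (chartAt 𝔼 x₀).target := (chartAt 𝔼 x₀).map_source hP
  have hsa : (chartAt 𝔼 x₀).symm a = P := (chartAt 𝔼 x₀).left_inv hP
  obtain ⟨A, hA, -⟩ := exists_isometry (n := n) x₀ ha
  obtain ⟨r, hr, hrt, hL1, hL2⟩ := exists_bilip x₀ ha hA (η := ⟨η, hη.le⟩) (by exact_mod_cast hη)
  have hev : ∀ᶠ z in 𝓝 P, z ∈ (chartAt 𝔼 x₀).source ∧ chartAt 𝔼 x₀ z ∈ ball a r := by
    have e1 : ∀ᶠ z in 𝓝 P, z ∈ (chartAt 𝔼 x₀).source := (chartAt 𝔼 x₀).open_source.mem_nhds hP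
    have e2 : ∀ᶠ z in 𝓝 P, chartAt 𝔼 x₀ z ∈ ball a r :=
      ((chartAt 𝔼 x₀).continuousAt hP).eventually (ball_mem_nhds _ hr)
    exact e1.and e2
  obtain ⟨ρ, hρ, hρ'⟩ := Metric.eventually_nhds_iff.1 hev
  refine ⟨ρ, hρ, fun Q hQ => ?_⟩
  obtain ⟨hQ1, hQ2⟩ := hρ' hQ
  have hQs : (chartAt 𝔼 x₀).symm (chartAt 𝔼 x₀ Q) = Q := (chartAt 𝔼 x₀).left_inv hQ1
  have hw : wq (n := n) x₀ P Q = ‖A (chartAt 𝔼 x₀ Q) - A a‖ ^ 2 := by
    unfold wq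
    rw [← ha', ← hA, real_inner_self_eq_norm_sq, map_sub]
  have d1 : dist Q P ≤ (1 + η) * ‖A (chartAt 𝔼 x₀ Q) - A a‖ := by
    have := hL1.dist_le_mul (A (chartAt 𝔼 x₀ Q)) (mem_image_of_mem _ hQ2) (A a)
      (mem_image_of_mem _ (mem_ball_self hr))
    simp only [A.symm_apply_apply, hsa, hQs] at this
    rw [dist_eq_norm] at this
    exact this
  have d2 : ‖A (chartAt 𝔼 x₀ Q) - A a‖ ≤ (1 + η) * dist Q P := by
    have := hL2.dist_le_mul Q ⟨_, hQ2, hQs⟩ P ⟨_, mem_ball_self hr, hsa⟩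
    rw [dist_eq_norm] at this
    exact this
  constructor
  · rw [hw]; gcongr
  · rw [hw, ← mul_pow]; gcongr

variable (n) in
/-- comparison of `dist P Q` and `wq`, uniformly near the centre of the chart -/
theorem conv_near (x₀ : M) {η : ℝ} (hη : 0 < η) :
    ∃ δ > 0, ∀ P ∈ ball x₀ δ, ∀ Q ∈ ball x₀ δ, dist Q P ^ 2 ≤ (1 + η) ^ 4 * wq (n := n) x₀ P Q := by
  have hP : x₀ ∈ (chartAt 𝔼 x₀).source := mem_chart_source 𝔼 x₀
  set a : 𝔼 := chartAt 𝔼 x₀ x₀ with ha'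
  have ha : a ∈ (chartAt 𝔼 x₀).target := (chartAt 𝔼 x₀).map_source hP
  obtain ⟨A, hA, -⟩ := exists_isometry (n := n) x₀ ha
  obtain ⟨r, hr, hrt, hL1, hL2⟩ := exists_bilip x₀ ha hA (η := ⟨η, hη.le⟩) (by exact_mod_cast hη)
  have hgm := eventually_gm_le x₀ ha hA hη
  have hev : ∀ᶠ z in 𝓝 x₀, z ∈ (chartAt 𝔼 x₀).source ∧ chartAt 𝔼 x₀ z ∈ ball a r ∧
      ∀ v, gm x₀ (chartAt 𝔼 x₀ z) v v ≤ ((1 + η) * ‖A v‖) ^ 2 ∧
        ‖A v‖ ^ 2 ≤ (1 + η) ^ 2 * gm x₀ (chartAt 𝔼 x₀ z) v v := by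
    have e1 : ∀ᶠ z in 𝓝 x₀, z ∈ (chartAt 𝔼 x₀).source := (chartAt 𝔼 x₀).open_source.mem_nhds hP
    have e2 : ∀ᶠ z in 𝓝 x₀, chartAt 𝔼 x₀ z ∈ ball a r :=
      ((chartAt 𝔼 x₀).continuousAt hP).eventually (ball_mem_nhds _ hr)
    exact e1.and (e2.and (((chartAt 𝔼 x₀).continuousAt hP).eventually hgm))
  obtain ⟨ρ, hρ, hρ'⟩ := Metric.eventually_nhds_iff_ball.1 hev
  refine ⟨ρ, hρ, fun P hP Q hQ => ?_⟩
  obtain ⟨hP1, hP2, hP3⟩ := hρ' P hP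
  obtain ⟨hQ1, hQ2, _⟩ := hρ' Q hQ
  have hPs : (chartAt 𝔼 x₀).symm (chartAt 𝔼 x₀ P) = P := (chartAt 𝔼 x₀).left_inv hP1
  have hQs : (chartAt 𝔼 x₀).symm (chartAt 𝔼 x₀ Q) = Q := (chartAt 𝔼 x₀).left_inv hQ1
  have d1 : dist Q P ≤ (1 + η) * ‖A (chartAt 𝔼 x₀ Q - chartAt 𝔼 x₀ P)‖ := by
    have := hL1.dist_le_mul (A (chartAt 𝔼 x₀ Q)) (mem_image_of_mem _ hQ2) (A (chartAt 𝔼 x₀ P))
      (mem_image_of_mem _ hP2)
    simp only [A.symm_apply_apply, hPs, hQs] at this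
    rw [dist_eq_norm, ← map_sub] at this
    exact this
  have d2 := (hP3 (chartAt 𝔼 x₀ Q - chartAt 𝔼 x₀ P)).2
  calc dist Q P ^ 2 ≤ ((1 + η) * ‖A (chartAt 𝔼 x₀ Q - chartAt 𝔼 x₀ P)‖) ^ 2 := by gcongr
    _ = (1 + η) ^ 2 * ‖A (chartAt 𝔼 x₀ Q - chartAt 𝔼 x₀ P)‖ ^ 2 := by ring
    _ ≤ (1 + η) ^ 2 * ((1 + η) ^ 2 * wq (n := n) x₀ P Q) := by gcongr; exact d2
    _ = _ := by ring

end

end Crest.Agent.R247.Bs342
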