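import Crest.Agent.R247.Bs4_342

/-!
R247 (helper342), block (1-B), file 5: continuation along the whole ray.
-/

set_option autoImplicit false
set_option maxSynthPendingDepth 3
set_option linter.unusedSectionVars false

open Bundle Set Filter Topology Metric MeasureTheory
open scoped Manifold ContDiff NNReal Interval
open Crest.GeometryTopology.CoordMetric Crest.GeometryTopology.ChartCurvature
open Crest.GeometryTopology.MTW Crest.Agent.R244 Crest.Agent.R226
open Crest.Agent.R226.ChartMet842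
open Crest.Agent.R226.CutSmooth77 (SC)
open Crest.Agent.R202.Tens Crest.Agent.R247.Ms322 Crest.Agent.R247.Bo84
open Crest.Agent.R247.Sm879 Crest.Agent.R247.Lc582

noncomputable section

namespace Crest.Agent.R247.Bs342

/-- the exponent -/
def Psi (H : ℝ → ℝ) (ε t : ℝ) : ℝ := ∫ τ in t..1, (1 - H τ - ε) * τ⁻¹

theorem Psi_one (H : ℝ → ℝ) (ε : ℝ) : Psi H ε 1 = 0 := by simp [Psi]

theorem continuousOn_integrand {H : ℝ → ℝ} {ε tmin : ℝ} (h0 : 0 < tmin)
    (hH : ContinuousOn H (Icc tmin 1)) :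
    ContinuousOn (fun τ => (1 - H τ - ε) * τ⁻¹) (Icc tmin 1) := by
  refine ContinuousOn.mul ((continuousOn_const.sub hH).sub continuousOn_const) ?_
  exact ContinuousOn.inv₀ continuousOn_id fun τ hτ => (h0.trans_le hτ.1).ne'

theorem Psi_sub {H : ℝ → ℝ} {ε tmin a b : ℝ} (h0 : 0 < tmin) (hH : ContinuousOn H (Icc tmin 1))
    (ha : a ∈ Icc tmin 1) (hb : b ∈ Icc tmin 1) :
    Psi H ε a - Psi H ε b = ∫ τ in a..b, (1 - H τ - ε) * τ⁻¹ := by
  have hc := continuousOn_integrand (ε := ε) h0 hH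
  have hi : ∀ u ∈ Icc tmin 1, ∀ v ∈ Icc tmin 1,
      IntervalIntegrable (fun τ => (1 - H τ - ε) * τ⁻¹) volume u v := by
    intro u hu v hv
    apply ContinuousOn.intervalIntegrable
    apply hc.mono
    exact (convex_Icc tmin 1).ordConnected.uIcc_subset hu hv
  have h1 : (1 : ℝ) ∈ Icc tmin 1 := ⟨ha.1.trans ha.2, le_rfl⟩
  unfold Psi
  have := intervalIntegral.integral_add_adjacent_intervals (hi a ha b hb) (hi b hb 1 h1)
  linarith

theorem Psi_sub_le {H : ℝ → ℝ} {ε tmin a b c : ℝ} (h0 : 0 < tmin)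
    (hH : ContinuousOn H (Icc tmin 1)) (ha : a ∈ Icc tmin 1) (hb : b ∈ Icc tmin 1) (hab : a ≤ b)
    (hc : ∀ τ ∈ Icc a b, 1 - H τ - ε ≤ c) :
    Psi H ε a - Psi H ε b ≤ c * (Real.log b - Real.log a) := by
  rw [Psi_sub h0 hH ha hb]
  have ha0 : 0 < a := h0.trans_le ha.1
  have hb0 : 0 < b := h0.trans_le hb.1
  have hsub : Icc a b ⊆ Icc tmin 1 := Icc_subset_Icc ha.1 hb.2
  have h1 : ∫ τ in a..b, (1 - H τ - ε) * τ⁻¹ ≤ ∫ τ in a..b, c * τ⁻¹ := by
    apply intervalIntegral.integral_mono_on hab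
    · apply ContinuousOn.intervalIntegrable_of_Icc hab
      exact (continuousOn_integrand (ε := ε) h0 hH).mono hsub
    · apply ContinuousOn.intervalIntegrable_of_Icc hab
      exact continuousOn_const.mul
        (ContinuousOn.inv₀ continuousOn_id fun τ hτ => (ha0.trans_le hτ.1).ne')
    · intro τ hτ
      have : 0 < τ := ha0.trans_le hτ.1
      exact mul_le_mul_of_nonneg_right (hc τ hτ) (by positivity)
  refine h1.trans (le_of_eq ?_)
  rw [intervalIntegral.integral_const_mul, integral_inv_of_pos ha0 hb0, Real.log_div hb0.ne' ha0.ne']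

section
variable {n : ℕ} {M : Type*} [MetricSpace M] [ChartedSpace (EuclideanSpace ℝ (Fin n)) M]
  [IsManifold (𝓡 n) ∞ M]
  [RiemannianBundle (fun p : M => TangentSpace (𝓡 n) p)]
  [IsContMDiffRiemannianBundle (𝓡 n) ∞ (EuclideanSpace ℝ (Fin n)) (fun p : M => TangentSpace (𝓡 n) p)]
  [IsRiemannianManifold (𝓡 n) M] [ProperSpace M]

local notation "𝔼" => EuclideanSpace ℝ (Fin n)

set_option maxHeartbeats 1000000 in
variable (n) in
/-- **continuation**: `T y` is the minimiser from `x` to `y ∈ S`, parametrised by fractions. -/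
theorem spread (hm : ExM M) {x g : M} {S : Set M} {T : M → ℝ → M} (hg : g ∈ S) {tmin : ℝ}
    (h0 : 0 < tmin) (h1 : tmin ≤ 1)
    (hT1 : ∀ y ∈ S, T y 1 = y)
    (hTl : ∀ y ∈ S, ∀ t ∈ Icc tmin 1, dist x (T y t) = t * dist x y)
    (hTd : ∀ y ∈ S, ∀ s ∈ Icc tmin 1, ∀ t ∈ Icc tmin 1, dist (T y s) (T y t) = |s - t| * dist x y)
    (hOm : ∀ t ∈ Icc tmin 1, (x, T g t) ∈ Om M)
    (hH : ContinuousOn (fun t => √(devA n x (T g t))) (Icc tmin 1)) {ε : ℝ} (hε : 0 < ε) :
    ∃ ρ > 0, ∀ y ∈ S, dist y g < ρ → ∀ t ∈ Icc tmin 1, dist (T y t) (T g t) ≤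
      3 / 2 * Real.exp (-Psi (fun t => √(devA n x (T g t))) ε t) * dist y g := by
  set H : ℝ → ℝ := fun t => √(devA n x (T g t)) with hHdef
  set Ψ : ℝ → ℝ := Psi H ε with hΨ
  let K : ℝ → Prop := fun a => ∀ η > 0, ∃ ρ > 0, ∀ y ∈ S, dist y g < ρ →
    dist (T y a) (T g a) ≤ (1 + η) * Real.exp (-Ψ a) * dist y g ∧
      ∀ t ∈ Icc a 1, dist (T y t) (T g t) ≤ 3 / 2 * Real.exp (-Ψ t) * dist y g
  have hray : ∀ y ∈ S, ∀ a b, a ∈ Icc tmin 1 → b ∈ Icc tmin 1 → RayP x (T y) a b (dist x y) := by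
    intro y hy a b ha hb
    have hsub : Icc a b ⊆ Icc tmin 1 := Icc_subset_Icc ha.1 hb.2
    exact ⟨dist_nonneg, fun t ht => by rw [hTl y hy t (hsub ht), mul_comm],
      fun s hs t ht => hTd y hy s (hsub hs) t (hsub ht)⟩
  have hK1 : K 1 := by
    intro η hη
    refine ⟨1, one_pos, fun y hy _ => ⟨?_, fun t ht => ?_⟩⟩
    · rw [hT1 y hy, hT1 g hg, hΨ, Psi_one, neg_zero, Real.exp_zero]
      have := dist_nonneg (x := y) (y := g)
      nlinarith
    · have : t = 1 := le_antisymm ht.2 ht.1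
      rw [this, hT1 y hy, hT1 g hg, hΨ, Psi_one, neg_zero, Real.exp_zero]
      have := dist_nonneg (x := y) (y := g)
      linarith
  have hKm : K tmin := by
    refine real_ind h1 hK1 fun t₀ ht₀ => ?_
    set P₀ := T g t₀ with hP₀
    set D := dist x g with hD
    have hD0 : 0 ≤ D := dist_nonneg
    obtain ⟨δ₁, hδ₁, hsrc, hloc⟩ := local_lemma n hm (hOm t₀ ht₀) hε
    obtain ⟨δ₂, hδ₂, hnear⟩ := conv_near n P₀ (η := 1 / 10) (by norm_num)
    set δ := min δ₁ δ₂ with hδ
    have hδ0 : 0 < δ := lt_min hδ₁ hδ₂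
    -- continuity of `H` at `t₀`
    obtain ⟨δ₃, hδ₃, hcont⟩ : ∃ δ₃ > 0, ∀ t ∈ Icc tmin 1, |t - t₀| < δ₃ → H t₀ - ε / 2 ≤ H t := by
      have h2 := Metric.continuousOn_iff.1 hH t₀ ht₀ (ε / 2) (by positivity)
      obtain ⟨δ₃, h3, h4⟩ := h2
      refine ⟨δ₃, h3, fun t ht h5 => ?_⟩
      have h6 := h4 t ht (by rwa [Real.dist_eq])
      rw [Real.dist_eq, abs_lt] at h6
      linarith [h6.1]
    refine ⟨min δ₃ (δ / (8 * (D + 1))), lt_min hδ₃ (by positivity), ?_⟩
    intro a b ha hb hab had hbd hKb η hη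
    have had3 := had.trans_le (min_le_left _ _)
    have hbd3 := hbd.trans_le (min_le_left _ _)
    have had4 := had.trans_le (min_le_right _ _)
    have hbd4 := hbd.trans_le (min_le_right _ _)
    have hab1 : ∀ t ∈ Icc a b, t ∈ Icc tmin 1 := fun t ht => ⟨ha.1.trans ht.1, ht.2.trans hb.2⟩
    have habs : ∀ t ∈ Icc a b, |t - t₀| < min δ₃ (δ / (8 * (D + 1))) := by
      intro t ht
      rw [abs_lt] at had hbd ⊢
      constructor
      · linarith [ht.1, had.1]
      · linarith [ht.2, hbd.2]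
    have hgt : ∀ t ∈ Icc a b, dist (T g t) P₀ < δ / 4 := by
      intro t ht
      have h2 := (habs t ht).trans_le (min_le_right _ _)
      rw [hP₀, hTd g hg t (hab1 t ht) t₀ ht₀, ← hD]
      have h3 : |t - t₀| * D ≤ δ / (8 * (D + 1)) * D := by gcongr
      have h4 : δ / (8 * (D + 1)) * D ≤ δ / 8 := by
        rw [div_mul_eq_mul_div, div_le_div_iff₀ (by positivity) (by norm_num)]
        nlinarith
      linarith
    set η₁ : ℝ := min (1 / 10) (η / 4) with hη₁
    have hη10 : 0 < η₁ := lt_min (by norm_num) (by positivity)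
    have hη11 : η₁ ≤ 1 / 10 := min_le_left _ _
    have hη12 : η₁ ≤ η / 4 := min_le_right _ _
    obtain ⟨ρ₁, hρ₁, hb1⟩ := hKb η₁ hη10
    have hsb : T g b ∈ (chartAt 𝔼 P₀).source := by
      apply hsrc
      have := hgt b (right_mem_Icc.2 hab)
      rw [mem_ball]
      have h2 : δ ≤ δ₁ := min_le_left _ _
      linarith
    have hsa : T g a ∈ (chartAt 𝔼 P₀).source := by
      apply hsrc
      have := hgt a (left_mem_Icc.2 hab)
      rw [mem_ball]
      have h2 : δ ≤ δ₁ := min_le_left _ _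
      linarith
    obtain ⟨ρ₂, hρ₂, hcb⟩ := conv_point n P₀ hsb hη10
    obtain ⟨ρ₃, hρ₃, hca⟩ := conv_point n P₀ hsa hη10
    set Eb := Real.exp (-Ψ b) with hEb
    have hEb0 : 0 < Eb := Real.exp_pos _
    set Ea := Real.exp (-Ψ a) with hEa
    have hEa0 : 0 < Ea := Real.exp_pos _
    set ρ := min (min ρ₁ 1) (min (min (ρ₂ / (2 * Eb)) (δ / (8 * Eb))) (ρ₃ / (2 * Ea))) with hρ
    have hρ0 : 0 < ρ := by
      refine lt_min (lt_min hρ₁ one_pos) (lt_min (lt_min ?_ ?_) ?_) <;> positivity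
    refine ⟨ρ, hρ0, fun y hy hyg => ?_⟩
    have k1 : dist y g < ρ₁ := hyg.trans_le ((min_le_left _ _).trans (min_le_left _ _))
    have k2 : dist y g < 1 := hyg.trans_le ((min_le_left _ _).trans (min_le_right _ _))
    have k3 : dist y g < ρ₂ / (2 * Eb) :=
      hyg.trans_le ((min_le_right _ _).trans ((min_le_left _ _).trans (min_le_left _ _)))
    have k4 : dist y g < δ / (8 * Eb) :=
      hyg.trans_le ((min_le_right _ _).trans ((min_le_left _ _).trans (min_le_right _ _)))
    have k5 : dist y g < ρ₃ / (2 * Ea) :=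
      hyg.trans_le ((min_le_right _ _).trans (min_le_right _ _))
    have hdy0 : 0 ≤ dist y g := dist_nonneg
    obtain ⟨hb2, hb3⟩ := hb1 y hy k1
    have hxy : dist x y ≤ D + 1 := by
      have := dist_triangle x g y
      rw [dist_comm g y] at this
      linarith
    -- the distance at time `b`
    have hdb : dist (T y b) (T g b) ≤ (1 + η₁) * Eb * dist y g := hb2
    have hdb2 : dist (T y b) (T g b) < ρ₂ := by
      have : (1 + η₁) * Eb * dist y g ≤ 2 * Eb * dist y g := by gcongr; linarith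
      rw [lt_div_iff₀ (by positivity)] at k3
      linarith
    have hdb3 : dist (T y b) (T g b) < δ / 4 := by
      have : (1 + η₁) * Eb * dist y g ≤ 2 * Eb * dist y g := by gcongr; linarith
      rw [lt_div_iff₀ (by positivity)] at k4
      linarith
    -- the curve stays in the ball
    have hyt : ∀ t ∈ Icc a b, dist (T y t) P₀ < δ := by
      intro t ht
      have h2 : dist (T y t) (T y b) ≤ δ / 4 := by
        rw [hTd y hy t (hab1 t ht) b hb]
        have h3 : |t - b| ≤ 2 * (δ / (8 * (D + 1))) := by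
          have h4 := (habs t ht).trans_le (min_le_right _ _)
          rw [abs_lt] at h4 hbd4
          rw [abs_le]
          constructor <;> linarith [h4.1, h4.2, hbd4.1, hbd4.2]
        calc |t - b| * dist x y ≤ 2 * (δ / (8 * (D + 1))) * (D + 1) := by gcongr
          _ = δ / 4 := by field_simp; ring
      have h3 := hgt b (right_mem_Icc.2 hab)
      have h4 := dist_triangle (T y t) (T y b) P₀
      have h5 := dist_triangle (T y b) (T g b) P₀
      linarith
    have hw : ∀ t ∈ Icc a b, √(wq (n := n) P₀ (T g t) (T y t)) ≤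
        (1 + η₁) ^ 2 * Real.exp (-Ψ t) * dist y g := by
      intro t ht
      have h2 := hloc (T g) (T y) t b (dist x g) (dist x y) (h0.trans_le (hab1 t ht).1) ht.2
        (hray g hg t b (hab1 t ht) hb) (hray y hy t b (hab1 t ht) hb)
        (fun s hs => by
          rw [mem_ball]
          have := hgt s ⟨ht.1.trans hs.1, hs.2⟩
          have h2 : δ ≤ δ₁ := min_le_left _ _
          linarith)
        (fun s hs => by
          rw [mem_ball]
          exact (hyt s ⟨ht.1.trans hs.1, hs.2⟩).trans_le (min_le_left _ _))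
      have h3 := (hcb (T y b) hdb2).1
      have h4 : wq (n := n) P₀ (T g t) (T y t) ≤
          (Real.exp (-(Ψ t - Ψ b)) * ((1 + η₁) * dist (T y b) (T g b))) ^ 2 := by
        rw [mul_pow]
        refine h2.trans ?_
        have e1 : Real.exp ((2 * (1 - √(devA n x P₀)) - ε) * (Real.log t - Real.log b)) ≤
            Real.exp (-(Ψ t - Ψ b)) ^ 2 := by
          rw [← Real.exp_nat_mul]
          apply Real.exp_le_exp.2
          have e2 := Psi_sub_le (H := H) (ε := ε) (c := 1 - H t₀ - ε / 2) h0 hH (hab1 t ht) hb ht.2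
            (fun τ hτ => by
              have hτ' : τ ∈ Icc a b := ⟨ht.1.trans hτ.1, hτ.2⟩
              have := hcont τ (hab1 τ hτ') ((habs τ hτ').trans_le (min_le_left _ _))
              linarith)
          have e3 : √(devA n x P₀) = H t₀ := rfl
          rw [e3]
          push_cast
          nlinarith
        exact mul_le_mul e1 h3 (wq_nonneg _ _ _) (by positivity)
      have h5 : √(wq (n := n) P₀ (T g t) (T y t)) ≤
          Real.exp (-(Ψ t - Ψ b)) * ((1 + η₁) * dist (T y b) (T g b)) := by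
        rw [← Real.sqrt_sq (show 0 ≤ Real.exp (-(Ψ t - Ψ b)) * ((1 + η₁) * dist (T y b) (T g b)) by
          positivity)]
        exact Real.sqrt_le_sqrt h4
      refine h5.trans ?_
      calc Real.exp (-(Ψ t - Ψ b)) * ((1 + η₁) * dist (T y b) (T g b)) ≤
          Real.exp (-(Ψ t - Ψ b)) * ((1 + η₁) * ((1 + η₁) * Eb * dist y g)) := by gcongr
        _ = (1 + η₁) ^ 2 * (Real.exp (-(Ψ t - Ψ b)) * Eb) * dist y g := by ring
        _ = _ := by
          rw [hEb, ← Real.exp_add]
          congr 3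
          ring
    have hslack : ∀ t ∈ Icc a b, dist (T y t) (T g t) ≤ 3 / 2 * Real.exp (-Ψ t) * dist y g := by
      intro t ht
      have h2 : dist (T y t) (T g t) ^ 2 ≤ (1 + 1 / 10) ^ 4 * wq (n := n) P₀ (T g t) (T y t) := by
        refine hnear (T g t) ?_ (T y t) ?_
        · rw [mem_ball]
          have := hgt t ht
          have h2 : δ ≤ δ₂ := min_le_right _ _
          linarith
        · rw [mem_ball]
          exact (hyt t ht).trans_le (min_le_right _ _)
      have h3 : dist (T y t) (T g t) ≤ (1 + 1 / 10) ^ 2 * √(wq (n := n) P₀ (T g t) (T y t)) := by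
        apply le_of_sq_le_sq _ (by positivity)
        rw [mul_pow, Real.sq_sqrt (wq_nonneg _ _ _)]
        refine h2.trans (le_of_eq (by ring))
      refine h3.trans ?_
      have h4 := hw t ht
      have h5 : (1 + η₁) ^ 2 ≤ (1 + 1 / 10) ^ 2 := by gcongr
      calc (1 + 1 / 10 : ℝ) ^ 2 * √(wq (n := n) P₀ (T g t) (T y t)) ≤
          (1 + 1 / 10) ^ 2 * ((1 + η₁) ^ 2 * Real.exp (-Ψ t) * dist y g) := by gcongr
        _ ≤ (1 + 1 / 10) ^ 2 * ((1 + 1 / 10) ^ 2 * Real.exp (-Ψ t) * dist y g) := by gcongr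
        _ = ((1 + 1 / 10) ^ 4) * (Real.exp (-Ψ t) * dist y g) := by ring
        _ ≤ 3 / 2 * (Real.exp (-Ψ t) * dist y g) := by
          gcongr; norm_num
        _ = _ := by ring
    refine ⟨?_, fun t ht => ?_⟩
    · have h2 := hslack a (left_mem_Icc.2 hab)
      have h3 : dist (T y a) (T g a) < ρ₃ := by
        rw [lt_div_iff₀ (by positivity)] at k5
        have : 3 / 2 * Real.exp (-Ψ a) * dist y g ≤ 2 * Ea * dist y g := by gcongr; norm_num
        linarith
      have h4 := (hca (T y a) h3).2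
      have h5 : dist (T y a) (T g a) ≤ (1 + η₁) * √(wq (n := n) P₀ (T g a) (T y a)) := by
        apply le_of_sq_le_sq _ (by positivity)
        rw [mul_pow, Real.sq_sqrt (wq_nonneg _ _ _)]
        exact h4
      refine h5.trans ?_
      have h6 := hw a (left_mem_Icc.2 hab)
      have h7 : (1 + η₁) ^ 3 ≤ 1 + η := by
        have : η₁ * η₁ ≤ η₁ * (1 / 10) := by gcongr
        nlinarith [mul_nonneg hη10.le hη10.le]
      calc (1 + η₁) * √(wq (n := n) P₀ (T g a) (T y a)) ≤
          (1 + η₁) * ((1 + η₁) ^ 2 * Real.exp (-Ψ a) * dist y g) := by gcongr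
        _ = (1 + η₁) ^ 3 * (Real.exp (-Ψ a) * dist y g) := by ring
        _ ≤ (1 + η) * (Real.exp (-Ψ a) * dist y g) := by gcongr
        _ = _ := by ring
    · rcases le_or_gt t b with h2 | h2
      · exact hslack t ⟨ht.1, h2⟩
      · exact hb3 t ⟨h2.le, ht.2⟩
  obtain ⟨ρ, hρ, h2⟩ := hKm 1 one_pos
  exact ⟨ρ, hρ, fun y hy hyg t ht => (h2 y hy hyg).2 t ht⟩

end

end Crest.Agent.R247.Bs342
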