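import Crest.Agent.R247.Bs5_342
import Crest.Agent.R247.Bs2_84
import Crest.Agent.R247.Lc4_582
import Crest.Agent.R226.EucMin_77

/-!
R247 (helper342), block (1-B), file 6: the pointwise inputs of the base case: continuity of
`|Hess f - g|²` along the ray, comparison with the Laplacian defect, the minimum principle at an
interior point of a minimiser.
-/

set_option autoImplicit false
set_option maxSynthPendingDepth 3
set_option linter.unusedSectionVars false

open Bundle Set Filter Topology Metric MeasureTheory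
open scoped Manifold ContDiff NNReal Interval
open Crest.GeometryTopology.CoordMetric Crest.GeometryTopology.ChartCurvature
  Crest.GeometryTopology.PointedLimit
open Crest.GeometryTopology.MTW Crest.Agent.R244 Crest.Agent.R226
open Crest.Agent.R226.ChartMet842
open Crest.Agent.R226.CutSmooth77 (SC)
open Crest.Agent.R202.Tens Crest.Agent.R247.Ms322 Crest.Agent.R247.Bo84
open Crest.Agent.R247.Sm879 Crest.Agent.R247.Lc582

noncomputable section

namespace Crest.Agent.R247.Bs342

variable {n : ℕ} {M : Type*} [MetricSpace M] [ChartedSpace (EuclideanSpace ℝ (Fin n)) M]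
  [IsManifold (𝓡 n) ∞ M]
  [RiemannianBundle (fun p : M => TangentSpace (𝓡 n) p)]
  [IsContMDiffRiemannianBundle (𝓡 n) ∞ (EuclideanSpace ℝ (Fin n)) (fun p : M => TangentSpace (𝓡 n) p)]
  [IsRiemannianManifold (𝓡 n) M]

local notation "𝔼" => EuclideanSpace ℝ (Fin n)

theorem devA_eq (x P : M) : devA n x P =
    mHessSq n (halfDistSq x) P - 2 * mLap n (halfDistSq x) P + n := rfl

theorem cost2 {x P : M} (h : SC n x P) : ContMDiffAt (𝓡 n) 𝓘(ℝ) 2 (halfDistSq x) P :=
  (contMDiffAt_cost h).of_le (by norm_cast)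

theorem continuousAt_devA {x P : M} (h : SC n x P) : ContinuousAt (devA n x) P := by
  have h1 := Bs84.continuousAt_mHessSq (cost2 h)
  have h2 := continuousAt_mLap h
  exact (h1.sub (continuousAt_const.mul h2)).add continuousAt_const

theorem devA_nonneg {x P : M} (h : SC n x P) : 0 ≤ devA n x P := by
  have hg := Bo84.isRiemannianOn_chartMetric (n := n) P
  have hc : chartCentre n M P ∈ (chartAt 𝔼 P).target := mem_chart_target 𝔼 P
  exact hessDev_nonneg hg hc (contDiffAt_centre (by norm_cast) (cost2 h))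

theorem devA_le [ProperSpace M] (hm : ExM M) {κ : ℝ} (hK : HasRicciLowerBound n M (-κ)) {x P : M}
    (h : SC n x P) : devA n x P ≤ mDev n (halfDistSq x) P + κ * dist x P ^ 2 := by
  have hg := Bo84.isRiemannianOn_chartMetric (n := n) P
  have hc : chartCentre n M P ∈ (chartAt 𝔼 P).target := mem_chart_target 𝔼 P
  have h2 := ricQ_lower hg hc (inCh n P (halfDistSq x)) (K := -κ) (hK P)
  have hsrc := mem_chart_source 𝔼 P
  have h3 : gam (chartMetric n M P) (inCh n P (halfDistSq x)) (inCh n P (halfDistSq x))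
      (chartCentre n M P) = dist x P ^ 2 := by
    rw [inCh_eq_fz]
    have h4 : chartCentre n M P = chartAt 𝔼 P P := rfl
    rw [h4, gam_fz hm ((chartAt 𝔼 P).map_source hsrc)
      (by rw [(chartAt 𝔼 P).left_inv hsrc]; exact h), fz, (chartAt 𝔼 P).left_inv hsrc, halfDistSq]
    ring
  rw [h3] at h2
  rw [mDev_eq]
  have h5 : devA n x P = hessDev (chartMetric n M P) (inCh n P (halfDistSq x)) (chartCentre n M P) :=
    rfl
  rw [h5]
  linarith

/-- minimum principle for the Laplacian -/
theorem mLap_nonneg_of_min {F : M → ℝ} {p : M} (hF : ContMDiffAt (𝓡 n) 𝓘(ℝ) 2 F p)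
    (hmin : IsLocalMin F p) : 0 ≤ mLap n F p := by
  have hg := Bo84.isRiemannianOn_chartMetric (n := n) p
  have hc : chartCentre n M p ∈ (chartAt 𝔼 p).target := mem_chart_target 𝔼 p
  have hs : p ∈ (chartAt 𝔼 p).source := mem_chart_source 𝔼 p
  have h1 : ContDiffAt ℝ 2 (inCh n p F) (chartCentre n M p) := contDiffAt_centre (by norm_cast) hF
  have h2 : IsLocalMin (inCh n p F) (chartCentre n M p) := by
    have h3 : Tendsto (chartAt 𝔼 p).symm (𝓝 (chartCentre n M p)) (𝓝 p) := by
      have := (chartAt 𝔼 p).continuousAt_symm hc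
      have e : (chartAt 𝔼 p).symm (chartCentre n M p) = p := (chartAt 𝔼 p).left_inv hs
      rwa [ContinuousAt, e] at this
    have h4 := h3.eventually hmin
    filter_upwards [h4] with a ha
    have e : inCh n p F (chartCentre n M p) = F p := inCh_centre F p
    rw [e]
    exact ha
  obtain ⟨ξ, hξ⟩ := exists_frame hg hc
  unfold mLap
  rw [lap_frame hg hc h1 hξ]
  apply Finset.sum_nonneg
  intro a _
  rw [hess_apply, h2.fderiv_eq_zero]
  simpa using EucMin77.hess_nonneg_of_isLocalMin h1 h2 (ξ a)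

theorem halfSq_ge {a b r s : ℝ} (hr : 0 < r) (hs : 0 < s) (h : r + s ≤ a + b) :
    r ^ 2 / 2 / r + s ^ 2 / 2 / s ≤ a ^ 2 / 2 / r + b ^ 2 / 2 / s := by
  have h1 : a ^ 2 / 2 / r = a - r / 2 + (a - r) ^ 2 / (2 * r) := by field_simp; ring
  have h2 : b ^ 2 / 2 / s = b - s / 2 + (b - s) ^ 2 / (2 * s) := by field_simp; ring
  have h3 : r ^ 2 / 2 / r = r / 2 := by field_simp
  have h4 : s ^ 2 / 2 / s = s / 2 := by field_simp
  have h5 : 0 ≤ (a - r) ^ 2 / (2 * r) := by positivity
  have h6 : 0 ≤ (b - s) ^ 2 / (2 * s) := by positivity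
  rw [h1, h2, h3, h4]
  linarith

/-- the Laplacian defect at an interior point of a minimiser -/
theorem defect_le [ProperSpace M] (hm : ExM M) {κ : ℝ} (hK : HasRicciLowerBound n M (-κ))
    {x g v : M} (hxg : x ≠ g) (hgv : g ≠ v) (hb : dist x g + dist g v = dist x v) :
    n - mLap n (halfDistSq x) g ≤
      n + dist x g / dist g v * (n + κ * dist g v ^ 2 / 3) := by
  set r := dist x g with hr
  set s := dist g v with hs
  have hr0 : 0 < r := dist_pos.2 hxg
  have hs0 : 0 < s := dist_pos.2 hgv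
  have s1 : SC n x g := sc_of_Om hm (mem_Om_of_btw hgv hb)
  have s2 : SC n v g := sc_of_Om hm (mem_Om_of_btw' hxg hb)
  have c1 := cost2 s1
  have c2 := cost2 s2
  have d1 : ContMDiffAt (𝓡 n) 𝓘(ℝ) 2 (fun y => r⁻¹ * halfDistSq x y) g := by
    exact contMDiffAt_const.mul c1
  have d2 : ContMDiffAt (𝓡 n) 𝓘(ℝ) 2 (fun y => s⁻¹ * halfDistSq v y) g := by
    exact contMDiffAt_const.mul c2
  have hmin : IsLocalMin (fun y => r⁻¹ * halfDistSq x y + s⁻¹ * halfDistSq v y) g := by
    refine Filter.Eventually.of_forall fun y => ?_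
    simp only [halfDistSq]
    rw [← hr, dist_comm v g, ← hs]
    have h3 : r + s ≤ dist x y + dist v y := by
      rw [hb, dist_comm v y]
      exact dist_triangle _ _ _
    have := halfSq_ge hr0 hs0 h3
    calc r⁻¹ * (r ^ 2 / 2) + s⁻¹ * (s ^ 2 / 2) = r ^ 2 / 2 / r + s ^ 2 / 2 / s := by ring
      _ ≤ _ := this
      _ = _ := by ring
  have h0 := mLap_nonneg_of_min (n := n) (d1.add d2) hmin
  have h1 : mLap n (fun y => r⁻¹ * halfDistSq x y + s⁻¹ * halfDistSq v y) g
      = r⁻¹ * mLap n (halfDistSq x) g + s⁻¹ * mLap n (halfDistSq v) g := by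
    rw [mLap_add d1 d2, mLap_const_mul r⁻¹ c1, mLap_const_mul s⁻¹ c2]
  have h0' : 0 ≤ r⁻¹ * mLap n (halfDistSq x) g + s⁻¹ * mLap n (halfDistSq v) g := h1 ▸ h0
  have h2 := mLap_le hm hK s2
  rw [dist_comm v g, ← hs] at h2
  have h3 : -mLap n (halfDistSq x) g ≤ r / s * mLap n (halfDistSq v) g := by
    have h4 : 0 ≤ r * (r⁻¹ * mLap n (halfDistSq x) g + s⁻¹ * mLap n (halfDistSq v) g) := by
      positivity
    have h5 : r * (r⁻¹ * mLap n (halfDistSq x) g + s⁻¹ * mLap n (halfDistSq v) g) =
        mLap n (halfDistSq x) g + r / s * mLap n (halfDistSq v) g := by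
      field_simp
    linarith
  have h6 : r / s * mLap n (halfDistSq v) g ≤ r / s * (n + κ * s ^ 2 / 3) := by
    gcongr
  linarith

end Crest.Agent.R247.Bs342
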