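import Crest.Agent.R247.Bs6_342
import Crest.Agent.R247.Far0_553

/-!
R247 (helper342), block (1-B), file 7: **(BASE)**, the field `base` of `FarD`.
-/

set_option autoImplicit false
set_option maxSynthPendingDepth 3
set_option linter.unusedSectionVars false

open Bundle Set Filter Topology Metric MeasureTheory
open scoped Manifold ContDiff NNReal Interval
open Crest.GeometryTopology.CoordMetric Crest.GeometryTopology.ChartCurvature
  Crest.GeometryTopology.PointedLimit
open Crest.GeometryTopology.MTW Crest.Agent.R244 Crest.Agent.R226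
open Crest.Agent.R226.ChartMet842
open Crest.Agent.R226.CutSmooth77 (SC)
open Crest.Agent.R202.Tens Crest.Agent.R247.Ms322 Crest.Agent.R247.Bo84
open Crest.Agent.R247.Sm879 Crest.Agent.R247.Lc582
open Crest.Agent.R247.Mcp688 (Rad)
open Crest.Agent.R247.Far553 (ray)

noncomputable section

namespace Crest.Agent.R247.Bs342

theorem exp_fifth : Real.exp (1 / 5) ≤ 5 / 4 := by
  have h1 := Real.add_one_le_exp (-(1 / 5 : ℝ))
  rw [Real.exp_neg] at h1
  have h2 : 0 < Real.exp (1 / 5) := Real.exp_pos _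
  rw [← one_div, le_div_iff₀ h2] at h1
  linarith

/-- the exponent is harmless -/
theorem exp_bound {H : ℝ → ℝ} {δ B : ℝ} (hδ : 0 < δ) (hδ2 : δ ≤ 1 / 2)
    (hH : ContinuousOn H (Icc (1 - δ) 1))
    (hI : ∀ t ∈ Icc (1 - δ) 1, ∫ τ in t..1, H τ ^ 2 ≤ B) (hB : δ * B ≤ 1 / 400) {t : ℝ}
    (ht : t ∈ Icc (1 - δ) 1) : 3 / 2 * Real.exp (-Psi H (1 / 10) t) ≤ 2 * t := by
  have ht0 : 0 < t := by linarith [ht.1]
  have hsub : Icc t 1 ⊆ Icc (1 - δ) 1 := Icc_subset_Icc ht.1 le_rfl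
  have hHt : ContinuousOn H (Icc t 1) := hH.mono hsub
  have hinv : ContinuousOn (fun τ : ℝ => τ⁻¹) (Icc t 1) :=
    ContinuousOn.inv₀ continuousOn_id fun τ hτ => (ht0.trans_le hτ.1).ne'
  have e1 : -Psi H (1 / 10) t = Real.log t + ∫ τ in t..1, (H τ + 1 / 10) * τ⁻¹ := by
    have h1 : ∫ τ in t..1, (1 - H τ - 1 / 10) * τ⁻¹ =
        (∫ τ in t..1, τ⁻¹) - ∫ τ in t..1, (H τ + 1 / 10) * τ⁻¹ := by
      rw [← intervalIntegral.integral_sub]
      · congr 1
        funext τ
        ring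
      · exact hinv.intervalIntegrable_of_Icc ht.2
      · exact ((hHt.add continuousOn_const).mul hinv).intervalIntegrable_of_Icc ht.2
    unfold Psi
    rw [h1, integral_inv_of_pos ht0 one_pos, one_div, Real.log_inv]
    ring
  have e2 : ∫ τ in t..1, (H τ + 1 / 10) * τ⁻¹ ≤
      ∫ τ in t..1, (((20 * δ)⁻¹ + 1 / 5) + 20 * δ * H τ ^ 2) := by
    apply intervalIntegral.integral_mono_on ht.2
    · exact ((hHt.add continuousOn_const).mul hinv).intervalIntegrable_of_Icc ht.2
    · exact (continuousOn_const.add (continuousOn_const.mul (hHt.pow 2))).intervalIntegrable_of_Icc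
        ht.2
    · intro τ hτ
      have hτ0 : 1 / 2 ≤ τ := by linarith [ht.1, hτ.1]
      have ha : 0 ≤ (20 * δ)⁻¹ := by positivity
      have hb : 0 ≤ 20 * δ * H τ ^ 2 := by positivity
      rcases le_or_gt (H τ + 1 / 10) 0 with h | h
      · have : (H τ + 1 / 10) * τ⁻¹ ≤ 0 := mul_nonpos_of_nonpos_of_nonneg h (by positivity)
        linarith
      · have h1 : τ⁻¹ ≤ 2 := by
          rw [inv_le_comm₀ (by linarith) (by norm_num)]
          linarith
        have h2 : (H τ + 1 / 10) * τ⁻¹ ≤ (H τ + 1 / 10) * 2 := by gcongr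
        have h3 : 2 * H τ ≤ (20 * δ)⁻¹ + 20 * δ * H τ ^ 2 := by
          have h4 : (20 * δ)⁻¹ + 20 * δ * H τ ^ 2 - 2 * H τ =
              (20 * δ)⁻¹ * (1 - 20 * δ * H τ) ^ 2 := by
            field_simp
            ring
          have h5 : 0 ≤ (20 * δ)⁻¹ * (1 - 20 * δ * H τ) ^ 2 := by positivity
          linarith
        linarith
  have e3 : ∫ τ in t..1, (((20 * δ)⁻¹ + 1 / 5) + 20 * δ * H τ ^ 2) ≤ 1 / 5 := by
    rw [intervalIntegral.integral_add, intervalIntegral.integral_const,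
      intervalIntegral.integral_const_mul, smul_eq_mul]
    · have h1 := hI t ht
      have h2 : (1 - t) * ((20 * δ)⁻¹ + 1 / 5) ≤ δ * ((20 * δ)⁻¹ + 1 / 5) := by
        gcongr
        linarith [ht.1]
      have h3 : δ * ((20 * δ)⁻¹ + 1 / 5) = 1 / 20 + δ / 5 := by field_simp
      have h4 : 20 * δ * ∫ τ in t..1, H τ ^ 2 ≤ 20 * δ * B := by gcongr
      linarith
    · exact continuousOn_const.intervalIntegrable_of_Icc ht.2
    · exact (continuousOn_const.mul (hHt.pow 2)).intervalIntegrable_of_Icc ht.2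
  have e4 : Real.exp (-Psi H (1 / 10) t) ≤ t * (5 / 4) := by
    rw [e1, Real.exp_add, Real.exp_log ht0]
    gcongr
    exact (Real.exp_le_exp.2 (e2.trans e3)).trans exp_fifth
  linarith

section
variable {n : ℕ} {M : Type*} [MetricSpace M] [ChartedSpace (EuclideanSpace ℝ (Fin n)) M]
  [IsManifold (𝓡 n) ∞ M]
  [RiemannianBundle (fun p : M => TangentSpace (𝓡 n) p)]
  [IsContMDiffRiemannianBundle (𝓡 n) ∞ (EuclideanSpace ℝ (Fin n)) (fun p : M => TangentSpace (𝓡 n) p)]
  [IsRiemannianManifold (𝓡 n) M] [ProperSpace M]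

local notation "𝔼" => EuclideanSpace ℝ (Fin n)

/-- the integral of `|Hess h - g|²` along the last part of an extendable minimiser -/
theorem integral_devA_le (hm : ExM M) {κ : ℝ} (hK : HasRicciLowerBound n M (-κ))
    {x g v : M} (hxg : x ≠ g) (hgv : g ≠ v) (hb : dist x g + dist g v = dist x v)
    {T : ℝ → M} (hT0 : T 0 = x) (hT1 : T 1 = g)
    (hTd : ∀ s ∈ Icc (0 : ℝ) 1, ∀ t ∈ Icc (0 : ℝ) 1, dist (T s) (T t) = |s - t| * dist x g)
    (hOm : ∀ t ∈ Icc (0 : ℝ) 1, (x, T t) ∈ Om M) {t : ℝ} (ht0 : 0 < t) (ht1 : t ≤ 1) :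
    ∫ τ in t..1, devA n x (T τ) ≤
      n + dist x g / dist g v * (n + κ * dist g v ^ 2 / 3) + κ * dist x g ^ 2 / 3 := by
  set r := dist x g with hr
  have hr0 : 0 < r := dist_pos.2 hxg
  set γ : ℝ → M := fun s => T (s / r) with hγdef
  have hmem : ∀ s ∈ Icc 0 r, s / r ∈ Icc (0 : ℝ) 1 := fun s hs =>
    ⟨div_nonneg hs.1 hr0.le, (div_le_one hr0).2 hs.2⟩
  have hγ : ∀ s ∈ Icc 0 r, ∀ t ∈ Icc 0 r, dist (γ s) (γ t) = |s - t| := by
    intro s hs t ht
    rw [hγdef]
    dsimp only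
    rw [hTd _ (hmem s hs) _ (hmem t ht), ← sub_div, abs_div, abs_of_pos hr0]
    field_simp
  have hγ0 : γ 0 = x := by simp [hγdef, hT0]
  have hγr : γ r = g := by simp [hγdef, hr0.ne', hT1]
  have hsc : ∀ s ∈ Icc 0 r, SC n x (γ s) := fun s hs => sc_of_Om hm (hOm _ (hmem s hs))
  have hdz : ∀ s ∈ Icc 0 r, dist x (γ s) = s := by
    intro s hs
    rw [← hγ0, hγ 0 ⟨le_rfl, hr0.le⟩ s hs, zero_sub, abs_neg, abs_of_nonneg hs.1]
  obtain ⟨i1, i2⟩ := mLap_integral hm hK hr0 hγ hγ0 (hsc r ⟨hr0.le, le_rfl⟩)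
  rw [hγr] at i2
  -- continuity of `devA` along `γ`
  have hγc : ContinuousOn γ (Icc 0 r) := by
    have : LipschitzOnWith 1 γ (Icc 0 r) := by
      refine LipschitzOnWith.of_dist_le_mul fun s hs t ht => ?_
      rw [hγ s hs t ht, Real.dist_eq]; simp
    exact this.continuousOn
  have hdc : ContinuousOn (fun s => devA n x (γ s)) (Icc 0 r) := fun s hs =>
    (continuousAt_devA (hsc s hs)).comp_continuousWithinAt (hγc s hs)
  have hpt : ∀ s ∈ Icc 0 r, devA n x (γ s) ≤ mDev n (halfDistSq x) (γ s) + κ * s ^ 2 := by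
    intro s hs
    have := devA_le hm hK (hsc s hs)
    rwa [hdz s hs] at this
  have htr0 : 0 < t * r := by positivity
  have htr1 : t * r ≤ r := by nlinarith
  have hsub : Icc (t * r) r ⊆ Icc 0 r := Icc_subset_Icc htr0.le le_rfl
  have i3 : IntervalIntegrable (fun s => mDev n (halfDistSq x) (γ s) + κ * s ^ 2) volume 0 r :=
    i1.add ((continuous_const.mul (continuous_id.pow 2)).intervalIntegrable _ _)
  have i4 : IntervalIntegrable (fun s => mDev n (halfDistSq x) (γ s) + κ * s ^ 2) volume (t * r) r :=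
    i3.mono_set (by
      rw [uIcc_of_le htr1, uIcc_of_le hr0.le]
      exact hsub)
  have e1 : ∫ s in (t * r)..r, devA n x (γ s) ≤
      ∫ s in (t * r)..r, (mDev n (halfDistSq x) (γ s) + κ * s ^ 2) :=
    intervalIntegral.integral_mono_on htr1
      ((hdc.mono hsub).intervalIntegrable_of_Icc htr1) i4 fun s hs => hpt s (hsub hs)
  have e2 : ∫ s in (t * r)..r, (mDev n (halfDistSq x) (γ s) + κ * s ^ 2) ≤
      ∫ s in (0 : ℝ)..r, (mDev n (halfDistSq x) (γ s) + κ * s ^ 2) := by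
    refine intervalIntegral.integral_mono_interval htr0.le htr1 le_rfl ?_ i3
    rw [Filter.EventuallyLE, ae_restrict_iff' measurableSet_Ioc]
    refine Eventually.of_forall fun s hs => ?_
    have hs' : s ∈ Icc 0 r := ⟨hs.1.le, hs.2⟩
    exact (devA_nonneg (hsc s hs')).trans (hpt s hs')
  have e3 : ∫ s in (0 : ℝ)..r, (mDev n (halfDistSq x) (γ s) + κ * s ^ 2) =
      r * (n - mLap n (halfDistSq x) g) + κ * r ^ 3 / 3 := by
    have i5 : IntervalIntegrable (fun s : ℝ => κ * s ^ 2) volume 0 r :=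
      (continuous_const.mul (continuous_id.pow 2)).intervalIntegrable _ _
    rw [intervalIntegral.integral_add i1 i5, i2, intervalIntegral.integral_const_mul, integral_pow]
    norm_num
    ring
  have e4 : ∫ s in (t * r)..r, devA n x (γ s) = r * ∫ τ in t..1, devA n x (T τ) := by
    have := intervalIntegral.integral_comp_div (a := t * r) (b := r)
      (fun τ => devA n x (T τ)) hr0.ne'
    rw [mul_div_assoc, div_self hr0.ne', mul_one, smul_eq_mul] at this
    exact this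
  have e5 := defect_le hm hK hxg hgv hb
  have e6 : r * ∫ τ in t..1, devA n x (T τ) ≤
      r * (n + r / dist g v * (n + κ * dist g v ^ 2 / 3) + κ * r ^ 2 / 3) := by
    rw [← e4]
    refine (e1.trans e2).trans ?_
    rw [e3]
    have e7 : r * (n - mLap n (halfDistSq x) g) ≤
        r * (n + r / dist g v * (n + κ * dist g v ^ 2 / 3)) := by gcongr
    linarith
  exact le_of_mul_le_mul_left e6 hr0

variable [MeasurableSpace M] [BorelSpace M] {μ : Measure M}

/-- **(BASE)** for one ray -/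
theorem base_ray (hm : ExM M) {κ κ' : ℝ} (hκ1 : κ ≤ 1)
    (hK : HasRicciLowerBound n M (-κ)) (C : Rad n κ' M μ) {N0 : ℝ} (hN : 3200 * (n + 12) ≤ N0)
    {x v : M} (hv : (x, v) ∈ C.U) (hvd : dist x v < 12) {r L : ℝ} (hL : 0 < L) (h1 : N0 * L ≤ r)
    (h2 : N0 * L ≤ dist x v - r) :
    ∃ ρ₀ > 0, ∀ y, dist y (ray C x v r) < ρ₀ → (x, y) ∈ C.U →
      ∀ t ∈ Icc (1 - 4 * L / r) 1,
        dist (C.T x t y) (C.T x t (ray C x v r)) ≤ 2 * t * dist y (ray C x v r) := by
  have hn0 : (0 : ℝ) ≤ n := Nat.cast_nonneg n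
  have hN8 : 38400 ≤ N0 := by nlinarith
  have hNL : 0 < N0 * L := by positivity
  have hr0 : 0 < r := hNL.trans_le h1
  set ℓ := dist x v with hℓ
  have hℓ0 : 0 < ℓ := by linarith
  have hrℓ : r < ℓ := by linarith
  set g := ray C x v r with hg
  have hq : r / ℓ ∈ Ioc (0 : ℝ) 1 := ⟨by positivity, (div_le_one hℓ0).2 hrℓ.le⟩
  have hgU : (x, g) ∈ C.U := C.sub x v hv _ hq
  have hxg : dist x g = r := by
    have := C.dist_left hv (Ioc_subset_Icc_self hq)
    rw [hg, ray, ← hℓ, this, ← hℓ]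
    field_simp
  have hgv : dist g v = ℓ - r := by
    have := C.dist_right hv (Ioc_subset_Icc_self hq)
    rw [hg, ray, ← hℓ, this, ← hℓ]
    field_simp
  have hxg' : x ≠ g := dist_pos.1 (by rw [hxg]; exact hr0)
  have hgv' : g ≠ v := dist_pos.1 (by rw [hgv]; linarith)
  have hb : dist x g + dist g v = dist x v := by rw [hxg, hgv, ← hℓ]; ring
  set δ := 4 * L / r with hδ
  have hδ0 : 0 < δ := by positivity
  have hδN : δ ≤ 4 / N0 := by
    rw [hδ, div_le_div_iff₀ hr0 (by linarith)]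
    nlinarith
  have hδ2 : δ ≤ 1 / 2 := by
    refine hδN.trans ?_
    rw [div_le_iff₀ (by linarith)]
    linarith
  have hsub : Icc (1 - δ) 1 ⊆ Icc (0 : ℝ) 1 := Icc_subset_Icc (by linarith) le_rfl
  have hOm : ∀ t ∈ Icc (0 : ℝ) 1, (x, C.T x t g) ∈ Om M := by
    intro t ht
    have e1 := C.dist_left hgU ht
    have e2 := C.dist_right hgU ht
    rw [hxg] at e1 e2
    have e3 := dist_triangle (C.T x t g) g v
    have e4 := dist_triangle x (C.T x t g) v
    rw [hgv, e2] at e3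
    rw [e1, ← hℓ] at e4
    have e5 : dist (C.T x t g) v = ℓ - t * r := by
      apply le_antisymm <;> linarith
    refine mem_Om_of_btw (y' := v) ?_ ?_
    · apply dist_pos.1
      rw [e5]
      nlinarith [ht.2]
    · rw [e1, e5, ← hℓ]
      ring
  have hsc : ∀ t ∈ Icc (0 : ℝ) 1, SC n x (C.T x t g) := fun t ht => sc_of_Om hm (hOm t ht)
  have hTc : ContinuousOn (fun t => C.T x t g) (Icc 0 1) := by
    have : LipschitzOnWith ⟨r, hr0.le⟩ (fun t => C.T x t g) (Icc 0 1) := by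
      refine LipschitzOnWith.of_dist_le_mul fun s hs t ht => ?_
      rw [C.dist_T x g hgU s hs t ht, hxg, Real.dist_eq, mul_comm]
      rfl
    exact this.continuousOn
  have hdc : ContinuousOn (fun t => devA n x (C.T x t g)) (Icc 0 1) := fun t ht =>
    ContinuousAt.comp_continuousWithinAt (f := fun t => C.T x t g) (continuousAt_devA (hsc t ht))
      (hTc t ht)
  have hH : ContinuousOn (fun t => √(devA n x (C.T x t g))) (Icc (1 - δ) 1) :=
    (Real.continuous_sqrt.comp_continuousOn hdc).mono hsub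
  obtain ⟨ρ₀, hρ₀, hspread⟩ := spread n hm (x := x) (g := g) (S := {y | (x, y) ∈ C.U})
    (T := fun y t => C.T x t y) hgU (tmin := 1 - δ) (by linarith) (by linarith)
    (fun y hy => C.T_one x y hy) (fun y hy t ht => C.dist_left hy (hsub ht))
    (fun y hy s hs t ht => C.dist_T x y hy s (hsub hs) t (hsub ht))
    (fun t ht => hOm t (hsub ht)) hH (ε := 1 / 10) (by norm_num)
  set B : ℝ := n + r / (ℓ - r) * (n + κ * (ℓ - r) ^ 2 / 3) + κ * r ^ 2 / 3 with hB
  have hI : ∀ t ∈ Icc (1 - δ) 1, ∫ τ in t..1, √(devA n x (C.T x τ g)) ^ 2 ≤ B := by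
    intro t ht
    have e1 := integral_devA_le hm hK hxg' hgv' hb (T := fun t => C.T x t g)
      (C.T_zero x g hgU) (C.T_one x g hgU) (fun s hs t ht => C.dist_T x g hgU s hs t ht) hOm
      (t := t) (by linarith [ht.1]) ht.2
    rw [hxg, hgv, ← hB] at e1
    refine le_trans (le_of_eq ?_) e1
    apply intervalIntegral.integral_congr
    intro τ hτ
    rw [uIcc_of_le ht.2] at hτ
    exact Real.sq_sqrt (devA_nonneg (hsc τ ⟨by linarith [ht.1, hτ.1], hτ.2⟩))
  have hδB : δ * B ≤ 1 / 400 := by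
    have hs0 : 0 < ℓ - r := by linarith
    have e1 : δ * B = 4 * (n * (L / r + L / (ℓ - r)) + κ * L * ℓ / 3) := by
      rw [hδ, hB]
      field_simp
      ring
    have e2 : L / r ≤ 1 / N0 := by
      rw [div_le_div_iff₀ hr0 (by linarith)]
      linarith
    have e3 : L / (ℓ - r) ≤ 1 / N0 := by
      rw [div_le_div_iff₀ hs0 (by linarith)]
      linarith
    have e4 : L ≤ 6 / N0 := by
      rw [le_div_iff₀ (by linarith)]
      linarith
    have e5 : κ * L * ℓ ≤ 1 * (6 / N0) * 12 := by gcongr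
    have e6 : n * (L / r + L / (ℓ - r)) ≤ n * (1 / N0 + 1 / N0) := by gcongr
    have e7 : 4 * (n * (1 / N0 + 1 / N0) + 1 * (6 / N0) * 12 / 3) ≤ 1 / 400 := by
      have : 4 * (n * (1 / N0 + 1 / N0) + 1 * (6 / N0) * 12 / 3) = 8 * (n + 12) / N0 := by
        field_simp
        ring
      rw [this, div_le_div_iff₀ (by linarith) (by norm_num)]
      linarith
    rw [e1]
    linarith
  refine ⟨ρ₀, hρ₀, fun y hy hyU t ht => ?_⟩
  refine (hspread y hyU hy t ht).trans ?_
  have := exp_bound hδ0 hδ2 hH hI hδB ht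
  gcongr

/-- **(BASE)**: the literal field `base` of `FarD` -/
theorem base (hm : ExM M) {κ κ' : ℝ} (hκ1 : κ ≤ 1)
    (hK : HasRicciLowerBound n M (-κ)) (C : Rad n κ' M μ) {N0 : ℝ} (hN : 3200 * (n + 12) ≤ N0)
    (x : M) :
    ∀ᵐ v ∂μ, dist x v < 12 → ∀ r L : ℝ, 0 < L → N0 * L ≤ r → N0 * L ≤ dist x v - r →
      ∃ ρ₀ > 0, ∀ y, dist y (ray C x v r) < ρ₀ → (x, y) ∈ C.U →
        ∀ t ∈ Icc (1 - 4 * L / r) 1,
          dist (C.T x t y) (C.T x t (ray C x v r)) ≤ 2 * t * dist y (ray C x v r) := by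
  filter_upwards [C.ae_U x] with v hv hvd r L hL h1 h2
  exact base_ray hm hκ1 hK C hN hv hvd hL h1 h2

end

end Crest.Agent.R247.Bs342
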