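import Crest.Agent.R247.Fd2_656

/-!
# R247, FD-ASM (5) (helper656): the term `FarD` from the literal Props of the fields
-/

set_option autoImplicit false
set_option linter.unusedSectionVars false
set_option linter.unusedVariables false

open MeasureTheory Filter Topology Set Metric
open scoped RealInnerProductSpace ENNReal NNReal

noncomputable section

namespace Crest.Agent.R247.Fd656

universe u

open Crest.Agent.R242 Crest.Agent.R247.Dir593 Crest.Agent.R247.Dir593.GradS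
open Crest.Agent.R247.Smv126 Crest.Agent.R247.Obj554 Crest.Agent.R247.Hes124
open Crest.Agent.R247.Far553 Crest.Agent.R247.Mcp688 Crest.Agent.R247.Max193

lemma choose1 {P : ℝ → ℝ → Prop} (h : ∀ K, 1 ≤ K → ∃ A, 0 < A ∧ P K A) :
    ∃ f : ℝ → ℝ, (∀ K, 0 < f K) ∧ ∀ K, 1 ≤ K → P K (f K) := by
  have h1 : ∀ K, ∃ A, 0 < A ∧ (1 ≤ K → P K A) := fun K => by
    by_cases hK : 1 ≤ K
    · obtain ⟨A, h0, h1⟩ := h K hK
      exact ⟨A, h0, fun _ => h1⟩
    · exact ⟨1, one_pos, fun h => absurd h hK⟩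
  choose f h0 h1 using h1
  exact ⟨f, h0, h1⟩

lemma choose2 {P : ℝ → ℝ → ℝ → Prop} (h : ∀ K s, 1 ≤ K → 0 < s → ∃ A, 0 < A ∧ P K s A) :
    ∃ f : ℝ → ℝ → ℝ, (∀ K s, 0 < f K s) ∧ ∀ K s, 1 ≤ K → 0 < s → P K s (f K s) := by
  have h1 : ∀ K s, ∃ A, 0 < A ∧ (1 ≤ K → 0 < s → P K s A) := fun K s => by
    by_cases hK : 1 ≤ K ∧ 0 < s
    · obtain ⟨A, h0, h1⟩ := h K s hK.1 hK.2
      exact ⟨A, h0, fun _ _ => h1⟩
    · exact ⟨1, one_pos, fun h1 h2 => absurd ⟨h1, h2⟩ hK⟩
  choose f h0 h1 using h1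
  exact ⟨f, h0, h1⟩

/-- all abstract fields together -/
structure Fields (n : ℕ) : Prop where
  d1a : D1aP.{u} n
  d1b : D1bP.{u} n
  d2H : D2HP.{u} n
  d2g : D2gP.{u} n
  d2q : D2qP.{u} n
  d2k : D2kP.{u} n
  d2n2 : D2n2P.{u} n
  d2n1 : D2n1P.{u} n
  d2b : D2bP.{u} n
  pe : PeP.{u} n
  d3 : D3P.{u} n

/-- the fields of `FarD` which are proved directly on the manifold -/
structure MFld {n : ℕ} {κ : ℝ} {X : Type u} [MetricSpace X] [MeasurableSpace X]
    [BorelSpace X] {μ : Measure X} (C : Rad n κ X μ) (x : X) (N0 : ℝ) : Prop where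
  sym : ∀ a b : X, ∃ Γ : X → ℝ, Measurable Γ ∧
    RD C a (fun z => dist b z ^ 2 / 2) Γ ∧ RD C b (fun z => dist a z ^ 2 / 2) Γ
  vel : ∀ᵐ p ∂(μ.prod μ), ∃ cs ∈ Icc (-1 : ℝ) 1,
    HasDerivWithinAt (fun t : ℝ => dist x (C.T p.1 t p.2)) (cs * dist p.1 p.2) (Iio 1) 1 ∧
    ∀ a b : ℝ, 0 ≤ a → 0 ≤ b →
      Tendsto (fun ε : ℝ => dist (C.T x (1 - a * ε) p.2) (C.T p.1 (1 - b * ε) p.2) / ε) (𝓝[>] 0)
        (𝓝 (Real.sqrt ((a * dist x p.2) ^ 2 + (b * dist p.1 p.2) ^ 2
          - 2 * (a * dist x p.2) * (b * dist p.1 p.2) * cs)))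
  base : ∀ᵐ v ∂μ, dist x v < 12 → ∀ r L : ℝ, 0 < L → N0 * L ≤ r → N0 * L ≤ dist x v - r →
    ∃ ρ₀ > 0, ∀ y, dist y (ray C x v r) < ρ₀ → (x, y) ∈ C.U →
      ∀ t ∈ Icc (1 - 4 * L / r) 1,
        dist (C.T x t y) (C.T x t (ray C x v r)) ≤ 2 * t * dist y (ray C x v r)

/-- the constants -/
structure CstOK (n : ℕ) (c : FarK) : Prop where
  ω : c.ω = om n
  N0 : 3200 * ((n : ℝ) + 12) ≤ c.N0
  q : max (1 / 2) (CN n 1) ≤ c.B1 1

/-- **the term `FarD`** -/
theorem exists_farD {n : ℕ} (F : Fields.{u} n) :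
    ∃ c : FarK, CstOK n c ∧
      ∀ (κ : ℝ) (X : Type u) [MetricSpace X] [ProperSpace X] [MeasurableSpace X] [BorelSpace X]
        (μ : Measure X) [IsFiniteMeasureOnCompacts μ] (B : BochS n κ X μ) (C : Rad n κ X μ) (x : X)
        (δ : ℝ), EnvF B C x δ → HObj B x → MFld C x (3200 * ((n : ℝ) + 12)) →
        Nonempty (FarD c C x δ (phx n κ μ x)) := by
  obtain ⟨f1, f10, f1h⟩ := choose1 F.d1a
  obtain ⟨f2, f20, f2h⟩ := choose2 F.d1b
  obtain ⟨gH, gH0, gHh⟩ := choose2 F.d2H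
  obtain ⟨gg, gg0, ggh⟩ := choose2 F.d2g
  obtain ⟨gq, gq0, gqh⟩ := choose2 F.d2q
  obtain ⟨gk, gk0, gkh⟩ := choose2 F.d2k
  obtain ⟨g2, g20, g2h⟩ := choose2 F.d2n2
  obtain ⟨g1, g10, g1h⟩ := choose2 F.d2n1
  obtain ⟨Ab, Ab0, hAb⟩ := F.d2b
  have om0 : 0 < om n :=
    ENNReal.toReal_pos (measure_ball_pos _ _ one_pos).ne' measure_ball_lt_top.ne
  have hCN : 0 ≤ CN n 1 := CN_nonneg n zero_le_one
  let B1 : ℝ → ℝ := fun K => f1 K + (1 / 2 + CN n 1)
  let B3 : ℝ → ℝ → ℝ := fun K s => gH K s + gg K s + gq K s + gk K s + g2 K s + g1 K s + Ab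
  have hB3 : ∀ K s, gH K s ≤ B3 K s ∧ gg K s ≤ B3 K s ∧ gq K s ≤ B3 K s ∧ gk K s ≤ B3 K s ∧
      g2 K s ≤ B3 K s ∧ g1 K s ≤ B3 K s ∧ Ab ≤ B3 K s ∧ 0 < B3 K s := by
    intro K s
    have a1 := gH0 K s
    have a2 := gg0 K s
    have a3 := gq0 K s
    have a4 := gk0 K s
    have a5 := g20 K s
    have a6 := g10 K s
    simp only [B3]
    refine ⟨by linarith, by linarith, by linarith, by linarith, by linarith, by linarith,
      by linarith, by linarith⟩
  let c : FarK :=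
    { ω := om n
      N0 := 3200 * ((n : ℝ) + 12)
      B1 := B1
      B2 := f2
      B3 := B3
      ω_pos := om0
      N0_ge := by
        have : (0 : ℝ) ≤ n := Nat.cast_nonneg n
        linarith
      B1_pos := fun K => by
        have := f10 K
        simp only [B1]
        linarith
      B2_pos := f20
      B3_pos := fun K s => (hB3 K s).2.2.2.2.2.2.2 }
  refine ⟨c, ⟨rfl, le_refl _, ?_⟩, ?_⟩
  · have := f10 1
    show _ ≤ f1 1 + (1 / 2 + CN n 1)
    rcases max_choice (1 / 2 : ℝ) (CN n 1) with h | h <;> rw [h] <;> linarith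
  intro κ X _ _ _ _ μ _ B C x δ E O Mf
  have hκ := E.κ_nonneg
  have hκ1 : κ ≤ 1 := by have := E.κ_le; linarith
  have hph : ∀ j, 0 ≤ phx n κ μ x j := fun j => phat_nonneg' C hκ x _ j
  have hd : ∀ j, 0 < dy j := dy_pos
  have hpn : ∀ j, 0 ≤ phx n κ μ x j * dy j ^ n := fun j =>
    mul_nonneg (hph j) (pow_pos (hd j) n).le
  exact ⟨
    { H := Hf O
      g := gf B x
      q := qf B x
      kk := kf B x
      nk := nf O
      H_meas := Hf_meas B x O
      g_meas := gf_meas B x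
      q_meas := qf_meas B x
      kk_meas := kf_meas B x
      nk_meas := nf_meas B x O
      H_nonneg := fun k z => Hf_nonneg B x O k z
      g_nonneg := fun k z => gf_nonneg B x k z
      q_nonneg := fun k z => qf_nonneg B x k z
      nk_nonneg := fun k z => nf_nonneg B x O k z
      ph_nonneg := hph
      q_le := fun k => by
        have h1 := f10 1
        exact qf_le x k E.W hκ (C := c.B1 1) (by
          show (1:ℝ) / 2 ≤ f1 1 + (1 / 2 + CN n 1)
          linarith) (by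
          show CN n κ ≤ f1 1 + (1 / 2 + CN n 1)
          have := CN_mono n hκ1
          linarith)
      vol_ge := fun y r h1 h2 h3 => E.vol_ge y r h1 h2 h3
      vol_le := fun y r h1 h2 h3 => E.vol_le y r h1 h2 h3
      sym := Mf.sym
      vel := Mf.vel
      pe := fun k => F.pe κ X μ B C x δ E O k
      base := Mf.base
      d1a := fun K hK => by
        filter_upwards [f1h K hK κ X μ B C x δ E O] with v hv hv12 k a b h0 h1 h2 h3 h4 h5
        refine (hv hv12 k a b h0 h1 h2 h3 h4 h5).trans (ENNReal.ofReal_le_ofReal ?_)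
        have h6 : f1 K ≤ c.B1 K := by
          show f1 K ≤ f1 K + (1 / 2 + CN n 1)
          linarith
        gcongr
      d1b := fun K ε hK hε j hj => f2h K ε hK hε κ X μ B C x δ E O j hj
      d2_H := fun K s hK hs j k hj hjk => by
        refine (gHh K s hK hs κ X μ B C x δ E O j k hj hjk).trans (ENNReal.ofReal_le_ofReal ?_)
        rw [mul_assoc, mul_assoc]
        exact mul_le_mul_of_nonneg_right (hB3 K s).1 (hpn j)
      d2_g := fun K s hK hs j k hj hjk => by
        refine (ggh K s hK hs κ X μ B C x δ E O j k hj hjk).trans (ENNReal.ofReal_le_ofReal ?_)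
        rw [mul_assoc, mul_assoc]
        exact mul_le_mul_of_nonneg_right (hB3 K s).2.1 (hpn j)
      d2_q := fun K s hK hs j k hj hjk => by
        refine (gqh K s hK hs κ X μ B C x δ E O j k hj hjk).trans (ENNReal.ofReal_le_ofReal ?_)
        rw [mul_assoc, mul_assoc]
        exact mul_le_mul_of_nonneg_right (hB3 K s).2.2.1 (hpn j)
      d2_k := fun K s hK hs j k hj hjk => by
        refine (gkh K s hK hs κ X μ B C x δ E O j k hj hjk).trans (ENNReal.ofReal_le_ofReal ?_)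
        have h1 := (hB3 K s).2.2.2.1
        have h2 := hph j
        have h3 := (hd j).le
        have h4 := (hd k).le
        gcongr
      d2_nk2 := fun K s hK hs j k hj hjk => by
        refine (g2h K s hK hs κ X μ B C x δ E O j k hj hjk).trans (ENNReal.ofReal_le_ofReal ?_)
        have h1 := (hB3 K s).2.2.2.2.1
        have h2 := hph j
        have h3 := (hd j).le
        have h4 := (hd k).le
        gcongr
      d2_nk1 := fun K s hK hs j k hj hjk => by
        refine (g1h K s hK hs κ X μ B C x δ E O j k hj hjk).trans (ENNReal.ofReal_le_ofReal ?_)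
        have h1 := (hB3 K s).2.2.2.2.2.1
        have h2 := hph j
        have h3 := (hd j).le
        have h4 := (hd k).le
        gcongr
      d2_ball := fun j hj => by
        refine (hAb κ X μ B C x δ E O j hj).trans (ENNReal.ofReal_le_ofReal ?_)
        rw [mul_assoc, mul_assoc]
        exact mul_le_mul_of_nonneg_right (hB3 1 1).2.2.2.2.2.2.1 (hpn j)
      d3 := fun k => F.d3 κ X μ B C x δ E O k }⟩

end Crest.Agent.R247.Fd656
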