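import Crest.Agent.R247.GluM2_923

/-!
# R247, block (4), assembly on the manifold (3): pinching up to radius `T`

`NearIso T n` : near isometric maps to `ℝⁿ` on small balls, hypothesis: volume pinching for all radii
`r ≤ T`.  `NearIso 1 n ⟹ EFF2 n`, `GlueDataT T n ⟹ NearIso T n` (`T ≥ 1`).
-/

set_option autoImplicit false
noncomputable section
open Set Filter Topology MeasureTheory Metric
open scoped ContDiff Manifold ENNReal NNReal
open Bundle Crest.GeometryTopology.CoordMetric Crest.GeometryTopology.ChartCurvature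
  Crest.GeometryTopology.PointedLimit

namespace Crest.Agent.R247.GluM923

universe u

/-- **Near isometries** with `ℝⁿ` on a small ball, from volume pinching for all radii `≤ T`. -/
def NearIso (T : ℝ) (n : ℕ) : Prop := ∃ c : ℝ, 0 < c ∧ ∀ η : ℝ, 0 < η →
  ∃ ρ : ℝ, 0 < ρ ∧ ρ ≤ 1 / 4 ∧ ∃ R₀ : ℝ, 1 ≤ R₀ ∧ ∃ δ : ℝ, 0 < δ ∧
  ∀ (M : Type u) [MetricSpace M] [CompleteSpace M] [ConnectedSpace M]
    [ChartedSpace (EuclideanSpace ℝ (Fin n)) M]
    [IsManifold 𝓘(ℝ, EuclideanSpace ℝ (Fin n)) ∞ M]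
    [RiemannianBundle (fun x : M => TangentSpace 𝓘(ℝ, EuclideanSpace ℝ (Fin n)) x)]
    [IsContMDiffRiemannianBundle 𝓘(ℝ, EuclideanSpace ℝ (Fin n)) ∞ (EuclideanSpace ℝ (Fin n))
      (fun x : M => TangentSpace 𝓘(ℝ, EuclideanSpace ℝ (Fin n)) x)]
    [IsRiemannianManifold 𝓘(ℝ, EuclideanSpace ℝ (Fin n)) M]
    [MeasurableSpace M] [BorelSpace M] (q : M),
    HasRicciLowerBound n M (-δ) →
    (∀ x ∈ ball q R₀, ∀ r : ℝ, 0 < r → r ≤ T →
      ENNReal.ofReal (1 - δ) * volume (ball (0 : EuclideanSpace ℝ (Fin n)) r) ≤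
        Measure.euclideanHausdorffMeasure n (ball x r)) →
    ∃ F : M → EuclideanSpace ℝ (Fin n), ∀ x ∈ ball q (4 * ρ), ∀ z ∈ ball q (4 * ρ),
      |c * dist (F x) (F z) - dist x z| ≤ η * dist x z

/-- Input of the gluing theorem, pinching for all radii `≤ T`. -/
def GlueDataT (T : ℝ) (n : ℕ) : Prop := ∃ C : ℝ, 1 ≤ C ∧ ∃ c : ℝ, 0 < c ∧ ∀ η : ℝ, 0 < η →
  ∃ R : ℝ, 0 < R ∧ R ≤ 1 ∧ ∃ R₀ : ℝ, 1 ≤ R₀ ∧ ∃ δ : ℝ, 0 < δ ∧
  ∀ (M : Type u) [MetricSpace M] [CompleteSpace M] [ConnectedSpace M]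
    [ChartedSpace (EuclideanSpace ℝ (Fin n)) M]
    [IsManifold 𝓘(ℝ, EuclideanSpace ℝ (Fin n)) ∞ M]
    [RiemannianBundle (fun x : M => TangentSpace 𝓘(ℝ, EuclideanSpace ℝ (Fin n)) x)]
    [IsContMDiffRiemannianBundle 𝓘(ℝ, EuclideanSpace ℝ (Fin n)) ∞ (EuclideanSpace ℝ (Fin n))
      (fun x : M => TangentSpace 𝓘(ℝ, EuclideanSpace ℝ (Fin n)) x)]
    [IsRiemannianManifold 𝓘(ℝ, EuclideanSpace ℝ (Fin n)) M]
    [MeasurableSpace M] [BorelSpace M] (q : M),
    HasRicciLowerBound n M (-δ) →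
    (∀ x ∈ ball q R₀, ∀ r : ℝ, 0 < r → r ≤ T →
      ENNReal.ofReal (1 - δ) * volume (ball (0 : EuclideanSpace ℝ (Fin n)) r) ≤
        Measure.euclideanHausdorffMeasure n (ball x r)) →
    ∃ (H : Type u) (_ : NormedAddCommGroup H) (_ : InnerProductSpace ℝ H) (_ : CompleteSpace H)
      (Ψ : M → H) (P : ℕ → M → H →L[ℝ] H) (D : ℕ → M → ℝ),
      GlueOn n Ψ P D (ball q (R / 2)) R C c η

/-- **`GlueDataT T n ⟹ NearIso T n`.** -/
theorem nearIso_of_glueDataT {n : ℕ} {T : ℝ} (hT : 1 ≤ T) (hBG : Asm951.BGr.{u} n)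
    (hGD : GlueDataT.{u} T n) : NearIso.{u} T n := by
  obtain ⟨C, hC, c, hc, H⟩ := hGD
  refine ⟨c, hc, fun ε₀ hε₀ => ?_⟩
  -- packing number
  set N : ℕ := ⌈Real.exp 32 * 16 ^ n⌉₊ with hN
  have hN1 : 1 ≤ N := by
    have : 0 < N := Nat.ceil_pos.2 (by positivity)
    omega
  have hN1' : (1:ℝ) ≤ N := by exact_mod_cast hN1
  have hNe : Real.exp 32 * 16 ^ n ≤ N := Nat.le_ceil _
  -- choice of `η`
  set A : ℝ := c * (40000 * (32 * N * C) ^ 2 * N) with hA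
  have hA0 : 0 < A := by positivity
  set B : ℝ := 10 * (32 * N * C) ^ 2 with hB
  have hB0 : 0 < B := by positivity
  set η : ℝ := min (min (1 / (100 * B)) (ε₀ / 2)) ((ε₀ / (2 * A)) ^ 2) with hη
  have hη0 : 0 < η := by positivity
  have hη1 : B * η ≤ 1 / 100 := by
    have h1 : η ≤ 1 / (100 * B) := (min_le_left _ _).trans (min_le_left _ _)
    calc B * η ≤ B * (1 / (100 * B)) := by gcongr
      _ = 1 / 100 := by field_simp
  have hη2 : η ≤ ε₀ / 2 := (min_le_left _ _).trans (min_le_right _ _)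
  have hη3 : A * Real.sqrt η ≤ ε₀ / 2 := by
    have h1 : Real.sqrt η ≤ ε₀ / (2 * A) := by
      have := Real.sqrt_le_sqrt (min_le_right (min (1 / (100 * B)) (ε₀ / 2)) ((ε₀ / (2 * A)) ^ 2))
      rwa [Real.sqrt_sq (by positivity)] at this
    calc A * Real.sqrt η ≤ A * (ε₀ / (2 * A)) := by gcongr
      _ = ε₀ / 2 := by field_simp
  obtain ⟨R, hR, hR1, R₀, hR₀, δ, hδ, H⟩ := H η hη0
  set δ' : ℝ := min (min δ (1 / 4)) ε₀ with hδ'
  have hδ'0 : 0 < δ' := by positivity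
  have hδ'1 : δ' ≤ δ := (min_le_left _ _).trans (min_le_left _ _)
  have hδ'2 : δ' ≤ 1 / 4 := (min_le_left _ _).trans (min_le_right _ _)
  have hδ'3 : δ' ≤ ε₀ := min_le_right _ _
  refine ⟨R / 8, by positivity, by linarith, R₀, hR₀, δ', hδ'0, ?_⟩
  intro M _ _ _ _ _ _ _ _ _ _ q hRic hvol
  have hprop := HR216.properSpace_of_riemannian n M
  have hRicδ := Asm951.ricci_mono (by linarith : -δ ≤ -δ') hRic
  have hvolδ : ∀ x ∈ ball q R₀, ∀ r : ℝ, 0 < r → r ≤ T →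
      ENNReal.ofReal (1 - δ) * volume (ball (0 : EuclideanSpace ℝ (Fin n)) r) ≤
        Measure.euclideanHausdorffMeasure n (ball x r) := by
    intro x hx r hr hr1
    refine le_trans ?_ (hvol x hx r hr hr1)
    gcongr
  obtain ⟨H', i1, i2, i3, Ψ, P, D, hG⟩ := H M q hRicδ hvolδ
  have hsubR₀ : ∀ x, dist q x < R / 2 → x ∈ ball q R₀ := by
    intro x hx
    rw [mem_ball, dist_comm]
    linarith
  have htb : TotallyBounded (ball q (R / 2)) :=
    (isCompact_closedBall q (R / 2)).totallyBounded.subset ball_subset_closedBall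
  have hpack : ∀ k : ℕ, 1 ≤ k → ∀ x ∈ ball q (R / 2), ∀ t : Finset M,
      (∀ a ∈ t, dist x a ≤ 3 * (R / 2 ^ k)) →
      (∀ a ∈ t, ∀ b ∈ t, a ≠ b → R / 2 ^ k ≤ dist a b) → t.card ≤ N := by
    intro k hk x hx t ht1 ht2
    set r : ℝ := R / 2 ^ k with hr
    have hr0 : 0 < r := by positivity
    have h2k : (2:ℝ) ≤ 2 ^ k := by
      calc (2:ℝ) = 2 ^ 1 := by norm_num
        _ ≤ 2 ^ k := pow_le_pow_right₀ (by norm_num) hk
    have hr1 : r ≤ 1 / 2 := by
      rw [hr, div_le_iff₀ (by positivity)]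
      linarith
    refine packing_of_doubling (μHE[n]) (x := x) (r := r) hNe ?_ (ball_lt_top n M x _) ?_ t ht1 ht2
      hr0
    · have h1 := hvol x (hsubR₀ x (by rw [dist_comm]; exact hx)) r hr0 (by linarith)
      have h2 : 0 < ENNReal.ofReal (1 - δ') *
          volume (ball (0 : EuclideanSpace ℝ (Fin n)) r) := by
        apply ENNReal.mul_pos
        · rw [ne_eq, ENNReal.ofReal_eq_zero]
          push Not
          linarith
        · exact (measure_ball_pos _ _ hr0).ne'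
      exact h2.trans_le (h1.trans (measure_mono (ball_subset_ball (by linarith))))
    · intro a ha
      have h1 := hBG δ' hδ'0.le M a (r / 2) (8 * r) hRic (by positivity) (by linarith)
      refine h1.trans ?_
      have h3 : 8 * r / (r / 2) = 16 := by field_simp; norm_num
      rw [h3]
      gcongr
      have : (8 * r) ^ 2 ≤ 16 := by nlinarith
      nlinarith
  obtain ⟨F, hF⟩ := hG.exists_map hR hC hc hN1 hη0 hη1 htb hpack
  have hε : c * (40000 * (32 * N * C) ^ 2 * N * Real.sqrt η) + η ≤ ε₀ := by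
    have : c * (40000 * (32 * N * C) ^ 2 * N * Real.sqrt η) = A * Real.sqrt η := by
      rw [hA]; ring
    linarith
  refine ⟨F, fun x hx z hz => ?_⟩
  rw [mem_ball, dist_comm] at hx hz
  refine (hF x z (by linarith) (by linarith)).trans ?_
  gcongr

/-- `EFF2` with volume pinching for all radii `≤ T`. -/
def EFF2T (T : ℝ) (n : ℕ) : Prop := ∃ L : ℝ, 1 ≤ L ∧ ∃ ρ : ℝ, 0 < ρ ∧ ρ ≤ 1 / 4 ∧ ∃ R₀ : ℝ, 1 ≤ R₀ ∧
  ∃ δ : ℝ, 0 < δ ∧
  ∀ (M : Type u) [MetricSpace M] [CompleteSpace M] [ConnectedSpace M]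
    [ChartedSpace (EuclideanSpace ℝ (Fin n)) M]
    [IsManifold 𝓘(ℝ, EuclideanSpace ℝ (Fin n)) ∞ M]
    [RiemannianBundle (fun x : M => TangentSpace 𝓘(ℝ, EuclideanSpace ℝ (Fin n)) x)]
    [IsContMDiffRiemannianBundle 𝓘(ℝ, EuclideanSpace ℝ (Fin n)) ∞ (EuclideanSpace ℝ (Fin n))
      (fun x : M => TangentSpace 𝓘(ℝ, EuclideanSpace ℝ (Fin n)) x)]
    [IsRiemannianManifold 𝓘(ℝ, EuclideanSpace ℝ (Fin n)) M]
    [MeasurableSpace M] [BorelSpace M] (q : M),
    HasRicciLowerBound n M (-δ) →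
    (∀ x ∈ ball q R₀, ∀ r : ℝ, 0 < r → r ≤ T →
      ENNReal.ofReal (1 - δ) * volume (ball (0 : EuclideanSpace ℝ (Fin n)) r) ≤
        Measure.euclideanHausdorffMeasure n (ball x r)) →
    ∃ F : M → EuclideanSpace ℝ (Fin n),
      (∀ x ∈ ball q (2 * ρ), ∀ z ∈ ball q (2 * ρ),
        L⁻¹ * dist x z ≤ dist (F x) (F z) ∧ dist (F x) (F z) ≤ L * dist x z) ∧
      (∀ x ∈ ball q ρ, ∀ s : ℝ, 0 < s → s ≤ ρ → ∀ y : EuclideanSpace ℝ (Fin n),
        dist (F x) y < s / L → ∃ z, dist x z < s ∧ F z = y)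

/-- **`NearIso T n ⟹ EFF2T T n`.** -/
theorem eff2T_of_nearIso {n : ℕ} {T : ℝ} (hT : 1 ≤ T) (h : NearIso.{u} T n) : EFF2T.{u} T n := by
  obtain ⟨c, hc, H⟩ := h
  obtain ⟨ε₀, hε₀, hε₀1, hnum⟩ := Opn79.num n
  obtain ⟨ρ₀, hρ₀, hρ₀1, R₀, hR₀, δ, hδ, H⟩ := H ε₀ hε₀
  set δ' : ℝ := min (min δ (1 / 4)) ε₀ with hδ'
  have hδ'0 : 0 < δ' := by positivity
  have hδ'1 : δ' ≤ δ := (min_le_left _ _).trans (min_le_left _ _)
  have hδ'2 : δ' ≤ 1 / 4 := (min_le_left _ _).trans (min_le_right _ _)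
  have hδ'3 : δ' ≤ ε₀ := min_le_right _ _
  set R' : ℝ := min (4 * ρ₀) (1 / 8) with hR'
  have hR'0 : 0 < R' := by positivity
  have hR'1 : R' ≤ 1 / 8 := min_le_right _ _
  have hR'2 : R' ≤ 4 * ρ₀ := min_le_left _ _
  refine ⟨max (max (4 * c) (2 / c)) 1, le_max_right _ _, R' / 2, by positivity, by linarith,
    R₀, hR₀, δ', hδ'0, ?_⟩
  intro M _ _ _ _ _ _ _ _ _ _ q hRic hvol
  have hRicδ := Asm951.ricci_mono (by linarith : -δ ≤ -δ') hRic
  have hvolδ : ∀ x ∈ ball q R₀, ∀ r : ℝ, 0 < r → r ≤ T →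
      ENNReal.ofReal (1 - δ) * volume (ball (0 : EuclideanSpace ℝ (Fin n)) r) ≤
        Measure.euclideanHausdorffMeasure n (ball x r) := by
    intro x hx r hr hr1
    refine le_trans ?_ (hvol x hx r hr hr1)
    gcongr
  obtain ⟨F, hF⟩ := H M q hRicδ hvolδ
  have hF' : ∀ x z, dist q x < R' → dist q z < R' →
      |c * dist (F x) (F z) - dist x z| ≤ ε₀ * dist x z := by
    intro x z hx hz
    refine hF x ?_ z ?_ <;> rw [mem_ball, dist_comm] <;> linarith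
  have hmain := Opn79.chart_of_near (F := F) (q := q) (R := R') (ε := ε₀) (c := c) (ρ := R' / 2)
    (L := max (max (4 * c) (2 / c)) 1) hc hε₀.le hε₀1 (hnum ε₀ hε₀.le le_rfl) hF' ?_
    (by linarith) ((le_max_left _ _).trans (le_max_left _ _))
    ((le_max_right _ _).trans (le_max_left _ _))
  · refine ⟨F, ?_, ?_⟩
    · intro x hx z hz
      rw [mem_ball, dist_comm] at hx hz
      exact hmain.1 x z hx hz
    · intro x hx s hs hsρ y hy
      rw [mem_ball, dist_comm] at hx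
      exact hmain.2 x hx s hs hsρ y hy
  · intro z s hs hzs
    have hzq : dist q z < R' := hzs z (by simpa using hs)
    have hzR : z ∈ ball q R₀ := by
      rw [mem_ball, dist_comm]
      linarith
    have hle : ENNReal.ofReal (1 - ε₀) ≤ ENNReal.ofReal (1 - δ') :=
      ENNReal.ofReal_le_ofReal (by linarith)
    rcases Nat.eq_zero_or_pos n with hn | hn
    · -- dimension 0
      rcases le_or_gt s 1 with h1 | h1
      · exact (mul_le_mul_left hle _).trans (hvol z hzR s hs (by linarith))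
      · have h2 := hvol z hzR 1 one_pos hT
        have h3 : volume (ball (0 : EuclideanSpace ℝ (Fin n)) s) =
            volume (ball (0 : EuclideanSpace ℝ (Fin n)) 1) := by
          rw [Opn79.vol_ball _ hs, hn]
          simp
        rw [h3]
        exact (mul_le_mul_left hle _).trans (h2.trans (measure_mono (ball_subset_ball h1.le)))
    · have h1 : s < 1 := radius_lt_one hn.ne' hc hε₀.le hε₀1 hδ'2 hR'0 hR'1 hF' hzs
        (hvol z hzR 1 one_pos hT)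
      exact (mul_le_mul_left hle _).trans (hvol z hzR s hs (by linarith))

/-- **`NearIso 1 n ⟹ EFF2 n`.** -/
theorem eff2_of_nearIso {n : ℕ} (h : NearIso.{u} 1 n) : Asm951.EFF2.{u} n :=
  eff2T_of_nearIso le_rfl h

/-- **`GlueDataT T n ⟹ EFF2T T n`.** -/
theorem eff2T_of_glueDataT {n : ℕ} {T : ℝ} (hT : 1 ≤ T) (hBG : Asm951.BGr.{u} n)
    (h : GlueDataT.{u} T n) : EFF2T.{u} T n :=
  eff2T_of_nearIso hT (nearIso_of_glueDataT hT hBG h)

/-- Literal name asked for: pinching for all `r ≤ 40`. -/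
def GlueData40 (n : ℕ) : Prop := GlueDataT.{u} 40 n

end Crest.Agent.R247.GluM923
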