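import Crest.Agent.R247.Cal_550
import Crest.Agent.R247.GluM3_923
import Crest.Agent.R247.Nis2_710

/-!
# R247: the top of block (2) (constants), `GlueDataT 40 n` from the literal Props of the blocks

* `PkOn` : everything which is delivered on one pinched manifold by block (5) (656's FD-ASM);
* `PkP n c` : every pinched manifold has such a package;
* `FarConcl n c` (553 / 196) : far propagation;
* `NearP n` : near isometry of `psi ν` (710 / 311);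
* `LocP n c` : (m), (L) at the scales `dy k` (596);
* `PlData`, `PlThm n` : planes (661 / 923);
* `glueData40_of` : these Props imply `GlueDataT 40 n`.
-/

set_option autoImplicit false
set_option linter.unusedSectionVars false
noncomputable section
open Set Filter Topology MeasureTheory Metric
open scoped ContDiff Manifold ENNReal
open Bundle Crest.GeometryTopology.CoordMetric Crest.GeometryTopology.ChartCurvature
  Crest.GeometryTopology.PointedLimit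

namespace Crest.Agent.R247.Q9550

universe u

open Crest.Agent.R247.Mcp688 Crest.Agent.R247.Far553 Crest.Agent.R247.Cal550
  Crest.Agent.R247.GluM923 Crest.Agent.R247.Nis710

/-- the normalised far measure -/
def nuW {X : Type*} [MetricSpace X] [MeasurableSpace X] (μ : Measure X) (p : X) : Measure X :=
  (μ (ann p 4 8))⁻¹ • μ.restrict (ann p 4 8)

section abstract
variable {X : Type u} [MetricSpace X] [MeasurableSpace X] [BorelSpace X] {μ : Measure X}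
  {n : ℕ} {κ : ℝ}

/-- (m) at the centre `x`, scale `r`, with error `B` -/
def MM (C : Rad n κ X μ) (x : X) (r B : ℝ) : Prop :=
  ∀ (ζ Dζ : X → ℝ) (S : ℝ), (∃ L, ∀ y z, |ζ y - ζ z| ≤ L * dist y z) → (∀ z, |ζ z| ≤ S) →
    (∀ z, r ≤ dist x z → ζ z = 0) → RD C x ζ Dζ → |∫ z, Dζ z ∂μ + n * ∫ z, ζ z ∂μ| ≤ S * B

/-- (L) at the centre `x`, scale `r`, with error `B` -/
def LL (μ : Measure X) (G : X → X → X → ℝ) (x : X) (r B : ℝ) : Prop :=
  ∫⁻ v in ball x r, ∫⁻ u in ball x r, ENNReal.ofReal (PP G x v u ^ 2) ∂μ ∂μ ≤ ENNReal.ofReal B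

/-- (L2) for the pair `x, y` with the constant `c`, scale `r`, with error `B` -/
def LP (μ : Measure X) (G : X → X → X → ℝ) (x y : X) (c r B : ℝ) : Prop :=
  ∫⁻ u in ball x r, ENNReal.ofReal |PP G x y u - c| ∂μ ≤ ENNReal.ofReal B

/-- (F) at the centre `x`, scale `r`, with error `B` -/
def FF (μ : Measure X) (G : X → X → X → ℝ) (p x : X) (r B : ℝ) : Prop :=
  ∫⁻ z in ball x r, ∫⁻ w in ann p 4 8, ENNReal.ofReal (ee G x z w ^ 2) ∂μ ∂μ ≤ ENNReal.ofReal B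

/-- **Input of the planes theorem** (doc 1338, section 1). The planes live at scale `dy (k + 7)`,
the estimates hold on balls of radius `dy k = 128 * dy (k + 7)`. -/
structure PlData (C : Rad n κ X μ) (G : X → X → X → ℝ) (p : X) (A ε : ℝ) (J₀ : ℕ)
    (E : ℕ → X → ℝ) : Prop where
  n_pos : 1 ≤ n
  A_ge : 1 ≤ A
  ε_pos : 0 < ε
  κ_nonneg : 0 ≤ κ
  κ_le : κ ≤ 1
  κ_small : κ ≤ ε
  J₀_ge : 4 ≤ J₀
  grep : GRep C G
  sing : ∀ x : X, μ {x} = 0
  E_nonneg : ∀ k, ∀ x ∈ ball p 1, 0 ≤ E k x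
  E_le : ∀ k, J₀ ≤ k → ∀ x ∈ ball p 1, E k x ≤ ε
  vol_ge : ∀ x ∈ ball p 1, ∀ r, 0 < r → r ≤ 1 → ENNReal.ofReal (A⁻¹ * r ^ n) ≤ μ (ball x r)
  vol_le : ∀ x ∈ ball p 1, ∀ r, 0 < r → r ≤ 1 → μ (ball x r) ≤ ENNReal.ofReal (A * r ^ n)
  volW_ge : ENNReal.ofReal A⁻¹ ≤ μ (ann p 4 8)
  volW_le : μ (ann p 4 8) ≤ ENNReal.ofReal A
  drop_small : ∀ k, J₀ ≤ k → ∀ x ∈ ball p 1, Rad.drop n κ μ x (dy k) ≤ A * ε * dy k ^ n
  m : ∀ k, J₀ ≤ k → ∀ x ∈ ball p 1, MM C x (dy k) (A * E k x * dy k ^ n)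
  L : ∀ k, J₀ ≤ k → ∀ x ∈ ball p 1, LL μ G x (dy k) (A * E k x * dy k ^ (2 * n + 4))
  L2 : ∃ cc : ℕ → X → X → ℝ, (∀ k x y, cc k x y = cc k y x) ∧
    ∀ k, J₀ ≤ k → ∀ x ∈ ball p 1, ∀ y ∈ ball p 1, dist x y ≤ 8 * dy (k + 7) →
      |cc k x y| ≤ 200 * dy (k + 7) ^ 2 ∧
      LP μ G x y (cc k x y) (dy k) (A * (Real.sqrt (E k x) + Real.sqrt (E k y)) * dy k ^ (n + 2))
  F : ∀ k, J₀ ≤ k → ∀ x ∈ ball p 1, FF μ G p x (dy k) (A * E k x * dy k ^ (n + 2))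
  near : ∀ x ∈ ball p (dy J₀), ∀ y ∈ ball p (dy J₀),
    |Real.sqrt n * ‖psi (nuW μ p) x - psi (nuW μ p) y‖ - dist x y| ≤ ε * dist x y

end abstract

/-- **Planes theorem** (661 / 923). -/
def PlThm (n : ℕ) : Prop := ∀ A : ℝ, 1 ≤ A → ∃ C₁ : ℝ, 1 ≤ C₁ ∧ ∃ ε : ℝ, 0 < ε ∧
  ∀ (κ : ℝ) (X : Type u) [MetricSpace X] [MeasurableSpace X] [BorelSpace X] [ProperSpace X]
    (μ : Measure X) [IsFiniteMeasureOnCompacts μ] (C : Rad n κ X μ) (G : X → X → X → ℝ) (p : X)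
    (J₀ : ℕ) (E : ℕ → X → ℝ), PlData C G p A ε J₀ E →
    ∀ J, J₀ + 7 ≤ J →
    ∃ P : ℕ → X → Lp ℝ 2 (nuW μ p) →L[ℝ] Lp ℝ 2 (nuW μ p),
      (∀ k, 1 ≤ k → ∀ x ∈ ball p (dy J / 2), Glu923.IsProj (P k x)) ∧
      (∀ x ∈ ball p (dy J / 2), ∃ V : Submodule ℝ (Lp ℝ 2 (nuW μ p)), FiniteDimensional ℝ V ∧
        Module.finrank ℝ V = n ∧ ∀ v, P 1 x v ∈ V) ∧
      (∀ k, 1 ≤ k → ∀ x ∈ ball p (dy J / 2), ∀ y ∈ ball p (dy J / 2),
        dist x y ≤ 8 * (dy J / 2 ^ k) →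
        ‖(1 - P k x) (psi (nuW μ p) y - psi (nuW μ p) x)‖ ≤
          C₁ * (Real.sqrt (E (J + k - 7) x) + Real.sqrt (E (J + k - 7) y)) * (dy J / 2 ^ k)) ∧
      (∀ k, 1 ≤ k → ∀ x ∈ ball p (dy J / 2), ∀ y ∈ ball p (dy J / 2),
        dist x y ≤ 8 * (dy J / 2 ^ k) →
        ‖P k x - P k y‖ ≤
          C₁ * (Real.sqrt (E (J + k - 7) x) + Real.sqrt (E (J + k - 7) y))) ∧
      (∀ k, 1 ≤ k → ∀ x ∈ ball p (dy J / 2),
        ‖P k x - P (k + 1) x‖ ≤
          C₁ * (Real.sqrt (E (J + k - 7) x) + Real.sqrt (E (J + (k + 1) - 7) x)))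

/-- **Package of one pinched manifold** (656's FD-ASM). -/
structure PkOn {M : Type u} [MetricSpace M] [MeasurableSpace M] [BorelSpace M]
    (n : ℕ) (c : FarK) (A δ : ℝ) (q : M) (C : Rad n δ M (Measure.euclideanHausdorffMeasure n))
    (G : M → M → M → ℝ) (ph : M → ℕ → ℝ) : Prop where
  n_pos : 1 ≤ n
  sing : ∀ z : M, (Measure.euclideanHausdorffMeasure n : Measure M) {z} = 0
  grep : GRep C G
  far : ∀ x, dist x q < 1 → Nonempty (FarD c C x (A * δ) (ph x))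
  ph_nonneg : ∀ x, dist x q < 1 → ∀ j, 0 ≤ ph x j
  summ : ∀ x, dist x q < 1 → Summable (ph x)
  tail : ∀ x, dist x q < 1 → ∀ i, 4 ≤ i → ∑' j, ph x (i + j) ≤ A * (δ + dy i ^ 2)
  drop_le : ∀ x, dist x q < 1 → ∀ j, 4 ≤ j →
    Rad.drop n δ (Measure.euclideanHausdorffMeasure n) x (16 * dy j) ≤ A * ph x j * dy j ^ n
  L2 : ∃ cc : ℕ → M → M → ℝ, (∀ k x y, cc k x y = cc k y x) ∧
    ∀ k, 4 ≤ k → ∀ x, dist x q < 1 → ∀ y, dist y q < 1 → dist x y ≤ 8 * dy (k + 7) →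
      |cc k x y| ≤ 200 * dy (k + 7) ^ 2 ∧
      LP (Measure.euclideanHausdorffMeasure n) G x y (cc k x y) (dy k)
        (A * (Real.sqrt (ph x k) + Real.sqrt (ph y k)) * dy k ^ (n + 2))

/-- every pinched manifold has a package -/
def PkP (n : ℕ) (c : FarK) : Prop := ∃ A : ℝ, 1 ≤ A ∧ ∃ δ₀ : ℝ, 0 < δ₀ ∧ δ₀ ≤ 1 / 4 ∧
  ∀ δ : ℝ, 0 < δ → δ ≤ δ₀ →
  ∀ (M : Type u) [MetricSpace M] [CompleteSpace M] [ConnectedSpace M]
    [ChartedSpace (EuclideanSpace ℝ (Fin n)) M]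
    [IsManifold 𝓘(ℝ, EuclideanSpace ℝ (Fin n)) ∞ M]
    [RiemannianBundle (fun x : M => TangentSpace 𝓘(ℝ, EuclideanSpace ℝ (Fin n)) x)]
    [IsContMDiffRiemannianBundle 𝓘(ℝ, EuclideanSpace ℝ (Fin n)) ∞ (EuclideanSpace ℝ (Fin n))
      (fun x : M => TangentSpace 𝓘(ℝ, EuclideanSpace ℝ (Fin n)) x)]
    [IsRiemannianManifold 𝓘(ℝ, EuclideanSpace ℝ (Fin n)) M]
    [MeasurableSpace M] [BorelSpace M] (q : M),
    HasRicciLowerBound n M (-δ) →
    (∀ x ∈ ball q 50, ∀ r : ℝ, 0 < r → r ≤ 40 →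
      ENNReal.ofReal (1 - δ) * volume (ball (0 : EuclideanSpace ℝ (Fin n)) r) ≤
        Measure.euclideanHausdorffMeasure n (ball x r)) →
    ∃ (C : Rad n δ M (Measure.euclideanHausdorffMeasure n)) (G : M → M → M → ℝ)
      (ph : M → ℕ → ℝ), PkOn n c A δ q C G ph

/-- **Near isometry** (710 / 311): from (F) at all scales `≤ dy J₁` with a small constant. -/
def NearP (n : ℕ) : Prop := ∀ ε : ℝ, 0 < ε → ∃ ε₁ : ℝ, 0 < ε₁ ∧ ∃ δ₁ : ℝ, 0 < δ₁ ∧ ∃ J₁ : ℕ,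
  ∀ δ : ℝ, 0 < δ → δ ≤ δ₁ →
  ∀ (M : Type u) [MetricSpace M] [CompleteSpace M] [ConnectedSpace M]
    [ChartedSpace (EuclideanSpace ℝ (Fin n)) M]
    [IsManifold 𝓘(ℝ, EuclideanSpace ℝ (Fin n)) ∞ M]
    [RiemannianBundle (fun x : M => TangentSpace 𝓘(ℝ, EuclideanSpace ℝ (Fin n)) x)]
    [IsContMDiffRiemannianBundle 𝓘(ℝ, EuclideanSpace ℝ (Fin n)) ∞ (EuclideanSpace ℝ (Fin n))
      (fun x : M => TangentSpace 𝓘(ℝ, EuclideanSpace ℝ (Fin n)) x)]
    [IsRiemannianManifold 𝓘(ℝ, EuclideanSpace ℝ (Fin n)) M]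
    [MeasurableSpace M] [BorelSpace M] (q : M),
    HasRicciLowerBound n M (-δ) →
    (∀ x ∈ ball q 50, ∀ r : ℝ, 0 < r → r ≤ 40 →
      ENNReal.ofReal (1 - δ) * volume (ball (0 : EuclideanSpace ℝ (Fin n)) r) ≤
        Measure.euclideanHausdorffMeasure n (ball x r)) →
    ∀ (C : Rad n δ M (Measure.euclideanHausdorffMeasure n)) (G : M → M → M → ℝ), GRep C G →
    ∀ J, J₁ ≤ J →
    (∀ k, J ≤ k → ∀ x, dist x q < 1 →
      FF (Measure.euclideanHausdorffMeasure n) G q x (dy k) (ε₁ * dy k ^ (n + 2))) →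
    ∀ x ∈ ball q (dy (J + 2)), ∀ y ∈ ball q (dy (J + 2)),
      |Real.sqrt n * ‖psi (nuW (Measure.euclideanHausdorffMeasure n) q) x -
        psi (nuW (Measure.euclideanHausdorffMeasure n) q) y‖ - dist x y| ≤ ε * dist x y

/-- (m) and (L) at small scales (596), abstract. -/
def LocP (n : ℕ) (c : FarK) : Prop := ∀ A : ℝ, 1 ≤ A → ∃ A' : ℝ, 1 ≤ A' ∧ ∃ j₀ : ℕ, 4 ≤ j₀ ∧
  ∀ (κ δ : ℝ), 0 ≤ κ → κ ≤ 1 → δ ≤ 1 / 4 →
  ∀ (X : Type u) [MetricSpace X] [MeasurableSpace X] [BorelSpace X] [ProperSpace X]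
    (μ : Measure X) [IsFiniteMeasureOnCompacts μ] (C : Rad n κ X μ) (G : X → X → X → ℝ) (x : X)
    (ph : ℕ → ℝ), GRep C G → (∀ z : X, μ {z} = 0) → FarD c C x δ ph →
    (∀ j, 4 ≤ j → Rad.drop n κ μ x (16 * dy j) ≤ A * ph j * dy j ^ n) →
    ∀ k, j₀ ≤ k → MM C x (dy k) (A' * ph k * dy k ^ n) ∧
      LL μ G x (dy k) (A' * ph k * dy k ^ (2 * n + 4))

/-! ### small lemmas -/

section small
variable {X : Type u} [MetricSpace X] [MeasurableSpace X] [BorelSpace X] {μ : Measure X}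
  {n : ℕ} {κ : ℝ}

lemma MM.mono {C : Rad n κ X μ} {x : X} {r B B' : ℝ} (h : MM C x r B) (hB : B ≤ B') :
    MM C x r B' := by
  intro ζ Dζ S hL hS h0 hD
  refine (h ζ Dζ S hL hS h0 hD).trans ?_
  have : 0 ≤ S := (abs_nonneg _).trans (hS x)
  gcongr

lemma LL.mono {G : X → X → X → ℝ} {x : X} {r B B' : ℝ} (h : LL μ G x r B) (hB : B ≤ B') :
    LL μ G x r B' := h.trans (ENNReal.ofReal_le_ofReal hB)

lemma LP.mono {G : X → X → X → ℝ} {x y : X} {c r B B' : ℝ} (h : LP μ G x y c r B)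
    (hB : B ≤ B') : LP μ G x y c r B' := h.trans (ENNReal.ofReal_le_ofReal hB)

lemma FF.mono {G : X → X → X → ℝ} {p x : X} {r B B' : ℝ} (h : FF μ G p x r B)
    (hB : B ≤ B') : FF μ G p x r B' := h.trans (ENNReal.ofReal_le_ofReal hB)

/-- monotonicity of `FarD` in `δ` -/
def farD_mono {c : FarK} {C : Rad n κ X μ} {x : X} {δ δ' : ℝ} {ph : ℕ → ℝ} (h : δ ≤ δ')
    (D : FarD c C x δ ph) : FarD c C x δ' ph :=
  { D with
    vol_ge := fun y r hy hr hr' => (ENNReal.ofReal_le_ofReal (by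
      have := c.ω_pos
      have : 0 ≤ c.ω * r ^ n := by positivity
      nlinarith)).trans (D.vol_ge y r hy hr hr')
    vol_le := fun y r hy hr hr' => (D.vol_le y r hy hr hr').trans (ENNReal.ofReal_le_ofReal (by
      have := c.ω_pos
      have : 0 ≤ c.ω * r ^ n := by positivity
      nlinarith)) }

lemma measurableSet_ann (p : X) (a b : ℝ) : MeasurableSet (ann p a b) := by
  have h1 : Measurable (fun z : X => dist p z) := (continuous_const.dist continuous_id).measurable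
  exact (measurableSet_le measurable_const h1).inter (measurableSet_le h1 measurable_const)

/-- volume of the far annulus -/
lemma vol_ann {c : FarK} {C : Rad n κ X μ} {x : X} {δ : ℝ} {ph : ℕ → ℝ} (hn : 1 ≤ n)
    (D : FarD c C x δ ph) (hδ0 : 0 ≤ δ) (hδ : δ ≤ 1 / 4) :
    ENNReal.ofReal (c.ω / 4) ≤ μ (ann x 4 8) ∧ μ (ann x 4 8) ≤ ENNReal.ofReal (2 * c.ω * 9 ^ n) := by
  have hω := c.ω_pos
  have hx : dist x x < 20 := by rw [dist_self]; norm_num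
  constructor
  · have h1 := D.vol_ge x 8 hx (by norm_num) (by norm_num)
    have h2 := D.vol_le x 4 hx (by norm_num) (by norm_num)
    have h3 : ball x 8 ⊆ ann x 4 8 ∪ ball x 4 := by
      intro z hz
      rw [mem_ball, dist_comm] at hz
      by_cases h : dist x z < 4
      · exact Or.inr (by rw [mem_ball, dist_comm]; exact h)
      · exact Or.inl ⟨not_lt.1 h, hz.le⟩
    have h4 : μ (ball x 8) ≤ μ (ann x 4 8) + μ (ball x 4) :=
      (measure_mono h3).trans (measure_union_le _ _)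
    have h5 : ENNReal.ofReal ((1 - δ) * c.ω * 8 ^ n) ≤
        μ (ann x 4 8) + ENNReal.ofReal ((1 + δ) * c.ω * 4 ^ n) :=
      h1.trans (h4.trans (by gcongr))
    have h6 : ENNReal.ofReal (c.ω / 4) + ENNReal.ofReal ((1 + δ) * c.ω * 4 ^ n) ≤
        ENNReal.ofReal ((1 - δ) * c.ω * 8 ^ n) := by
      rw [← ENNReal.ofReal_add (by positivity) (by positivity)]
      apply ENNReal.ofReal_le_ofReal
      have h7 : (2 : ℝ) * 4 ^ n ≤ 8 ^ n := by
        have h8 : (8 : ℝ) ^ n = 2 ^ n * 4 ^ n := by rw [← mul_pow]; norm_num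
        rw [h8]
        have : (2 : ℝ) ^ 1 ≤ 2 ^ n := pow_le_pow_right₀ (by norm_num) hn
        have h4 : (0 : ℝ) < 4 ^ n := by positivity
        nlinarith
      have h9 : (1 : ℝ) ≤ 4 ^ n := one_le_pow₀ (by norm_num)
      have e1 : (1 - δ) * c.ω * 8 ^ n ≥ (1 - δ) * c.ω * (2 * 4 ^ n) := by
        have : 0 ≤ (1 - δ) * c.ω := by
          have : 0 ≤ 1 - δ := by linarith
          positivity
        nlinarith
      have e2 : (1 - δ) * c.ω * (2 * 4 ^ n) - (1 + δ) * c.ω * 4 ^ n =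
          (1 - 3 * δ) * (c.ω * 4 ^ n) := by ring
      have e3 : c.ω / 4 ≤ (1 - 3 * δ) * (c.ω * 4 ^ n) := by
        have e4 : c.ω ≤ c.ω * 4 ^ n := by nlinarith
        nlinarith
      linarith
    have h7 := h6.trans h5
    exact (ENNReal.add_le_add_iff_right ENNReal.ofReal_ne_top).1 h7
  · have h1 : ann x 4 8 ⊆ ball x 9 := by
      intro z hz
      rw [mem_ball, dist_comm]
      linarith [hz.2]
    refine (measure_mono h1).trans ((D.vol_le x 9 hx (by norm_num) (by norm_num)).trans ?_)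
    apply ENNReal.ofReal_le_ofReal
    have : 0 ≤ c.ω * 9 ^ n := by positivity
    nlinarith

lemma nuW_prob {p : X} (h0 : μ (ann p 4 8) ≠ 0) (h1 : μ (ann p 4 8) ≠ ⊤) :
    IsProbabilityMeasure (nuW μ p) := by
  refine ⟨?_⟩
  rw [nuW, Measure.smul_apply, Measure.restrict_apply_univ, smul_eq_mul]
  exact ENNReal.inv_mul_cancel h0 h1

lemma nuW_bound (μ : Measure X) (p : X) : ∀ᵐ w ∂(nuW μ p), dist w p ≤ 8 := by
  apply Measure.ae_smul_measure
  rw [ae_restrict_iff' (measurableSet_ann p 4 8)]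
  refine Eventually.of_forall fun w hw => ?_
  rw [dist_comm]; exact hw.2

end small

/-- sums over tails -/
lemma sum_le_tail {f : ℕ → ℝ} (hf : ∀ j, 0 ≤ f j) (hs : Summable f) (J m : ℕ) :
    ∑ k ∈ Finset.range m, f (J + k) ≤ ∑' j, f (J + j) := by
  have h1 : Summable fun j => f (J + j) := by
    have := (summable_nat_add_iff J).2 hs
    simpa [add_comm] using this
  exact h1.sum_le_tsum _ fun i _ => hf _

lemma le_tail {f : ℕ → ℝ} (hf : ∀ j, 0 ≤ f j) (hs : Summable f) {J k : ℕ} (h : J ≤ k) :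
    f k ≤ ∑' j, f (J + j) := by
  obtain ⟨i, rfl⟩ := Nat.exists_eq_add_of_le h
  have h1 : Summable fun j => f (J + j) := by
    have := (summable_nat_add_iff J).2 hs
    simpa [add_comm] using this
  exact h1.le_tsum i fun _ _ => hf _

lemma tail_anti {f : ℕ → ℝ} (hf : ∀ j, 0 ≤ f j) (hs : Summable f) {J K : ℕ} (h : J ≤ K) :
    ∑' j, f (K + j) ≤ ∑' j, f (J + j) := by
  obtain ⟨i, rfl⟩ := Nat.exists_eq_add_of_le h
  have h1 : Summable fun j => f (J + j) := by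
    have := (summable_nat_add_iff J).2 hs
    simpa [add_comm] using this
  have h2 := h1.sum_add_tsum_nat_add i
  have h3 : 0 ≤ ∑ j ∈ Finset.range i, f (J + j) := Finset.sum_nonneg fun _ _ => hf _
  have h4 : ∑' j, f (J + i + j) = ∑' j, f (J + (j + i)) := by
    congr 1; funext j; congr 1; ring
  rw [h4]; linarith

lemma tendsto_dy : Tendsto dy atTop (𝓝 0) :=
  tendsto_pow_atTop_nhds_zero_of_lt_one (by norm_num) (by norm_num)

lemma dy_add (a b : ℕ) : dy (a + b) = dy a * dy b := pow_add _ _ _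

lemma dy_eq_div (J k : ℕ) : dy J / 2 ^ k = dy (J + k) := by
  rw [dy_add, div_eq_mul_inv]
  congr 1
  unfold dy
  rw [one_div, inv_pow]

end Crest.Agent.R247.Q9550
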