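import Crest.Agent.R247.Ms5_322

/-!
R247, block (0) (helper322), part 6: the measurable orthonormal frame `fr z j` of `M` and the gradient
in this frame, `Gr f z = (df (fr z j))_j : EuclideanSpace ℝ (Fin n)`.
-/

set_option autoImplicit false
set_option maxSynthPendingDepth 3
set_option linter.unusedSectionVars false
set_option linter.unusedVariables false

open Bundle Bornology Set MeasureTheory Manifold Filter Metric
open scoped ENNReal ContDiff Topology NNReal
open Crest.GeometryTopology.CoordMetric Crest.GeometryTopology.ChartCurvature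
open Crest.GeometryTopology.Geodesic
open Crest.Agent.R226.ChartMet842

namespace Crest.Agent.R247.Ms322

noncomputable section

variable {n : ℕ} {M : Type*} [MetricSpace M] [ChartedSpace (EuclideanSpace ℝ (Fin n)) M]
  [IsManifold (𝓡 n) ∞ M]
  [RiemannianBundle (fun p : M => TangentSpace (𝓡 n) p)]
  [IsContMDiffRiemannianBundle (𝓡 n) ∞ (EuclideanSpace ℝ (Fin n)) (fun p : M => TangentSpace (𝓡 n) p)]

local notation "𝔼" => EuclideanSpace ℝ (Fin n)

/-- the derivative of a real function, typed as a covector. -/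
def df (f : M → ℝ) (z : M) : TangentSpace (𝓡 n) z →L[ℝ] ℝ := mfderiv (𝓡 n) 𝓘(ℝ) f z

theorem df_eq_fderiv (x : M) {z : M} (hz : z ∈ (chartAt 𝔼 x).source) (f : M → ℝ)
    (v : TangentSpace (𝓡 n) z) :
    df f z v =
      fderiv ℝ (fun b => f ((chartAt 𝔼 x).symm b)) (chartAt 𝔼 x z) (dC x z v) :=
  mfderiv_eq_fderiv x hz f v

section Sel

variable [SecondCountableTopology M] [Nonempty M]

theorem exists_centres : ∃ c : ℕ → M, ∀ z : M, ∃ k, z ∈ (chartAt 𝔼 (c k)).source := by
  obtain ⟨s, hs, hsu⟩ := TopologicalSpace.countable_cover_nhds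
    (f := fun x : M => (chartAt 𝔼 x).source) (fun x => chart_source_mem_nhds 𝔼 x)
  have hne : s.Nonempty := by
    by_contra h
    rw [not_nonempty_iff_eq_empty] at h
    rw [h] at hsu
    simp at hsu
    exact (Set.univ_nonempty (α := M)).ne_empty hsu.symm
  obtain ⟨c, hc⟩ := hs.exists_eq_range hne
  refine ⟨c, fun z => ?_⟩
  have : z ∈ ⋃ x ∈ s, (chartAt 𝔼 x).source := by rw [hsu]; trivial
  rw [hc] at this
  simpa using this

variable (n M) in
/-- a countable family of chart centres -/
def cen : ℕ → M := Classical.choose (exists_centres (n := n) (M := M))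

theorem cen_spec (z : M) : ∃ k, z ∈ (chartAt 𝔼 (cen n M k)).source :=
  Classical.choose_spec (exists_centres (n := n) (M := M)) z

open Classical in
variable (n) in
/-- index of the first chart containing `z` -/
def idx (z : M) : ℕ := Nat.find (cen_spec (n := n) z)

variable (n) in
/-- centre of the selected chart at `z` -/
def sel (z : M) : M := cen n M (idx n z)

open Classical in
theorem mem_sel (z : M) : z ∈ (chartAt 𝔼 (sel n z)).source :=
  Nat.find_spec (cen_spec (n := n) z)

variable (n) in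
/-- coordinates of `z` in the selected chart -/
def crd (z : M) : 𝔼 := chartAt 𝔼 (sel n z) z

theorem crd_mem (z : M) : crd n z ∈ (chartAt 𝔼 (sel n z)).target :=
  (chartAt 𝔼 (sel n z)).map_source (mem_sel z)

theorem symm_crd (z : M) : (chartAt 𝔼 (sel n z)).symm (crd n z) = z :=
  (chartAt 𝔼 (sel n z)).left_inv (mem_sel z)

/-- The measurable orthonormal frame. -/
def fr (z : M) (j : Fin n) : TangentSpace (𝓡 n) z :=
  (dS (sel n z) (crd n z) (colv (sel n z) (crd n z) j) : 𝔼)

theorem inner_fr (z : M) (j k : Fin n) :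
    inner ℝ (fr z j : TangentSpace (𝓡 n) z) (fr z k) = if j = k then 1 else 0 := by
  rw [← gm_colv (sel n z) (crd_mem z) j k, gm_apply]
  exact (inner_congr (n := n) (symm_crd z) _ _).symm

theorem dC_fr (z : M) (j : Fin n) :
    dC (sel n z) z (fr z j) = colv (sel n z) (crd n z) j := by
  have h := dC_dS (sel n z) (crd_mem z) (colv (sel n z) (crd n z) j)
  have e := symm_crd (n := n) z
  have key : ∀ (w : M) (hw : w = z), dC (sel n z) w
      (dS (sel n z) (crd n z) (colv (sel n z) (crd n z) j) : 𝔼) =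
      dC (sel n z) z (dS (sel n z) (crd n z) (colv (sel n z) (crd n z) j) : 𝔼) := by
    intro w hw; subst hw; rfl
  rw [← h]
  exact (key _ e).symm

/-- The gradient of `f` in the frame: the `j`-th component is `df (fr z j)` (`0` where `f` is not
differentiable). -/
def Gr (f : M → ℝ) (z : M) : 𝔼 :=
  WithLp.toLp 2 (fun j => df f z (fr z j))

theorem Gr_apply (f : M → ℝ) (z : M) (j : Fin n) :
    Gr (n := n) f z j = df f z (fr z j) := rfl

/-- in the selected chart -/
theorem Gr_apply_chart (f : M → ℝ) (z : M) (j : Fin n) :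
    Gr (n := n) f z j = fderiv ℝ (fun b => f ((chartAt 𝔼 (sel n z)).symm b)) (crd n z)
      (colv (sel n z) (crd n z) j) := by
  rw [Gr_apply, df_eq_fderiv (sel n z) (mem_sel z), dC_fr]
  rfl

/-- the frame is an orthonormal basis -/
def frB (z : M) : OrthonormalBasis (Fin n) ℝ (TangentSpace (𝓡 n) z) :=
  haveI : FiniteDimensional ℝ (TangentSpace (𝓡 n) z) :=
    inferInstanceAs (FiniteDimensional ℝ 𝔼)
  OrthonormalBasis.mk (v := fun j => fr z j)
    (by
      rw [orthonormal_iff_ite]
      intro i j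
      exact inner_fr z i j)
    (by
      have hon : Orthonormal ℝ (fun j => (fr z j : TangentSpace (𝓡 n) z)) := by
        rw [orthonormal_iff_ite]
        intro i j
        exact inner_fr z i j
      have hfr : Module.finrank ℝ (TangentSpace (𝓡 n) z) = n := finrank_euclideanSpace_fin
      have := hon.linearIndependent.span_eq_top_of_card_eq_finrank'
        (by rw [Fintype.card_fin]; exact hfr.symm)
      rw [this])

theorem frB_apply (z : M) (j : Fin n) : frB z j = fr z j := by
  simp [frB]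

/-- Parseval for linear functionals. -/
theorem norm_Gr_sq (f : M → ℝ) (z : M) :
    ‖Gr (n := n) f z‖ ^ 2 = ∑ j : Fin n, (df (n := n) f z (fr z j)) ^ 2 := by
  rw [EuclideanSpace.norm_sq_eq]
  refine Finset.sum_congr rfl fun j _ => ?_
  rw [Gr_apply, Real.norm_eq_abs, sq_abs]

theorem inner_Gr (f g : M → ℝ) (z : M) :
    inner ℝ (Gr (n := n) f z) (Gr (n := n) g z) =
      ∑ j : Fin n, df (n := n) f z (fr z j) * df (n := n) g z (fr z j) := by
  rw [PiLp.inner_apply]
  refine Finset.sum_congr rfl fun j _ => ?_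
  rw [Gr_apply, Gr_apply]
  simp [mul_comm]

theorem df_expand (f : M → ℝ) (z : M) (v : TangentSpace (𝓡 n) z) :
    df f z v = ∑ j, inner ℝ (fr z j : TangentSpace (𝓡 n) z) v * df f z (fr z j) := by
  have h := (frB z).sum_repr v
  conv_lhs => rw [← h]
  rw [map_sum]
  refine Finset.sum_congr rfl fun j _ => ?_
  rw [map_smul, smul_eq_mul, OrthonormalBasis.repr_apply_apply, frB_apply]

/-- `df z v = ⟪Gr f z, v in the frame⟫`, hence `|df z v| ≤ ‖Gr f z‖ ‖v‖`. -/
theorem abs_df_le (f : M → ℝ) (z : M) (v : TangentSpace (𝓡 n) z) :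
    |df f z v| ≤ ‖Gr (n := n) f z‖ * ‖v‖ := by
  set w : 𝔼 := WithLp.toLp 2 (fun j => inner ℝ (fr z j : TangentSpace (𝓡 n) z) v) with hw
  have h1 : df f z v = inner ℝ (Gr (n := n) f z) w := by
    rw [df_expand, PiLp.inner_apply]
    refine Finset.sum_congr rfl fun j _ => ?_
    rw [Gr_apply, hw]
    simp [mul_comm]
  have h2 : ‖w‖ = ‖v‖ := by
    have h3 : ‖w‖ ^ 2 = ‖v‖ ^ 2 := by
      rw [EuclideanSpace.norm_sq_eq, ← (frB z).sum_sq_norm_inner_right v]
      refine Finset.sum_congr rfl fun j _ => ?_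
      rw [frB_apply, hw]
    nlinarith [norm_nonneg w, norm_nonneg v, sq_nonneg (‖w‖ - ‖v‖), sq_nonneg (‖w‖ + ‖v‖)]
  rw [h1, ← h2]
  exact abs_real_inner_le_norm _ _

/-- if `|df z v| ≤ K ‖v‖` for all `v` then `‖Gr f z‖ ≤ K`. -/
theorem norm_Gr_le {f : M → ℝ} {z : M} {K : ℝ} (hK : 0 ≤ K)
    (h : ∀ v : TangentSpace (𝓡 n) z, |df f z v| ≤ K * ‖v‖) : ‖Gr (n := n) f z‖ ≤ K := by
  set v : TangentSpace (𝓡 n) z := ∑ j, df f z (fr z j) • (fr z j : TangentSpace (𝓡 n) z) with hv
  have h1 : df f z v = ‖Gr (n := n) f z‖ ^ 2 := by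
    rw [norm_Gr_sq, hv, map_sum]
    refine Finset.sum_congr rfl fun j _ => ?_
    rw [map_smul, smul_eq_mul, sq]
  have h2 : ‖v‖ ^ 2 = ‖Gr (n := n) f z‖ ^ 2 := by
    rw [norm_Gr_sq, ← real_inner_self_eq_norm_sq, hv, sum_inner]
    refine Finset.sum_congr rfl fun j _ => ?_
    rw [inner_sum, Finset.sum_eq_single j]
    · rw [inner_smul_left, inner_smul_right, inner_fr, if_pos rfl]
      simp [sq]
    · intro k _ hk
      rw [inner_smul_left, inner_smul_right, inner_fr, if_neg (Ne.symm hk)]
      simp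
    · intro hj; exact absurd (Finset.mem_univ j) hj
  have h3 : ‖v‖ = ‖Gr (n := n) f z‖ := by
    nlinarith [norm_nonneg v, norm_nonneg (Gr (n := n) f z), sq_nonneg (‖v‖ - ‖Gr (n := n) f z‖),
      sq_nonneg (‖v‖ + ‖Gr (n := n) f z‖)]
  have h4 := (abs_le.1 (h v)).2
  rw [h1, h3] at h4
  by_contra hlt
  rw [not_le] at hlt
  have : 0 < ‖Gr (n := n) f z‖ := lt_of_le_of_lt hK hlt
  nlinarith

end Sel

end

end Crest.Agent.R247.Ms322
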