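import Crest.Agent.R247.Sm3_879
import Crest.Agent.R247.Ms2_322
import Crest.Agent.R247.Bo1_84
import Crest.Agent.R247.HR_216

/-!
R247 (helper879), block (6b), file 4: the gradient of the cost, eikonal equation (on `M` and in
charts), non-branching in the form `NonBr`.
-/

set_option autoImplicit false
set_option maxSynthPendingDepth 3
set_option linter.unusedSectionVars false

open Bundle Set Filter Topology
open scoped Manifold ContDiff
open Crest.GeometryTopology.CoordMetric Crest.GeometryTopology.ChartCurvature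
open Crest.GeometryTopology.MTW Crest.Agent.R244 Crest.Agent.R226
open Crest.Agent.R226.ChartCost77
open Crest.Agent.R226.NearLem90 (dL halfDistSq_comm)
open Crest.Agent.R226.NearDiagThm996
open Crest.Agent.R226.ChartMet842
open Crest.Agent.R226.CutSmooth77 (SC three_point)
open Crest.Agent.R202.Tens Crest.Agent.R247.Ms322 Crest.Agent.R247.Bo84

namespace Crest.Agent.R247.Sm879

theorem ExM.of_exactMid {M : Type*} [MetricSpace M] (h : HR216.ExactMid M) : ExM M :=
  fun a b t ht => h a b t ht.1 ht.2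

section
variable {n : ℕ} {M : Type*} [MetricSpace M] [ChartedSpace (EuclideanSpace ℝ (Fin n)) M]
  [IsManifold (𝓡 n) ∞ M]
  [RiemannianBundle (fun p : M => TangentSpace (𝓡 n) p)]

/-- **first variation** -/
theorem LN_grad {x₀ : M} (L : LocalNear n M x₀) {y : M} (hy : y ∈ L.W) {x c : M} (h : SC n y x)
    (hc : dist x c + dist c y = dist x y) {v : TangentSpace (𝓡 n) y} (hv : ‖v‖ = dist y c)
    (hvr : ‖v‖ < L.r) (hve : L.e y v = c) (hα : 0 < dist y c) (ξ : TangentSpace (𝓡 n) y) :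
    dL n (fun q => halfDistSq q x) y ξ = -(dist x y / dist y c) * inner ℝ v ξ := by
  set D := dist x y with hD
  set α := dist y c with hαd
  set u := dist x c with hu
  have hu0 : 0 ≤ u := dist_nonneg
  have hcy : dist c y = α := by rw [hαd, dist_comm]
  have hDu : D = u + α := by rw [← hc, hcy]
  have h1 := hasFDerivAt_chart (n := n) (mdiff_left (LN_sc L hy (by rw [← hαd, ← hv]; exact hvr)))
  have h2 := hasFDerivAt_chart (n := n) (mdiff_left h)
  have h3 := (h1.const_mul (D / α)).sub h2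
  have hmin : IsLocalMin (fun p : EE n => D / α * halfDistSq ((extChartAt (𝓡 n) y).symm p) c -
      halfDistSq ((extChartAt (𝓡 n) y).symm p) x) (o y) := by
    refine Filter.Eventually.of_forall fun p => ?_
    dsimp only
    rw [symm_o]
    set q := (extChartAt (𝓡 n) y).symm p
    unfold halfDistSq
    have t1 : dist q x ≤ dist q c + u := by
      have := dist_triangle q c x
      rwa [dist_comm c x] at this
    have e1 : D / α * (dist y c ^ 2 / 2) - dist y x ^ 2 / 2 = -(u * D / 2) := by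
      rw [← hαd, dist_comm y x, ← hD, hDu]; field_simp; ring
    rw [e1]
    have e2 : D / α * (dist q c ^ 2 / 2) + u * D / 2 - (dist q c + u) ^ 2 / 2 =
        u * (α - dist q c) ^ 2 / (2 * α) := by
      rw [hDu]; field_simp; ring
    have e3 : 0 ≤ u * (α - dist q c) ^ 2 / (2 * α) := by positivity
    have e4 : dist q x ^ 2 ≤ (dist q c + u) ^ 2 := by
      have := dist_nonneg (x := q) (y := x)
      gcongr
    linarith
  have h4 := hmin.hasFDerivAt_eq_zero h3
  have h5 := congrArg (fun L : EE n →L[ℝ] ℝ => L (ξ : EE n)) h4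
  have h6 : D / α * dL n (fun x' => halfDistSq x' c) y ξ -
      dL n (fun x' => halfDistSq x' x) y ξ = 0 := h5
  have h7 := L.grad y hy v hvr ξ
  rw [hve] at h7
  rw [h7] at h6
  linarith

/-- derivative at the diagonal -/
theorem dL_diag {x : M} (h : SC n x x) (ξ : TangentSpace (𝓡 n) x) :
    dL n (fun q => halfDistSq q x) x ξ = 0 := by
  have h2 := hasFDerivAt_chart (n := n) (mdiff_left h)
  have hmin : IsLocalMin (fun p : EE n => halfDistSq ((extChartAt (𝓡 n) x).symm p) x) (o x) := by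
    refine Filter.Eventually.of_forall fun p => ?_
    dsimp only
    rw [symm_o]
    unfold halfDistSq
    rw [dist_self]
    have := sq_nonneg (dist ((extChartAt (𝓡 n) x).symm p) x)
    linarith
  have h4 := hmin.hasFDerivAt_eq_zero h2
  exact congrArg (fun L : EE n →L[ℝ] ℝ => L (ξ : EE n)) h4

end

section
variable {n : ℕ} {M : Type*} [MetricSpace M] [ChartedSpace (EuclideanSpace ℝ (Fin n)) M]
  [IsManifold (𝓡 n) ∞ M]
  [RiemannianBundle (fun p : M => TangentSpace (𝓡 n) p)]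
  [IsContMDiffRiemannianBundle (𝓡 n) ∞ (EuclideanSpace ℝ (Fin n)) (fun p : M => TangentSpace (𝓡 n) p)]

local notation "𝔼" => EuclideanSpace ℝ (Fin n)

/-- chain rule with the inverse chart -/
theorem hasFDerivAt_comp_symm {f : M → ℝ} (x₀ : M) {a : 𝔼} (ha : a ∈ (chartAt 𝔼 x₀).target)
    (hf : MDifferentiableAt (𝓡 n) 𝓘(ℝ) f ((chartAt 𝔼 x₀).symm a)) :
    HasFDerivAt (fun b => f ((chartAt 𝔼 x₀).symm b))
      ((dL n f ((chartAt 𝔼 x₀).symm a)).comp (dS x₀ a)) a := by
  have h2 : HasMFDerivAt 𝓘(ℝ, 𝔼) (𝓡 n) (chartAt 𝔼 x₀).symm a (dS x₀ a) :=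
    ((mdifferentiable_chart' x₀).symm.mdifferentiableAt ha).hasMFDerivAt
  have h3 := (hf.hasMFDerivAt).comp a h2
  exact h3.hasFDerivAt

/-- the metric in the chart in matrix form -/
theorem bil_chartMetric (x₀ : M) (a u v : 𝔼) : bil (chartMetric n M x₀ a) u v = gm x₀ a u v := by
  rw [bil_apply]
  have hu : u = ∑ i, u i • EuclideanSpace.single i (1 : ℝ) := by
    ext j
    simp [Finset.sum_apply, Pi.single_apply]
  have hv : v = ∑ i, v i • EuclideanSpace.single i (1 : ℝ) := by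
    ext j
    simp [Finset.sum_apply, Pi.single_apply]
  have key : ∀ B : 𝔼 →L[ℝ] 𝔼 →L[ℝ] ℝ, B u v =
      ∑ i, ∑ j, B (EuclideanSpace.single i (1 : ℝ)) (EuclideanSpace.single j (1 : ℝ)) *
        u i * v j := by
    intro B
    calc B u v = B u (∑ j, v j • EuclideanSpace.single j (1 : ℝ)) := by rw [← hv]
      _ = ∑ j, v j * B u (EuclideanSpace.single j (1 : ℝ)) := by
          rw [map_sum]
          exact Finset.sum_congr rfl fun j _ => by rw [map_smul, smul_eq_mul]
      _ = ∑ j, v j * ∑ i, u i * B (EuclideanSpace.single i (1 : ℝ))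
            (EuclideanSpace.single j (1 : ℝ)) := by
          refine Finset.sum_congr rfl fun j _ => ?_
          congr 1
          calc B u (EuclideanSpace.single j (1 : ℝ)) =
              B.flip (EuclideanSpace.single j (1 : ℝ)) u := rfl
            _ = B.flip (EuclideanSpace.single j (1 : ℝ))
                (∑ i, u i • EuclideanSpace.single i (1 : ℝ)) := by rw [← hu]
            _ = _ := by
                rw [map_sum]
                exact Finset.sum_congr rfl fun i _ => by rw [map_smul, smul_eq_mul]; rfl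
      _ = _ := by
          conv_rhs => rw [Finset.sum_comm]
          refine Finset.sum_congr rfl fun j _ => ?_
          rw [Finset.mul_sum]
          exact Finset.sum_congr rfl fun i _ => by ring
  rw [key]
  refine Finset.sum_congr rfl fun i _ => Finset.sum_congr rfl fun j _ => ?_
  rw [chartMetric_apply]

/-- **gradient of the cost**: the differential of `q ↦ d(z,q)²/2` at a point of smoothness is
represented by a vector of norm `d(z,y)`. -/
theorem exists_gradv [IsRiemannianManifold (𝓡 n) M] (hm : ExM M) {z y : M} (h : SC n z y) :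
    ∃ W : TangentSpace (𝓡 n) y, ‖W‖ = dist z y ∧
      ∀ ξ : TangentSpace (𝓡 n) y, dL n (fun q => halfDistSq z q) y ξ = inner ℝ W ξ := by
  have hs : SC n y z := sc_symm h
  have hfun : (fun q => halfDistSq z q) = fun q => halfDistSq q z := by
    funext q; exact halfDistSq_comm _ _
  rw [hfun]
  rcases eq_or_ne z y with rfl | hne
  · refine ⟨0, by simp, fun ξ => ?_⟩
    rw [dL_diag hs, inner_zero_left]
  obtain ⟨L⟩ := nonempty_localNear (n := n) y
  have hy := L.mem_W
  have hr := L.r_pos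
  have hD : 0 < dist z y := dist_pos.2 hne
  obtain ⟨c, hc1, hc2⟩ := hm.pt y z (t := min (dist y z) (L.r / 2)) (by positivity)
    (min_le_left _ _)
  have hα : 0 < dist y c := by
    rw [hc1]
    have : 0 < dist y z := by rw [dist_comm]; exact hD
    positivity
  have hcr : dist y c < L.r := by
    rw [hc1]; exact (min_le_right _ _).trans_lt (by linarith)
  have hbt : dist z c + dist c y = dist z y := by
    rw [dist_comm z c, hc2, dist_comm c y, hc1, dist_comm z y]; ring
  obtain ⟨v, hv, hve⟩ := L.surj y hy c hcr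
  refine ⟨-(dist z y / dist y c) • v, ?_, fun ξ => ?_⟩
  · rw [norm_smul, hv, norm_neg, Real.norm_of_nonneg (by positivity)]
    field_simp
  · rw [LN_grad L hy hs hbt hv (by rw [hv]; exact hcr) hve hα ξ, real_inner_smul_left]

/-- the cost from `z` read in the chart at `x₀` -/
noncomputable def fz (z x₀ : M) (b : 𝔼) : ℝ := halfDistSq z ((chartAt 𝔼 x₀).symm b)

/-- **gradient of the cost in a chart** -/
theorem exists_grad_chart [IsRiemannianManifold (𝓡 n) M] (hm : ExM M) {z x₀ : M} {a : 𝔼}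
    (ha : a ∈ (chartAt 𝔼 x₀).target) (h : SC n z ((chartAt 𝔼 x₀).symm a)) :
    ∃ w : 𝔼, (∀ ξ, fderiv ℝ (fz z x₀) a ξ = gm x₀ a w ξ) ∧
      gm x₀ a w w = dist z ((chartAt 𝔼 x₀).symm a) ^ 2 := by
  obtain ⟨W, hW1, hW2⟩ := exists_gradv hm h
  have hd : MDifferentiableAt (𝓡 n) 𝓘(ℝ) (fun q => halfDistSq z q) ((chartAt 𝔼 x₀).symm a) := by
    have hfun : (fun q => halfDistSq z q) = fun q => halfDistSq q z := by
      funext q; exact halfDistSq_comm _ _
    rw [hfun]
    exact mdiff_left (sc_symm h)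
  have h1 := hasFDerivAt_comp_symm x₀ ha hd
  have h2 : fderiv ℝ (fz z x₀) a = (dL n (fun q => halfDistSq z q) ((chartAt 𝔼 x₀).symm a)).comp
      (dS x₀ a) := h1.fderiv
  have hw : dS x₀ a ((dSe x₀ ha).symm W) = W := by
    rw [← dSe_apply x₀ ha]
    exact (dSe x₀ ha).apply_symm_apply W
  refine ⟨(dSe x₀ ha).symm W, fun ξ => ?_, ?_⟩
  · rw [h2, gm_apply, hw]
    exact hW2 _
  · rw [gm_apply, hw, real_inner_self_eq_norm_sq, hW1]

/-- **eikonal equation** in 84's form -/
theorem gam_fz [IsRiemannianManifold (𝓡 n) M] (hm : ExM M) {z x₀ : M} {a : 𝔼}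
    (ha : a ∈ (chartAt 𝔼 x₀).target) (h : SC n z ((chartAt 𝔼 x₀).symm a)) :
    gam (chartMetric n M x₀) (fz z x₀) (fz z x₀) a = 2 * fz z x₀ a := by
  obtain ⟨w, hw1, hw2⟩ := exists_grad_chart hm ha h
  have hg := isRiemannianOn_chartMetric (n := n) (M := M) x₀
  have hgr : grad (chartMetric n M x₀) (fz z x₀) a = w := by
    apply bil_injective hg ha
    intro Z
    rw [bil_grad hg ha, hw1, bil_chartMetric]
  rw [gam_eq_bil hg ha, hgr, bil_chartMetric, hw2]
  unfold fz halfDistSq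
  ring

theorem contDiffAt_fz {z x₀ : M} {a : 𝔼} (ha : a ∈ (chartAt 𝔼 x₀).target)
    (h : SC n z ((chartAt 𝔼 x₀).symm a)) : ContDiffAt ℝ ∞ (fz z x₀) a := by
  rw [← contMDiffAt_iff_contDiffAt]
  have h1 : ContMDiffAt 𝓘(ℝ, 𝔼) (𝓡 n) ∞ (chartAt 𝔼 x₀).symm a :=
    contMDiffOn_chart_symm.contMDiffAt ((chartAt 𝔼 x₀).open_target.mem_nhds ha)
  have h2 : ContMDiffAt 𝓘(ℝ, 𝔼) ((𝓡 n).prod (𝓡 n)) ∞
      (fun b : 𝔼 => (z, (chartAt 𝔼 x₀).symm b)) a := contMDiffAt_const.prodMk h1
  have h3 : ContMDiffAt ((𝓡 n).prod (𝓡 n)) 𝓘(ℝ) ∞ (fun q : M × M => halfDistSq q.1 q.2)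
      ((fun b : 𝔼 => (z, (chartAt 𝔼 x₀).symm b)) a) := h
  exact ContMDiffAt.comp a (f := fun b : 𝔼 => (z, (chartAt 𝔼 x₀).symm b)) h3 h2

/-- joint smoothness read in charts -/
theorem contDiffAt_pair {x₀ y₀ : M} {a b : 𝔼} (ha : a ∈ (chartAt 𝔼 x₀).target)
    (hb : b ∈ (chartAt 𝔼 y₀).target)
    (h : SC n ((chartAt 𝔼 x₀).symm a) ((chartAt 𝔼 y₀).symm b)) :
    ContDiffAt ℝ ∞ (fun p : 𝔼 × 𝔼 => halfDistSq ((chartAt 𝔼 x₀).symm p.1)
      ((chartAt 𝔼 y₀).symm p.2)) (a, b) := by
  rw [← contMDiffAt_iff_contDiffAt]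
  have h1 : ContMDiffAt 𝓘(ℝ, 𝔼 × 𝔼) (𝓡 n) ∞
      (fun p : 𝔼 × 𝔼 => (chartAt 𝔼 x₀).symm p.1) (a, b) :=
    ContMDiffAt.comp (a, b) (g := (chartAt 𝔼 x₀).symm) (f := Prod.fst)
      (contMDiffOn_chart_symm.contMDiffAt ((chartAt 𝔼 x₀).open_target.mem_nhds ha))
      contDiff_fst.contMDiff.contMDiffAt
  have h2 : ContMDiffAt 𝓘(ℝ, 𝔼 × 𝔼) (𝓡 n) ∞
      (fun p : 𝔼 × 𝔼 => (chartAt 𝔼 y₀).symm p.2) (a, b) :=
    ContMDiffAt.comp (a, b) (g := (chartAt 𝔼 y₀).symm) (f := Prod.snd)
      (contMDiffOn_chart_symm.contMDiffAt ((chartAt 𝔼 y₀).open_target.mem_nhds hb))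
      contDiff_snd.contMDiff.contMDiffAt
  have h3 : ContMDiffAt ((𝓡 n).prod (𝓡 n)) 𝓘(ℝ) ∞ (fun q : M × M => halfDistSq q.1 q.2)
      ((fun p : 𝔼 × 𝔼 => ((chartAt 𝔼 x₀).symm p.1, (chartAt 𝔼 y₀).symm p.2)) (a, b)) := h
  exact ContMDiffAt.comp (a, b)
    (f := fun p : 𝔼 × 𝔼 => ((chartAt 𝔼 x₀).symm p.1, (chartAt 𝔼 y₀).symm p.2)) h3 (h1.prodMk h2)

variable (n) in
include n in
/-- non-branching in the form `Mcs816.NonBr` -/
theorem nonBr [IsRiemannianManifold (𝓡 n) M] [ProperSpace M] (hm : ExM M) (x : M) :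
    ∀ y y' z : M, z ≠ x → z ≠ y → dist x z + dist z y = dist x y →
      dist x z + dist z y' = dist x y' → dist x y = dist x y' → y = y' := by
  intro y y' z hzx _ h1 h2 h3
  refine nonbranching n hm (y := z) (y' := x) hzx ?_ ?_ ?_
  · rw [dist_comm y z, dist_comm z x, dist_comm y x]; linarith
  · rw [dist_comm y' z, dist_comm z x, dist_comm y' x]; linarith
  · rw [dist_comm y z, dist_comm y' z]; linarith

end

end Crest.Agent.R247.Sm879
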