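import Crest.Agent.R247.Iso1_311
import Crest.Agent.R247.Ms6_322
import Crest.Agent.R247.Sm4_879

/-!
R247, block (2a) (helper311), part 2: the asymptotically Euclidean chart of a Riemannian manifold;
a.e. extendability of rays from the radial contraction; absolute Bishop and isotropy on `M`.
-/

set_option autoImplicit false
set_option maxSynthPendingDepth 3
set_option linter.unusedSectionVars false
set_option linter.unusedVariables false

open Bundle Bornology Set MeasureTheory Manifold Filter Metric Topology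
open scoped ENNReal ContDiff Topology NNReal
open Crest.GeometryTopology.CoordMetric Crest.GeometryTopology.ChartCurvature
open Crest.GeometryTopology.Geodesic Crest.GeometryTopology.MTW
open Crest.Agent.R226.ChartMet842
open Crest.Agent.R226.CutSmooth77 (SC)
open Crest.Agent.R247.Ms322 Crest.Agent.R247.Sm879 Crest.Agent.R247.Mcp688

noncomputable section
namespace Crest.Agent.R247.Iso311

section ext

variable {n : ℕ} {κ : ℝ} {X : Type*} [MetricSpace X] [MeasurableSpace X] [BorelSpace X]
  {μ : Measure X}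

/-- the points `w` such that some minimiser from `z` to `w` extends beyond `w` -/
def Ext (z : X) : Set X := {w | ∃ w', w' ≠ w ∧ dist z w + dist w w' = dist z w'}

/-- **a.e. point is interior to a ray** -/
theorem ae_ext [ProperSpace X] [IsFiniteMeasureOnCompacts μ] (C : Rad n κ X μ) (z : X) :
    ∀ᵐ w ∂μ, w ≠ z → w ∈ Ext z := by
  have key : ∀ R : ℝ, 0 < R → wm μ κ z (ball z R \ (Ext z ∪ {z})) = 0 := by
    intro R hR
    set B := ball z R with hB
    set E : ℝ → Set X := fun t => {w | ∃ w' ∈ closedBall z R, dist z w = t * dist z w' ∧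
      dist w w' = (1 - t) * dist z w'} with hE
    have hEc : ∀ t, IsClosed (E t) := by
      intro t
      have hK : IsCompact ((closedBall z R ×ˢ closedBall z R) ∩ {p : X × X |
          dist z p.1 = t * dist z p.2 ∧ dist p.1 p.2 = (1 - t) * dist z p.2}) := by
        refine ((isCompact_closedBall z R).prod (isCompact_closedBall z R)).inter_right ?_
        exact (isClosed_eq (by fun_prop) (by fun_prop)).inter
          (isClosed_eq (by fun_prop) (by fun_prop))
      have hK' : IsClosed ({p : X × X | dist z p.1 = t * dist z p.2 ∧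
          dist p.1 p.2 = (1 - t) * dist z p.2}) :=
        (isClosed_eq (by fun_prop) (by fun_prop)).inter
          (isClosed_eq (by fun_prop) (by fun_prop))
      have e : E t = {w | ∃ w' ∈ closedBall z R, (w, w') ∈ {p : X × X |
          dist z p.1 = t * dist z p.2 ∧ dist p.1 p.2 = (1 - t) * dist z p.2}} := rfl
      rw [e]
      have := (isCompact_closedBall z R)
      have h2 : IsClosed (Prod.fst '' (univ ×ˢ closedBall z R ∩ {p : X × X |
          dist z p.1 = t * dist z p.2 ∧ dist p.1 p.2 = (1 - t) * dist z p.2})) := by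
        -- sequential closedness
        refine isClosed_of_closure_subset fun w hw => ?_
        rw [mem_closure_iff_seq_limit] at hw
        obtain ⟨u, hu, hul⟩ := hw
        choose p hp hpu using hu
        obtain ⟨q, hq, φ, hφ, hφl⟩ := this.tendsto_subseq (x := fun k => (p k).2)
          (fun k => (hp k).1.2)
        refine ⟨(w, q), ⟨⟨mem_univ _, hq⟩, ?_⟩, rfl⟩
        have h3 : Tendsto (fun k => p (φ k)) atTop (𝓝 (w, q)) := by
          have e1 : (fun k => p (φ k)) = fun k => (u (φ k), (p (φ k)).2) := by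
            funext k
            exact Prod.ext (hpu (φ k)) rfl
          rw [e1]
          exact (hul.comp hφ.tendsto_atTop).prodMk_nhds hφl
        exact hK'.mem_of_tendsto h3 (Filter.Eventually.of_forall fun k => (hp (φ k)).2)
      convert h2 using 1
      ext w
      simp only [mem_ofPred_eq, mem_image, mem_inter_iff, mem_prod, mem_univ, true_and,
        Prod.exists, exists_and_right, exists_eq_right]
    have hfin : wm μ κ z B ≠ ⊤ := by
      have h1 : wm μ κ z B ≤ ENNReal.ofReal (Real.exp (|κ| * R ^ 2 / 2)) * μ B := by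
        rw [wm_apply μ z isOpen_ball.measurableSet, ← setLIntegral_const]
        refine setLIntegral_mono measurable_const fun y hy => ?_
        apply ENNReal.ofReal_le_ofReal
        unfold wt
        apply Real.exp_le_exp.2
        have h2 : dist z y ^ 2 ≤ R ^ 2 := by
          have h3 : dist z y < R := by rw [dist_comm]; exact hy
          have := dist_nonneg (x := z) (y := y)
          gcongr
        have h4 : -κ * dist z y ^ 2 ≤ |κ| * R ^ 2 := by
          have h5 : -κ ≤ |κ| := neg_le_abs κ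
          have h6 : 0 ≤ |κ| := abs_nonneg κ
          nlinarith [sq_nonneg (dist z y)]
        linarith
      refine ne_top_of_le_ne_top ?_ h1
      exact ENNReal.mul_ne_top ENNReal.ofReal_ne_top
        ((measure_mono ball_subset_closedBall).trans_lt
          (isCompact_closedBall z R).measure_lt_top).ne
    have hbd : ∀ t : ℝ, t ∈ Ioo (0 : ℝ) 1 → wm μ κ z (B \ (Ext z ∪ {z})) ≤
        ENNReal.ofReal (1 - t ^ n) * wm μ κ z B := by
      intro t ht
      have h1 : wm μ κ z B ≤ ENNReal.ofReal ((t⁻¹) ^ n) * wm μ κ z (E t ∩ B) := by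
        refine C.measure_le_of_mapsTo z ⟨ht.1, ht.2.le⟩
          ((hEc t).measurableSet.inter isOpen_ball.measurableSet) fun y hy hU => ?_
        have hy' : dist z y < R := by rw [dist_comm]; exact hy
        have htI : t ∈ Icc (0 : ℝ) 1 := ⟨ht.1.le, ht.2.le⟩
        refine ⟨⟨y, by rw [mem_closedBall, dist_comm]; exact hy'.le, C.dist_left hU htI,
          C.dist_right hU htI⟩, ?_⟩
        rw [hB, mem_ball, dist_comm, C.dist_left hU htI]
        have := dist_nonneg (x := z) (y := y)
        have h0 := ht.2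
        nlinarith
      have h2 : ENNReal.ofReal (t ^ n) * wm μ κ z B ≤ wm μ κ z (E t ∩ B) :=
        Rad.ofReal_pow_mul n t ht.1 _ _ h1
      have h3 : B \ (Ext z ∪ {z}) ⊆ B \ (E t ∩ B) := by
        rintro y ⟨hy, hy2⟩
        refine ⟨hy, fun hy3 => hy2 ?_⟩
        obtain ⟨⟨w', hw', h4, h5⟩, -⟩ := hy3
        by_cases hyz : y = z
        · right; exact hyz
        left
        have h6 : 0 < dist z y := dist_pos.2 (Ne.symm hyz)
        have h7 : 0 < dist z w' := by
          by_contra h8
          have h9 : dist z w' = 0 := le_antisymm (not_lt.1 h8) dist_nonneg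
          rw [h9, mul_zero] at h4
          linarith
        refine ⟨w', ?_, ?_⟩
        · intro h
          rw [h, dist_self] at h5
          have h10 : 0 < 1 - t := by linarith [ht.2]
          rw [h] at h7
          nlinarith
        · rw [h4, h5]; ring
      calc wm μ κ z (B \ (Ext z ∪ {z})) ≤ wm μ κ z (B \ (E t ∩ B)) := measure_mono h3
        _ = wm μ κ z B - wm μ κ z (E t ∩ B) := by
            rw [measure_sdiff inter_subset_right
              ((hEc t).measurableSet.inter isOpen_ball.measurableSet).nullMeasurableSet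
              (ne_top_of_le_ne_top hfin (measure_mono inter_subset_right))]
        _ ≤ wm μ κ z B - ENNReal.ofReal (t ^ n) * wm μ κ z B := tsub_le_tsub_left h2 _
        _ = ENNReal.ofReal (1 - t ^ n) * wm μ κ z B := by
            have ht0 := ht.1
            rw [ENNReal.ofReal_sub _ (by positivity), ENNReal.ofReal_one, ENNReal.sub_mul,
              one_mul]
            intro _ _
            exact hfin
    have hlim : Tendsto (fun t : ℝ => ENNReal.ofReal (1 - t ^ n) * wm μ κ z B) (𝓝[<] 1) (𝓝 0) := by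
      have h1 : Tendsto (fun t : ℝ => ENNReal.ofReal (1 - t ^ n)) (𝓝[<] 1)
          (𝓝 (ENNReal.ofReal (1 - 1 ^ n))) := by
        apply ENNReal.tendsto_ofReal
        have hc : Continuous fun t : ℝ => 1 - t ^ n := by fun_prop
        exact (hc.tendsto 1).mono_left nhdsWithin_le_nhds
      have h2 := ENNReal.Tendsto.mul_const h1 (Or.inr hfin)
      simpa using h2
    refine le_antisymm (ge_of_tendsto hlim ?_) bot_le
    filter_upwards [Ioo_mem_nhdsLT (show (0 : ℝ) < 1 by norm_num)] with t ht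
    exact hbd t ht
  rw [ae_iff]
  have hsub : {w | ¬(w ≠ z → w ∈ Ext z)} ⊆ ⋃ k : ℕ, ball z ((k : ℝ) + 1) \ (Ext z ∪ {z}) := by
    intro w hw
    simp only [mem_ofPred_eq, Classical.not_imp] at hw
    obtain ⟨k, hk⟩ := exists_nat_gt (dist w z)
    refine mem_iUnion.2 ⟨k, ?_, ?_⟩
    · rw [mem_ball]; linarith
    · rintro (h | h)
      · exact hw.2 h
      · exact hw.1 h
  refine measure_mono_null hsub (measure_iUnion_null fun k => ?_)
  rw [← wm_eq_zero_iff μ z κ]
  exact key _ (by positivity)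

end ext

variable {n : ℕ} {M : Type*} [MetricSpace M] [ChartedSpace (EuclideanSpace ℝ (Fin n)) M]
  [IsManifold (𝓡 n) ∞ M]
  [RiemannianBundle (fun p : M => TangentSpace (𝓡 n) p)]
  [IsContMDiffRiemannianBundle (𝓡 n) ∞ (EuclideanSpace ℝ (Fin n)) (fun p : M => TangentSpace (𝓡 n) p)]
  [IsRiemannianManifold (𝓡 n) M] [MeasurableSpace M] [BorelSpace M]

local notation "𝔼" => EuclideanSpace ℝ (Fin n)

open Classical in
/-- the asymptotically Euclidean chart at `z = (chartAt x).symm a`. -/
def acφ (x : M) (a : 𝔼) (A : 𝔼 ≃L[ℝ] 𝔼) : M → 𝔼 :=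
  (chartAt 𝔼 x).source.piecewise (fun y => A (chartAt 𝔼 x y - a)) (fun _ => 0)

theorem acφ_apply (x : M) (a : 𝔼) (A : 𝔼 ≃L[ℝ] 𝔼) {y : M} (hy : y ∈ (chartAt 𝔼 x).source) :
    acφ x a A y = A (chartAt 𝔼 x y - a) := by
  classical
  unfold acφ
  simp [hy]

theorem measurable_acφ (x : M) (a : 𝔼) (A : 𝔼 ≃L[ℝ] 𝔼) : Measurable (acφ x a A) := by
  classical
  unfold acφ
  refine ContinuousOn.measurable_piecewise ?_ continuousOn_const
    (chartAt 𝔼 x).open_source.measurableSet
  exact A.continuous.comp_continuousOn ((chartAt 𝔼 x).continuousOn.sub continuousOn_const)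

theorem exists_ac (x : M) {a : 𝔼} (ha : a ∈ (chartAt 𝔼 x).target) {A : 𝔼 ≃L[ℝ] 𝔼}
    (hA : ∀ u v, inner ℝ (A u) (A v) = gm x a u v) :
    ∃ Φ : AC n (μHE[n] : Measure M) ((chartAt 𝔼 x).symm a),
      Φ.ψ = fun v => (chartAt 𝔼 x).symm (a + A.symm v) := by
  set z := (chartAt 𝔼 x).symm a with hz
  have hzs : z ∈ (chartAt 𝔼 x).source := (chartAt 𝔼 x).map_target ha
  have hcz : chartAt 𝔼 x z = a := (chartAt 𝔼 x).right_inv ha
  have hsrc : (chartAt 𝔼 x).source ∈ 𝓝 z := (chartAt 𝔼 x).open_source.mem_nhds hzs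
  -- the basic near isometry
  have hbil : ∀ η : ℝ, 0 < η → ∃ r : ℝ, 0 < r ∧ ball a r ⊆ (chartAt 𝔼 x).target ∧
      (∀ y, chartAt 𝔼 x y ∈ ball a r → y ∈ (chartAt 𝔼 x).source →
        dist z y ≤ (1 + η) * ‖A (chartAt 𝔼 x y - a)‖ ∧
        ‖A (chartAt 𝔼 x y - a)‖ ≤ (1 + η) * dist z y) ∧
      (∀ B ⊆ ball a r, μHE[n] ((chartAt 𝔼 x).symm '' B) ≤
        ENNReal.ofReal ((1 + η) ^ n) * volume (A '' B)) := by
    intro η hη
    obtain ⟨r, hr, hb, h1, h2⟩ := exists_bilip x ha hA (η := ⟨η, hη.le⟩) hη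
    refine ⟨r, hr, hb, fun y hy hys => ?_, fun B hB => ?_⟩
    · have hy1 : (chartAt 𝔼 x).symm (chartAt 𝔼 x y) = y := (chartAt 𝔼 x).left_inv hys
      have m1 : A (chartAt 𝔼 x y) ∈ A '' ball a r := ⟨_, hy, rfl⟩
      have m2 : A a ∈ A '' ball a r := ⟨_, mem_ball_self hr, rfl⟩
      have m3 : y ∈ (chartAt 𝔼 x).symm '' ball a r := ⟨_, hy, hy1⟩
      have m4 : z ∈ (chartAt 𝔼 x).symm '' ball a r := ⟨_, mem_ball_self hr, rfl⟩
      have e1 := h1.dist_le_mul _ m2 _ m1
      have e2 := h2.dist_le_mul _ m3 _ m4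
      simp only [A.symm_apply_apply, hy1, ← hz] at e1
      simp only [hcz] at e2
      rw [dist_eq_norm, ← map_sub, ← norm_neg, ← map_neg, neg_sub] at e1
      rw [dist_eq_norm, ← map_sub, dist_comm y z] at e2
      exact ⟨e1, e2⟩
    · have e1 := muHE_image_le (n := n) (h1.mono (image_mono hB))
      rw [image_image, EuclideanSpace.euclideanHausdorffMeasure_eq_volume] at e1
      simp only [A.symm_apply_apply] at e1
      refine e1.trans (le_of_eq ?_)
      congr 1
      rw [ENNReal.ofReal_pow (by positivity)]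
      congr 1
      rw [ENNReal.ofReal_add (by norm_num) hη.le, ENNReal.ofReal_one,
        ENNReal.ofReal_eq_coe_nnreal hη.le]
      rfl
  have hcont : ContinuousAt (chartAt 𝔼 x) z := (chartAt 𝔼 x).continuousAt hzs
  have hball : ∀ r : ℝ, 0 < r → ∀ᶠ y in 𝓝 z, chartAt 𝔼 x y ∈ ball a r := by
    intro r hr
    have := hcont.tendsto
    rw [hcz] at this
    exact this.eventually (ball_mem_nhds a hr)
  have hAc : Tendsto (fun v : 𝔼 => a + A.symm v) (𝓝 0) (𝓝 a) := by
    have hc : Continuous fun v : 𝔼 => a + A.symm v := continuous_const.add A.symm.continuous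
    simpa using hc.tendsto 0
  refine ⟨{ φ := acφ x a A
            ψ := fun v => (chartAt 𝔼 x).symm (a + A.symm v)
            meas := ?_, ψ_zero := ?_, ψφ := ?_, near := ?_, near' := ?_, vol := ?_ }, rfl⟩
  · exact measurable_acφ x a A
  · simp [hz]
  · filter_upwards [hsrc] with y hy
    rw [acφ_apply x a A hy, A.symm_apply_apply, add_sub_cancel, (chartAt 𝔼 x).left_inv hy]
  · intro η hη
    obtain ⟨r, hr, hb, h1, -⟩ := hbil η hη
    filter_upwards [hsrc, hball r hr] with y hy hyb
    obtain ⟨h2, h3⟩ := h1 y hyb hy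
    rw [acφ_apply x a A hy, abs_le]
    have h4 := norm_nonneg (A (chartAt 𝔼 x y - a))
    have h5 := dist_nonneg (x := z) (y := y)
    constructor
    · -- `d ≤ (1+η) |φ|` implies `d - |φ| ≤ η d`
      rcases le_or_gt (dist z y) ‖A (chartAt 𝔼 x y - a)‖ with h | h
      · nlinarith
      · nlinarith
    · linarith
  · intro η hη
    obtain ⟨r, hr, hb, h1, -⟩ := hbil η hη
    filter_upwards [hAc.eventually (ball_mem_nhds a hr)] with v hv
    have ht := hb hv
    have h2 := h1 ((chartAt 𝔼 x).symm (a + A.symm v))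
      (by rw [(chartAt 𝔼 x).right_inv ht]; exact hv) ((chartAt 𝔼 x).map_target ht)
    rw [(chartAt 𝔼 x).right_inv ht, add_sub_cancel_left, A.apply_symm_apply] at h2
    exact h2.1
  · intro η hη
    -- choose `η'` with `(1+η')^n ≤ 1+η`
    obtain ⟨η', hη'0, hη'⟩ : ∃ η' : ℝ, 0 < η' ∧ (1 + η') ^ n ≤ 1 + η := by
      have hc : Continuous fun t : ℝ => (1 + t) ^ n := by fun_prop
      have h1 : ∀ᶠ t : ℝ in 𝓝 0, (1 + t) ^ n < 1 + η := by
        have := hc.tendsto 0
        simp only [add_zero, one_pow] at this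
        exact this.eventually (gt_mem_nhds (by linarith))
      obtain ⟨ε, hε, h2⟩ := Metric.eventually_nhds_iff.1 h1
      refine ⟨ε / 2, by positivity, (h2 ?_).le⟩
      rw [Real.dist_eq, sub_zero, abs_of_pos (by positivity)]
      linarith
    obtain ⟨r, hr, hb, -, h1⟩ := hbil η' hη'0
    obtain ⟨ρ, hρ, h2⟩ := Metric.mem_nhds_iff.1 (inter_mem hsrc (hball r hr))
    refine ⟨ρ, hρ, Measure.le_iff.2 fun B hB => ?_⟩
    have hmeas := measurable_acφ x a A
    rw [Measure.map_apply hmeas hB, Measure.restrict_apply (hmeas hB), Measure.smul_apply,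
      smul_eq_mul]
    set B' : Set 𝔼 := {b | b ∈ ball a r ∧ A (b - a) ∈ B} with hB'
    have hsub : acφ x a A ⁻¹' B ∩ ball z ρ ⊆ (chartAt 𝔼 x).symm '' B' := by
      rintro y ⟨hy1, hy2⟩
      have h3 := h2 hy2
      rw [mem_preimage, acφ_apply x a A h3.1] at hy1
      exact ⟨chartAt 𝔼 x y, ⟨h3.2, hy1⟩, (chartAt 𝔼 x).left_inv h3.1⟩
    have hsub2 : A '' B' ⊆ (fun v => v + A a) '' B := by
      rintro _ ⟨b, ⟨-, hb2⟩, rfl⟩
      exact ⟨A (b - a), hb2, by simp⟩
    calc μHE[n] (acφ x a A ⁻¹' B ∩ ball z ρ) ≤ μHE[n] ((chartAt 𝔼 x).symm '' B') :=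
          measure_mono hsub
      _ ≤ ENNReal.ofReal ((1 + η') ^ n) * volume (A '' B') := h1 B' fun b hb => hb.1
      _ ≤ ENNReal.ofReal (1 + η) * volume ((fun v => v + A a) '' B) := by
          gcongr
      _ = ENNReal.ofReal (1 + η) * volume B := by
          rw [image_add_right, measure_preimage_add_right]

/-- points are null in positive dimension -/
theorem muHE_singleton (hn : n ≠ 0) (z : M) : (μHE[n] : Measure M) {z} = 0 := by
  have hz := mem_chart_source 𝔼 z
  have ha : chartAt 𝔼 z z ∈ (chartAt 𝔼 z).target := (chartAt 𝔼 z).map_source hz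
  have h1 := muHE_symm_image (n := n) z (B := {chartAt 𝔼 z z}) (singleton_subset_iff.2 ha)
    (measurableSet_singleton _)
  rw [image_singleton, (chartAt 𝔼 z).left_inv hz] at h1
  rw [h1]
  have : Nontrivial 𝔼 := by
    have : Nonempty (Fin n) := ⟨⟨0, Nat.pos_of_ne_zero hn⟩⟩
    infer_instance
  rw [Measure.restrict_eq_zero.2 (measure_singleton _), lintegral_zero_measure]

variable [ProperSpace M]

/-- `d_w` read in a chart is differentiable at a point of smoothness of the cost -/
theorem differentiableAt_dist_chart {w x : M} {a : 𝔼} (ha : a ∈ (chartAt 𝔼 x).target)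
    (h : SC n w ((chartAt 𝔼 x).symm a)) (hw : w ≠ (chartAt 𝔼 x).symm a) :
    DifferentiableAt ℝ (fun b => dist w ((chartAt 𝔼 x).symm b)) a := by
  have h1 : DifferentiableAt ℝ (fz w x) a := (contDiffAt_fz ha h).differentiableAt (by simp)
  have h2 : (fun b => dist w ((chartAt 𝔼 x).symm b)) = fun b => √(2 * fz w x b) := by
    funext b
    unfold fz halfDistSq
    rw [mul_div_cancel₀ _ (by norm_num : (2 : ℝ) ≠ 0), Real.sqrt_sq dist_nonneg]
  rw [h2]
  refine (h1.const_mul 2).sqrt ?_
  unfold fz halfDistSq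
  have := dist_pos.2 hw
  positivity

theorem ae_sc {κ : ℝ} (C : Rad n κ M (μHE[n] : Measure M)) (hm : ExM M)
    [IsFiniteMeasureOnCompacts (μHE[n] : Measure M)] (z : M) :
    ∀ᵐ w ∂(μHE[n] : Measure M), w ≠ z → SC n w z ∧ SC n z w := by
  filter_upwards [ae_ext C z] with w hw hwz
  obtain ⟨w', h1, h2⟩ := hw hwz
  have h3 : SC n z w := sc_of_btw hm h2 h1.symm
  exact ⟨sc_symm h3, h3⟩

/-- **absolute Bishop inequality** on `M`. -/
theorem bishop {κ : ℝ} (C : Rad n κ M (μHE[n] : Measure M)) (hκ : 0 ≤ κ) (z : M) (s : ℝ) :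
    μHE[n] (ball z s) ≤
      ENNReal.ofReal (Real.exp (κ * s ^ 2 / 2) * s ^ n) * volume (ball (0 : 𝔼) 1) := by
  have ha : chartAt 𝔼 z z ∈ (chartAt 𝔼 z).target := (chartAt 𝔼 z).map_source (mem_chart_source 𝔼 z)
  obtain ⟨A, hA, -⟩ := exists_isometry z ha
  obtain ⟨Φ, -⟩ := exists_ac z ha hA
  have h1 := Φ.bishop C hκ s
  rwa [(chartAt 𝔼 z).left_inv (mem_chart_source 𝔼 z)] at h1

/-- everything at one point: for a.e. `w` the function `d_w` is differentiable at
`z = (chartAt x).symm a` and its gradient is a unit vector. -/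
theorem ae_unit {κ : ℝ} (C : Rad n κ M (μHE[n] : Measure M)) (hm : ExM M)
    [IsFiniteMeasureOnCompacts (μHE[n] : Measure M)] (x : M) {a : 𝔼}
    (ha : a ∈ (chartAt 𝔼 x).target) :
    ∀ᵐ w ∂(μHE[n] : Measure M), w ≠ (chartAt 𝔼 x).symm a →
      DifferentiableAt ℝ (fun b => dist w ((chartAt 𝔼 x).symm b)) a ∧
      ∃ u : 𝔼, (∀ ξ, fderiv ℝ (fun b => dist w ((chartAt 𝔼 x).symm b)) a ξ = gm x a u ξ) ∧
        gm x a u u = 1 := by
  filter_upwards [ae_sc C hm ((chartAt 𝔼 x).symm a)] with w hw hwz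
  have h1 := (hw hwz).1
  have h2 := differentiableAt_dist_chart ha h1 hwz
  refine ⟨h2, ?_⟩
  obtain ⟨u, hu1, hu2⟩ := exists_grad_chart hm ha h1
  set D := dist w ((chartAt 𝔼 x).symm a) with hD
  have hD0 : 0 < D := dist_pos.2 hwz
  refine ⟨D⁻¹ • u, fun ξ => ?_, ?_⟩
  · have h3 : HasFDerivAt (fz w x) (D • fderiv ℝ (fun b => dist w ((chartAt 𝔼 x).symm b)) a) a := by
      have h4 := (h2.hasFDerivAt.pow 2).const_mul (1 / 2)
      have e : (fun b => 1 / 2 * dist w ((chartAt 𝔼 x).symm b) ^ 2) = fz w x := by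
        funext b
        unfold fz halfDistSq
        ring
      rw [e] at h4
      refine h4.congr_fderiv ?_
      ext ξ
      simp [← hD]
      ring
    have h5 := hu1 ξ
    rw [h3.fderiv] at h5
    have h6 : gm x a (D⁻¹ • u) ξ = D⁻¹ * gm x a u ξ := by simp
    rw [h6, ← h5]
    simp only [FunLike.coe_smul, Pi.smul_apply, smul_eq_mul]
    field_simp
  · have h6 : gm x a (D⁻¹ • u) (D⁻¹ • u) = D⁻¹ * (D⁻¹ * gm x a u u) := by simp
    rw [h6, hu2]
    field_simp

/-- **ISOTROPY** on `M`, in a chart. -/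
theorem isotropy {κ : ℝ} (C : Rad n κ M (μHE[n] : Measure M)) (hκ : 0 ≤ κ) (hm : ExM M)
    [IsFiniteMeasureOnCompacts (μHE[n] : Measure M)] (x : M) {a : 𝔼}
    (ha : a ∈ (chartAt 𝔼 x).target) {α β : ℝ} (hα : 0 ≤ α) (hαβ : α ≤ β) {W : Set M}
    (hW : ∀ w ∈ W, dist ((chartAt 𝔼 x).symm a) w ∈ Ioo α β) (v : 𝔼) :
    (n : ℝ≥0∞) * ∫⁻ w in W, ENNReal.ofReal
        ((fderiv ℝ (fun b => dist w ((chartAt 𝔼 x).symm b)) a v) ^ 2) ∂(μHE[n] : Measure M) ≤
      ENNReal.ofReal (Real.exp (κ * β ^ 2 / 2) * (β ^ n - α ^ n) * gm x a v v) *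
        volume (ball (0 : 𝔼) 1) := by
  rcases Nat.eq_zero_or_pos n with hn | hn
  · subst hn; simp
  obtain ⟨A, hA, -⟩ := exists_isometry x ha
  obtain ⟨Φ, hΦ⟩ := exists_ac x ha hA
  have hne : ∀ᵐ w ∂(μHE[n] : Measure M), w ≠ (chartAt 𝔼 x).symm a := by
    rw [ae_iff]; simpa using muHE_singleton (n := n) hn.ne' ((chartAt 𝔼 x).symm a)
  have hcomp : ∀ w, DifferentiableAt ℝ (fun b => dist w ((chartAt 𝔼 x).symm b)) a →
      HasFDerivAt (fun v => dist w (Φ.ψ v))
        ((fderiv ℝ (fun b => dist w ((chartAt 𝔼 x).symm b)) a).comp (A.symm : 𝔼 →L[ℝ] 𝔼)) 0 := by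
    intro w hw
    rw [hΦ]
    have h1 : HasFDerivAt (fun v : 𝔼 => a + A.symm v) (A.symm : 𝔼 →L[ℝ] 𝔼) 0 :=
      (A.symm : 𝔼 →L[ℝ] 𝔼).hasFDerivAt.const_add a
    have h2 : HasFDerivAt (fun b => dist w ((chartAt 𝔼 x).symm b))
        (fderiv ℝ (fun b => dist w ((chartAt 𝔼 x).symm b)) a) ((fun v : 𝔼 => a + A.symm v) 0) := by
      simpa using hw.hasFDerivAt
    exact h2.comp (0 : 𝔼) h1
  have hd : ∀ᵐ w ∂(μHE[n] : Measure M), DifferentiableAt ℝ
      (fun b => dist w ((chartAt 𝔼 x).symm b)) a := by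
    filter_upwards [ae_unit C hm x ha, hne] with w h1 h2
    exact (h1 h2).1
  have hd' : ∀ᵐ w ∂(μHE[n] : Measure M), DifferentiableAt ℝ (fun v => dist w (Φ.ψ v)) 0 := by
    filter_upwards [hd] with w h1
    exact (hcomp w h1).differentiableAt
  have h1 := Φ.isotropy C hκ hα hαβ hW hd' (A v)
  have h2 : ‖A v‖ ^ 2 = gm x a v v := by rw [← hA, real_inner_self_eq_norm_sq]
  rw [h2] at h1
  refine le_trans (le_of_eq ?_) h1
  congr 1
  refine lintegral_congr_ae ?_
  refine ae_restrict_of_ae ?_
  filter_upwards [hd] with w h3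
  have h4 : Φ.L w = (fderiv ℝ (fun b => dist w ((chartAt 𝔼 x).symm b)) a).comp
      (A.symm : 𝔼 →L[ℝ] 𝔼) := (hcomp w h3).fderiv
  rw [h4]
  simp

/-! ### the frame gradient of `d_w` -/

section frame

variable [SecondCountableTopology M] [Nonempty M]

/-- **ISOTROPY** in the frame. -/
theorem isotropy_Gr {κ : ℝ} (C : Rad n κ M (μHE[n] : Measure M)) (hκ : 0 ≤ κ) (hm : ExM M)
    [IsFiniteMeasureOnCompacts (μHE[n] : Measure M)] (u : M) {α β : ℝ} (hα : 0 ≤ α) (hαβ : α ≤ β)
    {W : Set M} (hW : ∀ w ∈ W, dist u w ∈ Ioo α β) (ξ : 𝔼) :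
    (n : ℝ≥0∞) * ∫⁻ w in W, ENNReal.ofReal
        ((inner ℝ (Gr (n := n) (fun z => dist w z) u) ξ) ^ 2) ∂(μHE[n] : Measure M) ≤
      ENNReal.ofReal (Real.exp (κ * β ^ 2 / 2) * (β ^ n - α ^ n) * ‖ξ‖ ^ 2) *
        volume (ball (0 : 𝔼) 1) := by
  set v : 𝔼 := ∑ j, ξ j • colv (sel n u) (crd n u) j with hv
  have h1 := isotropy C hκ hm (sel n u) (crd_mem (n := n) u) hα hαβ (W := W)
    (by rw [symm_crd]; exact hW) v
  have h2 : gm (sel n u) (crd n u) v v = ‖ξ‖ ^ 2 := by
    have h3 : gm (sel n u) (crd n u) v v = ∑ j, ∑ k, ξ j * (ξ k *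
        gm (sel n u) (crd n u) (colv (sel n u) (crd n u) j) (colv (sel n u) (crd n u) k)) := by
      rw [hv]
      simp only [map_sum, map_smul, sum_apply, smul_apply, smul_eq_mul, Finset.mul_sum]
      rw [Finset.sum_comm]
      refine Finset.sum_congr rfl fun i _ => Finset.sum_congr rfl fun j _ => ?_
      ring
    rw [h3, EuclideanSpace.norm_sq_eq]
    refine Finset.sum_congr rfl fun j _ => ?_
    rw [Finset.sum_eq_single j]
    · rw [gm_colv _ (crd_mem (n := n) u), if_pos rfl, mul_one, Real.norm_eq_abs, sq_abs, sq]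
    · intro k _ hk
      rw [gm_colv _ (crd_mem (n := n) u), if_neg (Ne.symm hk), mul_zero, mul_zero]
    · intro h; exact absurd (Finset.mem_univ _) h
  rw [h2] at h1
  refine le_trans (le_of_eq ?_) h1
  congr 1
  refine lintegral_congr fun w => ?_
  congr 2
  rw [hv, map_sum, PiLp.inner_apply]
  refine Finset.sum_congr rfl fun j _ => ?_
  rw [map_smul, Gr_apply_chart]
  simp [mul_comm]

/-- for a.e. `w` the function `d_w` is differentiable at `u` with unit gradient. -/
theorem ae_norm_Gr {κ : ℝ} (C : Rad n κ M (μHE[n] : Measure M)) (hm : ExM M)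
    [IsFiniteMeasureOnCompacts (μHE[n] : Measure M)] (u : M) :
    ∀ᵐ w ∂(μHE[n] : Measure M), w ≠ u →
      MDifferentiableAt (𝓡 n) 𝓘(ℝ) (fun z => dist w z) u ∧
        ‖Gr (n := n) (fun z => dist w z) u‖ = 1 := by
  filter_upwards [ae_unit C hm (sel n u) (crd_mem (n := n) u)] with w hw hwu
  rw [symm_crd] at hw
  obtain ⟨h1, e, he1, he2⟩ := hw hwu
  refine ⟨?_, ?_⟩
  · rw [mdifferentiableAt_iff_chart (sel n u) (mem_sel (n := n) u)]
    exact h1
  · -- Parseval for the `gm`-orthonormal basis `colv`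
    set E : 𝔼 := Gr (n := n) (fun z => dist w z) u with hE
    have hEj : ∀ j, E j = gm (sel n u) (crd n u) e (colv (sel n u) (crd n u) j) := by
      intro j
      rw [hE, Gr_apply_chart, he1]
    set e' : 𝔼 := ∑ j, E j • colv (sel n u) (crd n u) j with he'
    -- `e' = e` because they have the same products with the orthonormal basis
    have hnd : ∀ y : 𝔼, (∀ j, gm (sel n u) (crd n u) y (colv (sel n u) (crd n u) j) = 0) → y = 0 := by
      intro y hy
      have hli : LinearIndependent ℝ (fun j => colv (sel n u) (crd n u) j) := by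
        rw [Fintype.linearIndependent_iff]
        intro c hc k
        have h3 : gm (sel n u) (crd n u) (∑ j, c j • colv (sel n u) (crd n u) j)
            (colv (sel n u) (crd n u) k) = c k := by
          simp only [map_sum, map_smul, sum_apply, smul_apply, smul_eq_mul]
          rw [Finset.sum_eq_single k]
          · rw [gm_colv _ (crd_mem (n := n) u), if_pos rfl, mul_one]
          · intro j _ hj
            rw [gm_colv _ (crd_mem (n := n) u), if_neg hj, mul_zero]
          · intro h; exact absurd (Finset.mem_univ _) h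
        rw [hc] at h3
        simpa using h3.symm
      have hspan : Submodule.span ℝ (range fun j => colv (sel n u) (crd n u) j) = ⊤ :=
        hli.span_eq_top_of_card_eq_finrank' (by
          rw [Fintype.card_fin]; exact finrank_euclideanSpace_fin.symm)
      have h4 : gm (sel n u) (crd n u) y y = 0 := by
        have h5 : y ∈ Submodule.span ℝ (range fun j => colv (sel n u) (crd n u) j) := by
          rw [hspan]; trivial
        obtain ⟨c, hc⟩ := (Submodule.mem_span_range_iff_exists_fun ℝ).1 h5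
        have h6 : gm (sel n u) (crd n u) y (∑ j, c j • colv (sel n u) (crd n u) j) = 0 := by
          simp only [map_sum, map_smul, hy, smul_zero, Finset.sum_const_zero]
        rwa [hc] at h6
      by_contra hne
      exact (gm_self_pos (sel n u) (crd_mem (n := n) u) hne).ne' h4
    have hee : e' = e := by
      have h7 : e' - e = 0 := by
        apply hnd
        intro k
        have h8 : gm (sel n u) (crd n u) e' (colv (sel n u) (crd n u) k) = E k := by
          rw [he']
          simp only [map_sum, map_smul, sum_apply, smul_apply, smul_eq_mul]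
          rw [Finset.sum_eq_single k]
          · rw [gm_colv _ (crd_mem (n := n) u), if_pos rfl, mul_one]
          · intro j _ hj
            rw [gm_colv _ (crd_mem (n := n) u), if_neg hj, mul_zero]
          · intro h; exact absurd (Finset.mem_univ _) h
        rw [map_sub, sub_apply, h8, hEj, sub_self]
      exact sub_eq_zero.1 h7
    have h9 : ‖E‖ ^ 2 = 1 := by
      rw [← he2, ← hee]
      have h3 : gm (sel n u) (crd n u) e' e' = ∑ j, ∑ k, E j * (E k *
          gm (sel n u) (crd n u) (colv (sel n u) (crd n u) j) (colv (sel n u) (crd n u) k)) := by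
        rw [he']
        simp only [map_sum, map_smul, sum_apply, smul_apply, smul_eq_mul, Finset.mul_sum]
        rw [Finset.sum_comm]
        refine Finset.sum_congr rfl fun i _ => Finset.sum_congr rfl fun j _ => ?_
        ring
      rw [h3, EuclideanSpace.norm_sq_eq]
      refine Finset.sum_congr rfl fun j _ => ?_
      rw [Finset.sum_eq_single j]
      · rw [gm_colv _ (crd_mem (n := n) u), if_pos rfl, mul_one, Real.norm_eq_abs, sq_abs, sq]
      · intro k _ hk
        rw [gm_colv _ (crd_mem (n := n) u), if_neg (Ne.symm hk), mul_zero, mul_zero]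
      · intro h; exact absurd (Finset.mem_univ _) h
    have h10 := norm_nonneg E
    nlinarith

end frame

end Crest.Agent.R247.Iso311
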