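import Crest.Agent.R247.Mcp6_688
import Crest.Agent.R247.Sm4_879
import Crest.Agent.R247.Ms3_322
import Crest.Agent.R226.DiffAE_225

/-!
R247 (helper688), block (6e), file 7: Rademacher on a Riemannian manifold for `μHE[n]`, a.e.
uniqueness of minimisers, local finiteness and absence of atoms of `μHE[n]`.
-/

set_option autoImplicit false
set_option maxSynthPendingDepth 3
set_option linter.unusedSectionVars false

open Bundle Set Filter Topology MeasureTheory Metric
open scoped Manifold ContDiff ENNReal NNReal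
open Crest.GeometryTopology.MTW Crest.Agent.R244 Crest.Agent.R226
open Crest.Agent.R226.DiffAE225
open Crest.Agent.R226.ChartCost77
open Crest.Agent.R226.NearLem90 (dL halfDistSq_comm)
open Crest.Agent.R226.NearDiagThm996
open Crest.Agent.R226.CutSmooth77 (SC)
open Crest.Agent.R247.Sm879

namespace Crest.Agent.R247.Mcp688

section
variable {n : ℕ} {M : Type*} [MetricSpace M] [ChartedSpace (EuclideanSpace ℝ (Fin n)) M]
  [IsManifold (𝓡 n) ∞ M]
  [RiemannianBundle (fun p : M => TangentSpace (𝓡 n) p)]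

local notation "𝔼" => EuclideanSpace ℝ (Fin n)

/-- first variation at a point of differentiability -/
theorem LN_grad' {x₀ : M} (L : LocalNear n M x₀) {y : M} (hy : y ∈ L.W) {x c : M}
    (h : MDifferentiableAt (𝓡 n) 𝓘(ℝ) (fun q => halfDistSq q x) y)
    (hc : dist x c + dist c y = dist x y) {v : TangentSpace (𝓡 n) y} (hv : ‖v‖ = dist y c)
    (hvr : ‖v‖ < L.r) (hve : L.e y v = c) (hα : 0 < dist y c) (ξ : TangentSpace (𝓡 n) y) :
    dL n (fun q => halfDistSq q x) y ξ = -(dist x y / dist y c) * inner ℝ v ξ := by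
  set D := dist x y with hD
  set α := dist y c with hαd
  set u := dist x c with hu
  have hu0 : 0 ≤ u := dist_nonneg
  have hcy : dist c y = α := by rw [hαd, dist_comm]
  have hDu : D = u + α := by rw [← hc, hcy]
  have h1 := hasFDerivAt_chart (n := n) (mdiff_left (LN_sc L hy (by rw [← hαd, ← hv]; exact hvr)))
  have h2 := hasFDerivAt_chart (n := n) h
  have h3 := (h1.const_mul (D / α)).sub h2
  have hmin : IsLocalMin (fun p : EE n => D / α * halfDistSq ((extChartAt (𝓡 n) y).symm p) c -
      halfDistSq ((extChartAt (𝓡 n) y).symm p) x) (o y) := by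
    refine Filter.Eventually.of_forall fun p => ?_
    dsimp only
    rw [symm_o]
    set q := (extChartAt (𝓡 n) y).symm p
    unfold halfDistSq
    have t1 : dist q x ≤ dist q c + u := by
      have := dist_triangle q c x
      rwa [dist_comm c x] at this
    have e1 : D / α * (dist y c ^ 2 / 2) - dist y x ^ 2 / 2 = -(u * D / 2) := by
      rw [← hαd, dist_comm y x, ← hD, hDu]; field_simp; ring
    rw [e1]
    have e2 : D / α * (dist q c ^ 2 / 2) + u * D / 2 - (dist q c + u) ^ 2 / 2 =
        u * (α - dist q c) ^ 2 / (2 * α) := by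
      rw [hDu]; field_simp; ring
    have e3 : 0 ≤ u * (α - dist q c) ^ 2 / (2 * α) := by positivity
    have e4 : dist q x ^ 2 ≤ (dist q c + u) ^ 2 := by
      have := dist_nonneg (x := q) (y := x)
      gcongr
    linarith
  have h4 := hmin.hasFDerivAt_eq_zero h3
  have h5 := congrArg (fun L : EE n →L[ℝ] ℝ => L (ξ : EE n)) h4
  have h6 : D / α * dL n (fun x' => halfDistSq x' c) y ξ -
      dL n (fun x' => halfDistSq x' x) y ξ = 0 := h5
  have h7 := L.grad y hy v hvr ξ
  rw [hve] at h7
  rw [h7] at h6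
  linarith

end

section
variable {n : ℕ} {M : Type*} [MetricSpace M] [ChartedSpace (EuclideanSpace ℝ (Fin n)) M]
  [IsManifold (𝓡 n) ∞ M]
  [RiemannianBundle (fun p : M => TangentSpace (𝓡 n) p)]
  [IsContMDiffRiemannianBundle (𝓡 n) ∞ (EuclideanSpace ℝ (Fin n)) (fun p : M => TangentSpace (𝓡 n) p)]
  [IsRiemannianManifold (𝓡 n) M]

local notation "𝔼" => EuclideanSpace ℝ (Fin n)

/-- near the end of differentiability, points on minimisers are determined by their distance -/
theorem uniq_near (L : ∀ z : M, LocalNear n M z) {x z : M}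
    (h : MDifferentiableAt (𝓡 n) 𝓘(ℝ) (fun q => halfDistSq q x) z) {c c' : M}
    (hc : dist x c + dist c z = dist x z) (hc' : dist x c' + dist c' z = dist x z)
    (he : dist c z = dist c' z) (hr : dist c z < (L z).r) (hxz : x ≠ z) : c = c' := by
  have hcz : dist z c = dist c z := dist_comm _ _
  have hcz' : dist z c' = dist c' z := dist_comm _ _
  rcases eq_or_lt_of_le (dist_nonneg (x := c) (y := z)) with h0 | h0
  · have h1 : c = z := dist_eq_zero.1 h0.symm
    have h2 : c' = z := dist_eq_zero.1 (he ▸ h0.symm)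
    rw [h1, h2]
  have hy := (L z).mem_W
  obtain ⟨v, hv, hve⟩ := (L z).surj z hy c (by rw [hcz]; exact hr)
  obtain ⟨v', hv', hve'⟩ := (L z).surj z hy c' (by rw [hcz', ← he]; exact hr)
  have hD : 0 < dist x z := dist_pos.2 hxz
  have hvv : v = v' := by
    refine ext_inner_right ℝ fun ξ => ?_
    have h1 := LN_grad' (L z) hy h hc hv (by rw [hv, hcz]; exact hr) hve (by rw [hcz]; exact h0) ξ
    have h2 := LN_grad' (L z) hy h hc' hv' (by rw [hv', hcz', ← he]; exact hr) hve'
      (by rw [hcz', ← he]; exact h0) ξ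
    rw [h1, hcz, hcz', ← he] at h2
    have h3 : dist x z / dist c z ≠ 0 := by positivity
    have h4 : dist x z / dist c z * (inner ℝ v ξ - inner ℝ v' ξ) = 0 := by
      ring_nf
      ring_nf at h2
      linarith
    have h5 := (mul_eq_zero.1 h4).resolve_left h3
    linarith
  rw [← hve, ← hve', hvv]

/-- **uniqueness of the minimiser to a point of differentiability of the distance** -/
theorem uniq_of_mdiff [ProperSpace M] (hm : ExM M) {x z : M}
    (h : MDifferentiableAt (𝓡 n) 𝓘(ℝ) (fun q => halfDistSq q x) z) : (x, z) ∈ Uniq M := by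
  intro c c' hc hc' he
  simp only at hc hc' he
  rcases eq_or_ne x z with rfl | hxz
  · rw [dist_self] at hc hc'
    have h1 := dist_nonneg (x := x) (y := c)
    have h2 := dist_nonneg (x := c) (y := x)
    have h3 := dist_nonneg (x := x) (y := c')
    have h4 := dist_nonneg (x := c') (y := x)
    have h5 : x = c := dist_eq_zero.1 (by linarith)
    have h6 : x = c' := dist_eq_zero.1 (by linarith)
    rw [← h5, ← h6]
  have L : ∀ z : M, LocalNear n M z := fun z => (nonempty_localNear (n := n) z).some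
  have hr := (L z).r_pos
  have hcc : dist c z = dist c' z := by linarith
  rcases lt_or_ge (dist c z) (L z).r with hlt | hge
  · exact uniq_near L h hc hc' hcc hlt hxz
  · obtain ⟨p, hp1, hp2⟩ := hm.pt z c (t := (L z).r / 2) (by linarith)
      (by rw [dist_comm z c]; linarith)
    obtain ⟨p', hp1', hp2'⟩ := hm.pt z c' (t := (L z).r / 2) (by linarith)
      (by rw [dist_comm z c', ← hcc]; linarith)
    rw [dist_comm z p] at hp1
    rw [dist_comm z p'] at hp1'
    rw [dist_comm p c, dist_comm z c] at hp2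
    rw [dist_comm p' c', dist_comm z c'] at hp2'
    have a1 : dist x p + dist p z = dist x z := by
      apply le_antisymm _ (dist_triangle x p z)
      have := dist_triangle x c p
      linarith
    have a1' : dist x p' + dist p' z = dist x z := by
      apply le_antisymm _ (dist_triangle x p' z)
      have := dist_triangle x c' p'
      linarith
    have hpp : p = p' := uniq_near L h a1 a1' (by rw [hp1, hp1']) (by rw [hp1]; linarith) hxz
    subst hpp
    have hpz : p ≠ z := by
      intro hh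
      rw [hh, dist_self] at hp1
      linarith
    exact mid_unique n hm a1 hpz (c := c) (c' := c') (by linarith) (by linarith) (by linarith)

end

/-! ### Measure -/

section
variable {n : ℕ} {M : Type*} [MetricSpace M] [ChartedSpace (EuclideanSpace ℝ (Fin n)) M]
  [IsManifold (𝓡 n) ∞ M]
  [RiemannianBundle (fun p : M => TangentSpace (𝓡 n) p)]
  [IsContMDiffRiemannianBundle (𝓡 n) ∞ (EuclideanSpace ℝ (Fin n)) (fun p : M => TangentSpace (𝓡 n) p)]
  [IsRiemannianManifold (𝓡 n) M] [MeasurableSpace M] [BorelSpace M]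

local notation "𝔼" => EuclideanSpace ℝ (Fin n)

theorem null_symm_image {C : ℝ≥0} {f : 𝔼 → M} {s : Set 𝔼} (hf : LipschitzOnWith C f s) {Z : Set 𝔼}
    (hZ : Z ⊆ s) (hZ0 : volume Z = 0) : (μHE[n] : Measure M) (f '' Z) = 0 := by
  have h := Ms322.muHE_image_le (n := n) (hf.mono hZ)
  rw [EuclideanSpace.euclideanHausdorffMeasure_eq_volume, hZ0, mul_zero] at h
  exact le_antisymm h bot_le

/-- **Rademacher's theorem** on a Riemannian manifold -/
theorem ae_mdiff [SecondCountableTopology M] {u : M → ℝ} (hu : LocallyLipschitz u) :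
    ∀ᵐ x ∂(μHE[n] : Measure M), MDifferentiableAt (𝓡 n) 𝓘(ℝ) u x := by
  have hch : ∀ x : M, ∃ C : ℝ≥0, ∃ K : ℝ≥0, ∃ r > 0,
      ball (extChartAt (𝓡 n) x x) r ⊆ (extChartAt (𝓡 n) x).target ∧
      LipschitzOnWith C (extChartAt (𝓡 n) x).symm (ball (extChartAt (𝓡 n) x x) r) ∧
      LipschitzOnWith (K * C) (u ∘ (extChartAt (𝓡 n) x).symm)
        (ball (extChartAt (𝓡 n) x x) r) := by
    intro x
    obtain ⟨C, r, hr, hsub, hL⟩ := exists_lipschitzOnWith_symm (n := n) x
    obtain ⟨K, t, ht, hK⟩ := hu x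
    have hcont : Tendsto (extChartAt (𝓡 n) x).symm (𝓝 (extChartAt (𝓡 n) x x)) (𝓝 x) := by
      have := continuousAt_extChartAt_symm (I := 𝓡 n) x
      unfold ContinuousAt at this
      rwa [extChartAt_to_inv] at this
    obtain ⟨r', hr', hr't⟩ := Metric.mem_nhds_iff.1 (hcont ht)
    refine ⟨C, K, min r r', lt_min hr hr', (ball_subset_ball (min_le_left _ _)).trans hsub,
      hL.mono (ball_subset_ball (min_le_left _ _)), ?_⟩
    refine hK.comp (hL.mono (ball_subset_ball (min_le_left _ _))) ?_
    intro a ha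
    exact hr't (ball_subset_ball (min_le_right _ _) ha)
  choose C K r hr hsub hL hL' using hch
  let V : M → Set M := fun x =>
    (extChartAt (𝓡 n) x).source ∩ extChartAt (𝓡 n) x ⁻¹' (ball (extChartAt (𝓡 n) x x) (r x))
  have hV : ∀ x, V x ∈ 𝓝 x := fun x =>
    inter_mem (extChartAt_source_mem_nhds (I := 𝓡 n) x)
      ((continuousAt_extChartAt (I := 𝓡 n) x).preimage_mem_nhds (ball_mem_nhds _ (hr x)))
  obtain ⟨t, htc, ht⟩ := TopologicalSpace.countable_cover_nhds hV
  have key : ∀ x : M, (μHE[n] : Measure M)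
      {y | y ∈ V x ∧ ¬ MDifferentiableAt (𝓡 n) 𝓘(ℝ) u y} = 0 := by
    intro x
    have hrad := (hL' x).ae_differentiableWithinAt_of_mem
      (μ := (volume : Measure (EuclideanSpace ℝ (Fin n))))
    rw [ae_iff] at hrad
    refine measure_mono_null ?_ (null_symm_image (hL x)
      (Z := {z | z ∈ ball (extChartAt (𝓡 n) x x) (r x) ∧
        ¬ (z ∈ ball (extChartAt (𝓡 n) x x) (r x) →
        DifferentiableWithinAt ℝ (u ∘ (extChartAt (𝓡 n) x).symm)
          (ball (extChartAt (𝓡 n) x x) (r x)) z)}) (fun z hz => hz.1)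
      (measure_mono_null (fun z hz => hz.2) hrad))
    rintro y ⟨⟨hy1, hy2⟩, hy3⟩
    refine ⟨extChartAt (𝓡 n) x y, ⟨hy2, fun hd => hy3 ?_⟩, (extChartAt (𝓡 n) x).left_inv hy1⟩
    have hd' := (hd hy2).differentiableAt (isOpen_ball.mem_nhds hy2)
    rw [mdifferentiableAt_iff_of_mem_source (I := 𝓡 n) (I' := 𝓘(ℝ)) (x := x) (y := u y)
      (by simpa using hy1) (by simp)]
    refine ⟨hu.continuous.continuousAt, ?_⟩
    rw [extChartAt_model_space_eq_id]
    exact hd'.differentiableWithinAt
  rw [ae_iff]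
  refine measure_mono_null (t := ⋃ x ∈ t, {y | y ∈ V x ∧ ¬ MDifferentiableAt (𝓡 n) 𝓘(ℝ) u y}) ?_ ?_
  · intro y hy
    have : y ∈ ⋃ x ∈ t, V x := by rw [ht]; trivial
    obtain ⟨x, hx, hyx⟩ := mem_iUnion₂.1 this
    exact mem_iUnion₂.2 ⟨x, hx, hyx, hy⟩
  · exact (measure_biUnion_null_iff htc).2 fun x _ => key x

omit [ChartedSpace (EuclideanSpace ℝ (Fin n)) M] [IsManifold (𝓡 n) ∞ M]
  [RiemannianBundle (fun p : M => TangentSpace (𝓡 n) p)]
  [IsContMDiffRiemannianBundle (𝓡 n) ∞ (EuclideanSpace ℝ (Fin n)) (fun p : M => TangentSpace (𝓡 n) p)]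
  [IsRiemannianManifold (𝓡 n) M] [MeasurableSpace M] [BorelSpace M] in
theorem locallyLipschitz_halfDistSq (x : M) : LocallyLipschitz (fun q : M => halfDistSq q x) := by
  intro p
  refine ⟨(dist p x + 1).toNNReal, ball p 1, ball_mem_nhds p one_pos, ?_⟩
  refine LipschitzOnWith.of_dist_le_mul fun q hq q' hq' => ?_
  rw [Real.coe_toNNReal _ (by positivity), Real.dist_eq]
  unfold halfDistSq
  rw [mem_ball] at hq hq'
  have h1 := dist_triangle q p x
  have h2 := dist_triangle q' p x
  have h3 : |dist q x - dist q' x| ≤ dist q q' := abs_dist_sub_le q q' x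
  have e : dist q x ^ 2 / 2 - dist q' x ^ 2 / 2 =
      ((dist q x + dist q' x) / 2) * (dist q x - dist q' x) := by ring
  rw [e, abs_mul]
  have h5 := dist_nonneg (x := q) (y := x)
  have h6 := dist_nonneg (x := q') (y := x)
  rw [abs_of_nonneg (by positivity : (0 : ℝ) ≤ (dist q x + dist q' x) / 2)]
  gcongr
  linarith

variable (n) in
include n in
/-- **(iv)** almost every point is joined to `x` by a unique minimiser -/
theorem ae_uniq [ProperSpace M] (hm : ExM M) (x : M) :
    ∀ᵐ z ∂(μHE[n] : Measure M), (x, z) ∈ Uniq M := by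
  filter_upwards [ae_mdiff (n := n) (locallyLipschitz_halfDistSq x)] with z hz
  exact uniq_of_mdiff hm hz

variable (n M) in
/-- `μHE[n]` is locally finite -/
theorem isLocallyFinite_muHE : IsLocallyFiniteMeasure (μHE[n] : Measure M) := by
  refine ⟨fun x => ?_⟩
  obtain ⟨C, r, hr, hsub, hL⟩ := exists_lipschitzOnWith_symm (n := n) x
  refine ⟨(extChartAt (𝓡 n) x).source ∩ extChartAt (𝓡 n) x ⁻¹' (ball (extChartAt (𝓡 n) x x) r),
    inter_mem (extChartAt_source_mem_nhds (I := 𝓡 n) x)
      ((continuousAt_extChartAt (I := 𝓡 n) x).preimage_mem_nhds (ball_mem_nhds _ hr)), ?_⟩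
  have h := Ms322.muHE_image_le (n := n) hL
  rw [EuclideanSpace.euclideanHausdorffMeasure_eq_volume] at h
  refine lt_of_le_of_lt (measure_mono ?_) (lt_of_le_of_lt h ?_)
  · rintro y ⟨hy1, hy2⟩
    exact ⟨extChartAt (𝓡 n) x y, hy2, (extChartAt (𝓡 n) x).left_inv hy1⟩
  · exact ENNReal.mul_lt_top (by simp) measure_ball_lt_top

variable (n) in
/-- `μHE[n]` has no atoms, `n ≥ 1` -/
theorem muHE_singleton (hn : 1 ≤ n) (x : M) : (μHE[n] : Measure M) {x} = 0 := by
  obtain ⟨C, r, hr, hsub, hL⟩ := exists_lipschitzOnWith_symm (n := n) x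
  haveI : Nonempty (Fin n) := ⟨⟨0, hn⟩⟩
  haveI : Nontrivial 𝔼 := inferInstance
  have h := null_symm_image hL (Z := {extChartAt (𝓡 n) x x})
    (by intro a ha; rw [mem_singleton_iff.1 ha]; exact mem_ball_self hr) (by simp)
  rwa [image_singleton, extChartAt_to_inv] at h

end

end Crest.Agent.R247.Mcp688
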