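import Crest.Agent.R247.Rdg3_879
import Crest.Agent.R247.Iso2_311
import Crest.Agent.R247.Mcp7_688

/-!
R247 (helper879), leaf (RDG), file 4: block-level forms (instances of S0381, `μ = μHE[n]`, `1 ≤ n`,
any real `κ`)

* `rd_block` : `RD C x φ ⟪Gr (d_x²/2), Gr φ⟫` for `φ` locally Lipschitz
* `grep_block` : `∃ G, GRep C G`
* `dw_block` : 656's form of JC5
-/

set_option autoImplicit false
set_option maxSynthPendingDepth 3
set_option linter.unusedSectionVars false

open Bundle Set Filter Topology MeasureTheory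
open scoped Manifold ContDiff
open Crest.GeometryTopology.MTW Crest.Agent.R226
open Crest.Agent.R226.NearLem90 (dL halfDistSq_comm hasDerivAt_comp_curve)
open Crest.Agent.R226.CutSmooth77 (SC)
open Crest.Agent.R247.Sm879
open Crest.Agent.R247.Mcp688
open Crest.Agent.R247.Ms322
open Crest.Agent.R247.Cal550

noncomputable section
namespace Crest.Agent.R247.Rdg879

section core
variable {n : ℕ} {M : Type*} [MetricSpace M] [ChartedSpace (EuclideanSpace ℝ (Fin n)) M]
  [IsManifold (𝓡 n) ∞ M]
  [RiemannianBundle (fun p : M => TangentSpace (𝓡 n) p)]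
  [IsContMDiffRiemannianBundle (𝓡 n) ∞ (EuclideanSpace ℝ (Fin n)) (fun p : M => TangentSpace (𝓡 n) p)]
  [IsRiemannianManifold (𝓡 n) M] [ProperSpace M] [SecondCountableTopology M] [Nonempty M]
  [MeasurableSpace M] [BorelSpace M] {κ : ℝ}

local notation "𝔼" => EuclideanSpace ℝ (Fin n)

/-- the core form: only `SC n z x` a.e. -/
theorem rd_grad_of {μ : Measure M} (C : Rad n κ M μ) {x : M} (hsc : ∀ᵐ z ∂μ, SC n z x)
    {φ : M → ℝ} (hφ : ∀ᵐ z ∂μ, MDifferentiableAt (𝓡 n) 𝓘(ℝ) φ z) :
    RD C x φ (fun z => inner ℝ (Gr (n := n) (fun u => dist x u ^ 2 / 2) z) (Gr (n := n) φ z)) := by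
  have h : RD C x φ
      (fun z => inner ℝ (Gr (n := n) (fun q => halfDistSq q x) z) (Gr (n := n) φ z)) := by
    filter_upwards [hsc, hφ, C.ae_U x] with z h1 h2 h3
    exact ((seg_of_U C h3).grad_end h1 h2).mono Iio_subset_Iic_self
  rwa [← hds_eq] at h

variable (C : Rad n κ M (Measure.euclideanHausdorffMeasure n : Measure M))
  [IsFiniteMeasureOnCompacts (Measure.euclideanHausdorffMeasure n : Measure M)]

include C in
theorem ae_sc_muHE (hn : 1 ≤ n) (hm : ExM M) (x : M) :
    ∀ᵐ z ∂(Measure.euclideanHausdorffMeasure n : Measure M), SC n z x := by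
  have h1 := Iso311.ae_sc C hm x
  have h2 : ∀ᵐ z ∂(Measure.euclideanHausdorffMeasure n : Measure M), z ≠ x := by
    rw [ae_iff]
    have : {a : M | ¬a ≠ x} = {x} := by ext; simp
    rw [this]
    exact muHE_singleton n hn x
  filter_upwards [h1, h2] with z hz hzx using (hz hzx).1

theorem rd_muHE (hn : 1 ≤ n) (hm : ExM M) (x : M) {φ : M → ℝ}
    (hφ : ∀ᵐ z ∂(Measure.euclideanHausdorffMeasure n : Measure M),
      MDifferentiableAt (𝓡 n) 𝓘(ℝ) φ z) :
    RD C x φ (fun z => inner ℝ (Gr (n := n) (fun u => dist x u ^ 2 / 2) z) (Gr (n := n) φ z)) :=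
  rd_grad_of C (ae_sc_muHE C hn hm x) hφ

include C in
theorem ae_mdiff_muHE (hn : 1 ≤ n) (hm : ExM M) (b : M) :
    ∀ᵐ z ∂(Measure.euclideanHausdorffMeasure n : Measure M),
      MDifferentiableAt (𝓡 n) 𝓘(ℝ) (fun u => dist b u ^ 2 / 2) z := by
  filter_upwards [ae_sc_muHE C hn hm b] with z hz
  rw [hds_eq b]
  exact mdiff_left hz

theorem rd_symm_muHE (hn : 1 ≤ n) (hm : ExM M) (a b : M) : ∃ D : M → ℝ,
    RD C a (fun u => dist b u ^ 2 / 2) D ∧ RD C b (fun u => dist a u ^ 2 / 2) D := by
  refine ⟨_, rd_muHE C hn hm a (ae_mdiff_muHE C hn hm b), ?_⟩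
  have := rd_muHE C hn hm b (ae_mdiff_muHE C hn hm a)
  simpa only [real_inner_comm] using this

theorem exists_GRep_muHE (hn : 1 ≤ n) (hm : ExM M) : ∃ G, GRep C G :=
  exists_GRep C (rd_symm_muHE C hn hm)

end core

section block
universe u
variable {n : ℕ} {M : Type u} [MetricSpace M] [CompleteSpace M] [ConnectedSpace M]
    [ChartedSpace (EuclideanSpace ℝ (Fin n)) M]
    [IsManifold 𝓘(ℝ, EuclideanSpace ℝ (Fin n)) ∞ M]
    [RiemannianBundle (fun x : M => TangentSpace 𝓘(ℝ, EuclideanSpace ℝ (Fin n)) x)]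
    [IsContMDiffRiemannianBundle 𝓘(ℝ, EuclideanSpace ℝ (Fin n)) ∞ (EuclideanSpace ℝ (Fin n))
      (fun x : M => TangentSpace 𝓘(ℝ, EuclideanSpace ℝ (Fin n)) x)]
    [IsRiemannianManifold 𝓘(ℝ, EuclideanSpace ℝ (Fin n)) M]

variable (n M) in
include n in
theorem exM_block : ExM M :=
  have := HR216.properSpace_of_riemannian n M
  ExM.of_exactMid (HR216.approxMid_of_riemannian n M).exactMid

variable [MeasurableSpace M] [BorelSpace M] {κ : ℝ}

/-- **(RDG), block form** -/
theorem rd_block [SecondCountableTopology M] [Nonempty M] (hn : 1 ≤ n)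
    (C : Rad n κ M (Measure.euclideanHausdorffMeasure n : Measure M))
    (x : M) {φ : M → ℝ} (hφ : LocallyLipschitz φ) :
    RD C x φ (fun z => inner ℝ (Gr (n := n) (fun u => dist x u ^ 2 / 2) z)
      (Gr (n := n) φ z)) := by
  have := HR216.properSpace_of_riemannian n M
  have := isLocallyFinite_muHE n M
  exact rd_muHE C hn (exM_block n M) x (ae_mdifferentiableAt hφ)

/-- **(JC5), block form** -/
theorem grep_block (hn : 1 ≤ n)
    (C : Rad n κ M (Measure.euclideanHausdorffMeasure n : Measure M)) : ∃ G, GRep C G := by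
  have := HR216.properSpace_of_riemannian n M
  have := isLocallyFinite_muHE n M
  have := HR216.secondCountable_of_riemannian n M
  exact exists_GRep_muHE C hn (exM_block n M)

/-- symmetry of the radial derivatives, block form -/
theorem rd_symm_block (hn : 1 ≤ n)
    (C : Rad n κ M (Measure.euclideanHausdorffMeasure n : Measure M)) (a b : M) :
    ∃ D : M → ℝ, RD C a (fun u => dist b u ^ 2 / 2) D ∧
      RD C b (fun u => dist a u ^ 2 / 2) D := by
  have := HR216.properSpace_of_riemannian n M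
  have := isLocallyFinite_muHE n M
  have := HR216.secondCountable_of_riemannian n M
  exact rd_symm_muHE C hn (exM_block n M) a b

/-- 656's consumer form, block form -/
theorem dw_block (hn : 1 ≤ n)
    (C : Rad n κ M (Measure.euclideanHausdorffMeasure n : Measure M)) (x : M) :
    ∃ Dw : M → M → ℝ, Measurable (Function.uncurry Dw) ∧
      ∀ w, RD C x (fun z => dist z w) (fun z => Dw z w) := by
  have := HR216.secondCountable_of_riemannian n M
  obtain ⟨G, hG⟩ := grep_block hn C
  exact ⟨fun z w => Ed G x z w, hG.meas_Ed x, fun w => hG.rd_dist (muHE_singleton n hn) x w⟩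

end block

end Crest.Agent.R247.Rdg879
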