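import Crest.Agent.R247.Vel4_338
import Crest.Agent.R247.Sm5_879

/-!
R247 (helper338), leaf (1-V), file 5: the field `vel` of `Far553.FarD` (version 2, product form).
-/

set_option autoImplicit false
set_option maxSynthPendingDepth 3
set_option linter.unusedSectionVars false

open Bundle Set Filter Topology MeasureTheory
open scoped Manifold ContDiff NNReal
open Crest.Agent.R247.Sm879 Crest.Agent.R247.Mcp688

namespace Crest.Agent.R247.Vel338

section
variable {n : ℕ} {M : Type*} [MetricSpace M] [ChartedSpace (EuclideanSpace ℝ (Fin n)) M]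
  [IsManifold (𝓡 n) ∞ M]
  [RiemannianBundle (fun p : M => TangentSpace (𝓡 n) p)]
  [IsContMDiffRiemannianBundle (𝓡 n) ∞ (EuclideanSpace ℝ (Fin n)) (fun p : M => TangentSpace (𝓡 n) p)]
  [IsRiemannianManifold (𝓡 n) M] [ProperSpace M]

variable [MeasurableSpace M] [BorelSpace M] {κ : ℝ} {μ : Measure M} [IsFiniteMeasureOnCompacts μ]

/-- pointwise form of (VEL) with the cosine, all degenerate cases included -/
theorem vel_cos (hm : ExM M) (C : Rad n κ M μ) {x y P : M} (hxU : (x, P) ∈ C.U)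
    (hyU : (y, P) ∈ C.U) (hIx : x ≠ P → P ∈ Int' x) (hIy : y ≠ P → P ∈ Int' y) :
    ∃ cs ∈ Icc (-1 : ℝ) 1,
      HasDerivWithinAt (fun t : ℝ => dist x (C.T y t P)) (cs * dist y P) (Iio 1) 1 ∧
      ∀ a b : ℝ, 0 ≤ a → 0 ≤ b →
        Tendsto (fun ε : ℝ => dist (C.T x (1 - a * ε) P) (C.T y (1 - b * ε) P) / ε) (𝓝[>] 0)
          (𝓝 (Real.sqrt ((a * dist x P) ^ 2 + (b * dist y P) ^ 2
            - 2 * (a * dist x P) * (b * dist y P) * cs))) := by
  have hα : ∀ t ∈ Icc (0 : ℝ) 1, dist x (C.T x t P) = t * dist x P ∧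
      dist (C.T x t P) P = (1 - t) * dist x P :=
    fun t ht => ⟨C.dist_left hxU ht, C.dist_right hxU ht⟩
  have hβ : ∀ t ∈ Icc (0 : ℝ) 1, dist y (C.T y t P) = t * dist y P ∧
      dist (C.T y t P) P = (1 - t) * dist y P :=
    fun t ht => ⟨C.dist_left hyU ht, C.dist_right hyU ht⟩
  have hev : ∀ c : ℝ, 0 ≤ c → ∀ᶠ ε : ℝ in 𝓝[>] 0, 1 - c * ε ∈ Icc (0 : ℝ) 1 := by
    intro c hc
    have : Tendsto (fun h : ℝ => c * h) (𝓝 0) (𝓝 (c * 0)) :=
      (continuous_const.mul continuous_id).tendsto 0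
    rw [mul_zero] at this
    filter_upwards [mem_nhdsWithin_of_mem_nhds (this.eventually (gt_mem_nhds one_pos)),
      self_mem_nhdsWithin] with h hh h0
    have h0' : 0 < h := h0
    have : 0 ≤ c * h := by positivity
    exact ⟨by linarith, by linarith⟩
  have hIoo : Ioo (0 : ℝ) 1 ∈ 𝓝[<] (1 : ℝ) := Ioo_mem_nhdsLT (by norm_num)
  by_cases hxP : x = P
  · -- `P = x`
    subst hxP
    refine ⟨-1, by constructor <;> norm_num, ?_, ?_⟩
    · have h1 : HasDerivAt (fun t : ℝ => (1 - t) * dist y x) (-1 * dist y x) (1 : ℝ) := by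
        have : HasDerivAt (fun t : ℝ => 1 - t) (-1) (1 : ℝ) := by
          simpa using (hasDerivAt_id (1 : ℝ)).const_sub 1
        exact this.mul_const _
      refine h1.hasDerivWithinAt.congr_of_eventuallyEq ?_ ?_
      · filter_upwards [hIoo] with t ht
        rw [dist_comm, (hβ t ⟨ht.1.le, ht.2.le⟩).2]
      · show dist x (C.T y 1 x) = (1 - (1 : ℝ)) * dist y x
        rw [dist_comm, (hβ 1 ⟨zero_le_one, le_rfl⟩).2]
    · intro a b ha hb
      have e : Real.sqrt ((a * dist x x) ^ 2 + (b * dist y x) ^ 2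
            - 2 * (a * dist x x) * (b * dist y x) * (-1)) = b * dist y x := by
        rw [dist_self, mul_zero]
        rw [show (0 : ℝ) ^ 2 + (b * dist y x) ^ 2 - 2 * 0 * (b * dist y x) * (-1) =
          (b * dist y x) ^ 2 by ring]
        exact Real.sqrt_sq (by positivity)
      rw [e]
      refine tendsto_const_nhds.congr' ?_
      filter_upwards [hev a ha, hev b hb, self_mem_nhdsWithin] with ε h1 h2 h3
      have h3' : 0 < ε := h3
      have e1 : C.T x (1 - a * ε) x = x := by
        have := (hα _ h1).2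
        rw [dist_self, mul_zero] at this
        exact dist_eq_zero.1 this
      have e2 : dist x (C.T y (1 - b * ε) x) = b * ε * dist y x := by
        rw [dist_comm, (hβ _ h2).2]; ring
      rw [e1, e2]
      field_simp
  by_cases hyP : y = P
  · subst hyP
    refine ⟨0, by constructor <;> norm_num, ?_, ?_⟩
    · rw [dist_self, mul_zero]
      have hc : ∀ t ∈ Icc (0 : ℝ) 1, C.T y t y = y := by
        intro t ht
        have := (hβ _ ht).2
        rw [dist_self, mul_zero] at this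
        exact dist_eq_zero.1 this
      refine (hasDerivWithinAt_const (1 : ℝ) (Iio 1) (dist x y)).congr_of_eventuallyEq ?_ ?_
      · filter_upwards [hIoo] with t ht
        rw [hc t ⟨ht.1.le, ht.2.le⟩]
      · show dist x (C.T y 1 y) = _
        rw [hc 1 ⟨zero_le_one, le_rfl⟩]
    · intro a b ha hb
      have e : Real.sqrt ((a * dist x y) ^ 2 + (b * dist y y) ^ 2
            - 2 * (a * dist x y) * (b * dist y y) * 0) = a * dist x y := by
        rw [dist_self, mul_zero, mul_zero, sub_zero]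
        rw [show (a * dist x y) ^ 2 + (0 : ℝ) ^ 2 = (a * dist x y) ^ 2 by ring]
        exact Real.sqrt_sq (by positivity)
      rw [e]
      refine tendsto_const_nhds.congr' ?_
      filter_upwards [hev a ha, hev b hb, self_mem_nhdsWithin] with ε h1 h2 h3
      have h3' : 0 < ε := h3
      have e1 : C.T y (1 - b * ε) y = y := by
        have := (hβ _ h2).2
        rw [dist_self, mul_zero] at this
        exact dist_eq_zero.1 this
      have e2 : dist (C.T x (1 - a * ε) y) y = a * ε * dist x y := by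
        rw [(hα _ h1).2]; ring
      rw [e1, e2]
      field_simp
  -- main case
  obtain ⟨Γ, hΓ, h1, -, h2⟩ := vel_pair n hm hxP hyP (hIx hxP) (hIy hyP) hα hβ
  have hx0 : 0 < dist x P := dist_pos.2 hxP
  have hy0 : 0 < dist y P := dist_pos.2 hyP
  refine ⟨Γ / (dist x P * dist y P), ?_, ?_, ?_⟩
  · rw [mem_Icc, ← abs_le, abs_div, abs_of_pos (by positivity : 0 < dist x P * dist y P),
      div_le_one (by positivity)]
    exact hΓ
  · have h3 : HasDerivWithinAt (fun t : ℝ => 2 * (dist x (C.T y t P) ^ 2 / 2)) (2 * Γ) (Iio 1) 1 :=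
      h1.const_mul 2
    have hT1 : C.T y 1 P = P := by
      have := (hβ 1 ⟨zero_le_one, le_rfl⟩).2
      rw [sub_self, zero_mul] at this
      exact dist_eq_zero.1 this
    have h4 := h3.sqrt (by
      simp only [hT1]
      positivity)
    simp only [hT1] at h4
    have e1 : √(2 * (dist x P ^ 2 / 2)) = dist x P := by
      rw [mul_div_cancel₀ _ (two_ne_zero)]
      exact Real.sqrt_sq hx0.le
    rw [e1] at h4
    have e2 : 2 * Γ / (2 * dist x P) = Γ / (dist x P * dist y P) * dist y P := by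
      field_simp
    rw [e2] at h4
    refine h4.congr (fun t _ => ?_) ?_
    · rw [mul_div_cancel₀ _ (two_ne_zero), Real.sqrt_sq dist_nonneg]
    · rw [mul_div_cancel₀ _ (two_ne_zero), Real.sqrt_sq dist_nonneg]
  · intro a b ha hb
    have h5 := h2 a b ha hb
    have e : (a * dist x P) ^ 2 + (b * dist y P) ^ 2
            - 2 * (a * dist x P) * (b * dist y P) * (Γ / (dist x P * dist y P)) =
        a ^ 2 * dist x P ^ 2 + b ^ 2 * dist y P ^ 2 - 2 * a * b * Γ := by
      field_simp
    rw [e]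
    exact h5

/-- **the field `vel` of `Far553.FarD`** (product form) -/
theorem vel_prod (hm : ExM M) (hκ : 0 ≤ κ) (C : Rad n κ M μ) (x : M) :
    ∀ᵐ p ∂(μ.prod μ), ∃ cs ∈ Icc (-1 : ℝ) 1,
      HasDerivWithinAt (fun t : ℝ => dist x (C.T p.1 t p.2)) (cs * dist p.1 p.2) (Iio 1) 1 ∧
      ∀ a b : ℝ, 0 ≤ a → 0 ≤ b →
        Tendsto (fun ε : ℝ => dist (C.T x (1 - a * ε) p.2) (C.T p.1 (1 - b * ε) p.2) / ε) (𝓝[>] 0)
          (𝓝 (Real.sqrt ((a * dist x p.2) ^ 2 + (b * dist p.1 p.2) ^ 2
            - 2 * (a * dist x p.2) * (b * dist p.1 p.2) * cs))) := by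
  have k1 : ∀ᵐ p ∂(μ.prod μ), (x, p.2) ∈ C.U ∧ (x ≠ p.2 → p.2 ∈ Int' x) := by
    have := (C.ae_U x).and (ae_int C hκ x)
    exact Measure.quasiMeasurePreserving_snd.ae this
  have hOm : MeasurableSet (Om M) := (isOpen_Om n hm).measurableSet
  have hdiag : MeasurableSet {p : M × M | p.1 ≠ p.2} := by
    have : {p : M × M | p.1 ≠ p.2} = (diagonal M)ᶜ := by ext p; simp [mem_diagonal_iff]
    rw [this]
    exact isClosed_diagonal.measurableSet.compl
  have k2 : ∀ᵐ p ∂(μ.prod μ), (p.1, p.2) ∈ C.U ∧ (p.1 ≠ p.2 → (p.1, p.2) ∈ Om M) := by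
    have hms : MeasurableSet {p : M × M | (p.1, p.2) ∈ C.U ∧ (p.1 ≠ p.2 → (p.1, p.2) ∈ Om M)} := by
      have : {p : M × M | (p.1, p.2) ∈ C.U ∧ (p.1 ≠ p.2 → (p.1, p.2) ∈ Om M)} =
          C.U ∩ ({p : M × M | p.1 ≠ p.2}ᶜ ∪ Om M) := by
        ext p
        simp only [mem_inter_iff, mem_union, mem_compl_iff, mem_ofPred_eq]
        tauto
      rw [this]
      exact C.measU.inter (hdiag.compl.union hOm)
    refine (Measure.ae_prod_iff_ae_ae hms).2 (Filter.Eventually.of_forall fun y => ?_)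
    filter_upwards [C.ae_U y, ae_int C hκ y] with P h1 h2
    exact ⟨h1, h2⟩
  filter_upwards [k1, k2] with p h1 h2
  exact vel_cos hm C h1.1 h2.1 h1.2 h2.2

end

end Crest.Agent.R247.Vel338
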