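import Crest.Agent.R247.Fd3_656
import Crest.Agent.R247.Fd4_656
import Crest.Agent.R247.Loc3_710
import Crest.Agent.R247.Bs7_342
import Crest.Agent.R247.Vel5_338
import Crest.Agent.R247.Gs2_939
import Crest.Agent.R247.Q9_550
import Crest.Agent.R247.Sli1_554
import Crest.Agent.R247.Rdg4_879
import Crest.Agent.R247.Bgr_546

/-!
# R247, FD-ASM (6) (helper656): `PkP n c` from the fields and the environment
-/

set_option autoImplicit false
set_option linter.unusedSectionVars false
set_option linter.unusedVariables false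

open Bundle Bornology Set MeasureTheory Manifold Filter Metric Topology
open scoped ENNReal ContDiff Topology NNReal
open Crest.GeometryTopology.CoordMetric Crest.GeometryTopology.ChartCurvature
open Crest.GeometryTopology.PointedLimit Crest.Agent.R247.Sm879

noncomputable section

namespace Crest.Agent.R247.Fd656

universe u

open Crest.Agent.R247.Dir593 Crest.Agent.R247.Dir593.GradS
open Crest.Agent.R247.Smv126 Crest.Agent.R247.Obj554 Crest.Agent.R247.Hes124
open Crest.Agent.R247.Far553 Crest.Agent.R247.Mcp688 Crest.Agent.R247.Max193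
open Crest.Agent.R247.Num824

/-- the environment exists at the centres of every pinched manifold -/
def EnvP (n : ℕ) : Prop := ∀ δ : ℝ, 0 < δ → 4096 * δ ≤ 1 →
  ∀ (M : Type u) [MetricSpace M] [CompleteSpace M] [ConnectedSpace M]
    [ChartedSpace (EuclideanSpace ℝ (Fin n)) M]
    [IsManifold 𝓘(ℝ, EuclideanSpace ℝ (Fin n)) ∞ M]
    [RiemannianBundle (fun x : M => TangentSpace 𝓘(ℝ, EuclideanSpace ℝ (Fin n)) x)]
    [IsContMDiffRiemannianBundle 𝓘(ℝ, EuclideanSpace ℝ (Fin n)) ∞ (EuclideanSpace ℝ (Fin n))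
      (fun x : M => TangentSpace 𝓘(ℝ, EuclideanSpace ℝ (Fin n)) x)]
    [IsRiemannianManifold 𝓘(ℝ, EuclideanSpace ℝ (Fin n)) M]
    [MeasurableSpace M] [BorelSpace M] [ProperSpace M] [SecondCountableTopology M] [Nonempty M]
    [IsFiniteMeasureOnCompacts (Measure.euclideanHausdorffMeasure n : Measure M)] (q : M)
    (hk : HasRicciLowerBound n M (-δ)),
    (∀ x ∈ ball q 50, ∀ r : ℝ, 0 < r → r ≤ 40 →
      ENNReal.ofReal (1 - δ) * volume (ball (0 : EuclideanSpace ℝ (Fin n)) r) ≤
        Measure.euclideanHausdorffMeasure n (ball x r)) →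
    ∀ (C : Rad n δ M (Measure.euclideanHausdorffMeasure n)) (x : M), dist x q < 1 →
      EnvF (Gs939.boch hk) C x (1024 * δ)

theorem pkP {n : ℕ} (hn : 1 ≤ n) (F : Fields.{u} n) (hE : EnvP.{u} n) (hR : Bgr546.RAD.{u} n) :
    ∃ c, Q9550.PkP.{u} n c := by
  obtain ⟨c, hc, hfar⟩ := exists_farD F
  obtain ⟨b, hb0, hb⟩ := F.d2b
  refine ⟨c, ?_⟩
  have hom := om_pos n
  have ha : 0 < c3 n / 64 := div_pos (c3_pos n) (by norm_num)
  set a : ℝ := c3 n / 64 with hadef
  set A1 : ℝ := Loc710.AL2 n (2 * om n) (om n / 2) * Real.sqrt (2 * b) with hA1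
  have hCt := Ct_nonneg n ha hom.le
  set A : ℝ := 1024 + 1024 * Ct n a (om n) + Real.exp (16 * a) + |A1| with hA
  have he := Real.exp_pos (16 * a)
  have hA1' := abs_nonneg A1
  refine ⟨A, by linarith, 1 / 4096, by norm_num, by norm_num, ?_⟩
  intro δ hδ hδ0 M _ _ _ _ _ _ _ _ _ _ q hk hpin
  have := HR216.properSpace_of_riemannian n M
  have := HR216.secondCountable_of_riemannian n M
  have : Nonempty M := ⟨q⟩
  have := Gs939.finOnCompacts (n := n) (M := M)
  have hm : ExM M := Rdg879.exM_block n M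
  obtain ⟨C⟩ := hR δ hδ.le M hk
  have hδ' : 4096 * δ ≤ 1 := by linarith
  have E : ∀ x : M, dist x q < 1 → EnvF (Gs939.boch hk) C x (1024 * δ) :=
    fun x hx => hE δ hδ hδ' M q hk hpin C x hx
  obtain ⟨G, hG⟩ := Rdg879.grep_block hn C
  have hqq : dist q q < 1 := by rw [dist_self]; norm_num
  have O : ∀ x : M, HObj (Gs939.boch hk) x := fun x =>
    Classical.choice (exists_HObj x (E q hqq).hA hδ.le)
  have hMf : ∀ x : M, MFld C x (3200 * ((n : ℝ) + 12)) := fun x =>
    { sym := Vel338.sym_field hm hδ.le C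
      vel := Vel338.vel_prod hm hδ.le C x
      base := Bs342.base hm (by linarith) hk C (le_refl _) x }
  have hph : ∀ (x : M) (j : ℕ), 0 ≤ phx n δ (μHE[n] : Measure M) x j :=
    fun x j => phat_nonneg' C hδ.le x _ j
  have htail : ∀ x : M, dist x q < 1 →
      Summable (phat n δ (μHE[n] : Measure M) x a) ∧
      ∀ i, ∑' j, phat n δ (μHE[n] : Measure M) x a (i + j) ≤
        Ct n a (om n) * (1024 * δ + dy i ^ 2) := by
    intro x hx
    refine phat_tail C hδ.le x ha (by linarith) hom.le (by nlinarith) ?_ ?_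
    · refine le_vr_pinch (by norm_num) ?_
      have h1 := hpin x (by rw [mem_ball]; linarith) (2 * 16) (by norm_num) (by norm_num)
      rw [vol_ball n (by norm_num), ← ENNReal.ofReal_mul (by linarith)] at h1
      refine (ENNReal.ofReal_le_ofReal ?_).trans h1
      have h2 : 0 ≤ om n * (2 * 16) ^ n := by positivity
      nlinarith
    · intro s hs0 hs
      exact vr_le_pinch C hδ.le (by linarith) x hs0 hs
  refine ⟨C, G, phx n δ (μHE[n] : Measure M), ?_⟩
  refine
    { n_pos := hn
      sing := (E q hqq).sing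
      grep := hG
      far := fun x hx => ?_
      ph_nonneg := fun x _ j => hph x j
      summ := fun x hx => (htail x hx).1
      tail := fun x hx i _ => ?_
      drop_le := fun x hx j _ => ?_
      L2 := ?_ }
  · obtain ⟨D⟩ := hfar δ M μHE[n] (Gs939.boch hk) C x (1024 * δ) (E x hx) (O x) (hMf x)
    exact ⟨D.mono (by nlinarith)⟩
  · refine ((htail x hx).2 i).trans ?_
    have h1 : 0 ≤ dy i ^ 2 := by positivity
    have h2 : Ct n a (om n) * (1024 * δ + dy i ^ 2) ≤ (1024 * Ct n a (om n)) * (δ + dy i ^ 2) := by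
      nlinarith
    refine h2.trans ?_
    have h3 : 0 ≤ δ + dy i ^ 2 := by linarith
    exact mul_le_mul_of_nonneg_right (by linarith) h3
  · refine (drop_le_phat C hδ.le x a j).trans ?_
    have h1 := hph x j
    have h2 : 0 ≤ phx n δ (μHE[n] : Measure M) x j * dy j ^ n :=
      mul_nonneg h1 (pow_pos (dy_pos j) n).le
    rw [mul_assoc, mul_assoc]
    exact mul_le_mul_of_nonneg_right (by linarith) h2
  · have hRDG : Loc710.RDG (Gs939.boch hk).toGradS C := fun x φ hφ =>
      Sli554.LK.locLip (E q hqq).hL x hφ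
    refine Loc710.L2_pk (Gs939.boch hk) C hδ.le (by linarith) hRDG hG (q := q) O
      (ph := phx n δ (μHE[n] : Measure M)) (b := b) (V := 2 * om n) (v := om n / 2) (A := A)
      hb0.le (by positivity) (by positivity) ?_ ?_ (fun x _ j => hph x j) ?_ ?_
    · intro x hx s hs0 hs1
      refine ((E x hx).vol_le x s (by rw [dist_self]; norm_num) hs0 (by linarith)).trans
        (ENNReal.ofReal_le_ofReal ?_)
      have : 0 ≤ om n * s ^ n := by positivity
      nlinarith
    · intro x hx s hs0 hs1
      refine (ENNReal.ofReal_le_ofReal ?_).trans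
        ((E x hx).vol_ge x s (by rw [dist_self]; norm_num) hs0 (by linarith))
      have : 0 ≤ om n * s ^ n := by positivity
      nlinarith
    · intro x hx k hk4
      exact hb δ M μHE[n] (Gs939.boch hk) C x (1024 * δ) (E x hx) (O x) k hk4
    · have := le_abs_self A1
      linarith

end Crest.Agent.R247.Fd656
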