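import Crest.Agent.R247.Rdg5_879
import Crest.Agent.R247.Obj2_554
import Crest.Agent.R247.Gs2_939

/-!
R247 (helper879), file 6: the hypotheses `Obj554.LK` and `Smv126.WLap` on the manifold

* `norm_Gr_dist` : `‖Gr (dist y) z‖ = 1` at pairs where the cost is smooth
* `lk_mfd`, `lk_block` : `Obj554.LK (gradS n M) C`
* `wlap_mfd`, `wlap_block` : `Smv126.WLap (gradS n M) n κ`
-/

set_option autoImplicit false
set_option maxSynthPendingDepth 3
set_option linter.unusedSectionVars false

open Bundle Set Filter Topology MeasureTheory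
open scoped Manifold ContDiff
open Crest.GeometryTopology.MTW Crest.Agent.R226
open Crest.Agent.R226.NearLem90 (dL halfDistSq_comm hasDerivAt_comp_curve)
open Crest.Agent.R226.CutSmooth77 (SC)
open Crest.Agent.R226.ChartMet842
open Crest.Agent.R247.Sm879
open Crest.Agent.R247.Mcp688
open Crest.Agent.R247.Ms322
open Crest.Agent.R247.Cal550

noncomputable section
namespace Crest.Agent.R247.Rdg879

section mfd
variable {n : ℕ} {M : Type*} [MetricSpace M] [ChartedSpace (EuclideanSpace ℝ (Fin n)) M]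
  [IsManifold (𝓡 n) ∞ M]
  [RiemannianBundle (fun p : M => TangentSpace (𝓡 n) p)]
  [IsContMDiffRiemannianBundle (𝓡 n) ∞ (EuclideanSpace ℝ (Fin n)) (fun p : M => TangentSpace (𝓡 n) p)]
  [IsRiemannianManifold (𝓡 n) M] [ProperSpace M] [SecondCountableTopology M] [Nonempty M]

local notation "𝔼" => EuclideanSpace ℝ (Fin n)

/-- `|∇(d_x²/2)|² = d_x²` -/
theorem inner_Gr_self {x z : M} (h : SC n z x) {T : ℝ → M} (hT : Seg x z T) :
    inner ℝ (Gr (n := n) (fun q => halfDistSq q x) z) (Gr (n := n) (fun q => halfDistSq q x) z) =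
      dist x z ^ 2 := by
  have h1 := hT.grad_end h (mdiff_left h)
  have h2 : HasDerivWithinAt (fun t : ℝ => (t * dist x z) ^ 2 / 2) (dist x z ^ 2) (Iic 1) 1 := by
    have h3 : HasDerivAt (fun t : ℝ => (t * dist x z) ^ 2 / 2)
        ((2 : ℕ) * (1 * dist x z) ^ (2 - 1) * (1 * dist x z) / 2) 1 :=
      (((hasDerivAt_id (1 : ℝ)).mul_const (dist x z)).pow 2).div_const 2
    exact (h3.congr_deriv (by push_cast; ring)).hasDerivWithinAt
  have h4 : HasDerivWithinAt (fun t : ℝ => halfDistSq (T t) x) (dist x z ^ 2) (Iic 1) 1 := by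
    have e1 : ∀ᶠ t in 𝓝[≤] (1 : ℝ), t ∈ Ioc (0 : ℝ) 1 := by
      filter_upwards [self_mem_nhdsWithin,
        mem_nhdsWithin_of_mem_nhds (Ioi_mem_nhds (zero_lt_one (α := ℝ)))] with t h1 h2
      exact ⟨h2, h1⟩
    have e2 : ∀ t ∈ Icc (0 : ℝ) 1, halfDistSq (T t) x = (t * dist x z) ^ 2 / 2 := by
      intro t ht
      unfold halfDistSq
      rw [dist_comm, hT.left ht]
    refine h2.congr_of_eventuallyEq ?_ (e2 1 ⟨zero_le_one, le_rfl⟩)
    filter_upwards [e1] with t ht using e2 t ⟨ht.1.le, ht.2⟩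
  exact (uniqueDiffWithinAt_Iic (1 : ℝ)).eq_deriv _ h1 h4

/-- `|∇ d_y| = 1` at pairs where the cost is smooth -/
theorem norm_Gr_dist {y z : M} (h : SC n z y) (hne : z ≠ y) {T : ℝ → M} (hT : Seg y z T) :
    ‖Gr (n := n) (fun q => dist y q) z‖ = 1 := by
  have h1 := inner_Gr_self h hT
  have h2 : Gr (n := n) (fun q => halfDistSq q y) z =
      dist z y • Gr (n := n) (fun q => dist y q) z := by
    ext j
    rw [Gr_apply, df_half h hne]
    rfl
  rw [h2, real_inner_smul_left, real_inner_smul_right, real_inner_self_eq_norm_sq,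
    dist_comm y z] at h1
  have h3 := dist_pos.2 hne
  have h4 : ‖Gr (n := n) (fun q => dist y q) z‖ ^ 2 = 1 := by
    have h5 : dist z y ^ 2 ≠ 0 := by positivity
    have h6 : dist z y ^ 2 * ‖Gr (n := n) (fun q => dist y q) z‖ ^ 2 = dist z y ^ 2 * 1 := by
      linear_combination h1
    exact mul_left_cancel₀ h5 h6
  exact (pow_eq_one_iff_of_nonneg (norm_nonneg _) two_ne_zero).1 h4

variable [MeasurableSpace M] [BorelSpace M] {κ : ℝ}
  [IsFiniteMeasureOnCompacts (Measure.euclideanHausdorffMeasure n : Measure M)]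
  (C : Rad n κ M (Measure.euclideanHausdorffMeasure n : Measure M))

/-- **`LK` on the manifold** -/
theorem lk_mfd (hn : 1 ≤ n) (hm : ExM M) : Obj554.LK (Ms322.gradS n M) C := by
  intro y φ hφ
  exact rd_muHE C hn hm y (ae_mdifferentiableAt hφ.1)

include C in
/-- **`WLap` on the manifold** -/
theorem wlap_mfd (hn : 1 ≤ n) (hκ : 0 ≤ κ) (hm : ExM M) :
    Smv126.WLap (Ms322.gradS n M) n κ where
  lap := by
    intro y φ hφ h0
    obtain ⟨K, hK0, hK⟩ := Obj554.isT_lip hφ
    obtain ⟨R, hR⟩ := hφ.2.isCompact.isBounded.subset_closedBall y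
    have hs : ∀ z, max R 0 < dist y z → φ z = 0 := by
      intro z hz
      refine image_eq_zero_of_notMem_tsupport fun h => ?_
      have := hR h
      rw [Metric.mem_closedBall, dist_comm] at this
      exact absurd this (not_le.2 (lt_of_le_of_lt (le_max_left _ _) hz))
    have h := (C.weak_lap' hκ y hφ.1.continuous.measurable h0 hK (le_max_right R 0) hs
      (isCompact_closedBall y (2 * max R 0)).measure_lt_top.ne (lk_mfd C hn hm y hφ)).2.2
    exact h
  unit := by
    intro y
    have h2 : ∀ᵐ z ∂(Measure.euclideanHausdorffMeasure n : Measure M), z ≠ y := by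
      rw [ae_iff]
      have : {a : M | ¬a ≠ y} = {y} := by ext; simp
      rw [this]
      exact muHE_singleton n hn y
    filter_upwards [ae_sc_muHE C hn hm y, h2, C.ae_U y] with z hz hne hU
    exact norm_Gr_dist hz hne (seg_of_U C hU)

end mfd

section block
universe u
variable {n : ℕ} {M : Type u} [MetricSpace M] [CompleteSpace M] [ConnectedSpace M]
    [ChartedSpace (EuclideanSpace ℝ (Fin n)) M]
    [IsManifold 𝓘(ℝ, EuclideanSpace ℝ (Fin n)) ∞ M]
    [RiemannianBundle (fun x : M => TangentSpace 𝓘(ℝ, EuclideanSpace ℝ (Fin n)) x)]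
    [IsContMDiffRiemannianBundle 𝓘(ℝ, EuclideanSpace ℝ (Fin n)) ∞ (EuclideanSpace ℝ (Fin n))
      (fun x : M => TangentSpace 𝓘(ℝ, EuclideanSpace ℝ (Fin n)) x)]
    [IsRiemannianManifold 𝓘(ℝ, EuclideanSpace ℝ (Fin n)) M]
    [MeasurableSpace M] [BorelSpace M] {κ : ℝ} [SecondCountableTopology M] [Nonempty M]
    (C : Rad n κ M (Measure.euclideanHausdorffMeasure n : Measure M))

/-- **`LK`, block form** -/
theorem lk_block (hn : 1 ≤ n) : Obj554.LK (Ms322.gradS n M) C := by
  have := HR216.properSpace_of_riemannian n M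
  have := isLocallyFinite_muHE n M
  exact lk_mfd C hn (exM_block n M)

include C in
/-- **`WLap`, block form** -/
theorem wlap_block (hn : 1 ≤ n) (hκ : 0 ≤ κ) : Smv126.WLap (Ms322.gradS n M) n κ := by
  have := HR216.properSpace_of_riemannian n M
  have := isLocallyFinite_muHE n M
  exact wlap_mfd C hn hκ (exM_block n M)

end block

end Crest.Agent.R247.Rdg879
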