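import Crest.Agent.R247.FvsC_681
import Crest.Agent.R247.Rdg6_879

/-!
# R247, P5 / V1 (helper681): end point fields of `SegS` and the term of the S0381 block
-/

set_option autoImplicit false
set_option maxSynthPendingDepth 3
set_option linter.unusedSectionVars false

open Bundle Set Filter Topology Metric MeasureTheory
open scoped Manifold ContDiff NNReal ENNReal
open Crest.GeometryTopology.PointedLimit
open Crest.GeometryTopology.MTW Crest.Agent.R226
open Crest.Agent.R226.CutSmooth77 (SC)
open Crest.Agent.R247.Sm879 Crest.Agent.R247.Mcp688 Crest.Agent.R247.Rdg879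
open Crest.Agent.R247.Ms322 Crest.Agent.R247.Hes124
open Crest.Agent.R247.Dir593 Crest.Agent.R247.Fv510
open Crest.Agent.R247.Smv126 (hf)

noncomputable section
namespace Crest.Agent.R247.Fvs681

section pt

variable {n : ℕ} {M : Type*} [MetricSpace M] [ChartedSpace (EuclideanSpace ℝ (Fin n)) M]
  [IsManifold (𝓡 n) ∞ M]
  [RiemannianBundle (fun p : M => TangentSpace (𝓡 n) p)]
  [IsContMDiffRiemannianBundle (𝓡 n) ∞ (EuclideanSpace ℝ (Fin n)) (fun p : M => TangentSpace (𝓡 n) p)]
  [IsRiemannianManifold (𝓡 n) M] [ProperSpace M] [SecondCountableTopology M] [Nonempty M]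

lemma Gr_half {p q : M} (h : SC n p q) (hne : p ≠ q) :
    Gr (n := n) (fun u => halfDistSq u q) p = dist p q • Gr (n := n) (fun u => dist q u) p := by
  ext j
  rw [Gr_apply, df_half h hne]
  rfl

lemma Gr_hf (x z : M) : Gr (n := n) (hf x) z = Gr (n := n) (fun u => halfDistSq u x) z := by
  have e : hf x = fun u : M => halfDistSq u x := hds_eq0 x
  rw [e]

/-- start of a minimiser -/
lemma start_pt {x z : M} (h : SC n x z) (hne : x ≠ z) {T : ℝ → M} (hT : Seg x z T) {φ : M → ℝ}
    (hφ : MDifferentiableAt (𝓡 n) 𝓘(ℝ) φ x) :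
    HasDerivWithinAt (fun t => φ (T t))
      (-(dist x z * inner ℝ (Gr (n := n) φ x) (Gr (n := n) (dist z) x))) (Ici 0) 0 := by
  refine (hT.grad_start h hφ).congr_deriv ?_
  rw [Gr_half h hne, real_inner_smul_left, real_inner_comm]

/-- distance to a second point along a minimiser, end point -/
lemma rdw_pt {x z w : M} (h : SC n z x) {T : ℝ → M} (hT : Seg x z T) (hw : SC n z w)
    (hne : z ≠ w) :
    HasDerivWithinAt (fun t => dist (T t) w)
      (inner ℝ (Gr (n := n) (hf x) z) (Gr (n := n) (dist w) z)) (Iio 1) 1 := by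
  have h1 := (hT.grad_end (n := n) h (mdiff_dist_left hw hne)).mono Iio_subset_Iic_self
  rw [Gr_hf]
  refine h1.congr (fun t _ => ?_) ?_
  · exact dist_comm _ _
  · exact dist_comm _ _

end pt

section block
universe u
variable {n : ℕ} {M : Type u} [MetricSpace M] [CompleteSpace M] [ConnectedSpace M]
    [ChartedSpace (EuclideanSpace ℝ (Fin n)) M]
    [IsManifold 𝓘(ℝ, EuclideanSpace ℝ (Fin n)) ∞ M]
    [RiemannianBundle (fun x : M => TangentSpace 𝓘(ℝ, EuclideanSpace ℝ (Fin n)) x)]
    [IsContMDiffRiemannianBundle 𝓘(ℝ, EuclideanSpace ℝ (Fin n)) ∞ (EuclideanSpace ℝ (Fin n))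
      (fun x : M => TangentSpace 𝓘(ℝ, EuclideanSpace ℝ (Fin n)) x)]
    [IsRiemannianManifold 𝓘(ℝ, EuclideanSpace ℝ (Fin n)) M]
    [MeasurableSpace M] [BorelSpace M] {κ κ' : ℝ} [SecondCountableTopology M] [Nonempty M]

theorem ne_block (hn : 1 ≤ n) : ∀ᵐ p ∂((Measure.euclideanHausdorffMeasure n : Measure M).prod
    (Measure.euclideanHausdorffMeasure n : Measure M)), p.1 ≠ p.2 := by
  have := HR216.properSpace_of_riemannian n M
  have := isLocallyFinite_muHE n M
  exact ae_prod_ne (muHE_singleton n hn)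

theorem om_block (hn : 1 ≤ n)
    (C : Rad n κ M (Measure.euclideanHausdorffMeasure n : Measure M)) (hκ : 0 ≤ κ) :
    ∀ᵐ p ∂((Measure.euclideanHausdorffMeasure n : Measure M).prod
      (Measure.euclideanHausdorffMeasure n : Measure M)), SC n p.1 p.2 := by
  have := HR216.properSpace_of_riemannian n M
  have := isLocallyFinite_muHE n M
  filter_upwards [ae_prod_Om n (exM_block n M) (fun x => ae_Om_block hn C hκ x)] with p hp
  exact sc_of_Om (exM_block n M) hp

theorem sc_block (hn : 1 ≤ n)
    (C : Rad n κ M (Measure.euclideanHausdorffMeasure n : Measure M)) (hκ : 0 ≤ κ) (x : M) :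
    ∀ᵐ z ∂(Measure.euclideanHausdorffMeasure n : Measure M), SC n z x := by
  have := HR216.properSpace_of_riemannian n M
  filter_upwards [ae_Om_block hn C hκ x] with z hz
  exact sc_symm (sc_of_Om (exM_block n M) hz)

theorem dl0_block (hn : 1 ≤ n)
    (C : Rad n κ M (Measure.euclideanHausdorffMeasure n : Measure M)) (hκ : 0 ≤ κ) {f : M → ℝ}
    (hf : LocallyLipschitz f) :
    ∀ᵐ p ∂((Measure.euclideanHausdorffMeasure n : Measure M).prod
      (Measure.euclideanHausdorffMeasure n : Measure M)),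
      HasDerivWithinAt (fun t => f (C.T p.1 t p.2))
        (-(dist p.1 p.2 * inner ℝ (Gr (n := n) f p.1) (Gr (n := n) (dist p.2) p.1))) (Ici 0) 0 := by
  have := HR216.properSpace_of_riemannian n M
  have := isLocallyFinite_muHE n M
  filter_upwards [om_block hn C hκ, ne_block hn, ae_mem_U (C := C),
    Measure.quasiMeasurePreserving_fst.ae (ae_mdifferentiableAt (n := n) hf)] with p h1 h2 h3 h4
  exact start_pt h1 h2 (seg_of_U C h3) h4

theorem rdw_block (hn : 1 ≤ n)
    (C : Rad n κ M (Measure.euclideanHausdorffMeasure n : Measure M)) (hκ : 0 ≤ κ) (x : M) :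
    ∀ᵐ p ∂((Measure.euclideanHausdorffMeasure n : Measure M).prod
      (Measure.euclideanHausdorffMeasure n : Measure M)),
      HasDerivWithinAt (fun t : ℝ => dist (C.T x t p.1) p.2)
        (inner ℝ (Gr (n := n) (hf x) p.1) (Gr (n := n) (dist p.2) p.1)) (Iio 1) 1 := by
  have := HR216.properSpace_of_riemannian n M
  have := isLocallyFinite_muHE n M
  filter_upwards [om_block hn C hκ, ne_block hn,
    Measure.quasiMeasurePreserving_fst.ae ((sc_block hn C hκ x).and (C.ae_U x))] with p h1 h2 h3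
  exact rdw_pt h3.1 (seg_of_U C h3.2) h1 h2

theorem pe0_block (hn : 1 ≤ n)
    (C : Rad n κ M (Measure.euclideanHausdorffMeasure n : Measure M)) (hκ : 0 ≤ κ) (x : M) :
    ∀ᵐ p ∂((Measure.euclideanHausdorffMeasure n : Measure M).prod
      (Measure.euclideanHausdorffMeasure n : Measure M)),
      HasDerivWithinAt (fun t : ℝ => dist (C.T x t p.1) (C.T x t p.2))
        (inner ℝ (Gr (n := n) (hf x) p.1) (Gr (n := n) (dist p.2) p.1) +
          inner ℝ (Gr (n := n) (hf x) p.2) (Gr (n := n) (dist p.1) p.2)) (Iio 1) 1 := by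
  filter_upwards [two_point_block hn C hκ x x] with p hp
  exact hp.mono Iio_subset_Iic_self

theorem norm_hf_block (hn : 1 ≤ n)
    (C : Rad n κ M (Measure.euclideanHausdorffMeasure n : Measure M)) (hκ : 0 ≤ κ) (x : M) :
    ∀ᵐ z ∂(Measure.euclideanHausdorffMeasure n : Measure M),
      ‖Gr (n := n) (hf x) z‖ = dist x z := by
  have := HR216.properSpace_of_riemannian n M
  filter_upwards [ae_Om_block hn C hκ x] with z hz
  exact Ray97.mGam_halfDistSq_self (exM_block n M) (sc_of_Om (exM_block n M) hz)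

theorem norm_gd_block (hn : 1 ≤ n)
    (C : Rad n κ M (Measure.euclideanHausdorffMeasure n : Measure M)) (hκ : 0 ≤ κ) :
    ∀ᵐ p ∂((Measure.euclideanHausdorffMeasure n : Measure M).prod
      (Measure.euclideanHausdorffMeasure n : Measure M)),
      ‖Gr (n := n) (dist p.2) p.1‖ ≤ 1 := by
  have := HR216.properSpace_of_riemannian n M
  have := isLocallyFinite_muHE n M
  filter_upwards [om_block hn C hκ, ne_block hn, ae_mem_U (C := C)] with p h1 h2 h3
  exact (norm_Gr_dist h1 h2 (seg_of_U C h3).rev).le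

/-- **the term `SegS` of the manifold** -/
def segS_block (hn : 1 ≤ n) (hK : HasRicciLowerBound n M (-κ))
    (C : Rad n κ' M (Measure.euclideanHausdorffMeasure n : Measure M)) (hκ' : 0 ≤ κ') :
    SegS (Gs939.boch hK) C :=
  haveI := HR216.properSpace_of_riemannian n M
  haveI := isLocallyFinite_muHE n M
  segS_of hK C hκ' (exM_block n M) (ne_block hn) (dl0_block hn C hκ') (rdw_block hn C hκ')
    (pe0_block hn C hκ') (norm_hf_block hn C hκ') (norm_gd_block hn C hκ')

theorem nonempty_segS (hn : 1 ≤ n) (hK : HasRicciLowerBound n M (-κ))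
    (C : Rad n κ' M (Measure.euclideanHausdorffMeasure n : Measure M)) (hκ' : 0 ≤ κ') :
    Nonempty (SegS (Gs939.boch hK) C) := ⟨segS_block hn hK C hκ'⟩

end block

end Crest.Agent.R247.Fvs681
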