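import Crest.Agent.R247.Env_879
import Crest.Agent.R247.Fd5_656
import Crest.Agent.R247.FvsD_681

/-!
R247 (helper879): `Fd656.EnvP n` from the `SegS` instances.
-/

set_option autoImplicit false
set_option maxSynthPendingDepth 3
set_option linter.unusedSectionVars false

open Bundle Set Filter Topology MeasureTheory Metric
open scoped Manifold ContDiff ENNReal
open Crest.GeometryTopology.PointedLimit
open Crest.Agent.R247.Mcp688
open Crest.Agent.R247.Fd656

noncomputable section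
namespace Crest.Agent.R247.Env879

universe u

/-- **`EnvP`** from `SegS` -/
theorem envP_of {n : ℕ} (hn : 1 ≤ n)
    (hQ : ∀ (δ : ℝ), 0 ≤ δ → ∀ (M : Type u) [MetricSpace M] [CompleteSpace M] [ConnectedSpace M]
      [ChartedSpace (EuclideanSpace ℝ (Fin n)) M]
      [IsManifold 𝓘(ℝ, EuclideanSpace ℝ (Fin n)) ∞ M]
      [RiemannianBundle (fun x : M => TangentSpace 𝓘(ℝ, EuclideanSpace ℝ (Fin n)) x)]
      [IsContMDiffRiemannianBundle 𝓘(ℝ, EuclideanSpace ℝ (Fin n)) ∞ (EuclideanSpace ℝ (Fin n))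
        (fun x : M => TangentSpace 𝓘(ℝ, EuclideanSpace ℝ (Fin n)) x)]
      [IsRiemannianManifold 𝓘(ℝ, EuclideanSpace ℝ (Fin n)) M]
      [MeasurableSpace M] [BorelSpace M] [ProperSpace M] [SecondCountableTopology M] [Nonempty M]
      [IsFiniteMeasureOnCompacts (Measure.euclideanHausdorffMeasure n : Measure M)]
      (hk : HasRicciLowerBound n M (-δ))
      (C : Rad n δ M (Measure.euclideanHausdorffMeasure n)),
      Nonempty (Fv510.SegS (Gs939.boch (n := n) (M := M) hk) C)) : EnvP.{u} n := by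
  intro δ hδ0 hδ M _ _ _ _ _ _ _ _ _ _ _ _ _ _ q hk hp C x hx
  exact env_block_of hn hδ0 hδ hk hp C (hQ δ hδ0.le M hk C) hx

/-- **`EnvP n`**, unconditionally (`n ≥ 1`) -/
theorem envP {n : ℕ} (hn : 1 ≤ n) : EnvP.{u} n := by
  intro δ hδ0 hδ M _ _ _ _ _ _ _ _ _ _ _ _ _ _ q hk hp C x hx
  exact env_block_of hn hδ0 hδ hk hp C (Fvs681.nonempty_segS hn hk C hδ0.le) hx

end Crest.Agent.R247.Env879
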