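import Crest.Agent.R247.Fd2_656
import Crest.Agent.R247.Obj3_554

/-!
# R247 (helper554): representatives and positivity facts over the environment `EnvF`
-/

set_option autoImplicit false
set_option linter.unusedSectionVars false

open MeasureTheory Filter Topology Set Metric
open scoped RealInnerProductSpace ENNReal NNReal

noncomputable section

namespace Crest.Agent.R247.Fd656

universe u

open Crest.Agent.R242 Crest.Agent.R247.Dir593 Crest.Agent.R247.Dir593.GradS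
open Crest.Agent.R247.Smv126 Crest.Agent.R247.Obj554 Crest.Agent.R247.Hes124
open Crest.Agent.R247.Far553 Crest.Agent.R247.Mcp688 Crest.Agent.R247.Max193
open Crest.Agent.R247.Sv436

variable {n : ℕ} {κ : ℝ} {X : Type u} [MetricSpace X] [ProperSpace X] [MeasurableSpace X]
    [BorelSpace X] {μ : Measure X} [IsFiniteMeasureOnCompacts μ] {B : BochS n κ X μ}
    {C : Rad n κ X μ} {x : X} {δ : ℝ}

lemma EnvF.κ_le4 (h : EnvF B C x δ) : 4 * κ ≤ 1 := by linarith [h.κ_le, h.κ_nonneg]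

lemma EnvF.κ_le8 (h : EnvF B C x δ) : 8 * κ ≤ 1 := by linarith [h.κ_le, h.κ_nonneg]

lemma EnvF.κ_le1 (h : EnvF B C x δ) : κ ≤ 1 := by linarith [h.κ_le, h.κ_nonneg]

/-- `ρ² κ`-smallness, all scales -/
lemma EnvF.κ_dy (h : EnvF B C x δ) (k : ℕ) : 8 * κ * dy k ^ 2 ≤ 1 := by
  have h1 : dy k ^ 2 ≤ 1 := by have := dy_le_one k; have := dy_pos k; nlinarith
  have := h.κ_le8
  have := h.κ_nonneg
  nlinarith [sq_nonneg (dy k)]

lemma sFinite_of_proper (μ : Measure X) [IsFiniteMeasureOnCompacts μ] : SFinite μ := inferInstance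

/-- **n-constant gradient bound of `u_k`** -/
theorem EnvF.norm_Duk_le (h : EnvF B C x δ) (O : HObj B x) (k : ℕ) :
    ∀ᵐ z ∂μ, ‖B.D (uk B x k) z‖ ≤ 2 * CA n 1 :=
  Obj554.norm_Duk_le h.κ_nonneg h.κ_le4 h.W O k

/-- Lipschitz representative of `u_k` -/
theorem EnvF.exists_uc (h : EnvF B C x δ) (O : HObj B x) (k : ℕ) :
    ∃ uc : X → ℝ, LipschitzWith (2 * CA n 1).toNNReal uc ∧ (∀ᵐ z ∂μ, uk B x k z = uc z) ∧
      ∀ᵐ z ∂μ, B.D (uk B x k) z = B.G uc z :=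
  Obj554.exists_uc (C := C) h.κ_nonneg h.κ_le4 h.hL h.W h.pos O k

/-- locally Lipschitz, nonnegative representative of `q_k` -/
theorem EnvF.exists_qc (h : EnvF B C x δ) (O : HObj B x) (k : ℕ) :
    ∃ qc : X → ℝ, LocallyLipschitz qc ∧ (∀ z, 0 ≤ qc z) ∧ (∀ᵐ z ∂μ, qk B x k z = qc z) ∧
      (∀ᵐ z ∂μ, B.D (qk B x k) z = B.G qc z) ∧
      ∀ y, RD C y qc (fun z => ⟪B.G (hf y) z, B.G qc z⟫) :=
  Obj554.exists_qc (C := C) h.κ_nonneg h.κ_le4 h.hL h.W h.pos O k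

/-- the same, with the literal function `qf` and the class gradient of `q_k` -/
theorem EnvF.exists_qc' (h : EnvF B C x δ) (O : HObj B x) (k : ℕ) :
    ∃ qc : X → ℝ, LocallyLipschitz qc ∧ (∀ z, 0 ≤ qc z) ∧ (∀ᵐ z ∂μ, qf B x k z = qc z) ∧
      (∀ᵐ z ∂μ, qk B x k z = qc z) ∧ (∀ᵐ z ∂μ, B.D (qk B x k) z = B.G qc z) ∧
      RD C x qc (fun z => ⟪B.G (hf x) z, B.D (qk B x k) z⟫) := by
  obtain ⟨qc, h1, h2, h3, h4, h5⟩ := h.exists_qc O k
  refine ⟨qc, h1, h2, ?_, h3, h4, ?_⟩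
  · filter_upwards [qf_ae x k h.W, h3] with z a1 a2
    rw [a1, a2]
  · have h6 := h5 x
    unfold RD at h6 ⊢
    filter_upwards [h6, h4] with z a1 a2
    rw [a2]
    exact a1

/-- all representatives at once -/
theorem EnvF.exists_reps (h : EnvF B C x δ) (O : HObj B x) :
    ∃ qc : ℕ → X → ℝ, (∀ k, LocallyLipschitz (qc k)) ∧ (∀ k z, 0 ≤ qc k z) ∧
      (∀ k, ∀ᵐ z ∂μ, qf B x k z = qc k z) ∧ (∀ k, ∀ᵐ z ∂μ, qk B x k z = qc k z) ∧
      (∀ k, ∀ᵐ z ∂μ, B.D (qk B x k) z = B.G (qc k) z) ∧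
      ∀ k, RD C x (qc k) (fun z => ⟪B.G (hf x) z, B.D (qk B x k) z⟫) := by
  choose qc h1 h2 h3 h4 h5 h6 using fun k => h.exists_qc' O k
  exact ⟨qc, h1, h2, h3, h4, h5, h6⟩

/-- the constant of the upper density -/
def hdn (n : ℕ) : ℝ := 2 * om n

lemma om_pos' (n : ℕ) : 0 < om n :=
  ENNReal.toReal_pos (measure_ball_pos _ _ one_pos).ne' measure_ball_lt_top.ne

lemma hdn_pos (n : ℕ) : 0 < hdn n := mul_pos two_pos (om_pos' n)

/-- small closed balls, all centres -/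
theorem EnvF.closedBall_le (h : EnvF B C x δ) (y : X) {ε : ℝ} (hε : 0 < ε) (hε1 : ε ≤ 32) :
    μ (closedBall y ε) ≤ ENNReal.ofReal (hdn n * ε ^ n) := by
  refine (h.bishop y ε hε).trans (ENNReal.ofReal_le_ofReal ?_)
  have h1 : κ * ε ^ 2 / 2 ≤ 1 / 2 := by
    have h2 : ε ^ 2 ≤ 32 ^ 2 := pow_le_pow_left₀ hε.le hε1 2
    have h3 := h.κ_le
    have h4 := h.κ_nonneg
    nlinarith
  have h5 : Real.exp (κ * ε ^ 2 / 2) ≤ 2 := by
    calc Real.exp (κ * ε ^ 2 / 2) ≤ Real.exp (1 / 2) := Real.exp_le_exp.2 h1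
      _ ≤ 2 := by
        have h6 : Real.exp (1 / 2) ^ 2 = Real.exp 1 := by
          rw [← Real.exp_nat_mul]; norm_num
        have h7 := Real.exp_one_lt_d9
        by_contra hc
        push Not at hc
        nlinarith [Real.exp_pos (1 / 2)]
  have h6 := om_pos' n
  unfold hdn
  calc Real.exp (κ * ε ^ 2 / 2) * ε ^ n * om n ≤ 2 * ε ^ n * om n := by gcongr
    _ = 2 * om n * ε ^ n := by ring

/-- **(hd)**, constant depending on `n` only -/
theorem EnvF.hd (h : EnvF B C x δ) (y : X) :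
    ∀ᶠ ε in 𝓝[>] (0:ℝ), μ (closedBall y ε) ≤ ENNReal.ofReal (hdn n * ε ^ n) := by
  filter_upwards [Ioc_mem_nhdsGT (zero_lt_one' ℝ)] with ε hε
  exact h.closedBall_le y hε.1 (by linarith [hε.2])

end Crest.Agent.R247.Fd656
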