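import Crest.Agent.R247.Fd3_656
import Crest.Agent.R247.App3_470
import Crest.Agent.R247.Rdg6_879

/-!
R247 (helper879): the environment `Fd656.EnvF` of one centre exists on every pinched manifold.

* `vol_ge'`: lower volumes from the pinching
* `env_block_of`: `EnvF (Gs939.boch hk) C x (1024 * δ)` from the pinching and a `SegS`
-/

set_option autoImplicit false
set_option maxSynthPendingDepth 3
set_option linter.unusedSectionVars false

open Bundle Set Filter Topology MeasureTheory Metric
open scoped Manifold ContDiff ENNReal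
open Crest.GeometryTopology.PointedLimit
open Crest.Agent.R247.Mcp688
open Crest.Agent.R247.Fd656

noncomputable section
namespace Crest.Agent.R247.Env879

universe u

section mfd
variable {n : ℕ} {M : Type*} [MetricSpace M] [ChartedSpace (EuclideanSpace ℝ (Fin n)) M]
  [IsManifold (𝓡 n) ∞ M]
  [RiemannianBundle (fun p : M => TangentSpace (𝓡 n) p)]
  [IsContMDiffRiemannianBundle (𝓡 n) ∞ (EuclideanSpace ℝ (Fin n)) (fun p : M => TangentSpace (𝓡 n) p)]
  [IsRiemannianManifold (𝓡 n) M] [MeasurableSpace M] [BorelSpace M]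

/-- the lower pinching -/
lemma vol_ge' {δ : ℝ} (hδ : 0 ≤ δ) (hδ1 : δ ≤ 1) {q x y : M} (hx : dist x q < 1)
    (hp : ∀ x ∈ ball q 50, ∀ r : ℝ, 0 < r → r ≤ 40 →
      ENNReal.ofReal (1 - δ) * volume (ball (0 : EuclideanSpace ℝ (Fin n)) r) ≤
        (Measure.euclideanHausdorffMeasure n : Measure M) (ball x r))
    (hy : dist x y < 20) {r : ℝ} (hr : 0 < r) (hr1 : r ≤ 20) :
    ENNReal.ofReal ((1 - 1024 * δ) * om n * r ^ n) ≤
      (Measure.euclideanHausdorffMeasure n : Measure M) (ball y r) := by
  have hyq : y ∈ ball q 50 := by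
    rw [mem_ball]
    have := dist_triangle y x q
    rw [dist_comm y x] at this
    linarith
  refine le_trans ?_ (hp y hyq r hr (by linarith))
  rw [vol_ball n hr, ← ENNReal.ofReal_mul (by linarith)]
  refine ENNReal.ofReal_le_ofReal ?_
  have h0 := (om_pos n).le
  have h1 : 0 ≤ om n * r ^ n := by positivity
  nlinarith

end mfd

section block
variable {n : ℕ} {M : Type u} [MetricSpace M] [CompleteSpace M] [ConnectedSpace M]
    [ChartedSpace (EuclideanSpace ℝ (Fin n)) M]
    [IsManifold 𝓘(ℝ, EuclideanSpace ℝ (Fin n)) ∞ M]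
    [RiemannianBundle (fun x : M => TangentSpace 𝓘(ℝ, EuclideanSpace ℝ (Fin n)) x)]
    [IsContMDiffRiemannianBundle 𝓘(ℝ, EuclideanSpace ℝ (Fin n)) ∞ (EuclideanSpace ℝ (Fin n))
      (fun x : M => TangentSpace 𝓘(ℝ, EuclideanSpace ℝ (Fin n)) x)]
    [IsRiemannianManifold 𝓘(ℝ, EuclideanSpace ℝ (Fin n)) M]
    [MeasurableSpace M] [BorelSpace M] [ProperSpace M] [SecondCountableTopology M] [Nonempty M]
    [IsFiniteMeasureOnCompacts (Measure.euclideanHausdorffMeasure n : Measure M)]

/-- **`EnvF` on a pinched manifold**, from a `SegS`. -/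
theorem env_block_of (hn : 1 ≤ n) {δ : ℝ} (hδ0 : 0 < δ) (hδ : 4096 * δ ≤ 1) {q : M}
    (hk : HasRicciLowerBound n M (-δ))
    (hp : ∀ x ∈ ball q 50, ∀ r : ℝ, 0 < r → r ≤ 40 →
      ENNReal.ofReal (1 - δ) * volume (ball (0 : EuclideanSpace ℝ (Fin n)) r) ≤
        (Measure.euclideanHausdorffMeasure n : Measure M) (ball x r))
    (C : Rad n δ M (Measure.euclideanHausdorffMeasure n : Measure M))
    (hQ : Nonempty (Fv510.SegS (Gs939.boch (n := n) (M := M) hk) C)) {x : M}
    (hx : dist x q < 1) :
    EnvF (Gs939.boch (n := n) (M := M) hk) C x (1024 * δ) := by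
  have := Ms322.isOpenPosMeasure n M
  exact {
    n_pos := hn
    κ_nonneg := hδ0.le
    κ_le := by linarith
    κ_δ := by linarith
    δ_le := by linarith
    hA := App470.appr_boch' hk
    W := Rdg879.wlap_block C hn hδ0.le
    hL := Rdg879.lk_block C hn
    Q := hQ
    sing := fun z => Iso311.muHE_singleton (by omega) z
    pos := fun z r hr => (isOpen_ball.measure_pos _ ⟨z, mem_ball_self hr⟩).ne'
    vol_ge := fun y r hy hr hr1 => vol_ge' hδ0.le (by linarith) hx hp hy hr hr1
    vol_le := fun y r _ hr hr1 => (measure_mono ball_subset_closedBall).trans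
      (closedBall_le_pinch C hδ0.le (by linarith) y hr.le (by linarith))
    bishop := fun z s _ => closedBall_le_om C hδ0.le z s
    vol64 := vol64_le C hδ0.le (by linarith) x }

end block

end Crest.Agent.R247.Env879
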