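import Crest.Agent.R247.Max3_193
import Crest.Agent.R247.Num4_824
import Crest.Agent.R247.Iso2_311

/-!
# R247, FD-ASM (2) (helper656): sums of `phat`, volume fields

* `ph_summ`, `ph_tail` : `phat` is summable with small tails;
* `drop_le_phat`;
* `ball_ge`, `ball_le'`, `vr_le` : volume pinching on a manifold with `Ric ≥ -κ`.
-/

set_option autoImplicit false
set_option linter.unusedSectionVars false

open MeasureTheory Filter Topology Set Metric
open scoped RealInnerProductSpace ENNReal NNReal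

noncomputable section

namespace Crest.Agent.R247.Fd656

open Crest.Agent.R247.Mcp688 Crest.Agent.R247.Mcp688.Rad Crest.Agent.R247.Far553
open Crest.Agent.R247.Num824 Crest.Agent.R247.Max193

section weights

/-- weights -/
def wt (n : ℕ) (a : ℝ) (i : ℕ) : ℝ := Real.exp (-(a * 2 ^ i)) * (2 ^ i) ^ n

lemma wt_nonneg (n : ℕ) (a : ℝ) (i : ℕ) : 0 ≤ wt n a i := by unfold wt; positivity

/-- the constant in `wt_le` -/
def Kw (n : ℕ) (a : ℝ) : ℝ := (n + 2).factorial / a ^ (n + 2)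

lemma Kw_nonneg (n : ℕ) {a : ℝ} (ha : 0 < a) : 0 ≤ Kw n a := by unfold Kw; positivity

lemma wt_le (n : ℕ) {a : ℝ} (ha : 0 < a) (i : ℕ) : wt n a i ≤ Kw n a * (1 / 4 : ℝ) ^ i := by
  have h1 : (a * 2 ^ i) ^ (n + 2) / (n + 2).factorial ≤ Real.exp (a * 2 ^ i) :=
    Real.pow_div_factorial_le_exp _ (by positivity) _
  have h2 : (0 : ℝ) < (n + 2).factorial := by positivity
  have h3 : 0 < Real.exp (a * 2 ^ i) := Real.exp_pos _
  have h5 : (1 / 4 : ℝ) ^ i * (2 ^ i) ^ 2 = 1 := by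
    rw [← pow_mul, mul_comm i 2, pow_mul, ← mul_pow]; norm_num
  have h6 : (0:ℝ) < (1 / 4 : ℝ) ^ i := by positivity
  rw [div_le_iff₀ h2] at h1
  unfold wt Kw
  rw [Real.exp_neg, inv_mul_le_iff₀ h3, div_mul_eq_mul_div, mul_div_assoc', le_div_iff₀ (by positivity)]
  calc ((2:ℝ) ^ i) ^ n * a ^ (n + 2)
      = (a * 2 ^ i) ^ (n + 2) * (1 / 4 : ℝ) ^ i := by
        rw [mul_pow, pow_add (2 ^ i : ℝ) n 2]
        linear_combination (-(a ^ (n + 2) * ((2:ℝ) ^ i) ^ n)) * h5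
    _ ≤ (Real.exp (a * 2 ^ i) * (n + 2).factorial) * (1 / 4 : ℝ) ^ i := by gcongr
    _ = _ := by ring

lemma summable_wt (n : ℕ) {a : ℝ} (ha : 0 < a) : Summable (wt n a) :=
  Summable.of_nonneg_of_le (wt_nonneg n a) (wt_le n ha)
    ((summable_geometric_of_lt_one (by norm_num) (by norm_num)).mul_left _)

lemma tail_wt (n : ℕ) {a : ℝ} (ha : 0 < a) (i : ℕ) :
    ∑' j, wt n a (i + j) ≤ 2 * Kw n a * dy i ^ 2 := by
  have hs : Summable fun j => wt n a (i + j) := by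
    have := (summable_nat_add_iff i).2 (summable_wt n ha)
    simpa [add_comm] using this
  have hg : Summable fun j : ℕ => Kw n a * (1 / 4 : ℝ) ^ (i + j) := by
    have : (fun j : ℕ => Kw n a * (1 / 4 : ℝ) ^ (i + j)) =
        fun j => (Kw n a * (1 / 4 : ℝ) ^ i) * (1 / 4 : ℝ) ^ j := by
      funext j; rw [pow_add]; ring
    rw [this]
    exact (summable_geometric_of_lt_one (by norm_num) (by norm_num)).mul_left _
  refine (hs.tsum_le_tsum (fun j => wt_le n ha _) hg).trans ?_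
  have e : (fun j : ℕ => Kw n a * (1 / 4 : ℝ) ^ (i + j)) =
        fun j => (Kw n a * (1 / 4 : ℝ) ^ i) * (1 / 4 : ℝ) ^ j := by
      funext j; rw [pow_add]; ring
  rw [e, tsum_mul_left, tsum_geometric_of_lt_one (by norm_num) (by norm_num)]
  have h1 : dy i ^ 2 = (1 / 4 : ℝ) ^ i := by
    unfold dy; rw [← pow_mul, mul_comm i 2, pow_mul]; norm_num
  rw [h1]
  have h2 : 0 ≤ Kw n a * (1 / 4 : ℝ) ^ i := mul_nonneg (Kw_nonneg n ha) (by positivity)
  norm_num
  linarith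

end weights

section phat

variable {n : ℕ} {κ : ℝ} {X : Type*} [MetricSpace X] [MeasurableSpace X] [BorelSpace X]
  [ProperSpace X] {μ : Measure X} [IsFiniteMeasureOnCompacts μ]

lemma two_pow_mul_dy_eq {i j : ℕ} (h : i ≤ j + 4) : 2 ^ i * dy j = 16 / 2 ^ (j + 4 - i) := by
  obtain ⟨m, hm⟩ := Nat.exists_eq_add_of_le h
  rw [hm, Nat.add_sub_cancel_left]
  unfold dy
  rw [eq_div_iff (by positivity)]
  have h2 : (2:ℝ) ^ i * 2 ^ m = 2 ^ j * 16 := by
    rw [← pow_add, ← hm, pow_add]; norm_num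
  have h3 : (1 / 2 : ℝ) ^ j * 2 ^ j = 1 := by rw [← mul_pow]; norm_num
  linear_combination (1 / 2 : ℝ) ^ j * h2 + 16 * h3

/-- `phat` as a convolution -/
lemma phat_eq (n : ℕ) (κ : ℝ) (μ : Measure X) (x : X) (a : ℝ) (j : ℕ) :
    phat n κ μ x a j =
      ∑ p ∈ Finset.HasAntidiagonal.antidiagonal (j + 4), wt n a p.1 * pd n κ μ x (16 / 2 ^ p.2) + wt n a j := by
  have hd := dy_pos j
  rw [Finset.Nat.sum_antidiagonal_eq_sum_range_succ
    (fun i m => wt n a i * pd n κ μ x (16 / 2 ^ m)) (j + 4)]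
  unfold phat
  rw [mul_add, Finset.mul_sum]
  congr 1
  · refine Finset.sum_congr rfl fun i hi => ?_
    have hi' : i ≤ j + 4 := by have := Finset.mem_range.1 hi; omega
    rw [← two_pow_mul_dy_eq hi']
    unfold wt pd
    rw [mul_pow, inv_pow, mul_div_assoc']
    have h2 : ((2:ℝ) ^ i) ^ n ≠ 0 := by positivity
    have h3 : dy j ^ n ≠ 0 := by positivity
    rw [eq_div_iff (by positivity)]
    field_simp
  · unfold wt dy
    have : ((1 / 2 : ℝ) ^ j)⁻¹ = 2 ^ j := by rw [one_div, inv_pow, inv_inv]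
    rw [this]; ring

lemma pd_nonneg' (C : Rad n κ X μ) (hκ : 0 ≤ κ) (x : X) {r : ℝ} (hr : 0 < r) :
    0 ≤ pd n κ μ x r :=
  pd_nonneg C hκ x hr (isCompact_closedBall x r).measure_lt_top.ne

lemma phat_nonneg' (C : Rad n κ X μ) (hκ : 0 ≤ κ) (x : X) (a : ℝ) (j : ℕ) :
    0 ≤ phat n κ μ x a j := by
  rw [phat_eq]
  exact add_nonneg (Finset.sum_nonneg fun p _ => mul_nonneg (wt_nonneg _ _ _)
    (pd_nonneg' C hκ x (by positivity))) (wt_nonneg _ _ _)

/-- constant of the tails -/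
def Ct (n : ℕ) (a ω : ℝ) : ℝ := (∑' i, wt n a i) * (260 * 2 ^ n * ω) + 2 * Kw n a

lemma tsum_wt_nonneg (n : ℕ) (a : ℝ) : 0 ≤ ∑' i, wt n a i := tsum_nonneg (wt_nonneg n a)

lemma Ct_nonneg (n : ℕ) {a ω : ℝ} (ha : 0 < a) (hω : 0 ≤ ω) : 0 ≤ Ct n a ω := by
  unfold Ct
  have := tsum_wt_nonneg n a
  have := Kw_nonneg n ha
  positivity

/-- **`phat` is summable, and its tails are small** -/
theorem phat_tail (C : Rad n κ X μ) (hκ : 0 ≤ κ) (x : X) {a : ℝ} (ha : 0 < a) {δ ω : ℝ}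
    (hδ : δ ≤ 1) (hω : 0 ≤ ω) (h1 : κ * 16 ^ 2 ≤ δ) (hv : (1 - δ) * ω ≤ vr n μ x (2 * 16))
    (hb : ∀ s, 0 < s → s ≤ 2 * 16 → vr n μ x s ≤ (1 + δ) * ω) :
    Summable (phat n κ μ x a) ∧
      ∀ i, ∑' j, phat n κ μ x a (i + j) ≤ Ct n a ω * (δ + dy i ^ 2) := by
  have hδ0 : 0 ≤ δ := le_trans (by positivity) h1
  set P : ℕ → ℝ := fun m => pd n κ μ x (16 / 2 ^ m) with hP
  have hP0 : ∀ m, 0 ≤ P m := fun m => pd_nonneg' C hκ x (by positivity)
  have hPle : ∀ N, ∑ m ∈ Finset.range N, P m ≤ 260 * 2 ^ n * ω * δ := fun N =>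
    sum_pd_le' n hκ μ x (by norm_num) hδ hω h1 hv hb N
  have hPs : Summable P := summable_of_sum_range_le hP0 hPle
  have hPt : ∑' m, P m ≤ 260 * 2 ^ n * ω * δ := Real.tsum_le_of_sum_range_le hP0 hPle
  have hw := summable_wt n ha
  have hmul : Summable fun p : ℕ × ℕ => wt n a p.1 * P p.2 :=
    hw.mul_of_nonneg hPs (wt_nonneg n a) hP0
  set c : ℕ → ℝ := fun k => ∑ p ∈ Finset.HasAntidiagonal.antidiagonal k, wt n a p.1 * P p.2 with hc
  have hc0 : ∀ k, 0 ≤ c k := fun k => Finset.sum_nonneg fun p _ =>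
    mul_nonneg (wt_nonneg _ _ _) (hP0 _)
  have hcs : Summable c := summable_sum_mul_antidiagonal_of_summable_mul hmul
  have hct : (∑' i, wt n a i) * ∑' m, P m = ∑' k, c k :=
    hw.tsum_mul_tsum_eq_tsum_sum_antidiagonal hPs hmul
  have hph : phat n κ μ x a = fun j => c (j + 4) + wt n a j := by
    funext j; rw [phat_eq]
  have hcs4 : Summable fun j => c (j + 4) := (summable_nat_add_iff 4).2 hcs
  refine ⟨by rw [hph]; exact hcs4.add hw, fun i => ?_⟩
  rw [hph]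
  have hs1 : Summable fun j => c (i + j + 4) := by
    have := (summable_nat_add_iff (i + 4)).2 hcs
    refine this.congr fun j => ?_
    congr 1; omega
  have hs2 : Summable fun j => wt n a (i + j) := by
    have := (summable_nat_add_iff i).2 hw
    simpa [add_comm] using this
  rw [hs1.tsum_add hs2]
  have e1 : ∑' j, c (i + j + 4) ≤ ∑' k, c k := by
    have := hcs.sum_add_tsum_nat_add (i + 4)
    have h3 : ∑' j, c (j + (i + 4)) = ∑' j, c (i + j + 4) := by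
      congr 1; funext j; congr 1; omega
    have h4 : 0 ≤ ∑ k ∈ Finset.range (i + 4), c k := Finset.sum_nonneg fun k _ => hc0 k
    linarith
  have e2 := tail_wt n ha i
  have hW := tsum_wt_nonneg n a
  have e3 : (∑' i, wt n a i) * ∑' m, P m ≤ (∑' i, wt n a i) * (260 * 2 ^ n * ω * δ) :=
    mul_le_mul_of_nonneg_left hPt hW
  have hK := Kw_nonneg n ha
  have hd2 : 0 ≤ dy i ^ 2 := by positivity
  unfold Ct
  have e4 : 0 ≤ (∑' i, wt n a i) * (260 * 2 ^ n * ω) * dy i ^ 2 := by positivity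
  have e5 : 0 ≤ 2 * Kw n a * δ := by positivity
  have e6 : ((∑' i, wt n a i) * (260 * 2 ^ n * ω) + 2 * Kw n a) * (δ + dy i ^ 2) =
    (∑' i, wt n a i) * (260 * 2 ^ n * ω * δ) + 2 * Kw n a * dy i ^ 2 +
      ((∑' i, wt n a i) * (260 * 2 ^ n * ω) * dy i ^ 2 + 2 * Kw n a * δ) := by ring
  rw [e6]
  linarith [hct]

/-- the drop at scale `16 dy j` -/
theorem drop_le_phat (C : Rad n κ X μ) (hκ : 0 ≤ κ) (x : X) (a : ℝ) (j : ℕ) :
    Rad.drop n κ μ x (16 * dy j) ≤ Real.exp (16 * a) * phat n κ μ x a j * dy j ^ n := by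
  have hd := dy_pos j
  have hterm : ∀ p ∈ Finset.HasAntidiagonal.antidiagonal (j + 4), 0 ≤ wt n a p.1 * pd n κ μ x (16 / 2 ^ p.2) :=
    fun p _ => mul_nonneg (wt_nonneg _ _ _) (pd_nonneg' C hκ x (by positivity))
  have h1 : wt n a 4 * pd n κ μ x (16 / 2 ^ j) ≤ phat n κ μ x a j := by
    rw [phat_eq]
    have h2 := Finset.single_le_sum (f := fun p : ℕ × ℕ => wt n a p.1 * pd n κ μ x (16 / 2 ^ p.2))
      hterm (show (4, j) ∈ Finset.HasAntidiagonal.antidiagonal (j + 4) by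
        rw [Finset.HasAntidiagonal.mem_antidiagonal]; omega)
    have h3 := wt_nonneg n a j
    simp only at h2
    linarith
  have e1 : (16 : ℝ) / 2 ^ j = 16 * dy j := by
    unfold dy; rw [one_div, inv_pow]; rfl
  rw [e1] at h1
  rw [drop_eq_pd n κ μ x (show 0 < 16 * dy j by positivity)]
  unfold wt at h1
  have h4 : Real.exp (16 * a) * Real.exp (-(a * 2 ^ 4)) = 1 := by
    rw [← Real.exp_add]
    have : 16 * a + -(a * 2 ^ 4) = 0 := by ring
    rw [this, Real.exp_zero]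
  have h5 := mul_le_mul_of_nonneg_left h1 (Real.exp_pos (16 * a)).le
  have h6 : Real.exp (16 * a) * (Real.exp (-(a * 2 ^ 4)) * (2 ^ 4) ^ n * pd n κ μ x (16 * dy j)) =
      16 ^ n * pd n κ μ x (16 * dy j) := by
    have : Real.exp (16 * a) * (Real.exp (-(a * 2 ^ 4)) * (2 ^ 4) ^ n * pd n κ μ x (16 * dy j)) =
      (Real.exp (16 * a) * Real.exp (-(a * 2 ^ 4))) * ((2 ^ 4) ^ n * pd n κ μ x (16 * dy j)) := by
      ring
    rw [this, h4, one_mul]; norm_num
  rw [h6] at h5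
  rw [mul_pow]
  calc 16 ^ n * dy j ^ n * pd n κ μ x (16 * dy j)
      = (16 ^ n * pd n κ μ x (16 * dy j)) * dy j ^ n := by ring
    _ ≤ _ := by gcongr

end phat

end Crest.Agent.R247.Fd656
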