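import Crest.Agent.R247.Fd0_656
import Crest.Agent.R247.Fd1_656
import Crest.Agent.R247.Max5_193
import Crest.Agent.R247.Fv2_510
import Crest.Agent.R247.Obj2_554

/-!
# R247, FD-ASM (3) (helper656): the environment `EnvF` of one centre and the literal Props of the
fields of `FarD` (constants depend on `n` only)

`ph := phx n κ μ x = phat n κ μ x (c3 n / 64)`.
-/

set_option autoImplicit false
set_option linter.unusedSectionVars false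
set_option linter.unusedVariables false

open MeasureTheory Filter Topology Set Metric
open scoped RealInnerProductSpace ENNReal NNReal

noncomputable section

namespace Crest.Agent.R247.Fd656

universe u

open Crest.Agent.R242 Crest.Agent.R247.Dir593 Crest.Agent.R247.Dir593.GradS
open Crest.Agent.R247.Smv126 Crest.Agent.R247.Obj554 Crest.Agent.R247.Hes124
open Crest.Agent.R247.Far553 Crest.Agent.R247.Mcp688 Crest.Agent.R247.Max193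

/-- volume of the unit ball of `ℝⁿ` -/
def om (n : ℕ) : ℝ := (volume (ball (0 : EuclideanSpace ℝ (Fin n)) 1)).toReal

/-- bound of the volume of `B(x, 64)` (`κ ≤ 1/1024`) -/
def V64 (n : ℕ) : ℝ := 8 * 64 ^ n * om n

/-- the environment of one centre `x`: everything the remaining fields may use -/
structure EnvF {n : ℕ} {κ : ℝ} {X : Type u} [MetricSpace X] [ProperSpace X] [MeasurableSpace X]
    [BorelSpace X] {μ : Measure X} [IsFiniteMeasureOnCompacts μ] (B : BochS n κ X μ)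
    (C : Rad n κ X μ) (x : X) (δ : ℝ) : Prop where
  n_pos : 1 ≤ n
  κ_nonneg : 0 ≤ κ
  κ_le : 1024 * κ ≤ 1
  κ_δ : κ * 16 ^ 2 ≤ δ
  δ_le : δ ≤ 1 / 4
  hA : Appr B
  W : WLap B.toGradS n κ
  hL : LK B.toGradS C
  Q : Nonempty (Fv510.SegS B C)
  sing : ∀ z : X, μ {z} = 0
  pos : ∀ (z : X) (r : ℝ), 0 < r → μ (ball z r) ≠ 0
  vol_ge : ∀ y r, dist x y < 20 → 0 < r → r ≤ 20 →
    ENNReal.ofReal ((1 - δ) * om n * r ^ n) ≤ μ (ball y r)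
  vol_le : ∀ y r, dist x y < 20 → 0 < r → r ≤ 20 →
    μ (ball y r) ≤ ENNReal.ofReal ((1 + δ) * om n * r ^ n)
  /-- Bishop (all balls) -/
  bishop : ∀ (z : X) (s : ℝ), 0 < s →
    μ (closedBall z s) ≤ ENNReal.ofReal (Real.exp (κ * s ^ 2 / 2) * s ^ n * om n)
  vol64 : μ.real (closedBall x 64) ≤ V64 n

/-- the far defect of the centre `x` -/
def phx (n : ℕ) (κ : ℝ) {X : Type u} [MetricSpace X] [MeasurableSpace X] (μ : Measure X) (x : X)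
    (j : ℕ) : ℝ := phat n κ μ x (c3 n / 64) j

section fields

/-- (D1a) -/
def D1aP (n : ℕ) : Prop := ∀ K : ℝ, 1 ≤ K → ∃ A : ℝ, 0 < A ∧
  ∀ (κ : ℝ) (X : Type u) [MetricSpace X] [ProperSpace X] [MeasurableSpace X] [BorelSpace X]
    (μ : Measure X) [IsFiniteMeasureOnCompacts μ] (B : BochS n κ X μ) (C : Rad n κ X μ) (x : X)
    (δ : ℝ), EnvF B C x δ → ∀ O : HObj B x,
  ∀ᵐ v ∂μ, dist x v < 12 → ∀ k, ∀ a b : ℝ, 0 < a → a ≤ b → b < dist x v →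
    8 * (b - a) ≤ a → 8 * (b - a) ≤ dist x v - b → dy k ≤ b - a →
      ∫⁻ r in Icc a b, loc μ n K (dy k) (fun z => Hf O k z + gf B x k z) (ray C x v r) ≤
        ENNReal.ofReal (A * a * Real.sqrt ((b - a) / min a (dist x v - b)))

/-- (D1b) -/
def D1bP (n : ℕ) : Prop := ∀ K ε : ℝ, 1 ≤ K → 0 < ε → ∃ A : ℝ, 0 < A ∧
  ∀ (κ : ℝ) (X : Type u) [MetricSpace X] [ProperSpace X] [MeasurableSpace X] [BorelSpace X]
    (μ : Measure X) [IsFiniteMeasureOnCompacts μ] (B : BochS n κ X μ) (C : Rad n κ X μ) (x : X)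
    (δ : ℝ), EnvF B C x δ → ∀ O : HObj B x, ∀ j, 4 ≤ j →
  μ {v | 1 ≤ dist x v ∧ dist x v < 12 ∧ bad C x (fun k z => Hf O k z + gf B x k z) K ε j v} ≤
    ENNReal.ofReal (A * phx n κ μ x j)

/-- (D2) H -/
def D2HP (n : ℕ) : Prop := ∀ K s : ℝ, 1 ≤ K → 0 < s → ∃ A : ℝ, 0 < A ∧
  ∀ (κ : ℝ) (X : Type u) [MetricSpace X] [ProperSpace X] [MeasurableSpace X] [BorelSpace X]
    (μ : Measure X) [IsFiniteMeasureOnCompacts μ] (B : BochS n κ X μ) (C : Rad n κ X μ) (x : X)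
    (δ : ℝ), EnvF B C x δ → ∀ O : HObj B x, ∀ j k, 4 ≤ j → j ≤ k →
    ∫⁻ z in NN C x (dy j) (dy k) K s, ENNReal.ofReal (Hf O k z ^ 2) ∂μ ≤
      ENNReal.ofReal (A * phx n κ μ x j * dy j ^ n)

/-- (D2) g -/
def D2gP (n : ℕ) : Prop := ∀ K s : ℝ, 1 ≤ K → 0 < s → ∃ A : ℝ, 0 < A ∧
  ∀ (κ : ℝ) (X : Type u) [MetricSpace X] [ProperSpace X] [MeasurableSpace X] [BorelSpace X]
    (μ : Measure X) [IsFiniteMeasureOnCompacts μ] (B : BochS n κ X μ) (C : Rad n κ X μ) (x : X)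
    (δ : ℝ), EnvF B C x δ → ∀ O : HObj B x, ∀ j k, 4 ≤ j → j ≤ k →
    ∫⁻ z in NN C x (dy j) (dy k) K s, ENNReal.ofReal (gf B x k z ^ 2) ∂μ ≤
      ENNReal.ofReal (A * phx n κ μ x j * dy j ^ n)

/-- (D2) q -/
def D2qP (n : ℕ) : Prop := ∀ K s : ℝ, 1 ≤ K → 0 < s → ∃ A : ℝ, 0 < A ∧
  ∀ (κ : ℝ) (X : Type u) [MetricSpace X] [ProperSpace X] [MeasurableSpace X] [BorelSpace X]
    (μ : Measure X) [IsFiniteMeasureOnCompacts μ] (B : BochS n κ X μ) (C : Rad n κ X μ) (x : X)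
    (δ : ℝ), EnvF B C x δ → ∀ O : HObj B x, ∀ j k, 4 ≤ j → j ≤ k →
    ∫⁻ z in NN C x (dy j) (dy k) K s, ENNReal.ofReal (qf B x k z) ∂μ ≤
      ENNReal.ofReal (A * phx n κ μ x j * dy j ^ n)

/-- (D2) k -/
def D2kP (n : ℕ) : Prop := ∀ K s : ℝ, 1 ≤ K → 0 < s → ∃ A : ℝ, 0 < A ∧
  ∀ (κ : ℝ) (X : Type u) [MetricSpace X] [ProperSpace X] [MeasurableSpace X] [BorelSpace X]
    (μ : Measure X) [IsFiniteMeasureOnCompacts μ] (B : BochS n κ X μ) (C : Rad n κ X μ) (x : X)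
    (δ : ℝ), EnvF B C x δ → ∀ O : HObj B x, ∀ j k, 4 ≤ j → j ≤ k →
    ∫⁻ z in NN C x (dy j) (dy k) K s, ENNReal.ofReal |kf B x k z| ∂μ ≤
      ENNReal.ofReal (A * dy k ^ 2 * phx n κ μ x j * dy j ^ n)

/-- (D2) nk, L² part -/
def D2n2P (n : ℕ) : Prop := ∀ K s : ℝ, 1 ≤ K → 0 < s → ∃ A : ℝ, 0 < A ∧
  ∀ (κ : ℝ) (X : Type u) [MetricSpace X] [ProperSpace X] [MeasurableSpace X] [BorelSpace X]
    (μ : Measure X) [IsFiniteMeasureOnCompacts μ] (B : BochS n κ X μ) (C : Rad n κ X μ) (x : X)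
    (δ : ℝ), EnvF B C x δ → ∀ O : HObj B x, ∀ j k, 4 ≤ j → j ≤ k →
    ∫⁻ z in NN C x (dy j) (dy k) K s ∩ {z | |kf B x k z| ≤ dy k ^ 2},
        ENNReal.ofReal (nf O k z ^ 2) ∂μ ≤
      ENNReal.ofReal (A * dy k ^ 2 * (1 + (k - j : ℕ)) * phx n κ μ x j * dy j ^ n)

/-- (D2) nk, L¹ part -/
def D2n1P (n : ℕ) : Prop := ∀ K s : ℝ, 1 ≤ K → 0 < s → ∃ A : ℝ, 0 < A ∧
  ∀ (κ : ℝ) (X : Type u) [MetricSpace X] [ProperSpace X] [MeasurableSpace X] [BorelSpace X]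
    (μ : Measure X) [IsFiniteMeasureOnCompacts μ] (B : BochS n κ X μ) (C : Rad n κ X μ) (x : X)
    (δ : ℝ), EnvF B C x δ → ∀ O : HObj B x, ∀ j k, 4 ≤ j → j ≤ k →
    ∫⁻ z in NN C x (dy j) (dy k) K s ∩ {z | dy k ^ 2 < |kf B x k z|},
        ENNReal.ofReal (nf O k z) ∂μ ≤
      ENNReal.ofReal (A * dy k * (1 + (k - j : ℕ)) * phx n κ μ x j * dy j ^ n)

/-- (D2') -/
def D2bP (n : ℕ) : Prop := ∃ A : ℝ, 0 < A ∧
  ∀ (κ : ℝ) (X : Type u) [MetricSpace X] [ProperSpace X] [MeasurableSpace X] [BorelSpace X]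
    (μ : Measure X) [IsFiniteMeasureOnCompacts μ] (B : BochS n κ X μ) (C : Rad n κ X μ) (x : X)
    (δ : ℝ), EnvF B C x δ → ∀ O : HObj B x, ∀ j, 4 ≤ j →
    ∫⁻ z in ball x (16 * dy j), ENNReal.ofReal (Hf O j z ^ 2 + gf B x j z ^ 2 + qf B x j z) ∂μ ≤
      ENNReal.ofReal (A * phx n κ μ x j * dy j ^ n)

/-- (PE) -/
def PeP (n : ℕ) : Prop :=
  ∀ (κ : ℝ) (X : Type u) [MetricSpace X] [ProperSpace X] [MeasurableSpace X] [BorelSpace X]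
    (μ : Measure X) [IsFiniteMeasureOnCompacts μ] (B : BochS n κ X μ) (C : Rad n κ X μ) (x : X)
    (δ : ℝ), EnvF B C x δ → ∀ O : HObj B x, ∀ k,
  ∀ᵐ p ∂(μ.prod μ), dist x p.1 < 12 → dist x p.2 < 12 →
    ∃ A : ℝ, HasDerivWithinAt (fun t : ℝ => dist (C.T x t p.1) (C.T x t p.2)) A (Iio 1) 1 ∧
      ENNReal.ofReal |A - dist p.1 p.2| ≤ err C (dy k) (Hf O k) (gf B x k) p.1 p.2

/-- (D3) -/
def D3P (n : ℕ) : Prop :=
  ∀ (κ : ℝ) (X : Type u) [MetricSpace X] [ProperSpace X] [MeasurableSpace X] [BorelSpace X]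
    (μ : Measure X) [IsFiniteMeasureOnCompacts μ] (B : BochS n κ X μ) (C : Rad n κ X μ) (x : X)
    (δ : ℝ), EnvF B C x δ → ∀ O : HObj B x, ∀ k,
  ∀ᵐ p ∂(μ.prod μ), dist x p.1 < 2 → dist x p.2 < 12 → p.1 ≠ p.2 →
    ∃ Dw : ℝ, HasDerivWithinAt (fun t : ℝ => dist (C.T x t p.1) p.2) Dw (Iio 1) 1 ∧
      HasDerivWithinAt (fun τ : ℝ => dist x (ray C p.1 p.2 τ) ^ 2 / 2) (-Dw) (Ici 0) 0 ∧
      Nonempty (AlongD (dist p.1 p.2) (dy k) (fun τ => dist x (ray C p.1 p.2 τ) ^ 2 / 2)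
        (fun τ => qf B x k (ray C p.1 p.2 τ)) (fun τ => kf B x k (ray C p.1 p.2 τ))
        (fun τ => Hf O k (ray C p.1 p.2 τ)) (fun τ => gf B x k (ray C p.1 p.2 τ))
        (fun τ => nf O k (ray C p.1 p.2 τ)) Dw (gf B x k p.1))

end fields

end Crest.Agent.R247.Fd656
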