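import Crest.Agent.R247.Fd2_656
import Crest.Agent.R247.Iso2_311
import Crest.Agent.R247.Mcp7_688

/-!
# R247, FD-ASM (4) (helper656): volume pinching on a manifold with `Ric ≥ -κ`
-/

set_option autoImplicit false
set_option linter.unusedSectionVars false

open Bundle Bornology Set MeasureTheory Manifold Filter Metric Topology
open scoped ENNReal ContDiff Topology NNReal

noncomputable section

namespace Crest.Agent.R247.Fd656

open Crest.Agent.R247.Mcp688 Crest.Agent.R247.Far553 Crest.Agent.R247.Num824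

lemma vol_ball_one (n : ℕ) :
    volume (ball (0 : EuclideanSpace ℝ (Fin n)) 1) = ENNReal.ofReal (om n) :=
  (ENNReal.ofReal_toReal measure_ball_lt_top.ne).symm

lemma om_pos (n : ℕ) : 0 < om n :=
  ENNReal.toReal_pos (measure_ball_pos _ _ one_pos).ne' measure_ball_lt_top.ne

lemma vol_ball (n : ℕ) {r : ℝ} (hr : 0 < r) :
    volume (ball (0 : EuclideanSpace ℝ (Fin n)) r) = ENNReal.ofReal (om n * r ^ n) := by
  rw [Measure.addHaar_ball_of_pos _ _ hr, vol_ball_one, finrank_euclideanSpace_fin,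
    ← ENNReal.ofReal_mul (by positivity), mul_comm]

lemma exp_le_one_add {t : ℝ} (h0 : 0 ≤ t) (h1 : t ≤ 1) : Real.exp t ≤ 1 + 2 * t := by
  have h2 := Real.exp_bound' h0 h1 (n := 1) (by norm_num)
  simp at h2
  linarith

section

variable {n : ℕ} {M : Type*} [MetricSpace M] [ChartedSpace (EuclideanSpace ℝ (Fin n)) M]
  [IsManifold (𝓡 n) ∞ M]
  [RiemannianBundle (fun p : M => TangentSpace (𝓡 n) p)]
  [IsContMDiffRiemannianBundle (𝓡 n) ∞ (EuclideanSpace ℝ (Fin n)) (fun p : M => TangentSpace (𝓡 n) p)]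
  [IsRiemannianManifold (𝓡 n) M] [MeasurableSpace M] [BorelSpace M] [ProperSpace M]

theorem ball_le_om {κ : ℝ} (C : Rad n κ M (μHE[n] : Measure M)) (hκ : 0 ≤ κ) (z : M) (s : ℝ) :
    (μHE[n] : Measure M) (ball z s) ≤
      ENNReal.ofReal (Real.exp (κ * s ^ 2 / 2) * s ^ n * om n) := by
  have h := Iso311.bishop C hκ z s
  rwa [vol_ball_one, ← ENNReal.ofReal_mul' (om_pos n).le] at h

theorem closedBall_le_om {κ : ℝ} (C : Rad n κ M (μHE[n] : Measure M)) (hκ : 0 ≤ κ) (z : M)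
    (s : ℝ) : (μHE[n] : Measure M) (closedBall z s) ≤
      ENNReal.ofReal (Real.exp (κ * s ^ 2 / 2) * s ^ n * om n) := by
  have hc : Continuous fun s : ℝ => ENNReal.ofReal (Real.exp (κ * s ^ 2 / 2) * s ^ n * om n) :=
    ENNReal.continuous_ofReal.comp (by fun_prop)
  have ht : Tendsto (fun s : ℝ => ENNReal.ofReal (Real.exp (κ * s ^ 2 / 2) * s ^ n * om n))
      (𝓝[>] s) (𝓝 (ENNReal.ofReal (Real.exp (κ * s ^ 2 / 2) * s ^ n * om n))) :=
    (hc.tendsto s).mono_left nhdsWithin_le_nhds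
  refine ge_of_tendsto ht ?_
  filter_upwards [self_mem_nhdsWithin] with s' hs'
  exact (measure_mono (closedBall_subset_ball hs')).trans (ball_le_om C hκ z s')

/-- upper volume bound at scales `≤ 32` -/
theorem closedBall_le_pinch {κ : ℝ} (C : Rad n κ M (μHE[n] : Measure M)) (hκ : 0 ≤ κ)
    (hκ1 : 512 * κ ≤ 1) (z : M) {s : ℝ} (hs0 : 0 ≤ s) (hs : s ≤ 32) :
    (μHE[n] : Measure M) (closedBall z s) ≤
      ENNReal.ofReal ((1 + 1024 * κ) * om n * s ^ n) := by
  refine (closedBall_le_om C hκ z s).trans (ENNReal.ofReal_le_ofReal ?_)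
  have h1 : κ * s ^ 2 / 2 ≤ 512 * κ := by
    have : s ^ 2 ≤ 32 ^ 2 := by gcongr
    nlinarith
  have h2 : Real.exp (κ * s ^ 2 / 2) ≤ 1 + 1024 * κ := by
    refine (Real.exp_le_exp.2 h1).trans ((exp_le_one_add (by positivity) hκ1).trans ?_)
    linarith
  have h3 := (om_pos n).le
  have h4 : 0 ≤ s ^ n * om n := by positivity
  nlinarith

theorem vr_le_pinch {κ : ℝ} (C : Rad n κ M (μHE[n] : Measure M)) (hκ : 0 ≤ κ)
    (hκ1 : 512 * κ ≤ 1) (z : M) {s : ℝ} (hs0 : 0 < s) (hs : s ≤ 2 * 16) :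
    vr n (μHE[n] : Measure M) z s ≤ (1 + 1024 * κ) * om n := by
  have h := closedBall_le_pinch C hκ hκ1 z hs0.le (by linarith)
  unfold vr Vc
  rw [div_le_iff₀ (by positivity)]
  exact ENNReal.toReal_le_of_le_ofReal (by
    have := (om_pos n).le
    positivity) h

theorem le_vr_pinch [IsFiniteMeasureOnCompacts (μHE[n] : Measure M)] {δ : ℝ} {z : M} {s : ℝ}
    (hs0 : 0 < s)
    (h : ENNReal.ofReal ((1 - δ) * om n * s ^ n) ≤ (μHE[n] : Measure M) (ball z s)) :
    (1 - δ) * om n ≤ vr n (μHE[n] : Measure M) z s := by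
  unfold vr Vc
  rw [le_div_iff₀ (by positivity)]
  have h1 := h.trans (measure_mono ball_subset_closedBall)
  have hfin : (μHE[n] : Measure M) (closedBall z s) ≠ ⊤ :=
    (isCompact_closedBall z s).measure_lt_top.ne
  exact (ENNReal.ofReal_le_iff_le_toReal hfin).1 h1

theorem vol64_le {κ : ℝ} (C : Rad n κ M (μHE[n] : Measure M)) (hκ : 0 ≤ κ)
    (hκ1 : 1024 * κ ≤ 1) (z : M) :
    (μHE[n] : Measure M).real (closedBall z 64) ≤ V64 n := by
  have h := closedBall_le_om C hκ z 64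
  have h0 := (om_pos n).le
  have h1 : Real.exp (κ * 64 ^ 2 / 2) ≤ 8 := by
    have h2 : κ * 64 ^ 2 / 2 ≤ 2 := by linarith
    calc Real.exp (κ * 64 ^ 2 / 2) ≤ Real.exp 2 := Real.exp_le_exp.2 h2
      _ = Real.exp 1 ^ 2 := by rw [← Real.exp_nat_mul]; norm_num
      _ ≤ 2.7182818286 ^ 2 := by
          have := Real.exp_one_lt_d9.le
          have h0 := (Real.exp_pos 1).le
          gcongr
      _ ≤ 8 := by norm_num
  refine (ENNReal.toReal_le_of_le_ofReal (by positivity) h).trans ?_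
  unfold V64
  gcongr

end

end Crest.Agent.R247.Fd656
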