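import Crest.Agent.R247.Env_554
import Crest.Agent.R247.Sv12_436

/-!
# R247, FD-ASM (7) (helper656): `D1aP`, `D1bP` from 436's literal fields
-/

set_option autoImplicit false
set_option linter.unusedSectionVars false
set_option linter.unusedVariables false

open MeasureTheory Filter Topology Set Metric
open scoped RealInnerProductSpace ENNReal NNReal

noncomputable section

namespace Crest.Agent.R247.Fd656

universe u

open Crest.Agent.R242 Crest.Agent.R247.Dir593 Crest.Agent.R247.Dir593.GradS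
open Crest.Agent.R247.Smv126 Crest.Agent.R247.Obj554 Crest.Agent.R247.Hes124
open Crest.Agent.R247.Far553 Crest.Agent.R247.Mcp688 Crest.Agent.R247.Max193

variable {n : ℕ} {κ : ℝ} {X : Type u} [MetricSpace X] [ProperSpace X] [MeasurableSpace X]
    [BorelSpace X] {μ : Measure X} [IsFiniteMeasureOnCompacts μ] {B : BochS n κ X μ}
    {C : Rad n κ X μ} {x : X} {δ : ℝ}

/-- upper volume bound near `x` -/
theorem EnvF.vol16 (h : EnvF B C x δ) (y : X) (r : ℝ) (hy : dist x y ≤ 16) (hr : 0 < r)
    (hr1 : r ≤ 1) : μ (ball y r) ≤ ENNReal.ofReal (2 * om n * r ^ n) := by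
  refine (h.vol_le y r (by linarith) hr (by linarith)).trans (ENNReal.ofReal_le_ofReal ?_)
  have h1 := h.δ_le
  have h2 := (om_pos' n).le
  have h3 : 0 ≤ om n * r ^ n := by positivity
  nlinarith

theorem d1aP (n : ℕ) (hn : 1 ≤ n) : D1aP.{u} n := by
  intro K hK
  refine ⟨|Sv436.B1c n (2 * om n) (hdn n) K| + 1, by positivity, ?_⟩
  intro κ X _ _ _ _ μ _ B C x δ E O
  have h := Sv436.d1a_lit hn E.W E.hL E.κ_nonneg E.κ_le8 E.pos O (hdn_pos n) E.hd
    (by have := om_pos' n; positivity) E.vol16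
    (B1 := fun K => |Sv436.B1c n (2 * om n) (hdn n) K| + 1)
    (fun K _ => (le_abs_self _).trans (by linarith))
  exact h K hK

theorem d1bP (n : ℕ) (hn : 1 ≤ n) : D1bP.{u} n := by
  intro K ε hK hε
  refine ⟨|Sv436.B2c n (2 * om n) (hdn n) K ε| + 1, by positivity, ?_⟩
  intro κ X _ _ _ _ μ _ B C x δ E O j hj
  have h := Sv436.d1b_lit hn E.W E.hL E.κ_nonneg E.κ_le8 E.pos O (hdn_pos n) E.hd
    (by have := om_pos' n; positivity) E.vol16
    (B2 := fun K ε => |Sv436.B2c n (2 * om n) (hdn n) K ε| + 1)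
    (fun K ε _ _ => (le_abs_self _).trans (by linarith))
  exact h K ε hK hε j hj

end Crest.Agent.R247.Fd656
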