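import Crest.Agent.R247.Fv7_510
import Crest.Agent.R247.Fd2_656

/-!
R247, block (5-V) (helper510), part 8: `PeP n`, `D3P n` of `Fd2_656`.
-/

set_option autoImplicit false
set_option linter.unusedSectionVars false
open MeasureTheory Set Filter Topology
open scoped ENNReal NNReal RealInnerProductSpace

noncomputable section
namespace Crest.Agent.R247.Fv510

universe u

open Crest.Agent.R247.Mcp688 Crest.Agent.R247.Hes124 Crest.Agent.R247.Dir593
  Crest.Agent.R247.Dir593.GradS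
open Crest.Agent.R247.Far553 Crest.Agent.R247.Fd656 Crest.Agent.R247.Obj554

theorem peP (n : ℕ) : Fd656.PeP.{u} n := by
  intro κ X _ _ _ _ μ _ B C x δ E O
  obtain ⟨Q⟩ := E.Q
  have h1 : 4 * κ ≤ 1 := by linarith [E.κ_le, E.κ_nonneg]
  exact pe' Q E.κ_nonneg h1 E.hL E.W E.pos O

theorem d3P (n : ℕ) : Fd656.D3P.{u} n := by
  intro κ X _ _ _ _ μ _ B C x δ E O
  obtain ⟨Q⟩ := E.Q
  have h1 : 4 * κ ≤ 1 := by linarith [E.κ_le, E.κ_nonneg]
  exact d3' Q E.κ_nonneg h1 E.hL E.W E.pos O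

end Crest.Agent.R247.Fv510
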