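import Crest.Agent.R247.Sv13_436
import Crest.Agent.R247.D2b_62

/-! # R247 (helper436): `D2bP` (the field `d2_ball` of `FarD`), over helper62's `int_S_le`,
helper193's `int_N` and the ray inequality. -/

set_option autoImplicit false
set_option linter.unusedSectionVars false
open MeasureTheory Set Filter Topology Metric TopologicalSpace
open scoped ENNReal NNReal RealInnerProductSpace

noncomputable section
namespace Crest.Agent.R247.Sv436

universe u

open Crest.Agent.R247.Mcp688 Crest.Agent.R247.Far553 Crest.Agent.R242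
open Crest.Agent.R247.Dir593 Crest.Agent.R247.Dir593.GradS Crest.Agent.R247.Smv126
open Crest.Agent.R247.Obj554 Crest.Agent.R247.Hes124 Crest.Agent.R247.Fd656
open Crest.Agent.R247.Max193

section ray

variable {n : ℕ} {κ : ℝ} {X : Type*} [MetricSpace X] [ProperSpace X] [MeasurableSpace X]
  [BorelSpace X] {μ : Measure X} [IsFiniteMeasureOnCompacts μ]

/-- the ray inequality for the local means of `(H + g)²` -/
theorem ray_S (hn : 1 ≤ n) {B : BochS n κ X μ} {C : Rad n κ X μ} {x : X}
    (W : WLap B.toGradS n κ) (hκ : 0 ≤ κ) (hκ8 : 8 * κ ≤ 1) (O : HObj B x) (k : ℕ)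
    {qc D : X → ℝ} (hQ : QRep B C x k qc D) {v1 : ℝ} (hv1 : 0 < v1)
    (hd : ∀ y : X, ∀ᶠ ε in 𝓝[>] (0:ℝ), μ (closedBall y ε) ≤ ENNReal.ofReal (v1 * ε ^ n))
    {K : ℝ} (hK : 1 ≤ K) :
    ∀ᵐ v ∂μ, dist x v ≤ 16 → ∀ a b : ℝ, 0 < a → a ≤ b → b ≤ 1 →
      ∫⁻ t in Icc a b, loc μ n K (dy k) (fun z => (Hf O k z + gf B x k z) ^ 2) (C.T x t v) *
          ENNReal.ofReal t⁻¹ ≤
        ENNReal.ofReal ((cR2 n 1 K v1)⁻¹ * 10 * (qc (C.T x b v) +
          ∫ t in a..b, (2 * rqf B x k (C.T x t v) + CE n * eNum n (dy k)) / t)) := by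
  have hρ := dy_pos k
  have hρ1 := dy_le_one k
  have hκ1 : κ ≤ 1 := by linarith
  have h0 : (0:ℝ) < dy k ^ 2 := by positivity
  have hCN := CN_nonneg n hκ
  have hCE := CE_nonneg n
  have M := B.markov B.dense_V
  have hrq := rqf_ae W x k
  have hcpos : 0 < cR2 n 1 K v1 := cR2_pos zero_le_one hK hv1
  have hlip : ∀ R, ∃ L, ∀ y z, dist x y ≤ R → dist x z ≤ R → |qc y - qc z| ≤ L * dist y z := by
    intro R
    obtain ⟨L, hL⟩ := (hQ.lip.locallyLipschitzOn
      (s := closedBall x R)).exists_lipschitzOnWith_of_compact (isCompact_closedBall x R)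
    refine ⟨L, fun y z hy hz => ?_⟩
    have := hL.dist_le_mul y (by rwa [mem_closedBall, dist_comm]) z
      (by rwa [mem_closedBall, dist_comm])
    rwa [Real.dist_eq] at this
  have hrqb : ∃ Mb, ∀ᵐ z ∂μ, dist x z ≤ 16 →
      |2 * rqf B x k z + CE n * eNum n (dy k)| ≤ Mb := by
    have hq : ∀ᵐ z ∂μ, qk B x k z ≤ (dy k ^ 2)⁻¹ * cinf + CN n κ := by
      filter_upwards [qL_le (S := B.toGradS) (n := n) hκ hρ x] with z h1
      have h2 : hh x z ≤ cinf := Phi_le_cinf _
      have h3 : dy k ^ 2 * qk B x k z ≤ cinf + CN n κ * dy k ^ 2 := h1.trans (by linarith)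
      calc qk B x k z = (dy k ^ 2)⁻¹ * (dy k ^ 2 * qk B x k z) := by field_simp
        _ ≤ (dy k ^ 2)⁻¹ * (cinf + CN n κ * dy k ^ 2) :=
            mul_le_mul_of_nonneg_left h3 (inv_pos.2 h0).le
        _ = _ := by field_simp
    have hc := cinf_pos
    refine ⟨2 * ((dy k ^ 2)⁻¹ * cinf + CN n κ) + CE n * eNum n (dy k), ?_⟩
    filter_upwards [M.res_le h0 (by positivity) hq, hrq] with z h1 h2 _
    have h3 := rqf_nonneg B x k z
    have h4 := (eNum_pos n (dy k)).le
    have h5 := mul_nonneg hCE h4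
    rw [abs_of_nonneg (by linarith), h2]
    linarith
  obtain ⟨Mb, hMb⟩ := hrqb
  have hint := int_rhs W k hQ.ae_D hQ.ae_q hrq (CE n * eNum n (dy k))
  have hSm : Measurable fun z => (Hf O k z + gf B x k z) ^ 2 :=
    ((Hf_meas B x O k).add (gf_meas B x k)).pow_const 2
  have hpl := ploc (μ := μ) n (K := K) (ρ := dy k) hcpos (x := x) (R0 := 16) hSm
    (hint.const_mul 10) (PE B.toGradS (dy k))
    (fun E hE hs => by
      obtain ⟨h1, h2⟩ := hHFg_of W hκ hκ8 O k hQ.ae_D hQ.ae_q hrq hE hs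
      rw [integral_const_mul]
      exact ⟨h1, by positivity⟩)
    (fun E hE hs => by
      have hμ : μ E ≠ ∞ :=
        ((measure_mono hs).trans_lt (isCompact_closedBall x 16).measure_lt_top).ne
      filter_upwards [hR2_of hn W C hκ hv1 hd hK hρ hρ1 hE hμ] with z hz
      refine le_trans ?_ hz
      gcongr
      exact cR2_anti hκ hκ1 hK hv1)
  have hri := ray_ineq C x (q := qc) (D := D)
    (B := fun z => 2 * rqf B x k z + CE n * eNum n (dy k)) (R0 := 16)
    (c1 := (cR2 n 1 K v1)⁻¹ * 10) (by positivity) hQ.rd hlip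
    (A := fun y => loc μ n K (dy k) (fun z => (Hf O k z + gf B x k z) ^ 2) y) (by
      filter_upwards [hpl] with y hy hd
      obtain ⟨h1, h2⟩ := hy hd
      refine ⟨by linarith, h2.trans (ENNReal.ofReal_le_ofReal (le_of_eq ?_))⟩
      ring) hQ.nonneg hQ.lip.continuous.measurable
    (((rqf_meas B x k).const_mul 2).add measurable_const) hMb
  filter_upwards [hri] with v hv hdv a b ha hab hb
  rw [Measure.restrict_congr_set (Ioc_ae_eq_Icc (a := a) (b := b) (μ := volume)).symm]
  exact (hv hdv a b ha hab hb).2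

end ray

section env

variable {n : ℕ} {κ : ℝ} {X : Type u} [MetricSpace X] [ProperSpace X] [MeasurableSpace X]
    [BorelSpace X] {μ : Measure X} [IsFiniteMeasureOnCompacts μ] {B : BochS n κ X μ}
    {C : Rad n κ X μ} {x : X} {δ : ℝ}

/-- volume of the annulus `16 s ≤ d ≤ 24 s` -/
lemma env_ann (E : EnvF B C x δ) {s : ℝ} (hs : 0 < s) (hs1 : s ≤ 1 / 16) :
    ENNReal.ofReal (om n * s ^ n) ≤ μ (ann x (16 * s) (24 * s)) := by
  have hom := om_pos' n
  have hn := E.n_pos
  have h1 : μ (ball x (24 * s)) ≤ μ (ball x (16 * s)) + μ (ann x (16 * s) (24 * s)) :=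
    (measure_mono (D2b62.ball_sub_ann x _ _)).trans (measure_union_le _ _)
  have h2 : ENNReal.ofReal (3 / 4 * om n * (24 * s) ^ n) ≤ μ (ball x (24 * s)) := by
    refine le_trans (ENNReal.ofReal_le_ofReal ?_) (E.vol_ge x (24 * s) (by rw [dist_self]; norm_num)
      (by positivity) (by linarith))
    have h3 := E.δ_le
    have h4 : 0 ≤ (24 * s) ^ n := by positivity
    gcongr
    linarith
  have h3 : μ (ball x (16 * s)) ≤ ENNReal.ofReal (101 / 100 * om n * (16 * s) ^ n) := by
    refine (measure_mono ball_subset_closedBall).trans ((E.bishop x (16 * s) (by positivity)).trans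
      (ENNReal.ofReal_le_ofReal ?_))
    have h4 : Real.exp (κ * (16 * s) ^ 2 / 2) ≤ 101 / 100 := by
      have h5 : κ * (16 * s) ^ 2 / 2 ≤ 1 / 2048 := by
        have h6 := E.κ_nonneg
        have h7 := E.κ_le
        have h8 : (16 * s) ^ 2 ≤ 1 := by
          have : 16 * s ≤ 1 := by linarith
          have h9 : 0 ≤ 16 * s := by positivity
          nlinarith
        nlinarith
      have h6 : Real.exp (κ * (16 * s) ^ 2 / 2) ≤ Real.exp (1 / 2048) := Real.exp_le_exp.2 h5
      have h7 : Real.exp (1 / 2048 : ℝ) ≤ 101 / 100 := by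
        have h8 := Real.one_sub_le_exp_neg (1 / 2048 : ℝ)
        have h9 : Real.exp (-(1 / 2048 : ℝ)) * Real.exp (1 / 2048) = 1 := by
          rw [← Real.exp_add]; simp
        have h10 := Real.exp_pos (1 / 2048 : ℝ)
        nlinarith
      exact h6.trans h7
    have h5 : 0 ≤ (16 * s) ^ n := by positivity
    calc Real.exp (κ * (16 * s) ^ 2 / 2) * (16 * s) ^ n * om n
        ≤ 101 / 100 * (16 * s) ^ n * om n := by gcongr
      _ = _ := by ring
  have h4 : om n * s ^ n + 101 / 100 * om n * (16 * s) ^ n ≤ 3 / 4 * om n * (24 * s) ^ n := by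
    rw [mul_pow, mul_pow]
    have h16 : (16 : ℝ) ≤ 16 ^ n := by
      calc (16 : ℝ) = 16 ^ 1 := by norm_num
        _ ≤ 16 ^ n := pow_le_pow_right₀ (by norm_num) hn
    have h15 : (3 / 2 : ℝ) ≤ (3 / 2) ^ n := by
      calc (3 / 2 : ℝ) = (3 / 2) ^ 1 := by norm_num
        _ ≤ (3 / 2) ^ n := pow_le_pow_right₀ (by norm_num) hn
    have h24 : (24 : ℝ) ^ n = (3 / 2) ^ n * 16 ^ n := by rw [← mul_pow]; norm_num
    have h24' : (3 / 2) * (16 : ℝ) ^ n ≤ 24 ^ n := by
      rw [h24]
      gcongr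
    have h5 : 1 + 101 / 100 * (16:ℝ) ^ n ≤ 3 / 4 * 24 ^ n := by nlinarith
    have h6 : 0 < om n * s ^ n := by positivity
    have h7 := mul_le_mul_of_nonneg_left h5 h6.le
    calc om n * s ^ n + 101 / 100 * om n * (16 ^ n * s ^ n)
        = om n * s ^ n * (1 + 101 / 100 * 16 ^ n) := by ring
      _ ≤ om n * s ^ n * (3 / 4 * 24 ^ n) := h7
      _ = _ := by ring
  by_contra hcon
  rw [not_le] at hcon
  have h7 : μ (ball x (16 * s)) + μ (ann x (16 * s) (24 * s)) <
      ENNReal.ofReal (101 / 100 * om n * (16 * s) ^ n) + ENNReal.ofReal (om n * s ^ n) :=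
    ENNReal.add_lt_add_of_le_of_lt (ne_top_of_le_ne_top ENNReal.ofReal_ne_top h3) h3 hcon
  rw [← ENNReal.ofReal_add (by positivity) (by positivity)] at h7
  have h8 := h2.trans_lt (h1.trans_lt h7)
  rw [ENNReal.ofReal_lt_ofReal_iff_of_nonneg (by positivity)] at h8
  linarith

end env

/-- constants -/
def CK40 (n : ℕ) : ℝ := (cR2 n 1 40 (2 * om n))⁻¹ * 10

def C1d (n : ℕ) : ℝ :=
  12 * Max193.cA (CN n 1 * Fd656.V64 n) 2 (Max193.c3 n) + CE n * (2 * om n * 32 ^ n)

def Ad2 (n : ℕ) : ℝ := 2 * CK40 n * (1 + 2 ^ n * 2) / om n * C1d n + C1d n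

lemma CK40_pos (n : ℕ) : 0 < CK40 n := by
  have h := cR2_pos (n := n) (κ := 1) (K := 40) (v1 := 2 * om n) zero_le_one (by norm_num)
    (by have := om_pos' n; positivity)
  unfold CK40
  positivity

lemma V64_nonneg (n : ℕ) : 0 ≤ Fd656.V64 n := by
  have := om_pos' n
  unfold Fd656.V64
  positivity

lemma C1d_pos (n : ℕ) : 0 < C1d n := by
  have h1 := om_pos' n
  have h2 := CE_nonneg n
  have h3 : 0 < Max193.cA (CN n 1 * Fd656.V64 n) 2 (Max193.c3 n) := by
    unfold Max193.cA
    have h4 := V64_nonneg n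
    have h5 := CN_nonneg n zero_le_one
    have h6 := Max193.c3_pos n
    have h7 : Real.exp (-(2 * Max193.c3 n)) < 1 := by
      rw [← Real.exp_zero]
      exact Real.exp_lt_exp.2 (by linarith)
    have h8 : 0 < 1 - Real.exp (-(2 * Max193.c3 n)) := by linarith
    positivity
  unfold C1d
  positivity

lemma Ad2_pos (n : ℕ) : 0 < Ad2 n := by
  have h1 := om_pos' n
  have h2 := C1d_pos n
  have h3 := CK40_pos n
  unfold Ad2
  positivity

/-- **(D2')** -/
theorem d2bP (n : ℕ) : Fd656.D2bP.{u} n := by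
  refine ⟨Ad2 n, Ad2_pos n, ?_⟩
  intro κ X _ _ _ _ μ _ B C x δ E O j hj
  have hom := om_pos' n
  have hn := E.n_pos
  have hκ := E.κ_nonneg
  have hκ8 : 8 * κ ≤ 1 := by have := E.κ_le; linarith
  have hκ1 : κ ≤ 1 := by linarith
  have hdj := dy_pos j
  have hdj16 : dy j ≤ 1 / 16 := by
    have h1 := dy_anti hj
    have h2 : dy 4 = 1 / 16 := by unfold dy; norm_num
    rw [h2] at h1; exact h1
  set s := dy j with hs
  have hsn : 0 < s ^ n := by positivity
  obtain ⟨qc, D, hQ⟩ := exists_QRep (C := C) hκ (by linarith) E.hL E.W E.pos O j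
  have hCE := CE_nonneg n
  have hCK := CK40_pos n
  have hC1 := C1d_pos n
  -- `∫ (q + B)`
  have hMx := Max193.maxIn_lx E.hL E.W hκ (by linarith) x E.vol64
  have hn0 : (0:ℝ) ≤ n := Nat.cast_nonneg n
  have hph : 0 ≤ phx n κ μ x j := hMx.phat_nonneg _ j
  have hint := hMx.int_N (q := fun k => if k = j then qc else qk B x k) (Rq := fun k => rqf B x k)
    (err := fun k _ => CE n * eNum n (dy k))
    (fun k => by
      by_cases hk : k = j
      · subst hk
        simp only [if_true]
        exact hQ.ae_q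
      · simp only [if_neg hk]
        exact Eventually.of_forall fun _ => rfl)
    (fun k => rqf_ae E.W x k) (E := CE n) (b := 16 / (4 * n + 6))
    (Vb := 2 * om n * 32 ^ n) hCE (by
      unfold Max193.c3
      rw [div_div, div_le_div_iff₀ (by positivity) (by positivity)]
      nlinarith) (by positivity)
    (fun k => Eventually.of_forall fun y _ => by
      show CE n * eNum n (dy k) ≤ _
      rw [eNum_dy]) hj le_rfl (by
      have h1 := E.vol_le x (32 * dy j) (by rw [dist_self]; norm_num) (by positivity) (by linarith)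
      refine h1.trans (ENNReal.ofReal_le_ofReal ?_)
      rw [mul_pow]
      have h2 := E.δ_le
      have h3 : 0 ≤ (32:ℝ) ^ n * dy j ^ n := by positivity
      calc (1 + δ) * om n * (32 ^ n * dy j ^ n) ≤ 2 * om n * (32 ^ n * dy j ^ n) := by
            gcongr
            linarith
        _ = _ := by ring)
  simp only [if_true] at hint
  have hM : ∫⁻ z in closedBall x (24 * s),
      ENNReal.ofReal (qc z + (2 * rqf B x j z + CE n * eNum n s)) ∂μ ≤
      ENNReal.ofReal (C1d n * phx n κ μ x j * s ^ n) := by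
    have hsub : closedBall x (24 * s) ⊆ ball x (32 * s) := closedBall_subset_ball (by linarith)
    calc ∫⁻ z in closedBall x (24 * s),
          ENNReal.ofReal (qc z + (2 * rqf B x j z + CE n * eNum n s)) ∂μ
        ≤ ∫⁻ z in ball x (32 * s),
          ENNReal.ofReal (qc z + (2 * rqf B x j z + CE n * eNum n s)) ∂μ := lintegral_mono_set hsub
      _ = ∫⁻ z in ball x (32 * s),
          ENNReal.ofReal (qc z + 2 * rqf B x j z + CE n * eNum n s) ∂μ := by
          refine lintegral_congr fun z => ?_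
          rw [add_assoc]
      _ ≤ _ := hint
      _ ≤ _ := by
          apply ENNReal.ofReal_le_ofReal
          have hCN1 : CN n κ ≤ CN n 1 := CN_mono n hκ1
          have h1 := cA_mono (C0 := CN n κ * Fd656.V64 n) (C0' := CN n 1 * Fd656.V64 n) (C3 := 2)
            (mul_le_mul_of_nonneg_right hCN1 (V64_nonneg n)) (by norm_num) (Max193.c3_pos n)
          have h2 : 12 * Max193.cA (CN n κ * Fd656.V64 n) 2 (Max193.c3 n) +
              CE n * (2 * om n * 32 ^ n) ≤ C1d n := by
            unfold C1d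
            linarith
          have h3 : 0 ≤ phat n κ μ x (Max193.c3 n / 64) j := hph
          show _ * phat n κ μ x (Max193.c3 n / 64) j * s ^ n ≤
            C1d n * phat n κ μ x (Max193.c3 n / 64) j * s ^ n
          gcongr
  -- the ray inequality
  have hray := ray_S hn E.W hκ hκ8 O j hQ (v1 := 2 * om n) (by positivity) (env_hd E)
    (K := 40) (by norm_num)
  have hB0 : ∀ z, 0 ≤ 2 * rqf B x j z + CE n * eNum n s := fun z => by
    have h2 := rqf_nonneg B x j z
    have h3 := (eNum_pos n s).le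
    have h4 := mul_nonneg hCE h3
    linarith
  have hmain := D2b62.int_S_le C hκ x (s := s) (S := fun z => (Hf O j z + gf B x j z) ^ 2)
    (q := qc) (B := fun z => 2 * rqf B x j z + CE n * eNum n s)
    hQ.lip.continuous.measurable (((rqf_meas B x j).const_mul 2).add measurable_const)
    hQ.nonneg hB0 hCK.le (by
      filter_upwards [hray] with v hv hdv
      exact hv (by linarith) (1 / 2) 1 (by norm_num) (by norm_num) le_rfl)
  have hann := env_ann E hdj hdj16
  set I : ℝ≥0∞ := ∫⁻ z in ball x (16 * s), ENNReal.ofReal ((Hf O j z + gf B x j z) ^ 2) ∂μ with hI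
  have hE2 : Real.exp (κ * (24 * s) ^ 2 / 2) ≤ 2 := by
    have h3 : κ * (24 * s) ^ 2 / 2 ≤ 1 / 2 := by
      have h5 := E.κ_le
      have h6 : (24 * s) ^ 2 ≤ 9 / 4 := by
        have h7 : 24 * s ≤ 3 / 2 := by linarith
        have h8 : 0 ≤ 24 * s := by positivity
        nlinarith
      nlinarith
    have h7 : Real.exp (κ * (24 * s) ^ 2 / 2) ≤ Real.exp (1 / 2) := Real.exp_le_exp.2 h3
    have h8 : Real.exp (1 / 2 : ℝ) ≤ 2 := by
      have h9 : (1 / 2 : ℝ) ≤ Real.log 2 := by
        have := Real.log_two_gt_d9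
        linarith
      exact (Real.le_log_iff_exp_le (by norm_num : (0:ℝ) < 2)).1 h9
    exact h7.trans h8
  set P : ℝ := C1d n * phx n κ μ x j with hP
  have hP0 : 0 ≤ P := by positivity
  have h1 : ENNReal.ofReal (om n) * I ≤
      ENNReal.ofReal (2 * CK40 n * (1 + 2 ^ n * 2) * (P * s ^ n)) := by
    calc ENNReal.ofReal (om n) * I
        = ENNReal.ofReal (om n * s ^ n) * (ENNReal.ofReal ((s⁻¹) ^ n) * I) := by
          rw [← mul_assoc, ← ENNReal.ofReal_mul (by positivity)]
          congr 2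
          rw [inv_pow]
          field_simp
      _ ≤ μ (ann x (16 * s) (24 * s)) * (ENNReal.ofReal ((s⁻¹) ^ n) * I) := by gcongr
      _ ≤ ENNReal.ofReal (2 * CK40 n * (1 + 2 ^ n * Real.exp (κ * (24 * s) ^ 2 / 2))) *
          ENNReal.ofReal (P * s ^ n) := hmain.trans (by gcongr)
      _ ≤ ENNReal.ofReal (2 * CK40 n * (1 + 2 ^ n * 2)) * ENNReal.ofReal (P * s ^ n) := by gcongr
      _ = _ := by rw [← ENNReal.ofReal_mul (by positivity)]
  have h2 : I ≤ ENNReal.ofReal (2 * CK40 n * (1 + 2 ^ n * 2) / om n * (P * s ^ n)) := by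
    calc I = ENNReal.ofReal (om n)⁻¹ * (ENNReal.ofReal (om n) * I) := by
          rw [← mul_assoc, ← ENNReal.ofReal_mul (by positivity), inv_mul_cancel₀ hom.ne',
            ENNReal.ofReal_one, one_mul]
      _ ≤ ENNReal.ofReal (om n)⁻¹ *
          ENNReal.ofReal (2 * CK40 n * (1 + 2 ^ n * 2) * (P * s ^ n)) := by gcongr
      _ = _ := by
          rw [← ENNReal.ofReal_mul (by positivity)]
          congr 1
          field_simp
  have h3 : ∫⁻ z in ball x (16 * s), ENNReal.ofReal (qf B x j z) ∂μ ≤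
      ENNReal.ofReal (P * s ^ n) := by
    have e1 : ∫⁻ z in ball x (16 * s), ENNReal.ofReal (qf B x j z) ∂μ =
        ∫⁻ z in ball x (16 * s), ENNReal.ofReal (qc z) ∂μ := by
      refine lintegral_congr_ae (ae_restrict_of_ae ?_)
      filter_upwards [qf_ae x j E.W, hQ.ae_q] with z a1 a2
      rw [a1, a2]
    rw [e1]
    refine le_trans ?_ hM
    refine (lintegral_mono_set (t := closedBall x (24 * s)) fun z hz => ?_).trans
      (lintegral_mono fun z => ENNReal.ofReal_le_ofReal (by linarith [hB0 z]))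
    rw [mem_closedBall]
    rw [mem_ball] at hz
    linarith
  calc ∫⁻ z in ball x (16 * s), ENNReal.ofReal (Hf O j z ^ 2 + gf B x j z ^ 2 + qf B x j z) ∂μ
      ≤ ∫⁻ z in ball x (16 * s), (ENNReal.ofReal ((Hf O j z + gf B x j z) ^ 2) +
          ENNReal.ofReal (qf B x j z)) ∂μ := by
        refine lintegral_mono fun z => ?_
        rw [← ENNReal.ofReal_add (sq_nonneg _) (qf_nonneg B x j z)]
        apply ENNReal.ofReal_le_ofReal
        have a1 := Hf_nonneg B x O j z
        have a2 := gf_nonneg B x j z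
        nlinarith [mul_nonneg a1 a2]
    _ = I + ∫⁻ z in ball x (16 * s), ENNReal.ofReal (qf B x j z) ∂μ := by
        rw [lintegral_add_right _ (qf_meas B x j).ennreal_ofReal]
    _ ≤ ENNReal.ofReal (2 * CK40 n * (1 + 2 ^ n * 2) / om n * (P * s ^ n)) +
        ENNReal.ofReal (P * s ^ n) := by gcongr
    _ = ENNReal.ofReal (Ad2 n * phx n κ μ x j * s ^ n) := by
        rw [← ENNReal.ofReal_add (by positivity) (by positivity)]
        congr 1
        unfold Ad2
        rw [hP]
        ring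

end Crest.Agent.R247.Sv436
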