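import Crest.Agent.R247.Last_550
import Crest.Agent.R247.Env2_879
import Crest.Agent.R247.Sv14_436
import Crest.Agent.R247.Fv8_510

/-!
# R247: S0381 from the six second-order fields `D2HP … D2n1P` alone (helper550)
-/

set_option autoImplicit false
noncomputable section
open Set Filter Topology MeasureTheory Metric
open scoped ContDiff Manifold ENNReal NNReal
open Bundle Crest.GeometryTopology.CoordMetric Crest.GeometryTopology.ChartCurvature
  Crest.GeometryTopology.PointedLimit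

namespace Crest.Agent.R247.Fin550

universe u

/-- all fields from the six second-order ones -/
theorem fields_of {n : ℕ} (h1 : Fd656.D2HP.{u} n) (h2 : Fd656.D2gP.{u} n)
    (h3 : Fd656.D2qP.{u} n) (h4 : Fd656.D2kP.{u} n) (h5 : Fd656.D2n2P.{u} n)
    (h6 : Fd656.D2n1P.{u} n) : Fd656.Fields.{u} n where
  d1a := Sv436.d1aP n
  d1b := Sv436.d1bP n
  d2H := h1
  d2g := h2
  d2q := h3
  d2k := h4
  d2n2 := h5
  d2n1 := h6
  d2b := Sv436.d2bP n
  pe := Fv510.peP n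
  d3 := Fv510.d3P n

/-- the package from the six fields -/
theorem pkP_of {n : ℕ} (hn : 1 ≤ n) (h1 : Fd656.D2HP.{u} n) (h2 : Fd656.D2gP.{u} n)
    (h3 : Fd656.D2qP.{u} n) (h4 : Fd656.D2kP.{u} n) (h5 : Fd656.D2n2P.{u} n)
    (h6 : Fd656.D2n1P.{u} n) : ∃ c : Far553.FarK, Q9550.PkP.{u} n c :=
  Fd656.pkP hn (fields_of h1 h2 h3 h4 h5 h6) (Env879.envP hn) (Bgr546.rad_all n)

/-- **S0381** from the six second-order fields. -/
theorem s0381_of_d2 (n : ℕ)
    (h : 1 ≤ n → Fd656.D2HP.{u} n ∧ Fd656.D2gP.{u} n ∧ Fd656.D2qP.{u} n ∧ Fd656.D2kP.{u} n ∧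
      Fd656.D2n2P.{u} n ∧ Fd656.D2n1P.{u} n) :
    ∃ L : ℝ, 1 ≤ L ∧
      ∀ (K : ℝ) (M : ℕ → Type u) [∀ k, MetricSpace (M k)] [∀ k, CompleteSpace (M k)]
        [∀ k, ConnectedSpace (M k)] [∀ k, ChartedSpace (EuclideanSpace ℝ (Fin n)) (M k)]
        [∀ k, IsManifold 𝓘(ℝ, EuclideanSpace ℝ (Fin n)) ∞ (M k)]
        [∀ k, RiemannianBundle (fun x : M k => TangentSpace 𝓘(ℝ, EuclideanSpace ℝ (Fin n)) x)]
        [∀ k, IsContMDiffRiemannianBundle 𝓘(ℝ, EuclideanSpace ℝ (Fin n)) ∞ (EuclideanSpace ℝ (Fin n))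
          (fun x : M k => TangentSpace 𝓘(ℝ, EuclideanSpace ℝ (Fin n)) x)]
        [∀ k, IsRiemannianManifold 𝓘(ℝ, EuclideanSpace ℝ (Fin n)) (M k)]
        [∀ k, MeasurableSpace (M k)] [∀ k, BorelSpace (M k)] (q : ∀ k, M k),
        (∀ k, HasRicciLowerBound n (M k) K) →
        (∃ v : ℝ, 0 < v ∧ ∀ k, ENNReal.ofReal v ≤
          MeasureTheory.Measure.euclideanHausdorffMeasure n (Metric.ball (q k) 1)) →
        ∀ (X : Type u) [MetricSpace X] [CompleteSpace X] (p : X),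
          SeqPointedTendsto q p → RescalingsTendstoEuclidean p n →
          ∃ U : Set X, IsOpen U ∧ p ∈ U ∧ ∃ F : X → EuclideanSpace ℝ (Fin n), IsOpen (F '' U) ∧
            ∀ x ∈ U, ∀ z ∈ U, L⁻¹ * dist x z ≤ dist (F x) (F z) ∧
              dist (F x) (F z) ≤ L * dist x z :=
  Last550.s0381_of_pkP n fun hn => by
    obtain ⟨h1, h2, h3, h4, h5, h6⟩ := h hn
    exact pkP_of hn h1 h2 h3 h4 h5 h6

end Crest.Agent.R247.Fin550
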