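import Crest.Agent.R247.Ms6_322
import Crest.Agent.R247.Bo8_84
import Crest.Agent.R247.Hes1_124

/-!
R247, leaf (5-B) (helper939), part 1: the Hessian `Hf u z : S n` and the Ricci form `Rf z : S n` in
the measurable orthonormal frame of `Ms6_322`; pointwise identities in the form of `Hes2_124`.
-/

set_option autoImplicit false
set_option maxSynthPendingDepth 3
set_option linter.unusedSectionVars false
set_option linter.unusedVariables false

open Bundle Bornology Set MeasureTheory Manifold Filter Metric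
open scoped ENNReal ContDiff Topology NNReal
open Crest.GeometryTopology.CoordMetric Crest.GeometryTopology.ChartCurvature
open Crest.GeometryTopology.PointedLimit
open Crest.Agent.R226.ChartMet842 Crest.Agent.R247.Ms322 Crest.Agent.R247.Bo84
open Crest.Agent.R202.Tens

namespace Crest.Agent.R247.Ib939

open Crest.Agent.R247.Hes124 (mv tr)

noncomputable section

variable {n : ℕ} {M : Type*} [MetricSpace M] [ChartedSpace (EuclideanSpace ℝ (Fin n)) M]
  [IsManifold (𝓡 n) ∞ M]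
  [RiemannianBundle (fun p : M => TangentSpace (𝓡 n) p)]
  [IsContMDiffRiemannianBundle (𝓡 n) ∞ (EuclideanSpace ℝ (Fin n)) (fun p : M => TangentSpace (𝓡 n) p)]

local notation "𝔼" => EuclideanSpace ℝ (Fin n)

variable [SecondCountableTopology M] [Nonempty M]

theorem fr_orth (z : M) (a b : Fin n) :
    inner ℝ (fr z a : TangentSpace (𝓡 n) z) (fr z b) = if a = b then (1:ℝ) else 0 := inner_fr z a b

theorem Gr_apply_dM (f : M → ℝ) (z : M) (j : Fin n) : Gr (n := n) f z j = dM n f z (fr z j) := rfl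

/-- `⟪Gr f, Gr h⟫ = ⟨df, dh⟩` everywhere. -/
theorem inner_Gr_mGam (f h : M → ℝ) (z : M) :
    inner ℝ (Gr (n := n) f z) (Gr (n := n) h z) = mGam n f h z := by
  rw [mGam_frame (fr_orth z), PiLp.inner_apply]
  refine Finset.sum_congr rfl fun j _ => ?_
  rw [Gr_apply_dM, Gr_apply_dM]
  simp [mul_comm]

theorem norm_Gr_mGam (f : M → ℝ) (z : M) : ‖Gr (n := n) f z‖ ^ 2 = mGam n f f z := by
  rw [← inner_Gr_mGam, real_inner_self_eq_norm_sq]

/-- a frame vector -/
def vf (z : M) (v : EuclideanSpace ℝ (Fin n)) : TangentSpace (𝓡 n) z := ∑ j, v j • fr z j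

theorem mgrad_eq_vf (f : M → ℝ) (z : M) : mgrad n f z = vf z (Gr (n := n) f z) := by
  rw [mgrad_frame (fr_orth z) (mgrad n f z), vf]
  refine Finset.sum_congr rfl fun j _ => ?_
  rw [inner_mgrad', ← Gr_apply_dM]

theorem norm_vf (z : M) (v : 𝔼) : ‖vf z v‖ ^ 2 = ‖v‖ ^ 2 := by
  rw [← real_inner_self_eq_norm_sq, inner_frame (fr_orth z), EuclideanSpace.norm_sq_eq]
  refine Finset.sum_congr rfl fun j _ => ?_
  have h : inner ℝ (vf z v) (fr z j : TangentSpace (𝓡 n) z) = v j := by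
    rw [vf, sum_inner, Finset.sum_eq_single j]
    · rw [inner_smul_left, inner_fr, if_pos rfl]; simp
    · intro k _ hk
      rw [inner_smul_left, inner_fr, if_neg hk]; simp
    · intro hj; exact absurd (Finset.mem_univ j) hj
  rw [h, Real.norm_eq_abs, sq_abs, sq]

/-! ### the frame Hessian -/

/-- the Hessian of `u` in the frame at `z` -/
def Hf (u : M → ℝ) (z : M) : Hes124.S n :=
  WithLp.toLp 2 fun p => mHess n u z (fr z p.1) (fr z p.2)

@[simp] theorem Hf_apply (u : M → ℝ) (z : M) (i j : Fin n) :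
    Hf u z (i, j) = mHess n u z (fr z i) (fr z j) := rfl

theorem mHess_sum_left (u : M → ℝ) (z : M) (s : Finset (Fin n))
    (v : Fin n → TangentSpace (𝓡 n) z) (w : TangentSpace (𝓡 n) z) :
    mHess n u z (∑ j ∈ s, v j) w = ∑ j ∈ s, mHess n u z (v j) w := by
  classical
  induction s using Finset.induction_on with
  | empty =>
    have h := mHess_smul_left u z 0 (0 : TangentSpace (𝓡 n) z) w
    simpa using h
  | insert a s ha ih => rw [Finset.sum_insert ha, Finset.sum_insert ha, mHess_add_left, ih]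

theorem mHess_sum_right (u : M → ℝ) (z : M) (s : Finset (Fin n))
    (v : Fin n → TangentSpace (𝓡 n) z) (w : TangentSpace (𝓡 n) z) :
    mHess n u z w (∑ j ∈ s, v j) = ∑ j ∈ s, mHess n u z w (v j) := by
  classical
  induction s using Finset.induction_on with
  | empty =>
    have h := mHess_smul_right u z 0 w (0 : TangentSpace (𝓡 n) z)
    simpa using h
  | insert a s ha ih => rw [Finset.sum_insert ha, Finset.sum_insert ha, mHess_add_right, ih]

theorem mHess_vf_right (u : M → ℝ) (z : M) (w : TangentSpace (𝓡 n) z) (v : 𝔼) :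
    mHess n u z w (vf z v) = ∑ j, mHess n u z w (fr z j) * v j := by
  rw [vf, mHess_sum_right]
  refine Finset.sum_congr rfl fun j _ => ?_
  rw [mHess_smul_right, mul_comm]

theorem mv_Hf_apply (u : M → ℝ) (z : M) (v : 𝔼) (i : Fin n) :
    mv (Hf u z) v i = mHess n u z (fr z i) (vf z v) := by
  rw [mHess_vf_right]
  rfl

/-- `⟪Hf u z v, w⟫ = Hess u (vf v, vf w)`. -/
theorem inner_mv_Hf {u : M → ℝ} {z : M} (v w : 𝔼) :
    inner ℝ (mv (Hf u z) v) w = mHess n u z (vf z w) (vf z v) := by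
  rw [PiLp.inner_apply]
  have h : vf z w = ∑ i, w i • (fr z i : TangentSpace (𝓡 n) z) := rfl
  conv_rhs => rw [h, mHess_sum_left]
  refine Finset.sum_congr rfl fun i _ => ?_
  rw [mHess_smul_left, mv_Hf_apply]
  simp [mul_comm]

theorem Hf_symm {u : M → ℝ} {z : M} (hu : ContMDiffAt (𝓡 n) 𝓘(ℝ) 2 u z) (i j : Fin n) :
    Hf u z (i, j) = Hf u z (j, i) := mHess_symm hu _ _

theorem norm_Hf_sq {u : M → ℝ} {z : M} (hu : ContMDiffAt (𝓡 n) 𝓘(ℝ) 2 u z) :
    ‖Hf (n := n) u z‖ ^ 2 = mHessSq n u z := by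
  rw [Hes124.norm_sq_S, mHessSq_frame hu (fr_orth z)]
  rfl

theorem tr_Hf {u : M → ℝ} {z : M} (hu : ContMDiffAt (𝓡 n) 𝓘(ℝ) 2 u z) :
    tr (Hf (n := n) u z) = mLap n u z := by
  rw [mLap_frame hu (fr_orth z)]
  rfl

/-- gradient of `⟨du, dh⟩` in the frame -/
theorem Gr_mGam {z : M} {u h : M → ℝ} (hu : ContMDiffAt (𝓡 n) 𝓘(ℝ) 2 u z)
    (hh : ContMDiffAt (𝓡 n) 𝓘(ℝ) 2 h z) :
    Gr (n := n) (mGam n u h) z = mv (Hf u z) (Gr (n := n) h z) + mv (Hf h z) (Gr (n := n) u z) := by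
  ext j
  rw [PiLp.add_apply, mv_Hf_apply, mv_Hf_apply, ← mgrad_eq_vf, ← mgrad_eq_vf]
  exact mfderiv_mGam hu hh _

/-! ### locality and linearity -/

theorem mHess_zero_fun (z : M) (v w : TangentSpace (𝓡 n) z) :
    mHess n (fun _ : M => (0:ℝ)) z v w = 0 := by
  rw [mHess, hess_apply]
  have h1 : inCh n z (fun _ : M => (0:ℝ)) = fun _ => 0 := rfl
  rw [h1]
  simp

theorem Hf_supp {u : M → ℝ} {z : M} (hz : z ∉ tsupport u) : Hf (n := n) u z = 0 := by
  have h : u =ᶠ[𝓝 z] fun _ => 0 := notMem_tsupport_iff_eventuallyEq.1 hz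
  ext p
  obtain ⟨i, j⟩ := p
  rw [Hf_apply, mHess_congr h, mHess_zero_fun]
  rfl

theorem Hf_sub {u h : M → ℝ} {z : M} (hu : ContMDiffAt (𝓡 n) 𝓘(ℝ) 2 u z)
    (hh : ContMDiffAt (𝓡 n) 𝓘(ℝ) 2 h z) :
    Hf (n := n) (fun y => u y - h y) z = Hf u z - Hf h z := by
  ext p
  obtain ⟨i, j⟩ := p
  rw [PiLp.sub_apply, Hf_apply, mHess_sub hu hh]
  rfl

/-! ### the Ricci form -/

/-- the Ricci form in the frame -/
def Rf (z : M) : Hes124.S n :=
  WithLp.toLp 2 fun p => mRic n z (fr z p.1) (fr z p.2)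

@[simp] theorem Rf_apply (z : M) (i j : Fin n) :
    Rf z (i, j) = mRic n z (fr z i) (fr z j) := rfl

theorem mRic_eq_bilin (z : M) : ∃ B : 𝔼 →ₗ[ℝ] 𝔼 →ₗ[ℝ] ℝ,
    ∀ v w : TangentSpace (𝓡 n) z, mRic n z v w = B (dCh z z v) (dCh z z w) := by
  refine ⟨LinearMap.mk₂ ℝ (fun X Y => ∑ i, ∑ j,
    ricci (chartMetric n M z) (chartCentre n M z) i j * X i * Y j) ?_ ?_ ?_ ?_, fun v w => rfl⟩
  · intro X X' Y
    simp only [PiLp.add_apply, ← Finset.sum_add_distrib]
    refine Finset.sum_congr rfl fun i _ => Finset.sum_congr rfl fun j _ => ?_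
    ring
  · intro c X Y
    simp only [PiLp.smul_apply, smul_eq_mul, Finset.mul_sum]
    refine Finset.sum_congr rfl fun i _ => Finset.sum_congr rfl fun j _ => ?_
    ring
  · intro X Y Y'
    simp only [PiLp.add_apply, ← Finset.sum_add_distrib]
    refine Finset.sum_congr rfl fun i _ => Finset.sum_congr rfl fun j _ => ?_
    ring
  · intro c X Y
    simp only [PiLp.smul_apply, smul_eq_mul, Finset.mul_sum]
    refine Finset.sum_congr rfl fun i _ => Finset.sum_congr rfl fun j _ => ?_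
    ring

theorem dCh_vf (z : M) (v : 𝔼) : dCh z z (vf z v) = ∑ j, v j • dCh z z (fr z j) := by
  have h2 := map_sum (dCh z z) (fun j => v j • (fr z j : 𝔼)) Finset.univ
  have h3 : ∀ j, (dCh z z) (v j • (fr z j : 𝔼)) = v j • dCh z z (fr z j) :=
    fun j => map_smul (dCh z z) (v j) (fr z j : 𝔼)
  have h4 : ∑ j, (dCh z z) (v j • (fr z j : 𝔼)) = ∑ j, v j • dCh z z (fr z j) :=
    Finset.sum_congr rfl fun j _ => h3 j
  exact h2.trans h4

theorem bilin_sum (B : 𝔼 →ₗ[ℝ] 𝔼 →ₗ[ℝ] ℝ) (v w : 𝔼) (X : Fin n → 𝔼) :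
    B (∑ i, v i • X i) (∑ j, w j • X j) = ∑ i, ∑ j, B (X i) (X j) * w j * v i := by
  rw [map_sum B, LinearMap.sum_apply]
  refine Finset.sum_congr rfl fun i _ => ?_
  rw [map_smul, LinearMap.smul_apply, map_sum, smul_eq_mul, Finset.mul_sum]
  refine Finset.sum_congr rfl fun j _ => ?_
  rw [map_smul, smul_eq_mul]
  ring

theorem mRic_vf (z : M) (v w : 𝔼) :
    mRic n z (vf z v) (vf z w) = ∑ i, ∑ j, Rf (n := n) z (i, j) * w j * v i := by
  obtain ⟨B, hB⟩ := mRic_eq_bilin (n := n) z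
  rw [hB, dCh_vf, dCh_vf, bilin_sum]
  refine Finset.sum_congr rfl fun i _ => Finset.sum_congr rfl fun j _ => ?_
  rw [Rf_apply, hB]

theorem inner_mv_Rf (z : M) (v w : 𝔼) :
    inner ℝ (mv (Rf z) v) w = mRic n z (vf z w) (vf z v) := by
  rw [mRic_vf, PiLp.inner_apply]
  refine Finset.sum_congr rfl fun i _ => ?_
  rw [Hes124.mv_apply]
  simp only [RCLike.inner_apply, conj_trivial, Finset.mul_sum]
  refine Finset.sum_congr rfl fun j _ => ?_
  ring

theorem Rf_lb {κ : ℝ} (hκ : HasRicciLowerBound n M (-κ)) (z : M) (v : 𝔼) :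
    -(κ * ‖v‖ ^ 2) ≤ inner ℝ (mv (Rf z) v) v := by
  rw [inner_mv_Rf]
  have h := mRic_ge hκ z (vf z v)
  rw [norm_vf] at h
  linarith

/-- **Bochner's formula in the frame**. -/
theorem bochner_frame {u : M → ℝ} {z : M} (hu : ContMDiffAt (𝓡 n) 𝓘(ℝ) 3 u z) :
    (1 / 2) * mLap n (mGam n u u) z = ‖Hf (n := n) u z‖ ^ 2 +
      inner ℝ (Gr (n := n) u z) (Gr (n := n) (mLap n u) z) +
      inner ℝ (mv (Rf (n := n) z) (Gr (n := n) u z)) (Gr (n := n) u z) := by
  rw [mBochner hu, norm_Hf_sq (hu.of_le (by norm_num)), inner_Gr_mGam, inner_mv_Rf,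
    mgrad_eq_vf]

end

end Crest.Agent.R247.Ib939
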