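import Crest.Agent.R247.Rdg1_879

/-!
R247 (helper879), leaf (RDG), file 2: over `C : Rad n κ M μ` on the manifold

* `seg_of_U` : `(x, z) ∈ C.U → Seg x z (fun t => C.T x t z)`
* `ae_Om` : the cut locus of every point is null
* `rd_grad` : `RD C x φ (fun z => ⟪Gr f_x z, Gr φ z⟫)`, `f_x = d_x²/2`
* `rd_symm` : `RD C v f_b D ∧ RD C b f_v D`
* `exists_meas_RD` : a jointly measurable choice of the radial derivatives
-/

set_option autoImplicit false
set_option maxSynthPendingDepth 3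
set_option linter.unusedSectionVars false

open Bundle Set Filter Topology MeasureTheory
open scoped Manifold ContDiff
open Crest.GeometryTopology.MTW Crest.Agent.R226
open Crest.Agent.R226.ChartCost77
open Crest.Agent.R226.NearLem90 (dL halfDistSq_comm hasDerivAt_comp_curve)
open Crest.Agent.R226.NearDiagThm996
open Crest.Agent.R226.ChartMet842
open Crest.Agent.R226.CutSmooth77 (SC)
open Crest.Agent.R247.Sm879
open Crest.Agent.R247.Mcp688
open Crest.Agent.R247.Ms322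

noncomputable section
namespace Crest.Agent.R247.Rdg879

/-! ### abstract part -/

section abstract
variable {n : ℕ} {κ : ℝ} {X : Type*} [MetricSpace X] [MeasurableSpace X] [BorelSpace X]
  {μ : Measure X} (C : Rad n κ X μ)

include C in
theorem seg_of_U {x z : X} (h : (x, z) ∈ C.U) : Seg x z (fun t => C.T x t z) where
  zero := C.T_zero x z h
  one := C.T_one x z h
  dist_T := C.dist_T x z h

/-- a measurable choice of the radial derivative, jointly in a parameter -/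
theorem exists_meas_RD (x : X) {Y : Type*} [MeasurableSpace Y] {φ : Y → X → ℝ}
    (hφ : Measurable (Function.uncurry φ)) (h : ∀ w, ∃ D, RD C x (φ w) D) :
    ∃ D : X → Y → ℝ, Measurable (Function.uncurry D) ∧ ∀ w, RD C x (φ w) (fun z => D z w) := by
  set q : ℕ → X × Y → ℝ := fun k p => (φ p.2 (C.T x (1 - 1 / ((k : ℝ) + 2)) p.1) - φ p.2 p.1) /
      ((1 - 1 / ((k : ℝ) + 2)) - 1) with hq
  have hqm : ∀ k, Measurable (q k) := by
    intro k
    refine Measurable.div_const (Measurable.sub ?_ ?_) _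
    · exact hφ.comp (measurable_snd.prodMk ((C.measT_xt x _).comp measurable_fst))
    · exact hφ.comp (measurable_snd.prodMk measurable_fst)
  refine ⟨fun z w => limsup (fun k => q k (z, w)) atTop, ?_, fun w => ?_⟩
  · exact Measurable.limsup hqm
  · obtain ⟨D, hD⟩ := h w
    refine hD.congr ?_
    filter_upwards [hD.tendsto] with z hz
    exact hz.limsup_eq.symm

/-- points of minimisers -/
theorem T_mem_Om {x z : X} (h : (x, z) ∈ C.U) (hxz : x ≠ z) {t : ℝ} (ht : t ∈ Ico (0 : ℝ) 1) :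
    (x, C.T x t z) ∈ Om X := by
  have hI : t ∈ Icc (0 : ℝ) 1 := ⟨ht.1, ht.2.le⟩
  have l := C.dist_left h hI
  have r := C.dist_right h hI
  refine ⟨z, ?_, ?_⟩
  · show C.T x t z ≠ z
    rw [← dist_pos, r]
    exact mul_pos (by linarith [ht.2]) (dist_pos.2 hxz)
  · show dist x (C.T x t z) + dist (C.T x t z) z = dist x z
    rw [l, r]; ring

theorem diag_mem_Om [Nontrivial X] (x : X) : (x, x) ∈ Om X := by
  obtain ⟨y, hy⟩ := exists_ne x
  exact ⟨y, hy.symm, by simp⟩

include C in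
/-- **the cut locus is null** -/
theorem ae_Om_aux [Nontrivial X] [ProperSpace X] [IsFiniteMeasureOnCompacts μ] (hκ : 0 ≤ κ)
    (x : X) (hO : MeasurableSet (OmA x)) : ∀ᵐ z ∂μ, (x, z) ∈ Om X := by
  have key : ∀ R : ℕ, μ (Metric.closedBall x R \ OmA x) = 0 := by
    intro R
    rw [← wm_eq_zero_iff μ x κ]
    set ν := wm μ κ x with hν
    set B := Metric.closedBall x (R : ℝ) with hB
    have hBm : MeasurableSet B := Metric.isClosed_closedBall.measurableSet
    have hfin : ν B ≠ ⊤ := by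
      refine ne_top_of_le_ne_top (?_ : μ B ≠ ⊤) (wm_le μ x hκ B)
      exact (isCompact_closedBall x (R : ℝ)).measure_lt_top.ne
    set A := B \ {x} with hA
    have hAm : MeasurableSet A := hBm.diff (measurableSet_singleton x)
    have h1 : ∀ t ∈ Ioo (0 : ℝ) 1, ν A ≤ ENNReal.ofReal ((t⁻¹) ^ n) * ν (A ∩ OmA x) := by
      intro t ht
      refine C.measure_le_of_mapsTo x ⟨ht.1, ht.2.le⟩ (hAm.inter hO) ?_
      rintro z ⟨hz, hzx⟩ hU
      have hne : x ≠ z := fun h => hzx h.symm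
      have hI : t ∈ Icc (0 : ℝ) 1 := ⟨ht.1.le, ht.2.le⟩
      have l := C.dist_left hU hI
      refine ⟨⟨?_, ?_⟩, T_mem_Om C hU hne ⟨ht.1.le, ht.2⟩⟩
      · rw [hB, Metric.mem_closedBall, dist_comm, l]
        rw [hB, Metric.mem_closedBall, dist_comm] at hz
        have := dist_nonneg (x := x) (y := z)
        nlinarith [ht.1, ht.2]
      · intro h
        rw [mem_singleton_iff] at h
        rw [h, dist_self] at l
        exact absurd l (mul_pos ht.1 (dist_pos.2 hne)).ne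
    have h2 : ν A ≤ ν (A ∩ OmA x) := by
      have hl : Tendsto (fun t : ℝ => ENNReal.ofReal ((t⁻¹) ^ n) * ν (A ∩ OmA x)) (𝓝[<] 1)
          (𝓝 (ENNReal.ofReal (((1 : ℝ)⁻¹) ^ n) * ν (A ∩ OmA x))) := by
        refine ENNReal.Tendsto.mul_const ?_ (Or.inr ?_)
        · refine ENNReal.tendsto_ofReal (Tendsto.pow ?_ n)
          exact (tendsto_inv₀ one_ne_zero).mono_left nhdsWithin_le_nhds
        · exact ne_top_of_le_ne_top hfin (measure_mono (inter_subset_left.trans sdiff_subset))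
      rw [inv_one, one_pow, ENNReal.ofReal_one, one_mul] at hl
      refine ge_of_tendsto hl ?_
      filter_upwards [Ioo_mem_nhdsLT (zero_lt_one' ℝ)] with t ht using h1 t ht
    have h3 : ν (A \ OmA x) = 0 := by
      have h4 : ν (A ∩ OmA x) + ν (A \ OmA x) = ν A := measure_inter_add_sdiff A hO
      have h5 : ν (A ∩ OmA x) ≠ ⊤ :=
        ne_top_of_le_ne_top hfin (measure_mono (inter_subset_left.trans sdiff_subset))
      have h6 : ν (A ∩ OmA x) + ν (A \ OmA x) ≤ ν (A ∩ OmA x) + 0 := by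
        rw [h4, add_zero]; exact h2
      exact le_antisymm ((ENNReal.add_le_add_iff_left h5).1 h6) zero_le
    refine measure_mono_null ?_ h3
    rintro z ⟨hz, hzO⟩
    refine ⟨⟨hz, ?_⟩, hzO⟩
    rintro rfl
    exact hzO (diag_mem_Om z)
  rw [ae_iff]
  refine measure_mono_null (t := ⋃ R : ℕ, Metric.closedBall x R \ OmA x) ?_
    (measure_iUnion_null key)
  intro z hz
  obtain ⟨R, hR⟩ := exists_nat_ge (dist z x)
  exact mem_iUnion.2 ⟨R, hR, hz⟩

end abstract

/-! ### the manifold -/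

section mfd
variable {n : ℕ} {M : Type*} [MetricSpace M] [ChartedSpace (EuclideanSpace ℝ (Fin n)) M]
  [IsManifold (𝓡 n) ∞ M]
  [RiemannianBundle (fun p : M => TangentSpace (𝓡 n) p)]
  [IsContMDiffRiemannianBundle (𝓡 n) ∞ (EuclideanSpace ℝ (Fin n)) (fun p : M => TangentSpace (𝓡 n) p)]
  [IsRiemannianManifold (𝓡 n) M] [ProperSpace M]

local notation "𝔼" => EuclideanSpace ℝ (Fin n)

theorem ae_Om [MeasurableSpace M] [BorelSpace M] {κ : ℝ} {μ : Measure M} (C : Rad n κ M μ)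
    [Nontrivial M] [IsFiniteMeasureOnCompacts μ] (hκ : 0 ≤ κ) (hm : ExM M) (x : M) :
    ∀ᵐ z ∂μ, (x, z) ∈ Om M :=
  ae_Om_aux C hκ x (isOpen_OmA n hm x).measurableSet

theorem ae_SC [MeasurableSpace M] [BorelSpace M] {κ : ℝ} {μ : Measure M} (C : Rad n κ M μ)
    [Nontrivial M] [IsFiniteMeasureOnCompacts μ] (hκ : 0 ≤ κ) (hm : ExM M) (x : M) :
    ∀ᵐ z ∂μ, SC n z x := by
  filter_upwards [ae_Om C hκ hm x] with z hz using sc_symm (sc_of_Om hm hz)

/-- `n ≠ 0` makes the manifold nontrivial -/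
theorem nontrivial_of_ne_zero [Nonempty M] (hn : n ≠ 0) : Nontrivial M := by
  obtain ⟨x⟩ := (inferInstance : Nonempty M)
  have : Nonempty (Fin n) := ⟨⟨0, Nat.pos_of_ne_zero hn⟩⟩
  have : Nontrivial 𝔼 := by infer_instance
  have ht : (chartAt 𝔼 x).target ∈ 𝓝 (chartAt 𝔼 x x) :=
    (chartAt 𝔼 x).open_target.mem_nhds ((chartAt 𝔼 x).map_source (mem_chart_source 𝔼 x))
  obtain ⟨b, hb, hbx⟩ : ∃ b ∈ (chartAt 𝔼 x).target, b ≠ chartAt 𝔼 x x := by
    have hne : (𝓝[≠] (chartAt 𝔼 x x)).NeBot := inferInstance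
    have ev : ∀ᶠ b in 𝓝[≠] (chartAt 𝔼 x x), b ∈ (chartAt 𝔼 x).target :=
      mem_nhdsWithin_of_mem_nhds ht
    have ev2 : ∀ᶠ b in 𝓝[≠] (chartAt 𝔼 x x), b ≠ chartAt 𝔼 x x := self_mem_nhdsWithin
    obtain ⟨b, hb1, hb2⟩ := (ev.and ev2).exists
    exact ⟨b, hb1, hb2⟩
  refine ⟨(chartAt 𝔼 x).symm b, x, fun h => hbx ?_⟩
  have h2 := congrArg (chartAt 𝔼 x) h
  rwa [(chartAt 𝔼 x).right_inv hb] at h2

section grad
variable [SecondCountableTopology M] [Nonempty M]

/-- gradient vector in the frame of `Ms6_322` -/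
def gv (f : M → ℝ) (z : M) : TangentSpace (𝓡 n) z :=
  ∑ j, df f z (fr z j) • (fr z j : TangentSpace (𝓡 n) z)

theorem inner_gv (f : M → ℝ) (z : M) (ξ : TangentSpace (𝓡 n) z) :
    inner ℝ (gv (n := n) f z) ξ = dL n f z ξ := by
  have h : dL n f z ξ = df f z ξ := rfl
  rw [h, df_expand, gv, sum_inner]
  refine Finset.sum_congr rfl fun j _ => ?_
  rw [real_inner_smul_left]
  ring

theorem dL_gv (f φ : M → ℝ) (z : M) :
    dL n φ z (gv f z) = inner ℝ (Gr (n := n) f z) (Gr (n := n) φ z) := by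
  rw [inner_Gr, gv, map_sum]
  refine Finset.sum_congr rfl fun j _ => ?_
  rw [map_smul, smul_eq_mul]
  rfl

theorem norm_gv (f : M → ℝ) (z : M) : ‖gv (n := n) f z‖ = ‖Gr (n := n) f z‖ := by
  have h1 : ‖gv (n := n) f z‖ ^ 2 = ‖Gr (n := n) f z‖ ^ 2 := by
    rw [← real_inner_self_eq_norm_sq, inner_gv, dL_gv, real_inner_self_eq_norm_sq]
  exact (sq_eq_sq₀ (norm_nonneg _) (norm_nonneg _)).1 h1

/-- **pointwise**: left derivative of `φ` at the end of a minimiser from `x` -/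
theorem Seg.grad_end {x z : M} (h : SC n z x) {T : ℝ → M} (hT : Seg x z T) {φ : M → ℝ}
    (hφ : MDifferentiableAt (𝓡 n) 𝓘(ℝ) φ z) :
    HasDerivWithinAt (fun t => φ (T t))
      (inner ℝ (Gr (n := n) (fun q => halfDistSq q x) z) (Gr (n := n) φ z)) (Iic 1) 1 := by
  obtain ⟨L⟩ := nonempty_localNear (n := n) z
  have := deriv_end L L.mem_W h hT (W := gv (fun q => halfDistSq q x) z)
    (fun ξ => (inner_gv _ z ξ).symm) hφ
  rwa [dL_gv] at this

/-- **pointwise**: right derivative at the beginning of a minimiser to `z` -/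
theorem Seg.grad_start {x z : M} (h : SC n x z) {T : ℝ → M} (hT : Seg x z T) {φ : M → ℝ}
    (hφ : MDifferentiableAt (𝓡 n) 𝓘(ℝ) φ x) :
    HasDerivWithinAt (fun t => φ (T t))
      (-inner ℝ (Gr (n := n) (fun q => halfDistSq q z) x) (Gr (n := n) φ x)) (Ici 0) 0 := by
  obtain ⟨L⟩ := nonempty_localNear (n := n) x
  have := deriv_start L L.mem_W h hT (W := gv (fun q => halfDistSq q z) x)
    (fun ξ => (inner_gv _ x ξ).symm) hφ
  rwa [dL_gv] at this

/-- **pointwise**: derivative at an interior time of a minimiser from `x` -/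
theorem Seg.grad_mid (hm : ExM M) {x z : M} {T : ℝ → M} (hT : Seg x z T) (hxz : x ≠ z) {t₀ : ℝ}
    (ht0 : 0 < t₀) (ht1 : t₀ < 1) {φ : M → ℝ} (hφ : MDifferentiableAt (𝓡 n) 𝓘(ℝ) φ (T t₀)) :
    HasDerivAt (fun t => φ (T t))
      (inner ℝ (Gr (n := n) (fun q => halfDistSq q x) (T t₀)) (Gr (n := n) φ (T t₀)) / t₀) t₀ := by
  obtain ⟨L⟩ := nonempty_localNear (n := n) (T t₀)
  have hI : t₀ ∈ Icc (0 : ℝ) 1 := ⟨ht0.le, ht1.le⟩
  have hsc : SC n (T t₀) x := by
    refine sc_symm (sc_of_Om hm (mem_Om_of_btw (y' := z) ?_ ?_))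
    · rw [← dist_pos, hT.right hI]
      exact mul_pos (by linarith) (dist_pos.2 hxz)
    · rw [hT.left hI, hT.right hI]; ring
  have := deriv_mid L hT hxz ht0 ht1 L.mem_W hsc (W := gv (fun q => halfDistSq q x) (T t₀))
    (fun ξ => (inner_gv _ (T t₀) ξ).symm) hφ
  rwa [dL_gv] at this

variable [MeasurableSpace M] [BorelSpace M] {κ : ℝ} {μ : Measure M} (C : Rad n κ M μ)
  [Nontrivial M] [IsFiniteMeasureOnCompacts μ]

/-- **radial derivative = gradient bracket** -/
theorem rd_grad (hκ : 0 ≤ κ) (hm : ExM M) (x : M) {φ : M → ℝ}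
    (hφ : ∀ᵐ z ∂μ, MDifferentiableAt (𝓡 n) 𝓘(ℝ) φ z) :
    RD C x φ (fun z => inner ℝ (Gr (n := n) (fun q => halfDistSq q x) z) (Gr (n := n) φ z)) := by
  filter_upwards [ae_SC C hκ hm x, hφ, C.ae_U x] with z h1 h2 h3
  exact ((seg_of_U C h3).grad_end h1 h2).mono Iio_subset_Iic_self

include C in
theorem ae_mdiff_halfDistSq (hκ : 0 ≤ κ) (hm : ExM M) (x : M) :
    ∀ᵐ z ∂μ, MDifferentiableAt (𝓡 n) 𝓘(ℝ) (fun q => halfDistSq q x) z := by
  filter_upwards [ae_SC C hκ hm x] with z h1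
  exact mdiff_left h1

/-- **symmetry of the radial derivative** -/
theorem rd_symm (hκ : 0 ≤ κ) (hm : ExM M) (v b : M) :
    ∃ D : M → ℝ, RD C v (fun z => halfDistSq z b) D ∧ RD C b (fun z => halfDistSq z v) D := by
  refine ⟨_, rd_grad C hκ hm v (ae_mdiff_halfDistSq C hκ hm b), ?_⟩
  have := rd_grad C hκ hm b (ae_mdiff_halfDistSq C hκ hm v)
  simpa only [real_inner_comm] using this

end grad

end mfd

end Crest.Agent.R247.Rdg879
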