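import Crest.Agent.R247.Ray4_97
import Crest.Agent.R247.Rdg2_879
import Crest.Agent.R247.Loc1_710
import Crest.Agent.R247.Ib1_939
import Crest.Agent.R247.Ms8_322

/-!
R247 (helper97), block (6f), part 5: the manifold instances of the hypotheses `TaylorP`, `UnitA`,
`UnitP`, `RDG` of `Loc1_710` (over `Gr`, `mHess` in the frame of `Ms6_322`, and any `Rad`).
-/

set_option autoImplicit false
set_option maxSynthPendingDepth 3
set_option linter.unusedSectionVars false

open Bundle Set Filter Topology Metric MeasureTheory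
open scoped Manifold ContDiff NNReal ENNReal
open Crest.GeometryTopology.CoordMetric Crest.GeometryTopology.ChartCurvature
open Crest.GeometryTopology.MTW Crest.Agent.R244 Crest.Agent.R226
open Crest.Agent.R226.CutSmooth77 (SC)
open Crest.Agent.R247.Bo84 (mGam mHess mgrad mGam_eq_inner mGam_self)
open Crest.Agent.R247.Sm879 Crest.Agent.R247.Mcp688 Crest.Agent.R247.Rdg879
open Crest.Agent.R247.Ms322 Crest.Agent.R247.Hes124 Crest.Agent.R247.Loc710
open Crest.Agent.R247.Dir593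
open Crest.Agent.R247.Ib939 (vf inner_Gr_mGam mgrad_eq_vf norm_vf inner_mv_Hf)

namespace Crest.Agent.R247.Ray97

section alg
variable {n : ℕ}

lemma mv_idm (v : F n) : mv (idm n) v = v := by
  ext i
  rw [mv_apply, Finset.sum_eq_single i]
  · simp [idm]
  · intro j _ hj
    simp [idm, Ne.symm hj]
  · intro h
    exact absurd (Finset.mem_univ i) h

lemma abs_inner_mv_sub (A : S n) (v : F n) :
    |inner ℝ (mv A v) v - ‖v‖ ^ 2| ≤ ‖A - idm n‖ * ‖v‖ ^ 2 := by
  have e : inner ℝ (mv A v) v - ‖v‖ ^ 2 = inner ℝ (mv (A - idm n) v) v := by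
    rw [mv_sub_left, mv_idm, inner_sub_left, real_inner_self_eq_norm_sq]
  rw [e]
  calc |inner ℝ (mv (A - idm n) v) v| ≤ ‖mv (A - idm n) v‖ * ‖v‖ := abs_real_inner_le_norm _ _
    _ ≤ (‖A - idm n‖ * ‖v‖) * ‖v‖ := by gcongr; exact norm_mv_le _ _
    _ = _ := by ring

end alg

variable {n : ℕ} {M : Type*} [MetricSpace M] [ChartedSpace (EuclideanSpace ℝ (Fin n)) M]
  [IsManifold (𝓡 n) ∞ M]
  [RiemannianBundle (fun p : M => TangentSpace (𝓡 n) p)]
  [IsContMDiffRiemannianBundle (𝓡 n) ∞ (EuclideanSpace ℝ (Fin n)) (fun p : M => TangentSpace (𝓡 n) p)]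
  [SecondCountableTopology M] [Nonempty M]

local notation "𝔼" => EuclideanSpace ℝ (Fin n)

/-- every tangent vector is a frame vector -/
theorem exists_vf (z : M) (ξ : TangentSpace (𝓡 n) z) : ∃ v : 𝔼, ξ = vf z v := by
  refine ⟨WithLp.toLp 2 fun j => (frB z).repr ξ j, ?_⟩
  have h := (frB z).sum_repr ξ
  conv_lhs => rw [← h]
  unfold vf
  refine Finset.sum_congr rfl fun j _ => ?_
  rw [frB_apply]

/-- the deviation of the Hessian from the metric, on vectors, is controlled by the norm of the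
frame matrix. -/
theorem abs_mHess_sub_le {w : M → ℝ} {z : M} {A : S n}
    (hA : ∀ i j, A (i, j) = mHess n w z (fr z i) (fr z j)) (ξ : TangentSpace (𝓡 n) z) :
    |mHess n w z ξ ξ - ‖ξ‖ ^ 2| ≤ ‖A - idm n‖ * ‖ξ‖ ^ 2 := by
  obtain ⟨v, rfl⟩ := exists_vf z ξ
  have hAe : A = Crest.Agent.R247.Ib939.Hf w z := by
    ext p
    obtain ⟨i, j⟩ := p
    exact hA i j
  rw [norm_vf, ← inner_mv_Hf, ← hAe]
  exact abs_inner_mv_sub A v

variable [IsRiemannianManifold (𝓡 n) M] [ProperSpace M]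

theorem fx_eq (x : M) : fx x = halfDistSq x := rfl

theorem mGam_halfDistSq_self (hm : ExM M) {x p : M} (h : SC n x p) :
    ‖Gr (n := n) (fx x) p‖ = dist x p := by
  have h1 := norm_mgrad_halfDistSq (n := n) hm h
  have h2 : ‖Gr (n := n) (halfDistSq x) p‖ ^ 2 = ‖mgrad n (halfDistSq x) p‖ ^ 2 := by
    rw [← real_inner_self_eq_norm_sq, inner_Gr_mGam, mGam_self]
  rw [fx_eq, ← h1]
  exact (pow_left_inj₀ (norm_nonneg _) (norm_nonneg _) (by norm_num)).1 h2

variable [MeasurableSpace M] [BorelSpace M] {κ' : ℝ} {μ : Measure M}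

theorem isRay_of_U (C : Rad n κ' M μ) {u v : M} (h : (u, v) ∈ C.U) (huv : u ≠ v) :
    IsRay u (fun t => C.T u t v) (dist u v) 1 :=
  ⟨dist_pos.2 huv, one_pos, C.T_zero u v h, fun s hs t ht => by
    rw [C.dist_T u v h s hs t ht]; ring⟩

/-- **pointwise Taylor inequality** -/
theorem taylor_pt (hm : ExM M) (C : Rad n κ' M μ) {w : M → ℝ}
    (hw : ContMDiff (𝓡 n) 𝓘(ℝ, ℝ) 2 w) {A : M → S n}
    (hA : ∀ z i j, A z (i, j) = mHess n w z (fr z i) (fr z j)) {u v : M} (hU : (u, v) ∈ C.U)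
    (hSC : SC n v u) :
    ENNReal.ofReal |inner ℝ (Gr (n := n) w u) (Gr (n := n) (fx v) u) - w u - fx v u + w v| ≤
      ENNReal.ofReal (dist u v ^ 2) *
        ∫⁻ t in Icc (0 : ℝ) 1, ENNReal.ofReal ‖A (C.T u t v) - idm n‖ := by
  rcases eq_or_ne u v with rfl | huv
  · have h1 := mGam_halfDistSq_self (n := n) hm hSC
    rw [dist_self, norm_eq_zero] at h1
    rw [h1, inner_zero_right]
    have : fx u u = 0 := by simp [fx]
    rw [this]
    simp
  · have h := isRay_of_U C hU huv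
    have h1 : C.T u 1 v = v := C.T_one u v hU
    have key := h.taylor (n := n) hm (by simpa only [h1] using hSC) (w := w)
      (fun t _ => hw _) (K := fun z => ENNReal.ofReal ‖A z - idm n‖) (fun t _ ξ => by
        rw [← ENNReal.ofReal_mul (norm_nonneg _)]
        exact ENNReal.ofReal_le_ofReal (abs_mHess_sub_le (hA _) ξ))
    simp only [h1] at key
    rw [inner_Gr_mGam, fx_eq]
    refine key.trans (mul_le_mul_right (lintegral_mono_ae ?_) _)
    filter_upwards [ae_restrict_mem measurableSet_Icc] with t ht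
    calc ENNReal.ofReal (1 - t) * ENNReal.ofReal ‖A (C.T u t v) - idm n‖
        ≤ 1 * ENNReal.ofReal ‖A (C.T u t v) - idm n‖ := by
          gcongr
          exact ENNReal.ofReal_le_one.2 (by linarith [ht.1])
      _ = _ := one_mul _

/-- **pointwise first order inequality** -/
theorem ftc_pt (hm : ExM M) (C : Rad n κ' M μ) {w : M → ℝ} {u v : M} (hU : (u, v) ∈ C.U)
    (hw : ∀ t ∈ Icc (0 : ℝ) 1, MDifferentiableAt (𝓡 n) 𝓘(ℝ, ℝ) w (C.T u t v)) :
    ENNReal.ofReal |w v - w u| ≤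
      ENNReal.ofReal (dist u v) *
        ∫⁻ t in Icc (0 : ℝ) 1, ENNReal.ofReal ‖Gr (n := n) w (C.T u t v)‖ := by
  rcases eq_or_ne u v with rfl | huv
  · simp
  · have h := isRay_of_U C hU huv
    have h1 : C.T u 1 v = v := C.T_one u v hU
    have key := h.ftc (n := n) hm (w := w) hw
    simp only [h1] at key
    refine key.trans (le_of_eq ?_)
    congr 1
    refine lintegral_congr fun t => ?_
    congr 1
    have h2 : ‖Gr (n := n) w (C.T u t v)‖ ^ 2 = ‖mgrad n w (C.T u t v)‖ ^ 2 := by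
      rw [← real_inner_self_eq_norm_sq, inner_Gr_mGam, mGam_self]
    exact ((pow_left_inj₀ (norm_nonneg _) (norm_nonneg _) (by norm_num)).1 h2).symm

variable [Nontrivial M] [IsFiniteMeasureOnCompacts μ]

/-- **`TaylorP` of `Loc1_710`** -/
theorem taylorP (hκ : 0 ≤ κ') (hm : ExM M) (C : Rad n κ' M μ) {κ : ℝ} (B : BochS n κ M μ)
    (hG : B.G = Gr (n := n)) (hcore : ∀ w ∈ B.core, ContMDiff (𝓡 n) 𝓘(ℝ, ℝ) 2 w)
    (hH : ∀ w ∈ B.core, ∀ z i j, B.H w z (i, j) = mHess n w z (fr z i) (fr z j)) :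
    TaylorP B C := by
  intro w hw
  refine Eventually.of_forall fun u => ?_
  filter_upwards [C.ae_U u, ae_SC C hκ hm u] with v hU hSC
  rw [hG]
  exact taylor_pt hm C (hcore w hw) (hH w hw) hU hSC

/-- `UnitA` of `Loc1_710` -/
theorem unitA (hκ : 0 ≤ κ') (hm : ExM M) (C : Rad n κ' M μ) (S : GradS M (F n) μ)
    (hG : S.G = Gr (n := n)) : UnitA S := by
  intro x
  filter_upwards [ae_Om C hκ hm x] with u hu
  rw [hG]
  exact mGam_halfDistSq_self hm (sc_of_Om hm hu)

/-- `UnitP` of `Loc1_710` -/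
theorem unitP (hκ : 0 ≤ κ') (hm : ExM M) (C : Rad n κ' M μ) (S : GradS M (F n) μ)
    (hG : S.G = Gr (n := n)) : UnitP S := by
  refine Eventually.of_forall fun u => ?_
  filter_upwards [ae_SC C hκ hm u] with v hv
  rw [hG]
  exact mGam_halfDistSq_self hm hv

/-- `RDG` of `Loc1_710` (for the Riemannian measure) -/
theorem rdg [IsFiniteMeasureOnCompacts (μHE[n] : Measure M)] (hκ : 0 ≤ κ') (hm : ExM M)
    (C : Rad n κ' M (μHE[n] : Measure M)) (S : GradS M (F n) (μHE[n] : Measure M))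
    (hG : S.G = Gr (n := n)) : RDG S C := by
  intro x φ hφ
  have h := rd_grad C hκ hm x (φ := φ) (ae_mdifferentiableAt hφ)
  rw [hG]
  have e : (fun q => halfDistSq q x) = fx x := by
    funext q
    unfold fx halfDistSq
    rw [dist_comm]
  rw [e] at h
  exact h

end Crest.Agent.R247.Ray97
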