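import Crest.Agent.R247.Rdg4_879
import Crest.Agent.R247.Ms7_322

/-!
R247 (helper879), leaf (RDG), file 5: the two-point first variation

* `two_point` : derivative of `t ↦ dist (a t) (b t)` for two curves with one-sided velocities
* `Seg.two_point_end` : for two minimisers from `x`, left derivative at `1`
* `two_point_ae` : the same for a.e. pair over `C : Rad n κ M μ`
-/

set_option autoImplicit false
set_option maxSynthPendingDepth 3
set_option linter.unusedSectionVars false

open Bundle Set Filter Topology MeasureTheory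
open scoped Manifold ContDiff
open Crest.GeometryTopology.MTW Crest.Agent.R226
open Crest.Agent.R226.NearLem90 (dL halfDistSq_comm hasDerivAt_comp_curve)
open Crest.Agent.R226.CutSmooth77 (SC)
open Crest.Agent.R226.ChartMet842
open Crest.Agent.R247.Sm879
open Crest.Agent.R247.Mcp688
open Crest.Agent.R247.Ms322
open Crest.Agent.R247.Cal550

noncomputable section
namespace Crest.Agent.R247.Rdg879

theorem hds_eq0 {M : Type*} [MetricSpace M] (x : M) :
    (fun u : M => dist x u ^ 2 / 2) = fun u => halfDistSq u x := by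
  funext u
  rw [dist_comm]; rfl

section pt
variable {n : ℕ} {M : Type*} [MetricSpace M] [ChartedSpace (EuclideanSpace ℝ (Fin n)) M]
  [IsManifold (𝓡 n) ∞ M]
  [RiemannianBundle (fun p : M => TangentSpace (𝓡 n) p)]
  [IsContMDiffRiemannianBundle (𝓡 n) ∞ (EuclideanSpace ℝ (Fin n)) (fun p : M => TangentSpace (𝓡 n) p)]
  [IsRiemannianManifold (𝓡 n) M] [ProperSpace M]

local notation "𝔼" => EuclideanSpace ℝ (Fin n)

/-- **two curves**, squared distance -/
theorem two_point_sq {p q : M} (h : SC n p q) {a b : ℝ → M} {S : Set ℝ} {s₀ : ℝ}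
    (ha0 : a s₀ = p) (hb0 : b s₀ = q) (hac : ContinuousWithinAt a S s₀)
    (hbc : ContinuousWithinAt b S s₀)
    {W : TangentSpace (𝓡 n) p} {V : TangentSpace (𝓡 n) q}
    (ha : HasDerivWithinAt (fun t => chartAt 𝔼 p (a t)) (dC p p W : 𝔼) S s₀)
    (hb : HasDerivWithinAt (fun t => chartAt 𝔼 q (b t)) (dC q q V : 𝔼) S s₀) :
    HasDerivWithinAt (fun t => halfDistSq (a t) (b t))
      (df (fun u => halfDistSq u q) p W + df (fun u => halfDistSq p u) q V) S s₀ := by
  set ca : 𝔼 := chartAt 𝔼 p p with hca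
  set cb : 𝔼 := chartAt 𝔼 q q with hcb
  have hps : p ∈ (chartAt 𝔼 p).source := mem_chart_source 𝔼 p
  have hqs : q ∈ (chartAt 𝔼 q).source := mem_chart_source 𝔼 q
  have hat : ca ∈ (chartAt 𝔼 p).target := (chartAt 𝔼 p).map_source hps
  have hbt : cb ∈ (chartAt 𝔼 q).target := (chartAt 𝔼 q).map_source hqs
  have hai : (chartAt 𝔼 p).symm ca = p := (chartAt 𝔼 p).left_inv hps
  have hbi : (chartAt 𝔼 q).symm cb = q := (chartAt 𝔼 q).left_inv hqs
  set F : 𝔼 × 𝔼 → ℝ := fun z => halfDistSq ((chartAt 𝔼 p).symm z.1) ((chartAt 𝔼 q).symm z.2)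
    with hF
  have hFd : HasFDerivAt F (fderiv ℝ F (ca, cb)) (ca, cb) :=
    ((contDiffAt_pair hat hbt (by rw [hai, hbi]; exact h)).differentiableAt
      (by simp)).hasFDerivAt
  have hcv := ha.prodMk hb
  have h0 : (chartAt 𝔼 p (a s₀), chartAt 𝔼 q (b s₀)) = (ca, cb) := by rw [ha0, hb0]
  have h1 : HasDerivWithinAt (F ∘ fun t => (chartAt 𝔼 p (a t), chartAt 𝔼 q (b t)))
      (fderiv ℝ F (ca, cb) (dC p p W, dC q q V)) S s₀ := by
    refine HasFDerivAt.comp_hasDerivWithinAt s₀ ?_ hcv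
    rw [h0]; exact hFd
  have h2 : fderiv ℝ F (ca, cb) ((dC p p W : 𝔼), (dC q q V : 𝔼)) =
      df (fun u => halfDistSq u q) p W + df (fun u => halfDistSq p u) q V := by
    have e1 : df (fun u => halfDistSq u q) p W = fderiv ℝ F (ca, cb) ((dC p p W : 𝔼), 0) := by
      rw [df_eq_fderiv p hps]
      have hc : HasFDerivAt (fun z : 𝔼 => F (z, cb))
          ((fderiv ℝ F (ca, cb)).comp (ContinuousLinearMap.inl ℝ 𝔼 𝔼)) ca :=
        HasFDerivAt.comp (g := F) (f := fun z : 𝔼 => (z, cb)) ca hFd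
          (hasFDerivAt_prodMk_left ca cb)
      have e : (fun z : 𝔼 => F (z, cb)) =
          fun z => halfDistSq ((chartAt 𝔼 p).symm z) q := by
        funext z
        simp only [hF, hbi]
      rw [e] at hc
      rw [hc.fderiv]
      simp
    have e2 : df (fun u => halfDistSq p u) q V = fderiv ℝ F (ca, cb) (0, (dC q q V : 𝔼)) := by
      rw [df_eq_fderiv q hqs]
      have hc : HasFDerivAt (fun z : 𝔼 => F (ca, z))
          ((fderiv ℝ F (ca, cb)).comp (ContinuousLinearMap.inr ℝ 𝔼 𝔼)) cb :=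
        HasFDerivAt.comp (g := F) (f := fun z : 𝔼 => (ca, z)) cb hFd
          (hasFDerivAt_prodMk_right ca cb)
      have e : (fun z : 𝔼 => F (ca, z)) =
          fun z => halfDistSq p ((chartAt 𝔼 q).symm z) := by
        funext z
        simp only [hF, hai]
      rw [e] at hc
      rw [hc.fderiv]
      simp
    rw [e1, e2, ← map_add]
    simp
  rw [h2] at h1
  have ev1 : ∀ᶠ t in 𝓝[S] s₀, a t ∈ (chartAt 𝔼 p).source := by
    have : (chartAt 𝔼 p).source ∈ 𝓝 (a s₀) := by
      rw [ha0]; exact (chartAt 𝔼 p).open_source.mem_nhds hps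
    exact hac this
  have ev2 : ∀ᶠ t in 𝓝[S] s₀, b t ∈ (chartAt 𝔼 q).source := by
    have : (chartAt 𝔼 q).source ∈ 𝓝 (b s₀) := by
      rw [hb0]; exact (chartAt 𝔼 q).open_source.mem_nhds hqs
    exact hbc this
  refine h1.congr_of_eventuallyEq ?_ ?_
  · filter_upwards [ev1, ev2] with t h3 h4
    simp only [Function.comp_apply, hF, (chartAt 𝔼 p).left_inv h3, (chartAt 𝔼 q).left_inv h4]
  · simp only [Function.comp_apply, hF, ha0, hb0]
    rw [← hca, ← hcb, hai, hbi]

theorem mdiff_dist_left {p q : M} (h : SC n p q) (hne : p ≠ q) :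
    MDifferentiableAt (𝓡 n) 𝓘(ℝ) (fun u : M => dist q u) p := by
  have h1 := mdiff_left h
  have e : (fun u : M => dist q u) = fun u => Real.sqrt (2 * halfDistSq u q) := by
    funext u
    unfold halfDistSq
    rw [mul_div_cancel₀ _ (two_ne_zero), Real.sqrt_sq dist_nonneg, dist_comm]
  rw [e]
  have h0 : 2 * halfDistSq p q ≠ 0 := by
    unfold halfDistSq
    have := dist_pos.2 hne
    positivity
  have h2 : DifferentiableAt ℝ (fun s : ℝ => Real.sqrt (2 * s)) (halfDistSq p q) :=
    ((differentiableAt_id).const_mul 2).sqrt h0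
  exact MDifferentiableAt.comp (I := 𝓡 n) (I' := 𝓘(ℝ)) (I'' := 𝓘(ℝ)) (x := p)
    (g := fun s : ℝ => Real.sqrt (2 * s)) (f := fun u : M => halfDistSq u q)
    h2.mdifferentiableAt h1

variable [SecondCountableTopology M] [Nonempty M]

/-- `d(d_q²/2) = d_q · d(d_q)` -/
theorem df_half {p q : M} (h : SC n p q) (hne : p ≠ q) :
    df (n := n) (fun u => halfDistSq u q) p = dist p q • df (n := n) (fun u => dist q u) p := by
  have h1 := mdiff_dist_left h hne
  have h2 : DifferentiableAt ℝ (fun s : ℝ => s ^ 2 / 2) (dist q p) := by fun_prop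
  have h3 := df_comp (n := n) (χ := fun s : ℝ => s ^ 2 / 2) h1 h2
  have e : (fun u : M => (fun s : ℝ => s ^ 2 / 2) (dist q u)) = fun u => halfDistSq u q := by
    funext u
    unfold halfDistSq
    rw [dist_comm]
  have e2 : deriv (fun s : ℝ => s ^ 2 / 2) (dist q p) = dist p q := by
    have : HasDerivAt (fun s : ℝ => s ^ 2 / 2) (dist q p) (dist q p) :=
      ((hasDerivAt_pow 2 (dist q p)).div_const 2).congr_deriv (by push_cast; ring)
    rw [this.deriv, dist_comm]
  rw [← e2, ← h3, ← e]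

/-- **two curves**, distance -/
theorem two_point {p q : M} (h : SC n p q) (hne : p ≠ q) {a b : ℝ → M} {S : Set ℝ} {s₀ : ℝ}
    (ha0 : a s₀ = p) (hb0 : b s₀ = q) (hac : ContinuousWithinAt a S s₀)
    (hbc : ContinuousWithinAt b S s₀)
    {W : TangentSpace (𝓡 n) p} {V : TangentSpace (𝓡 n) q}
    (ha : HasDerivWithinAt (fun t => chartAt 𝔼 p (a t)) (dC p p W : 𝔼) S s₀)
    (hb : HasDerivWithinAt (fun t => chartAt 𝔼 q (b t)) (dC q q V : 𝔼) S s₀) :
    HasDerivWithinAt (fun t => dist (a t) (b t))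
      (df (fun u => dist q u) p W + df (fun u => dist p u) q V) S s₀ := by
  have h1 := two_point_sq h ha0 hb0 hac hbc ha hb
  have hpos : 0 < dist p q := dist_pos.2 hne
  have e : (fun t : ℝ => dist (a t) (b t)) = fun t => Real.sqrt (2 * halfDistSq (a t) (b t)) := by
    funext t
    unfold halfDistSq
    rw [mul_div_cancel₀ _ (two_ne_zero), Real.sqrt_sq dist_nonneg]
  have h2 := (h1.const_mul 2).sqrt (by
    rw [ha0, hb0]; unfold halfDistSq; positivity)
  rw [e]
  refine h2.congr_deriv ?_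
  have e3 : Real.sqrt (2 * halfDistSq p q) = dist p q := by
    unfold halfDistSq
    rw [mul_div_cancel₀ _ (two_ne_zero), Real.sqrt_sq dist_nonneg]
  have e4 : df (fun u => halfDistSq p u) q V = df (fun u => halfDistSq u p) q V := by
    have : (fun u : M => halfDistSq p u) = fun u => halfDistSq u p := by
      funext u; exact halfDistSq_comm _ _
    rw [this]
  have e5 : df (n := n) (fun u => halfDistSq u q) p W =
      dist p q * df (n := n) (fun u => dist q u) p W := by
    rw [df_half h hne]; rfl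
  have e6 : df (n := n) (fun u => halfDistSq u p) q V =
      dist p q * df (n := n) (fun u => dist p u) q V := by
    rw [df_half (sc_symm h) hne.symm, dist_comm p q]; rfl
  rw [ha0, hb0, e3, e4, e5, e6]
  field_simp

section grad

/-- a minimiser is continuous at its end -/
theorem Seg.continuousWithinAt_end {x z : M} {T : ℝ → M} (hT : Seg x z T) :
    ContinuousWithinAt T (Iic 1) 1 := by
  rw [Metric.continuousWithinAt_iff']
  intro ε hε
  have hl : Tendsto (fun t : ℝ => (1 - t) * dist x z) (𝓝[≤] 1) (𝓝 ((1 - 1) * dist x z)) :=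
    (Continuous.tendsto (by fun_prop) 1).mono_left nhdsWithin_le_nhds
  rw [sub_self, zero_mul] at hl
  have e1 : ∀ᶠ t in 𝓝[≤] (1 : ℝ), t ∈ Ioc (0 : ℝ) 1 := by
    filter_upwards [self_mem_nhdsWithin,
      mem_nhdsWithin_of_mem_nhds (Ioi_mem_nhds (zero_lt_one (α := ℝ)))] with t h1 h2
    exact ⟨h2, h1⟩
  filter_upwards [e1, hl.eventually (gt_mem_nhds hε)] with t ht h2
  rw [hT.one, hT.right ⟨ht.1.le, ht.2⟩]
  exact h2

/-- **pointwise two-point first variation** for two minimisers from (possibly different) points -/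
theorem Seg.two_point_end {x y p q : M} (hp : SC n p x) (hq : SC n q y) (hpq : SC n p q)
    (hne : p ≠ q) {a b : ℝ → M} (ha : Seg x p a) (hb : Seg y q b) :
    HasDerivWithinAt (fun t => dist (a t) (b t))
      (inner ℝ (Gr (n := n) (fun u => dist x u ^ 2 / 2) p) (Gr (n := n) (fun u => dist q u) p) +
        inner ℝ (Gr (n := n) (fun u => dist y u ^ 2 / 2) q) (Gr (n := n) (fun u => dist p u) q))
      (Iic 1) 1 := by
  obtain ⟨L⟩ := nonempty_localNear (n := n) p
  obtain ⟨L'⟩ := nonempty_localNear (n := n) q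
  have h1 := chart_end L L.mem_W hp ha (W := gv (n := n) (fun u => halfDistSq u x) p)
    (fun ξ => (inner_gv _ p ξ).symm) p (mem_chart_source 𝔼 p)
  have h2 := chart_end L' L'.mem_W hq hb (W := gv (n := n) (fun u => halfDistSq u y) q)
    (fun ξ => (inner_gv _ q ξ).symm) q (mem_chart_source 𝔼 q)
  have h3 := two_point hpq hne ha.one hb.one ha.continuousWithinAt_end hb.continuousWithinAt_end
    h1 h2
  have e1 : df (n := n) (fun u => dist q u) p (gv (fun u => halfDistSq u x) p) =
      inner ℝ (Gr (n := n) (fun u => dist x u ^ 2 / 2) p) (Gr (n := n) (fun u => dist q u) p) := by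
    rw [hds_eq0 x]
    exact dL_gv _ _ p
  have e2 : df (n := n) (fun u => dist p u) q (gv (fun u => halfDistSq u y) q) =
      inner ℝ (Gr (n := n) (fun u => dist y u ^ 2 / 2) q) (Gr (n := n) (fun u => dist p u) q) := by
    rw [hds_eq0 y]
    exact dL_gv _ _ q
  rwa [e1, e2] at h3

end grad
end pt

section ae
variable {n : ℕ} {M : Type*} [MetricSpace M] [ChartedSpace (EuclideanSpace ℝ (Fin n)) M]
  [IsManifold (𝓡 n) ∞ M]
  [RiemannianBundle (fun p : M => TangentSpace (𝓡 n) p)]
  [IsContMDiffRiemannianBundle (𝓡 n) ∞ (EuclideanSpace ℝ (Fin n)) (fun p : M => TangentSpace (𝓡 n) p)]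
  [IsRiemannianManifold (𝓡 n) M] [ProperSpace M] [SecondCountableTopology M] [Nonempty M]
  [MeasurableSpace M] [BorelSpace M] {κ : ℝ} {μ : Measure M} [SFinite μ]

variable (n) in
include n in
/-- a.e. pair is interior, if this holds for every first point -/
theorem ae_prod_Om (hm : ExM M) (h : ∀ x : M, ∀ᵐ z ∂μ, (x, z) ∈ Om M) :
    ∀ᵐ p ∂(μ.prod μ), p ∈ Om M := by
  have hmeas : MeasurableSet {p : M × M | ¬ p ∈ Om M} :=
    ((isOpen_Om n hm).isClosed_compl).measurableSet
  rw [ae_iff, Measure.measure_prod_null hmeas]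
  filter_upwards with x
  have := h x
  rw [ae_iff] at this
  exact this

theorem ae_prod_ne (hμ : ∀ w : M, μ {w} = 0) : ∀ᵐ p ∂(μ.prod μ), p.1 ≠ p.2 := by
  have hmeas : MeasurableSet {p : M × M | ¬ p.1 ≠ p.2} := by
    have e : {p : M × M | ¬ p.1 ≠ p.2} = {p : M × M | p.1 = p.2} := by ext; simp
    rw [e]; exact measurableSet_eq_fun measurable_fst measurable_snd
  rw [ae_iff, Measure.measure_prod_null hmeas]
  filter_upwards with x
  have e : Prod.mk x ⁻¹' {p : M × M | ¬ p.1 ≠ p.2} = {x} := by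
    ext z
    simp [eq_comm]
  rw [e]; exact hμ x

/-- **(E)** two-point first variation at almost every pair; `x = y` is 510's form -/
theorem two_point_ae_of (C : Rad n κ M μ) (hm : ExM M) (hμ : ∀ w : M, μ {w} = 0)
    (hOm : ∀ x : M, ∀ᵐ z ∂μ, (x, z) ∈ Om M) (x y : M) :
    ∀ᵐ p ∂(μ.prod μ), HasDerivWithinAt (fun t => dist (C.T x t p.1) (C.T y t p.2))
      (inner ℝ (Gr (n := n) (fun u => dist x u ^ 2 / 2) p.1)
          (Gr (n := n) (fun u => dist p.2 u) p.1) +
        inner ℝ (Gr (n := n) (fun u => dist y u ^ 2 / 2) p.2)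
          (Gr (n := n) (fun u => dist p.1 u) p.2)) (Iic 1) 1 := by
  have h1 : ∀ᵐ p ∂(μ.prod μ), (x, p.1) ∈ Om M ∧ (x, p.1) ∈ C.U :=
    Measure.quasiMeasurePreserving_fst.ae ((hOm x).and (C.ae_U x))
  have h2 : ∀ᵐ p ∂(μ.prod μ), (y, p.2) ∈ Om M ∧ (y, p.2) ∈ C.U :=
    Measure.quasiMeasurePreserving_snd.ae ((hOm y).and (C.ae_U y))
  filter_upwards [h1, h2, ae_prod_Om n hm hOm, ae_prod_ne hμ] with p a1 a2 a3 a4
  exact Seg.two_point_end (sc_symm (sc_of_Om hm a1.1)) (sc_symm (sc_of_Om hm a2.1))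
    (sc_of_Om hm a3) a4 (seg_of_U C a1.2) (seg_of_U C a2.2)

/-- **(E)**, `0 ≤ κ` -/
theorem two_point_ae (C : Rad n κ M μ) [Nontrivial M] [IsFiniteMeasureOnCompacts μ] (hκ : 0 ≤ κ)
    (hm : ExM M) (hμ : ∀ w : M, μ {w} = 0) (x y : M) :
    ∀ᵐ p ∂(μ.prod μ), HasDerivWithinAt (fun t => dist (C.T x t p.1) (C.T y t p.2))
      (inner ℝ (Gr (n := n) (fun u => dist x u ^ 2 / 2) p.1)
          (Gr (n := n) (fun u => dist p.2 u) p.1) +
        inner ℝ (Gr (n := n) (fun u => dist y u ^ 2 / 2) p.2)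
          (Gr (n := n) (fun u => dist p.1 u) p.2)) (Iic 1) 1 :=
  two_point_ae_of C hm hμ (fun x => ae_Om C hκ hm x) x y

end ae

section block
universe u
variable {n : ℕ} {M : Type u} [MetricSpace M] [CompleteSpace M] [ConnectedSpace M]
    [ChartedSpace (EuclideanSpace ℝ (Fin n)) M]
    [IsManifold 𝓘(ℝ, EuclideanSpace ℝ (Fin n)) ∞ M]
    [RiemannianBundle (fun x : M => TangentSpace 𝓘(ℝ, EuclideanSpace ℝ (Fin n)) x)]
    [IsContMDiffRiemannianBundle 𝓘(ℝ, EuclideanSpace ℝ (Fin n)) ∞ (EuclideanSpace ℝ (Fin n))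
      (fun x : M => TangentSpace 𝓘(ℝ, EuclideanSpace ℝ (Fin n)) x)]
    [IsRiemannianManifold 𝓘(ℝ, EuclideanSpace ℝ (Fin n)) M]
    [MeasurableSpace M] [BorelSpace M] {κ : ℝ} [SecondCountableTopology M] [Nonempty M]

/-- the cut locus is null, block form -/
theorem ae_Om_block (hn : 1 ≤ n)
    (C : Rad n κ M (Measure.euclideanHausdorffMeasure n : Measure M)) (hκ : 0 ≤ κ) (x : M) :
    ∀ᵐ z ∂(Measure.euclideanHausdorffMeasure n : Measure M), (x, z) ∈ Om M := by
  have := HR216.properSpace_of_riemannian n M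
  have := isLocallyFinite_muHE n M
  have : Nontrivial M := nontrivial_of_ne_zero (n := n) (by omega)
  exact ae_Om C hκ (exM_block n M) x

/-- **(E)**, block form -/
theorem two_point_block (hn : 1 ≤ n)
    (C : Rad n κ M (Measure.euclideanHausdorffMeasure n : Measure M)) (hκ : 0 ≤ κ) (x y : M) :
    ∀ᵐ p ∂((Measure.euclideanHausdorffMeasure n : Measure M).prod
        (Measure.euclideanHausdorffMeasure n : Measure M)),
      HasDerivWithinAt (fun t => dist (C.T x t p.1) (C.T y t p.2))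
      (inner ℝ (Gr (n := n) (fun u => dist x u ^ 2 / 2) p.1)
          (Gr (n := n) (fun u => dist p.2 u) p.1) +
        inner ℝ (Gr (n := n) (fun u => dist y u ^ 2 / 2) p.2)
          (Gr (n := n) (fun u => dist p.1 u) p.2)) (Iic 1) 1 := by
  have := HR216.properSpace_of_riemannian n M
  have := isLocallyFinite_muHE n M
  exact two_point_ae_of C (exM_block n M) (muHE_singleton n hn)
    (fun x => ae_Om_block hn C hκ x) x y

end block

end Crest.Agent.R247.Rdg879
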