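import Crest.Agent.R247.Fv4_510
import Crest.Agent.R247.Ray5_97
import Crest.Agent.R247.Rdg5_879
import Crest.Agent.R247.Gs2_939

/-!
# R247, P5 / V1 (helper681): calculus of smooth and of locally Lipschitz functions along almost
every minimising segment of the manifold: the fields `norm_s`, `d1`, `d2`, `d3`, `dl` of
`Fv510.SegS`.

`sv C p t = (d(p₁,p₂) t)⁻¹ ∇(d_{p₁}²/2)` at `T p₁ t p₂` (in the frame of `Ms6_322`) is the unit
tangent.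
-/

set_option autoImplicit false
set_option maxSynthPendingDepth 3
set_option linter.unusedSectionVars false

open Bundle Set Filter Topology Metric MeasureTheory
open scoped Manifold ContDiff NNReal ENNReal
open Crest.GeometryTopology.CoordMetric Crest.GeometryTopology.ChartCurvature
open Crest.GeometryTopology.MTW Crest.Agent.R244 Crest.Agent.R226
open Crest.Agent.R226.CutSmooth77 (SC)
open Crest.Agent.R247.Bo84 (mGam mHess mgrad mGam_eq_inner mGam_self mHess_symm mHess_smul_left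
  mHess_smul_right contMDiffAt_mGam)
open Crest.Agent.R247.Sm879 Crest.Agent.R247.Mcp688 Crest.Agent.R247.Rdg879
open Crest.Agent.R247.Ms322 Crest.Agent.R247.Hes124 Crest.Agent.R247.Ray97
open Crest.Agent.R247.Dir593 Crest.Agent.R247.Fv510 Crest.Agent.R247.Loc710
open Crest.Agent.R247.Ib939 (vf inner_Gr_mGam mgrad_eq_vf norm_vf inner_mv_Hf Gr_mGam)

noncomputable section
namespace Crest.Agent.R247.Fvs681

section pt

variable {n : ℕ} {M : Type*} [MetricSpace M] [ChartedSpace (EuclideanSpace ℝ (Fin n)) M]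
  [IsManifold (𝓡 n) ∞ M]
  [RiemannianBundle (fun p : M => TangentSpace (𝓡 n) p)]
  [IsContMDiffRiemannianBundle (𝓡 n) ∞ (EuclideanSpace ℝ (Fin n)) (fun p : M => TangentSpace (𝓡 n) p)]
  [SecondCountableTopology M] [Nonempty M]

local notation "𝔼" => EuclideanSpace ℝ (Fin n)

lemma vf_smul (z : M) (c : ℝ) (v : 𝔼) : vf z (c • v) = c • vf z v := by
  unfold vf
  rw [Finset.smul_sum]
  refine Finset.sum_congr rfl fun j _ => ?_
  rw [PiLp.smul_apply, smul_eq_mul, mul_smul]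

/-- `⟪Hf (c v), c v⟫ = c² Hess (∇f, ∇f)` for `v = ∇f`. -/
lemma inner_mv_smul (u f : M → ℝ) (z : M) (c : ℝ) :
    (inner ℝ (mv (Ib939.Hf u z) (c • Gr (n := n) f z)) (c • Gr (n := n) f z) : ℝ) =
      c ^ 2 * mHess n u z (mgrad n f z) (mgrad n f z) := by
  rw [inner_mv_Hf, vf_smul, mHess_smul_left, mHess_smul_right, ← mgrad_eq_vf]
  ring

/-- symmetry of the frame Hessian -/
lemma inner_mv_comm {u : M → ℝ} {z : M} (hu : ContMDiffAt (𝓡 n) 𝓘(ℝ) 2 u z) (v w : 𝔼) :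
    (inner ℝ (mv (Ib939.Hf u z) v) w : ℝ) = inner ℝ (mv (Ib939.Hf u z) w) v := by
  rw [inner_mv_Hf, inner_mv_Hf]
  exact mHess_symm hu _ _

variable [IsRiemannianManifold (𝓡 n) M] [ProperSpace M]

section ray

variable {x : M} {γ : ℝ → M} {ℓ b s : ℝ}

/-- the unit tangent in the frame -/
def tg (x : M) (γ : ℝ → M) (ℓ : ℝ) (t : ℝ) : 𝔼 := (ℓ * t)⁻¹ • Gr (n := n) (halfDistSq x) (γ t)

theorem norm_tg (hm : ExM M) (h : IsRay x γ ℓ b) (hs : s ∈ Ioo 0 b) :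
    ‖tg (n := n) x γ ℓ s‖ = 1 := by
  have h1 : ‖Gr (n := n) (halfDistSq x) (γ s)‖ = dist x (γ s) :=
    mGam_halfDistSq_self (n := n) hm (sc_of_Om hm (h.mem_Om ⟨hs.1.le, hs.2⟩))
  have h2 := h.dist_x ⟨hs.1.le, hs.2.le⟩
  have h3 : 0 < ℓ * s := mul_pos h.pos hs.1
  unfold tg
  rw [norm_smul, h1, h2, norm_inv, Real.norm_of_nonneg h3.le, inv_mul_cancel₀ h3.ne']

theorem hasDerivAt_w (hm : ExM M) (h : IsRay x γ ℓ b) (hs : s ∈ Ioo 0 b) {w : M → ℝ}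
    (hw : MDifferentiableAt (𝓡 n) 𝓘(ℝ, ℝ) w (γ s)) :
    HasDerivAt (fun t => w (γ t))
      (ℓ * inner ℝ (Gr (n := n) w (γ s)) (tg (n := n) x γ ℓ s)) s := by
  refine (h.hasDerivAt_comp (n := n) hm hs hw).congr_deriv ?_
  unfold tg
  rw [real_inner_smul_right, inner_Gr_mGam]
  have h1 := h.pos.ne'
  have h2 := hs.1.ne'
  field_simp

theorem hasDerivAt_dw (hm : ExM M) (h : IsRay x γ ℓ b) (hs : s ∈ Ioo 0 b) {w : M → ℝ}
    (hw : ContMDiffAt (𝓡 n) 𝓘(ℝ, ℝ) 2 w (γ s)) :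
    HasDerivAt (fun t => (inner ℝ (Gr (n := n) w (γ t)) (tg (n := n) x γ ℓ t) : ℝ))
      (ℓ * inner ℝ (mv (Ib939.Hf w (γ s)) (tg (n := n) x γ ℓ s)) (tg (n := n) x γ ℓ s)) s := by
  have h0 := (h.hasDerivAt_mGam (n := n) hm hs hw).const_mul ℓ⁻¹
  have e : (fun t => (inner ℝ (Gr (n := n) w (γ t)) (tg (n := n) x γ ℓ t) : ℝ)) =
      fun t => ℓ⁻¹ * (t⁻¹ * mGam n w (halfDistSq x) (γ t)) := by
    funext t
    unfold tg
    rw [real_inner_smul_right, inner_Gr_mGam, mul_inv, mul_assoc]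
  rw [e]
  refine h0.congr_deriv ?_
  unfold tg
  rw [inner_mv_smul]
  have h1 := h.pos.ne'
  have h2 := hs.1.ne'
  field_simp

theorem hasDerivAt_gg (hm : ExM M) (h : IsRay x γ ℓ b) (hs : s ∈ Ioo 0 b) {v w : M → ℝ}
    (hv : ContMDiff (𝓡 n) 𝓘(ℝ, ℝ) ∞ v) (hw : ContMDiff (𝓡 n) 𝓘(ℝ, ℝ) ∞ w) :
    HasDerivAt (fun t => (inner ℝ (Gr (n := n) v (γ t)) (Gr (n := n) w (γ t)) : ℝ))
      (ℓ * (inner ℝ (mv (Ib939.Hf v (γ s)) (tg (n := n) x γ ℓ s)) (Gr (n := n) w (γ s)) +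
        inner ℝ (Gr (n := n) v (γ s)) (mv (Ib939.Hf w (γ s)) (tg (n := n) x γ ℓ s)))) s := by
  have hv2 : ContMDiffAt (𝓡 n) 𝓘(ℝ, ℝ) 2 v (γ s) := (hv _).of_le Bo84.two_le_infty
  have hw2 : ContMDiffAt (𝓡 n) 𝓘(ℝ, ℝ) 2 w (γ s) := (hw _).of_le Bo84.two_le_infty
  have hg : ContMDiffAt (𝓡 n) 𝓘(ℝ, ℝ) 1 (mGam n v w) (γ s) :=
    contMDiffAt_mGam hv2 hw2 (by norm_num) Bo84.two_le_infty
  have h0 := hasDerivAt_w (n := n) hm h hs (w := mGam n v w) (hg.mdifferentiableAt (by norm_num))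
  have e : (fun t => (inner ℝ (Gr (n := n) v (γ t)) (Gr (n := n) w (γ t)) : ℝ)) =
      fun t => mGam n v w (γ t) := by
    funext t
    rw [inner_Gr_mGam]
  rw [e]
  refine h0.congr_deriv ?_
  rw [Gr_mGam hv2 hw2, inner_add_left, inner_mv_comm hv2 (Gr (n := n) w (γ s)),
    inner_mv_comm hw2 (Gr (n := n) v (γ s)), real_inner_comm (Gr (n := n) v (γ s))]

end ray

end pt

section ae

variable {n : ℕ} {M : Type*} [MetricSpace M] [ChartedSpace (EuclideanSpace ℝ (Fin n)) M]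
  [IsManifold (𝓡 n) ∞ M]
  [RiemannianBundle (fun p : M => TangentSpace (𝓡 n) p)]
  [IsContMDiffRiemannianBundle (𝓡 n) ∞ (EuclideanSpace ℝ (Fin n)) (fun p : M => TangentSpace (𝓡 n) p)]
  [IsRiemannianManifold (𝓡 n) M] [ProperSpace M] [SecondCountableTopology M] [Nonempty M]
  [MeasurableSpace M] [BorelSpace M] {κ : ℝ} {μ : Measure M} [SFinite μ]

local notation "𝔼" => EuclideanSpace ℝ (Fin n)

/-- the unit tangent along the segment of `p` -/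
def sv (C : Rad n κ M μ) (p : M × M) (t : ℝ) : F n :=
  tg (n := n) p.1 (fun t => C.T p.1 t p.2) (dist p.1 p.2) t

variable {C : Rad n κ M μ}

theorem norm_sv (hm : ExM M) (hne : ∀ᵐ p ∂(μ.prod μ), p.1 ≠ p.2) :
    ∀ᵐ p ∂(μ.prod μ), ∀ t ∈ Ioo (0 : ℝ) 1, ‖sv C p t‖ = 1 := by
  filter_upwards [ae_mem_U (C := C), hne] with p hU hp t ht
  exact norm_tg hm (isRay_of_U (n := n) C hU hp) ht

theorem sv_d1 (hm : ExM M) (hne : ∀ᵐ p ∂(μ.prod μ), p.1 ≠ p.2) {v : M → ℝ}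
    (hv : ContMDiff (𝓡 n) 𝓘(ℝ, ℝ) ∞ v) :
    ∀ᵐ p ∂(μ.prod μ), ∀ t ∈ Ioo (0 : ℝ) 1, HasDerivAt (fun t => v (C.T p.1 t p.2))
      (dist p.1 p.2 * inner ℝ (Gr (n := n) v (C.T p.1 t p.2)) (sv C p t)) t := by
  filter_upwards [ae_mem_U (C := C), hne] with p hU hp t ht
  exact hasDerivAt_w (n := n) hm (isRay_of_U (n := n) C hU hp) ht
    (((hv _).of_le Bo84.two_le_infty).mdifferentiableAt (by norm_num))

theorem sv_d2 (hm : ExM M) (hne : ∀ᵐ p ∂(μ.prod μ), p.1 ≠ p.2) {v : M → ℝ}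
    (hv : ContMDiff (𝓡 n) 𝓘(ℝ, ℝ) ∞ v) :
    ∀ᵐ p ∂(μ.prod μ), ∀ t ∈ Ioo (0 : ℝ) 1,
      HasDerivAt (fun t => (inner ℝ (Gr (n := n) v (C.T p.1 t p.2)) (sv C p t) : ℝ))
        (dist p.1 p.2 * inner ℝ (mv (Ib939.Hf v (C.T p.1 t p.2)) (sv C p t)) (sv C p t)) t := by
  filter_upwards [ae_mem_U (C := C), hne] with p hU hp t ht
  exact hasDerivAt_dw (n := n) hm (isRay_of_U (n := n) C hU hp) ht
    ((hv _).of_le Bo84.two_le_infty)

theorem sv_d3 (hm : ExM M) (hne : ∀ᵐ p ∂(μ.prod μ), p.1 ≠ p.2) {v v' : M → ℝ}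
    (hv : ContMDiff (𝓡 n) 𝓘(ℝ, ℝ) ∞ v) (hv' : ContMDiff (𝓡 n) 𝓘(ℝ, ℝ) ∞ v') :
    ∀ᵐ p ∂(μ.prod μ), ∀ t ∈ Ioo (0 : ℝ) 1,
      HasDerivAt (fun t => (inner ℝ (Gr (n := n) v (C.T p.1 t p.2))
          (Gr (n := n) v' (C.T p.1 t p.2)) : ℝ))
        (dist p.1 p.2 * (inner ℝ (mv (Ib939.Hf v (C.T p.1 t p.2)) (sv C p t))
            (Gr (n := n) v' (C.T p.1 t p.2)) +
          inner ℝ (Gr (n := n) v (C.T p.1 t p.2))
            (mv (Ib939.Hf v' (C.T p.1 t p.2)) (sv C p t)))) t := by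
  filter_upwards [ae_mem_U (C := C), hne] with p hU hp t ht
  exact hasDerivAt_gg (n := n) hm (isRay_of_U (n := n) C hU hp) ht hv hv'

theorem sv_dl (hm : ExM M) (hκ : 0 ≤ κ) (hne : ∀ᵐ p ∂(μ.prod μ), p.1 ≠ p.2) {f : M → ℝ}
    (hf : ∀ᵐ z ∂μ, MDifferentiableAt (𝓡 n) 𝓘(ℝ, ℝ) f z) :
    ∀ᵐ p ∂(μ.prod μ), ∀ᵐ t ∂(volume.restrict (Ioo (0 : ℝ) 1)),
      HasDerivAt (fun t => f (C.T p.1 t p.2))
        (dist p.1 p.2 * inner ℝ (Gr (n := n) f (C.T p.1 t p.2)) (sv C p t)) t := by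
  filter_upwards [ae_mem_U (C := C), hne, ae_seg_all C hκ hf] with p hU hp h3
  filter_upwards [ae_Ioo_iff.2 h3, ae_restrict_mem measurableSet_Ioo] with t ht htm
  exact hasDerivAt_w (n := n) hm (isRay_of_U (n := n) C hU hp) htm ht

end ae

end Crest.Agent.R247.Fvs681
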