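import Crest.Agent.R247.Rdg6_879

/-!
R247, block (5-V) (helper510): the end point fields of `Fv510.SegS` on the manifold:
`norm_hf`, `norm_gd`, `rdw`, `pe0`, `dl0`.
-/

set_option autoImplicit false
set_option maxSynthPendingDepth 3
set_option linter.unusedSectionVars false

open Bundle Set Filter Topology MeasureTheory
open scoped Manifold ContDiff
open Crest.GeometryTopology.MTW Crest.Agent.R226
open Crest.Agent.R226.CutSmooth77 (SC)
open Crest.Agent.R247.Sm879
open Crest.Agent.R247.Mcp688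
open Crest.Agent.R247.Ms322
open Crest.Agent.R247.Rdg879

noncomputable section
namespace Crest.Agent.R247.FvsB510

section pt
variable {n : ℕ} {M : Type*} [MetricSpace M] [ChartedSpace (EuclideanSpace ℝ (Fin n)) M]
  [IsManifold (𝓡 n) ∞ M]
  [RiemannianBundle (fun p : M => TangentSpace (𝓡 n) p)]
  [IsContMDiffRiemannianBundle (𝓡 n) ∞ (EuclideanSpace ℝ (Fin n)) (fun p : M => TangentSpace (𝓡 n) p)]
  [IsRiemannianManifold (𝓡 n) M] [ProperSpace M] [SecondCountableTopology M] [Nonempty M]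

/-- `∇(d_y²/2) = d_y ∇ d_y` -/
theorem Gr_half {y z : M} (h : SC n z y) (hne : z ≠ y) :
    Gr (n := n) (fun q => halfDistSq q y) z = dist z y • Gr (n := n) (fun q => dist y q) z := by
  ext j
  rw [Gr_apply, df_half h hne]
  rfl

variable [MeasurableSpace M] [BorelSpace M] {κ : ℝ}

theorem ae_pair (hn : 1 ≤ n)
    [SFinite (Measure.euclideanHausdorffMeasure n : Measure M)]
    (C : Rad n κ M (Measure.euclideanHausdorffMeasure n : Measure M)) (hm : ExM M)
    (hOm : ∀ x : M, ∀ᵐ z ∂(Measure.euclideanHausdorffMeasure n : Measure M), (x, z) ∈ Om M) :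
    ∀ᵐ p ∂((Measure.euclideanHausdorffMeasure n : Measure M).prod
        (Measure.euclideanHausdorffMeasure n : Measure M)),
      SC n p.1 p.2 ∧ SC n p.2 p.1 ∧ p.1 ≠ p.2 ∧ p ∈ C.U ∧ p.swap ∈ C.U := by
  have hU : ∀ᵐ p ∂((Measure.euclideanHausdorffMeasure n : Measure M).prod
        (Measure.euclideanHausdorffMeasure n : Measure M)), p ∈ C.U :=
    (Measure.ae_prod_iff_ae_ae (p := fun p : M × M => p ∈ C.U) C.measU).2
      (Eventually.of_forall fun x => C.ae_U x)
  have hU' : ∀ᵐ p ∂((Measure.euclideanHausdorffMeasure n : Measure M).prod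
        (Measure.euclideanHausdorffMeasure n : Measure M)), p.swap ∈ C.U :=
    (Measure.measurePreserving_swap
      (μ := (Measure.euclideanHausdorffMeasure n : Measure M))
      (ν := (Measure.euclideanHausdorffMeasure n : Measure M))).quasiMeasurePreserving.ae hU
  filter_upwards [ae_prod_Om n hm hOm, ae_prod_ne (muHE_singleton n hn), hU, hU']
    with p h1 h2 h3 h4
  have h5 : SC n p.1 p.2 := sc_of_Om hm h1
  exact ⟨h5, sc_symm h5, h2, h3, h4⟩

end pt

section block
universe u
variable {n : ℕ} {M : Type u} [MetricSpace M] [CompleteSpace M] [ConnectedSpace M]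
    [ChartedSpace (EuclideanSpace ℝ (Fin n)) M]
    [IsManifold 𝓘(ℝ, EuclideanSpace ℝ (Fin n)) ∞ M]
    [RiemannianBundle (fun x : M => TangentSpace 𝓘(ℝ, EuclideanSpace ℝ (Fin n)) x)]
    [IsContMDiffRiemannianBundle 𝓘(ℝ, EuclideanSpace ℝ (Fin n)) ∞ (EuclideanSpace ℝ (Fin n))
      (fun x : M => TangentSpace 𝓘(ℝ, EuclideanSpace ℝ (Fin n)) x)]
    [IsRiemannianManifold 𝓘(ℝ, EuclideanSpace ℝ (Fin n)) M]
    [MeasurableSpace M] [BorelSpace M] {κ : ℝ} [SecondCountableTopology M] [Nonempty M]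
    (C : Rad n κ M (Measure.euclideanHausdorffMeasure n : Measure M))

/-- the a.e. pair facts, block form -/
theorem ae_pair_block (hn : 1 ≤ n) (hκ : 0 ≤ κ) :
    ∀ᵐ p ∂((Measure.euclideanHausdorffMeasure n : Measure M).prod
        (Measure.euclideanHausdorffMeasure n : Measure M)),
      SC n p.1 p.2 ∧ SC n p.2 p.1 ∧ p.1 ≠ p.2 ∧ p ∈ C.U ∧ p.swap ∈ C.U := by
  have := HR216.properSpace_of_riemannian n M
  have := isLocallyFinite_muHE n M
  exact ae_pair hn C (exM_block n M) (fun x => ae_Om_block hn C hκ x)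

include C in
/-- field `norm_hf` -/
theorem norm_hf (hn : 1 ≤ n) (hκ : 0 ≤ κ) (x : M) :
    ∀ᵐ z ∂(Measure.euclideanHausdorffMeasure n : Measure M),
      ‖Gr (n := n) (Smv126.hf x) z‖ = dist x z := by
  have := HR216.properSpace_of_riemannian n M
  have := isLocallyFinite_muHE n M
  filter_upwards [(wlap_block C hn hκ).normSq_G_hf x] with z h
  exact (sq_eq_sq₀ (norm_nonneg _) dist_nonneg).1 h

include C in
/-- field `norm_gd` -/
theorem norm_gd (hn : 1 ≤ n) (hκ : 0 ≤ κ) :
    ∀ᵐ p ∂((Measure.euclideanHausdorffMeasure n : Measure M).prod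
        (Measure.euclideanHausdorffMeasure n : Measure M)),
      ‖Gr (n := n) (dist p.2) p.1‖ ≤ 1 := by
  have := HR216.properSpace_of_riemannian n M
  filter_upwards [ae_pair_block C hn hκ] with p h
  exact (norm_Gr_dist h.1 h.2.2.1 (seg_of_U C h.2.2.2.2)).le

/-- field `rdw` -/
theorem rdw (hn : 1 ≤ n) (hκ : 0 ≤ κ) (x : M) :
    ∀ᵐ p ∂((Measure.euclideanHausdorffMeasure n : Measure M).prod
        (Measure.euclideanHausdorffMeasure n : Measure M)),
      HasDerivWithinAt (fun t : ℝ => dist (C.T x t p.1) p.2)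
        (inner ℝ (Gr (n := n) (Smv126.hf x) p.1) (Gr (n := n) (dist p.2) p.1)) (Iio 1) 1 := by
  have := HR216.properSpace_of_riemannian n M
  have := isLocallyFinite_muHE n M
  have h1 : ∀ᵐ p ∂((Measure.euclideanHausdorffMeasure n : Measure M).prod
        (Measure.euclideanHausdorffMeasure n : Measure M)),
      (x, p.1) ∈ Om M ∧ (x, p.1) ∈ C.U :=
    Measure.quasiMeasurePreserving_fst.ae ((ae_Om_block hn C hκ x).and (C.ae_U x))
  filter_upwards [ae_pair_block C hn hκ, h1] with p h a1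
  have h2 := (seg_of_U C a1.2).grad_end (sc_symm (sc_of_Om (exM_block n M) a1.1))
    (mdiff_dist_left h.1 h.2.2.1)
  rw [← hds_eq0] at h2
  have h3 := h2.mono Iio_subset_Iic_self
  refine h3.congr_of_eventuallyEq (Eventually.of_forall fun t => dist_comm _ _) (dist_comm _ _)

/-- field `pe0` -/
theorem pe0 (hn : 1 ≤ n) (hκ : 0 ≤ κ) (x : M) :
    ∀ᵐ p ∂((Measure.euclideanHausdorffMeasure n : Measure M).prod
        (Measure.euclideanHausdorffMeasure n : Measure M)),
      HasDerivWithinAt (fun t : ℝ => dist (C.T x t p.1) (C.T x t p.2))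
        (inner ℝ (Gr (n := n) (Smv126.hf x) p.1) (Gr (n := n) (dist p.2) p.1) +
          inner ℝ (Gr (n := n) (Smv126.hf x) p.2) (Gr (n := n) (dist p.1) p.2)) (Iio 1) 1 := by
  filter_upwards [two_point_block hn C hκ x x] with p h
  exact h.mono Iio_subset_Iic_self

/-- field `dl0` -/
theorem dl0 (hn : 1 ≤ n) (hκ : 0 ≤ κ) {f : M → ℝ} (hf : LocallyLipschitz f) :
    ∀ᵐ p ∂((Measure.euclideanHausdorffMeasure n : Measure M).prod
        (Measure.euclideanHausdorffMeasure n : Measure M)),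
      HasDerivWithinAt (fun t => f (C.T p.1 t p.2))
        (-(dist p.1 p.2 * inner ℝ (Gr (n := n) f p.1) (Gr (n := n) (dist p.2) p.1)))
        (Ici 0) 0 := by
  have := HR216.properSpace_of_riemannian n M
  have := isLocallyFinite_muHE n M
  have h1 : ∀ᵐ p ∂((Measure.euclideanHausdorffMeasure n : Measure M).prod
        (Measure.euclideanHausdorffMeasure n : Measure M)),
      MDifferentiableAt (𝓡 n) 𝓘(ℝ) f p.1 :=
    Measure.quasiMeasurePreserving_fst.ae (ae_mdifferentiableAt hf)
  filter_upwards [ae_pair_block C hn hκ, h1] with p h a1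
  have h2 := (seg_of_U C h.2.2.2.1).grad_start h.1 a1
  rw [Gr_half h.1 h.2.2.1, real_inner_smul_left, real_inner_comm] at h2
  exact h2

end block

end Crest.Agent.R247.FvsB510
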