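import Crest.Agent.R247.FvsA_681

/-!
# R247, P5 / V1 (helper681): the term `SegS (boch hκ) C`
-/

set_option autoImplicit false
set_option maxSynthPendingDepth 3
set_option linter.unusedSectionVars false

open Bundle Set Filter Topology Metric MeasureTheory
open scoped Manifold ContDiff NNReal ENNReal
open Crest.GeometryTopology.PointedLimit
open Crest.Agent.R247.Sm879 Crest.Agent.R247.Mcp688 Crest.Agent.R247.Rdg879
open Crest.Agent.R247.Ms322 Crest.Agent.R247.Hes124
open Crest.Agent.R247.Dir593 Crest.Agent.R247.Fv510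
open Crest.Agent.R247.Smv126 (hf)

noncomputable section
namespace Crest.Agent.R247.Fvs681

variable {n : ℕ} {M : Type*} [MetricSpace M] [ChartedSpace (EuclideanSpace ℝ (Fin n)) M]
  [IsManifold (𝓡 n) ∞ M]
  [RiemannianBundle (fun p : M => TangentSpace (𝓡 n) p)]
  [IsContMDiffRiemannianBundle (𝓡 n) ∞ (EuclideanSpace ℝ (Fin n)) (fun p : M => TangentSpace (𝓡 n) p)]
  [IsRiemannianManifold (𝓡 n) M] [ProperSpace M]
  [MeasurableSpace M] [BorelSpace M] [SecondCountableTopology M] [Nonempty M]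
  [SFinite (Measure.euclideanHausdorffMeasure n : Measure M)]

/-- the term `SegS`, end point fields as hypotheses -/
def segS_of {κ κ' : ℝ} (hK : HasRicciLowerBound n M (-κ))
    (C : Rad n κ' M (Measure.euclideanHausdorffMeasure n : Measure M)) (hκ' : 0 ≤ κ')
    (hm : ExM M)
    (hne : ∀ᵐ p ∂((Measure.euclideanHausdorffMeasure n : Measure M).prod
      (Measure.euclideanHausdorffMeasure n : Measure M)), p.1 ≠ p.2)
    (dl0 : ∀ {f : M → ℝ}, LocallyLipschitz f →
      ∀ᵐ p ∂((Measure.euclideanHausdorffMeasure n : Measure M).prod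
        (Measure.euclideanHausdorffMeasure n : Measure M)),
      HasDerivWithinAt (fun t => f (C.T p.1 t p.2))
        (-(dist p.1 p.2 * inner ℝ (Gr (n := n) f p.1) (Gr (n := n) (dist p.2) p.1))) (Ici 0) 0)
    (rdw : ∀ x : M, ∀ᵐ p ∂((Measure.euclideanHausdorffMeasure n : Measure M).prod
        (Measure.euclideanHausdorffMeasure n : Measure M)),
      HasDerivWithinAt (fun t : ℝ => dist (C.T x t p.1) p.2)
        (inner ℝ (Gr (n := n) (hf x) p.1) (Gr (n := n) (dist p.2) p.1)) (Iio 1) 1)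
    (pe0 : ∀ x : M, ∀ᵐ p ∂((Measure.euclideanHausdorffMeasure n : Measure M).prod
        (Measure.euclideanHausdorffMeasure n : Measure M)),
      HasDerivWithinAt (fun t : ℝ => dist (C.T x t p.1) (C.T x t p.2))
        (inner ℝ (Gr (n := n) (hf x) p.1) (Gr (n := n) (dist p.2) p.1) +
          inner ℝ (Gr (n := n) (hf x) p.2) (Gr (n := n) (dist p.1) p.2)) (Iio 1) 1)
    (norm_hf : ∀ x : M, ∀ᵐ z ∂(Measure.euclideanHausdorffMeasure n : Measure M),
      ‖Gr (n := n) (hf x) z‖ = dist x z)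
    (norm_gd : ∀ᵐ p ∂((Measure.euclideanHausdorffMeasure n : Measure M).prod
        (Measure.euclideanHausdorffMeasure n : Measure M)),
      ‖Gr (n := n) (dist p.2) p.1‖ ≤ 1) :
    SegS (Gs939.boch hK) C where
  s := sv C
  norm_s := norm_sv hm hne
  d1 := fun {v} hv => sv_d1 hm hne hv.1
  d2 := fun {v} hv => sv_d2 hm hne hv.1
  d3 := fun {v v'} hv hv' => sv_d3 hm hne hv.1 hv'.1
  dl := fun {f} h => sv_dl hm hκ' hne (ae_mdifferentiableAt (n := n) h)
  dl0 := dl0
  rdw := rdw
  pe0 := pe0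
  norm_hf := norm_hf
  norm_gd := norm_gd

end Crest.Agent.R247.Fvs681
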