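import Crest.Agent.R247.GluM1_923

/-!
# R247, block (4), assembly on the manifold (2): `GlueData n ⟹ EFF2 n`

`GlueData n` is the output of blocks (1) and (2): on a small ball, a map `Ψ` into a Hilbert space
which is a near isometry up to a constant factor, and rank `n` projections `P k x` which almost
contain the increments of `Ψ` at scale `R / 2 ^ k` and vary slowly, with square summable errors.
-/

set_option autoImplicit false
noncomputable section
open Set Filter Topology MeasureTheory Metric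
open scoped ContDiff Manifold ENNReal NNReal
open Bundle Crest.GeometryTopology.CoordMetric Crest.GeometryTopology.ChartCurvature
  Crest.GeometryTopology.PointedLimit

namespace Crest.Agent.R247.GluM923

universe u

/-- The data of the gluing theorem on a subset `S` of a metric space: `H` a Hilbert space,
`Ψ : M → H`, projections `P k x` (`k ≥ 1`, scale `R / 2 ^ k`), errors `D k x`. -/
structure GlueOn {M H : Type*} [MetricSpace M] [NormedAddCommGroup H] [InnerProductSpace ℝ H]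
    (n : ℕ) (Ψ : M → H) (P : ℕ → M → H →L[ℝ] H) (D : ℕ → M → ℝ) (S : Set M) (R C c η : ℝ) :
    Prop where
  /-- `Ψ` is 1-Lipschitz -/
  Ψ_le : ∀ x ∈ S, ∀ y ∈ S, ‖Ψ x - Ψ y‖ ≤ dist x y
  /-- `c • Ψ` is a near isometry -/
  near : ∀ x ∈ S, ∀ y ∈ S, |c * ‖Ψ x - Ψ y‖ - dist x y| ≤ η * dist x y
  D_nonneg : ∀ k, 1 ≤ k → ∀ x ∈ S, 0 ≤ D k x
  D_sum : ∀ x ∈ S, ∀ m, ∑ k ∈ Finset.range m, D (k + 1) x ≤ η
  proj : ∀ k, 1 ≤ k → ∀ x ∈ S, Glu923.IsProj (P k x)
  rank : ∀ x ∈ S, ∃ V : Submodule ℝ H, FiniteDimensional ℝ V ∧ Module.finrank ℝ V = n ∧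
    ∀ v, P 1 x v ∈ V
  A1 : ∀ k, 1 ≤ k → ∀ x ∈ S, ∀ y ∈ S, dist x y ≤ 8 * (R / 2 ^ k) →
    ‖(1 - P k x) (Ψ y - Ψ x)‖ ≤ C * (Real.sqrt (D k x) + Real.sqrt (D k y)) * (R / 2 ^ k)
  A2 : ∀ k, 1 ≤ k → ∀ x ∈ S, ∀ y ∈ S, dist x y ≤ 8 * (R / 2 ^ k) →
    ‖P k x - P k y‖ ≤ C * (Real.sqrt (D k x) + Real.sqrt (D k y))
  A3 : ∀ k, 1 ≤ k → ∀ x ∈ S,
    ‖P k x - P (k + 1) x‖ ≤ C * (Real.sqrt (D k x) + Real.sqrt (D (k + 1) x))

/-- **Output of blocks (1), (2)** (far propagation and planes): the constants `C`, `c` depend on `n`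
only, `η` is arbitrary. -/
def GlueData (n : ℕ) : Prop := ∃ C : ℝ, 1 ≤ C ∧ ∃ c : ℝ, 0 < c ∧ ∀ η : ℝ, 0 < η →
  ∃ R : ℝ, 0 < R ∧ R ≤ 1 ∧ ∃ R₀ : ℝ, 1 ≤ R₀ ∧ ∃ δ : ℝ, 0 < δ ∧
  ∀ (M : Type u) [MetricSpace M] [CompleteSpace M] [ConnectedSpace M]
    [ChartedSpace (EuclideanSpace ℝ (Fin n)) M]
    [IsManifold 𝓘(ℝ, EuclideanSpace ℝ (Fin n)) ∞ M]
    [RiemannianBundle (fun x : M => TangentSpace 𝓘(ℝ, EuclideanSpace ℝ (Fin n)) x)]
    [IsContMDiffRiemannianBundle 𝓘(ℝ, EuclideanSpace ℝ (Fin n)) ∞ (EuclideanSpace ℝ (Fin n))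
      (fun x : M => TangentSpace 𝓘(ℝ, EuclideanSpace ℝ (Fin n)) x)]
    [IsRiemannianManifold 𝓘(ℝ, EuclideanSpace ℝ (Fin n)) M]
    [MeasurableSpace M] [BorelSpace M] (q : M),
    HasRicciLowerBound n M (-δ) →
    (∀ x ∈ ball q R₀, ∀ r : ℝ, 0 < r → r ≤ 1 →
      ENNReal.ofReal (1 - δ) * volume (ball (0 : EuclideanSpace ℝ (Fin n)) r) ≤
        Measure.euclideanHausdorffMeasure n (ball x r)) →
    ∃ (H : Type u) (_ : NormedAddCommGroup H) (_ : InnerProductSpace ℝ H) (_ : CompleteSpace H)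
      (Ψ : M → H) (P : ℕ → M → H →L[ℝ] H) (D : ℕ → M → ℝ),
      GlueOn n Ψ P D (ball q (R / 2)) R C c η

/-! ### the gluing theorem on a set -/

theorem GlueOn.exists_map {M H : Type*} [MetricSpace M] [NormedAddCommGroup H]
    [InnerProductSpace ℝ H] [CompleteSpace H]
    {n : ℕ} {Ψ : M → H} {P : ℕ → M → H →L[ℝ] H} {D : ℕ → M → ℝ} {q : M} {R C c η : ℝ}
    (h : GlueOn n Ψ P D (ball q (R / 2)) R C c η) {N : ℕ}
    (hR : 0 < R) (hC : 1 ≤ C) (hc : 0 < c) (hN : 1 ≤ N) (hη : 0 < η)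
    (hηs : 10 * (32 * N * C) ^ 2 * η ≤ 1 / 100)
    (htb : TotallyBounded (ball q (R / 2)))
    (hpack : ∀ k : ℕ, 1 ≤ k → ∀ x ∈ ball q (R / 2), ∀ t : Finset M,
      (∀ a ∈ t, dist x a ≤ 3 * (R / 2 ^ k)) →
      (∀ a ∈ t, ∀ b ∈ t, a ≠ b → R / 2 ^ k ≤ dist a b) → t.card ≤ N) :
    ∃ F : M → EuclideanSpace ℝ (Fin n), ∀ x z, dist q x < R / 2 → dist q z < R / 2 →
      |c * dist (F x) (F z) - dist x z| ≤
        (c * (40000 * (32 * N * C) ^ 2 * N * Real.sqrt η) + η) * dist x z := by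
  classical
  have hq : q ∈ ball q (R / 2) := mem_ball_self (by linarith)
  set D' : ℕ → M → ℝ := fun k x => if k = 0 then 0 else D k x with hD'
  have hD'1 : ∀ k, 1 ≤ k → ∀ x, D' k x = D k x := by
    intro k hk x
    simp only [hD']
    rw [if_neg (by omega)]
  have hG : Glu923.GlueHyp (X := ball q (R / 2)) n (fun x => Ψ x) (fun k x => P k x)
      (fun k x => D' k x) R C η N := by
    refine ⟨hR, hC, hN, hη, hηs, ?_, ?_, ?_, ?_, ?_, ?_, ?_, ?_, ?_, ?_, ?_⟩
    · refine (totallyBounded_image_iff (f := ((↑) : ball q (R / 2) → M))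
        (isUniformInducing_val (ball q (R / 2))) (s := univ)).1 ?_
      rw [image_univ, Subtype.range_coe]
      exact htb
    · intro x x'
      have h1 : dist (x : M) q < R / 2 := x.2
      have h2 : dist (x' : M) q < R / 2 := x'.2
      have h3 := dist_triangle_right (x : M) (x' : M) q
      rw [Subtype.dist_eq]
      linarith
    · intro k hk x t ht1 ht2
      have h1 := hpack k hk x x.2 (t.map ⟨Subtype.val, Subtype.val_injective⟩) ?_ ?_
      · simpa using h1
      · intro a ha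
        obtain ⟨a', ha', rfl⟩ := Finset.mem_map.1 ha
        exact ht1 a' ha'
      · intro a ha b hb hab
        obtain ⟨a', ha', rfl⟩ := Finset.mem_map.1 ha
        obtain ⟨b', hb', rfl⟩ := Finset.mem_map.1 hb
        exact ht2 a' ha' b' hb' fun h => hab (by rw [h])
    · intro x x'
      exact h.Ψ_le x x.2 x' x'.2
    · intro k x
      simp only [hD']
      split_ifs with h0
      · exact le_rfl
      · exact h.D_nonneg k (by omega) x x.2
    · intro x m
      rcases Nat.eq_zero_or_pos m with rfl | hm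
      · simpa using hη.le
      · obtain ⟨m', rfl⟩ := Nat.exists_eq_add_of_le' hm
        rw [Finset.sum_range_succ']
        have h0 : D' 0 (x : M) = 0 := by simp [hD']
        rw [h0, add_zero]
        refine le_trans (le_of_eq ?_) (h.D_sum x x.2 m')
        exact Finset.sum_congr rfl fun k _ => hD'1 (k + 1) (by omega) x
    · intro k hk x
      exact h.proj k hk x x.2
    · intro x
      exact h.rank x x.2
    · intro k hk x x' hxx'
      simp only [hD'1 k hk]
      exact h.A1 k hk x x.2 x' x'.2 hxx'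
    · intro k hk x x' hxx'
      simp only [hD'1 k hk]
      exact h.A2 k hk x x.2 x' x'.2 hxx'
    · intro k hk x
      simp only [hD'1 k hk, hD'1 (k + 1) (by omega)]
      exact h.A3 k hk x x.2
  obtain ⟨F, hF⟩ := hG.exists_map ⟨q, hq⟩
  refine ⟨fun x => if hx : x ∈ ball q (R / 2) then F ⟨x, hx⟩ else 0, ?_⟩
  intro x z hx hz
  have hx' : x ∈ ball q (R / 2) := by rw [mem_ball, dist_comm]; exact hx
  have hz' : z ∈ ball q (R / 2) := by rw [mem_ball, dist_comm]; exact hz
  simp only [dif_pos hx', dif_pos hz']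
  have h1 := hF ⟨x, hx'⟩ ⟨z, hz'⟩
  rw [Subtype.dist_eq] at h1
  simp only at h1
  have h2 := h.near x hx' z hz'
  have h3 : c * dist (F ⟨x, hx'⟩) (F ⟨z, hz'⟩) - dist x z =
      c * (dist (F ⟨x, hx'⟩) (F ⟨z, hz'⟩) - ‖Ψ x - Ψ z‖) + (c * ‖Ψ x - Ψ z‖ - dist x z) := by ring
  rw [h3]
  refine (abs_add_le _ _).trans ?_
  rw [abs_mul, abs_of_pos hc]
  have h4 : c * |dist (F ⟨x, hx'⟩) (F ⟨z, hz'⟩) - ‖Ψ x - Ψ z‖| ≤
      c * (40000 * (32 * N * C) ^ 2 * N * Real.sqrt η * dist x z) := by gcongr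
  calc _ ≤ c * (40000 * (32 * N * C) ^ 2 * N * Real.sqrt η * dist x z) + η * dist x z :=
        add_le_add h4 h2
    _ = _ := by ring

/-! ### near isometry and the volume of large balls -/

/-- If a small ball is nearly isometric to a subset of `ℝⁿ` then it does not contain a ball of
radius `1` with almost Euclidean volume. -/
theorem radius_lt_one {n : ℕ} (hn : n ≠ 0) {X : Type*} [MetricSpace X] [MeasurableSpace X]
    [BorelSpace X] {F : X → EuclideanSpace ℝ (Fin n)} {q z : X} {R' ε δ c s : ℝ}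
    (hc : 0 < c) (hε : 0 ≤ ε) (hε1 : ε ≤ 1 / 2) (hδ : δ ≤ 1 / 4) (hR' : 0 < R') (hR : R' ≤ 1 / 8)
    (hF : ∀ x z : X, dist q x < R' → dist q z < R' →
      |c * dist (F x) (F z) - dist x z| ≤ ε * dist x z)
    (hs : ∀ x, dist z x < s → dist q x < R')
    (hvol : ENNReal.ofReal (1 - δ) * volume (ball (0 : EuclideanSpace ℝ (Fin n)) 1) ≤
      μHE[n] (ball z 1)) : s < 1 := by
  by_contra hcon
  push Not at hcon
  have hsub : ball z 1 ⊆ ball q R' := by
    intro x hx
    rw [mem_ball, dist_comm] at hx ⊢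
    exact hs x (by linarith)
  set G : X → EuclideanSpace ℝ (Fin n) := fun x => c • F x with hG
  have hGd : ∀ x z, dist (G x) (G z) = c * dist (F x) (F z) := by
    intro x z
    simp only [hG, dist_smul₀, Real.norm_eq_abs, abs_of_pos hc]
  have h1 : μHE[n] (ball q R') ≤ ((2 : ℝ≥0) : ℝ≥0∞) ^ n * volume (G '' ball q R') := by
    apply Opn79.vol_le
    intro x hx y hy
    rw [mem_ball, dist_comm] at hx hy
    have h2 := (abs_le.1 (hF x y hx hy)).1
    rw [hGd]
    have h3 : (0:ℝ) ≤ dist x y := dist_nonneg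
    simp only [NNReal.coe_ofNat]
    nlinarith
  have h2 : G '' ball q R' ⊆ ball (G q) (3 / 2 * R') := by
    rintro _ ⟨x, hx, rfl⟩
    rw [mem_ball, dist_comm] at hx
    have h2 := (abs_le.1 (hF x q hx (by simpa using hR'))).2
    rw [mem_ball, hGd]
    have h3 : (0:ℝ) ≤ dist x q := dist_nonneg
    rw [dist_comm] at hx
    nlinarith
  have h3 : volume (ball (G q) (3 / 2 * R')) =
      ENNReal.ofReal ((3 / 2 * R') ^ n) * volume (ball (0 : EuclideanSpace ℝ (Fin n)) 1) :=
    Opn79.vol_ball _ (by positivity)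
  set V := volume (ball (0 : EuclideanSpace ℝ (Fin n)) 1) with hV
  have hV0 : V ≠ 0 := (measure_ball_pos _ _ one_pos).ne'
  have hV1 : V ≠ ⊤ := measure_ball_lt_top.ne
  have h4 : ENNReal.ofReal (1 - δ) * V ≤ ENNReal.ofReal (3 / 8) * V := by
    calc ENNReal.ofReal (1 - δ) * V ≤ μHE[n] (ball z 1) := hvol
      _ ≤ μHE[n] (ball q R') := measure_mono hsub
      _ ≤ ((2 : ℝ≥0) : ℝ≥0∞) ^ n * volume (G '' ball q R') := h1
      _ ≤ ((2 : ℝ≥0) : ℝ≥0∞) ^ n * (ENNReal.ofReal ((3 / 2 * R') ^ n) * V) := by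
          gcongr
          rw [← h3]
          exact measure_mono h2
      _ = ENNReal.ofReal ((3 * R') ^ n) * V := by
          rw [← mul_assoc]
          congr 1
          have : ((2 : ℝ≥0) : ℝ≥0∞) = ENNReal.ofReal 2 := by simp
          rw [this, ← ENNReal.ofReal_pow (by norm_num), ← ENNReal.ofReal_mul (by positivity)]
          congr 1
          rw [← mul_pow]
          ring_nf
      _ ≤ ENNReal.ofReal (3 / 8) * V := by
          gcongr
          calc (3 * R') ^ n ≤ (3 / 8) ^ n := by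
                gcongr
                linarith
            _ ≤ 3 / 8 := by
                calc (3 / 8 : ℝ) ^ n ≤ (3 / 8) ^ 1 :=
                      pow_le_pow_of_le_one (by norm_num) (by norm_num) (by omega)
                  _ = 3 / 8 := pow_one _
  have h5 := (ENNReal.mul_le_mul_iff_left hV0 hV1).1 h4
  rw [ENNReal.ofReal_le_ofReal_iff (by norm_num)] at h5
  linarith

/-! ### the theorem -/

/-- **Blocks (1), (2) imply the volume pinched theorem.** -/
theorem eff2_of_glueData {n : ℕ} (hBG : Asm951.BGr.{u} n) (hGD : GlueData.{u} n) :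
    Asm951.EFF2.{u} n := by
  obtain ⟨C, hC, c, hc, H⟩ := hGD
  obtain ⟨ε₀, hε₀, hε₀1, hnum⟩ := Opn79.num n
  -- packing number
  set N : ℕ := ⌈Real.exp 32 * 16 ^ n⌉₊ with hN
  have hN1 : 1 ≤ N := by
    have : 0 < N := Nat.ceil_pos.2 (by positivity)
    omega
  have hN1' : (1:ℝ) ≤ N := by exact_mod_cast hN1
  have hNe : Real.exp 32 * 16 ^ n ≤ N := Nat.le_ceil _
  -- choice of `η`
  set A : ℝ := c * (40000 * (32 * N * C) ^ 2 * N) with hA
  have hA0 : 0 < A := by positivity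
  set B : ℝ := 10 * (32 * N * C) ^ 2 with hB
  have hB0 : 0 < B := by positivity
  set η : ℝ := min (min (1 / (100 * B)) (ε₀ / 2)) ((ε₀ / (2 * A)) ^ 2) with hη
  have hη0 : 0 < η := by positivity
  have hη1 : B * η ≤ 1 / 100 := by
    have h1 : η ≤ 1 / (100 * B) := (min_le_left _ _).trans (min_le_left _ _)
    calc B * η ≤ B * (1 / (100 * B)) := by gcongr
      _ = 1 / 100 := by field_simp
  have hη2 : η ≤ ε₀ / 2 := (min_le_left _ _).trans (min_le_right _ _)
  have hη3 : A * Real.sqrt η ≤ ε₀ / 2 := by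
    have h1 : Real.sqrt η ≤ ε₀ / (2 * A) := by
      have := Real.sqrt_le_sqrt (min_le_right (min (1 / (100 * B)) (ε₀ / 2)) ((ε₀ / (2 * A)) ^ 2))
      rwa [Real.sqrt_sq (by positivity)] at this
    calc A * Real.sqrt η ≤ A * (ε₀ / (2 * A)) := by gcongr
      _ = ε₀ / 2 := by field_simp
  obtain ⟨R, hR, hR1, R₀, hR₀, δ, hδ, H⟩ := H η hη0
  set δ' : ℝ := min (min δ (1 / 4)) ε₀ with hδ'
  have hδ'0 : 0 < δ' := by positivity
  have hδ'1 : δ' ≤ δ := (min_le_left _ _).trans (min_le_left _ _)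
  have hδ'2 : δ' ≤ 1 / 4 := (min_le_left _ _).trans (min_le_right _ _)
  have hδ'3 : δ' ≤ ε₀ := min_le_right _ _
  set R' : ℝ := min (R / 2) (1 / 8) with hR'
  have hR'0 : 0 < R' := by positivity
  have hR'1 : R' ≤ 1 / 8 := min_le_right _ _
  have hR'2 : R' ≤ R / 2 := min_le_left _ _
  refine ⟨max (max (4 * c) (2 / c)) 1, le_max_right _ _, R' / 2, by positivity, by linarith,
    R₀, hR₀, δ', hδ'0, ?_⟩
  intro M _ _ _ _ _ _ _ _ _ _ q hRic hvol
  have hprop := HR216.properSpace_of_riemannian n M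
  have hRicδ := Asm951.ricci_mono (by linarith : -δ ≤ -δ') hRic
  have hvolδ : ∀ x ∈ ball q R₀, ∀ r : ℝ, 0 < r → r ≤ 1 →
      ENNReal.ofReal (1 - δ) * volume (ball (0 : EuclideanSpace ℝ (Fin n)) r) ≤
        Measure.euclideanHausdorffMeasure n (ball x r) := by
    intro x hx r hr hr1
    refine le_trans ?_ (hvol x hx r hr hr1)
    gcongr
  obtain ⟨H', i1, i2, i3, Ψ, P, D, hG⟩ := H M q hRicδ hvolδ
  have hsubR₀ : ∀ x, dist q x < R / 2 → x ∈ ball q R₀ := by
    intro x hx
    rw [mem_ball, dist_comm]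
    linarith
  have htb : TotallyBounded (ball q (R / 2)) :=
    (isCompact_closedBall q (R / 2)).totallyBounded.subset ball_subset_closedBall
  have hpack : ∀ k : ℕ, 1 ≤ k → ∀ x ∈ ball q (R / 2), ∀ t : Finset M,
      (∀ a ∈ t, dist x a ≤ 3 * (R / 2 ^ k)) →
      (∀ a ∈ t, ∀ b ∈ t, a ≠ b → R / 2 ^ k ≤ dist a b) → t.card ≤ N := by
    intro k hk x hx t ht1 ht2
    set r : ℝ := R / 2 ^ k with hr
    have hr0 : 0 < r := by positivity
    have h2k : (2:ℝ) ≤ 2 ^ k := by
      calc (2:ℝ) = 2 ^ 1 := by norm_num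
        _ ≤ 2 ^ k := pow_le_pow_right₀ (by norm_num) hk
    have hr1 : r ≤ 1 / 2 := by
      rw [hr, div_le_iff₀ (by positivity)]
      linarith
    refine packing_of_doubling (μHE[n]) (x := x) (r := r) hNe ?_ (ball_lt_top n M x _) ?_ t ht1 ht2
      hr0
    · have h1 := hvol x (hsubR₀ x (by rw [dist_comm]; exact hx)) r hr0 (by linarith)
      have h2 : 0 < ENNReal.ofReal (1 - δ') *
          volume (ball (0 : EuclideanSpace ℝ (Fin n)) r) := by
        apply ENNReal.mul_pos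
        · rw [ne_eq, ENNReal.ofReal_eq_zero]
          push Not
          linarith
        · exact (measure_ball_pos _ _ hr0).ne'
      exact h2.trans_le (h1.trans (measure_mono (ball_subset_ball (by linarith))))
    · intro a ha
      have h1 := hBG δ' hδ'0.le M a (r / 2) (8 * r) hRic (by positivity) (by linarith)
      refine h1.trans ?_
      have h3 : 8 * r / (r / 2) = 16 := by field_simp; norm_num
      rw [h3]
      gcongr
      have : (8 * r) ^ 2 ≤ 16 := by nlinarith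
      nlinarith
  obtain ⟨F, hF⟩ := hG.exists_map hR hC hc hN1 hη0 hη1 htb hpack
  have hε : c * (40000 * (32 * N * C) ^ 2 * N * Real.sqrt η) + η ≤ ε₀ := by
    have : c * (40000 * (32 * N * C) ^ 2 * N * Real.sqrt η) = A * Real.sqrt η := by
      rw [hA]; ring
    linarith
  have hF' : ∀ x z, dist q x < R' → dist q z < R' →
      |c * dist (F x) (F z) - dist x z| ≤ ε₀ * dist x z := by
    intro x z hx hz
    refine (hF x z (by linarith) (by linarith)).trans ?_
    gcongr
  have hmain := Opn79.chart_of_near (F := F) (q := q) (R := R') (ε := ε₀) (c := c) (ρ := R' / 2)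
    (L := max (max (4 * c) (2 / c)) 1) hc hε₀.le hε₀1 (hnum ε₀ hε₀.le le_rfl) hF' ?_
    (by linarith) ((le_max_left _ _).trans (le_max_left _ _))
    ((le_max_right _ _).trans (le_max_left _ _))
  · refine ⟨F, ?_, ?_⟩
    · intro x hx z hz
      rw [mem_ball, dist_comm] at hx hz
      exact hmain.1 x z hx hz
    · intro x hx s hs hsρ y hy
      rw [mem_ball, dist_comm] at hx
      exact hmain.2 x hx s hs hsρ y hy
  · intro z s hs hzs
    have hzq : dist q z < R' := hzs z (by simpa using hs)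
    have hzR : z ∈ ball q R₀ := hsubR₀ z (by linarith)
    have hle : ENNReal.ofReal (1 - ε₀) ≤ ENNReal.ofReal (1 - δ') :=
      ENNReal.ofReal_le_ofReal (by linarith)
    rcases Nat.eq_zero_or_pos n with hn | hn
    · -- dimension 0
      rcases le_or_gt s 1 with h1 | h1
      · exact (mul_le_mul_left hle _).trans (hvol z hzR s hs h1)
      · have h2 := hvol z hzR 1 one_pos le_rfl
        have h3 : volume (ball (0 : EuclideanSpace ℝ (Fin n)) s) =
            volume (ball (0 : EuclideanSpace ℝ (Fin n)) 1) := by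
          rw [Opn79.vol_ball _ hs, hn]
          simp
        rw [h3]
        exact (mul_le_mul_left hle _).trans (h2.trans (measure_mono (ball_subset_ball h1.le)))
    · have h1 : s < 1 := radius_lt_one hn.ne' hc hε₀.le hε₀1 hδ'2 hR'0 hR'1 hF' hzs
        (hvol z hzR 1 one_pos le_rfl)
      exact (mul_le_mul_left hle _).trans (hvol z hzR s hs h1.le)

end Crest.Agent.R247.GluM923
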