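import Crest.Agent.R247.Ms10_322
import Crest.Agent.R247.Dir0_593
import Crest.Agent.R247.Hes1_124
import Crest.Agent.R247.Bs2_84

/-!
R247, block (0) (helper939): the gradient structure `gradS n M : GradS M 𝔼 μHE[n]` with `G = Gr`
(helper322's frame gradient), including closability.
-/

set_option autoImplicit false
set_option maxSynthPendingDepth 3
set_option linter.unusedSectionVars false
set_option linter.unusedVariables false

open Bundle Bornology Set MeasureTheory Manifold Filter Metric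
open scoped ENNReal ContDiff Topology NNReal
open Crest.GeometryTopology.CoordMetric Crest.GeometryTopology.ChartCurvature
open Crest.GeometryTopology.Geodesic
open Crest.Agent.R226.ChartMet842 Crest.Agent.R247.Ms322

namespace Crest.Agent.R247.Gs939

open Crest.Agent.R247.Dir593 Crest.Agent.R247.Dir593.GradS
open Crest.Agent.R247.Hes124 (L2To cs_norm)

noncomputable section

variable {n : ℕ} {M : Type*} [MetricSpace M] [ChartedSpace (EuclideanSpace ℝ (Fin n)) M]
  [IsManifold (𝓡 n) ∞ M]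
  [RiemannianBundle (fun p : M => TangentSpace (𝓡 n) p)]
  [IsContMDiffRiemannianBundle (𝓡 n) ∞ (EuclideanSpace ℝ (Fin n)) (fun p : M => TangentSpace (𝓡 n) p)]
  [IsRiemannianManifold (𝓡 n) M]

local notation "𝔼" => EuclideanSpace ℝ (Fin n)

variable [MeasurableSpace M] [BorelSpace M] [SecondCountableTopology M] [Nonempty M]

/-! ### general `L²` lemmas -/

omit [IsManifold (𝓡 n) ∞ M] [RiemannianBundle (fun p : M => TangentSpace (𝓡 n) p)]
  [IsContMDiffRiemannianBundle (𝓡 n) ∞ (EuclideanSpace ℝ (Fin n)) (fun p : M => TangentSpace (𝓡 n) p)]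
  [IsRiemannianManifold (𝓡 n) M] [ChartedSpace (EuclideanSpace ℝ (Fin n)) M]
  [SecondCountableTopology M] [Nonempty M] in
theorem memLp_of_compact {F : Type*} [NormedAddCommGroup F] {μ : Measure M}
    [IsFiniteMeasureOnCompacts μ] {w : M → F}
    (hm : AEStronglyMeasurable w μ) {K : Set M} (hK : IsCompact K) {C : ℝ}
    (hC : ∀ z ∈ K, ‖w z‖ ≤ C) (h0 : ∀ z, z ∉ K → w z = 0) : MemLp w 2 μ := by
  have h1 : MemLp (K.indicator fun _ => C) 2 μ :=
    memLp_indicator_const 2 hK.isClosed.measurableSet C (Or.inr hK.measure_lt_top.ne)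
  refine h1.mono hm (Eventually.of_forall fun z => ?_)
  by_cases hz : z ∈ K
  · rw [indicator_of_mem hz, Real.norm_of_nonneg ((norm_nonneg _).trans (hC z hz))]
    exact hC z hz
  · rw [h0 z hz]
    simp

theorem l2To_of_eLpNorm {X : Type*} [MeasurableSpace X] {μ : Measure X} {F : Type*}
    [NormedAddCommGroup F] [InnerProductSpace ℝ F] {u : ℕ → X → F} {v : X → F}
    (hu : ∀ k, MemLp (u k) 2 μ) (hv : MemLp v 2 μ)
    (h : Tendsto (fun k => eLpNorm (fun x => u k x - v x) 2 μ) atTop (𝓝 0)) : L2To μ u v := by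
  refine ⟨hu, hv, ?_⟩
  have e : ∀ k, ∫ x, ‖u k x - v x‖ ^ 2 ∂μ = (eLpNorm (fun x => u k x - v x) 2 μ).toReal ^ 2 := by
    intro k
    have hm : MemLp (fun x => u k x - v x) 2 μ := (hu k).sub hv
    have h1 := hm.eLpNorm_eq_integral_rpow_norm (by norm_num) (by norm_num)
    rw [h1, ENNReal.toReal_ofReal (by positivity)]
    have h3 : (0:ℝ) ≤ ∫ x, ‖u k x - v x‖ ^ 2 ∂μ := integral_nonneg fun x => by positivity
    simp only [ENNReal.toReal_ofNat, Real.rpow_ofNat]
    rw [← Real.rpow_natCast, ← Real.rpow_mul h3]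
    norm_num
  have h2 : Tendsto (fun k => (eLpNorm (fun x => u k x - v x) 2 μ).toReal ^ 2) atTop (𝓝 0) := by
    have h3 := (ENNReal.continuousAt_toReal ENNReal.zero_ne_top).tendsto.comp h
    have h4 := h3.pow 2
    simpa using h4
  exact h2.congr fun k => (e k).symm

/-- the frame gradient vanishes off the support -/
theorem Gr_supp {f : M → ℝ} {z : M} (hz : z ∉ tsupport f) : Gr (n := n) f z = 0 := by
  have h : f =ᶠ[𝓝 z] fun _ => 0 := notMem_tsupport_iff_eventuallyEq.1 hz
  rw [Gr_congr h]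
  ext j
  rw [Gr_apply, df, mfderiv_const]
  rfl

/-- the frame gradient of a test function is square integrable -/
theorem memLp_Gr {f : M → ℝ} (hf : LocallyLipschitz f) (hc : HasCompactSupport f) :
    MemLp (Gr (n := n) f) 2 (μHE[n] : Measure M) := by
  have := locallyCompactSpace n M
  have := isLocallyFiniteMeasure n M
  obtain ⟨K, hK⟩ := exists_lipschitzWith hf hc
  refine memLp_of_compact (C := K) (measurable_Gr f).aestronglyMeasurable hc.isCompact ?_ ?_
  · intro z _
    exact norm_Gr_le_of_lipschitzOn (U := univ) univ_mem hK.lipschitzOnWith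
  · intro z hz
    exact Gr_supp hz

theorem memLp_test {f : M → ℝ} (hf : LocallyLipschitz f) (hc : HasCompactSupport f) :
    MemLp f 2 (μHE[n] : Measure M) := by
  have := isLocallyFiniteMeasure n M
  exact hf.continuous.memLp_of_hasCompactSupport hc

omit [SecondCountableTopology M] [Nonempty M] [MeasurableSpace M] [BorelSpace M] in
theorem locallyLipschitz_of_LLo {X : Type*} [MetricSpace X] {U : Set X} {f : X → ℝ}
    (hf : LLo U f) (hs : tsupport f ⊆ U) : LocallyLipschitz f := by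
  intro z
  by_cases hz : z ∈ tsupport f
  · exact hf z (hs hz)
  · refine ⟨0, (tsupport f)ᶜ, (isClosed_tsupport f).isOpen_compl.mem_nhds hz, ?_⟩
    intro a ha b hb
    simp [image_eq_zero_of_notMem_tsupport ha, image_eq_zero_of_notMem_tsupport hb]

/-! ### the pairing with `∂_i` in a chart -/

section Chart

variable (x₀ : M)

/-- the weighted test function in the chart -/
def Th (φ : M → ℝ) : 𝔼 → ℝ :=
  (chartAt 𝔼 x₀).target.indicator fun b => dens (n := n) x₀ b * φ ((chartAt 𝔼 x₀).symm b)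

theorem Th_of_mem (φ : M → ℝ) {b : 𝔼} (hb : b ∈ (chartAt 𝔼 x₀).target) :
    Th x₀ φ b = dens (n := n) x₀ b * φ ((chartAt 𝔼 x₀).symm b) := indicator_of_mem hb _

variable {x₀}

theorem Th_ne {φ : M → ℝ} {b : 𝔼} (hb : Th x₀ φ b ≠ 0) :
    b ∈ (chartAt 𝔼 x₀) '' tsupport φ := by
  by_cases hbt : b ∈ (chartAt 𝔼 x₀).target
  · rw [Th_of_mem x₀ φ hbt] at hb
    have h1 : φ ((chartAt 𝔼 x₀).symm b) ≠ 0 := fun h => hb (by rw [h, mul_zero])
    exact ⟨_, subset_tsupport _ h1, (chartAt 𝔼 x₀).right_inv hbt⟩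
  · exact absurd (indicator_of_notMem hbt _) hb

theorem isCompact_img {φ : M → ℝ} (hc : HasCompactSupport φ)
    (hs : tsupport φ ⊆ (chartAt 𝔼 x₀).source) : IsCompact ((chartAt 𝔼 x₀) '' tsupport φ) :=
  hc.isCompact.image_of_continuousOn ((chartAt 𝔼 x₀).continuousOn.mono hs)

theorem img_subset {φ : M → ℝ} (hs : tsupport φ ⊆ (chartAt 𝔼 x₀).source) :
    (chartAt 𝔼 x₀) '' tsupport φ ⊆ (chartAt 𝔼 x₀).target := by
  rintro _ ⟨z, hz, rfl⟩
  exact (chartAt 𝔼 x₀).map_source (hs hz)

theorem tsupport_Th {φ : M → ℝ} (hc : HasCompactSupport φ)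
    (hs : tsupport φ ⊆ (chartAt 𝔼 x₀).source) :
    tsupport (Th x₀ φ) ⊆ (chartAt 𝔼 x₀) '' tsupport φ :=
  closure_minimal (fun _ hb => Th_ne hb) (isCompact_img hc hs).isClosed

theorem compact_Th {φ : M → ℝ} (hc : HasCompactSupport φ)
    (hs : tsupport φ ⊆ (chartAt 𝔼 x₀).source) : HasCompactSupport (Th (n := n) x₀ φ) :=
  HasCompactSupport.of_support_subset_isCompact (isCompact_img hc hs) fun _ hb => Th_ne hb

theorem LLo_chart {f : M → ℝ} (hf : LocallyLipschitz f) :
    LLo (chartAt 𝔼 x₀).target (fun b => f ((chartAt 𝔼 x₀).symm b)) := by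
  intro b hb
  obtain ⟨K, r, hr, _, hL⟩ := exists_lipschitz_chart (n := n) x₀ (f := f) hb (hf _)
  exact ⟨K, ball b r, ball_mem_nhds b hr, hL⟩

theorem lip_Th {φ : M → ℝ} (hφ : LocallyLipschitz φ) (hc : HasCompactSupport φ)
    (hs : tsupport φ ⊆ (chartAt 𝔼 x₀).source) : LocallyLipschitz (Th (n := n) x₀ φ) := by
  refine locallyLipschitz_of_LLo (U := (chartAt 𝔼 x₀).target) ?_
    ((tsupport_Th hc hs).trans (img_subset hs))
  have h1 : LLo (chartAt 𝔼 x₀).target (dens (n := n) x₀) :=
    LLo.of_contDiffOn (chartAt 𝔼 x₀).open_target ((contDiffOn_dens x₀).of_le (by simp))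
  refine (h1.mul (LLo_chart (x₀ := x₀) hφ)).congr fun b hb => ?_
  filter_upwards [(chartAt 𝔼 x₀).open_target.mem_nhds hb] with c hc
  rw [Th_of_mem x₀ φ hc]

/-- integration by parts against `∂_i` in the chart -/
theorem ibp_Ef (i : Fin n) {φ f : M → ℝ} (hφ : LocallyLipschitz φ) (hc : HasCompactSupport φ)
    (hs : tsupport φ ⊆ (chartAt 𝔼 x₀).source) (hf : LocallyLipschitz f) :
    ∫ z, inner ℝ (Gr (n := n) f z) (φ z • Ef x₀ i z) ∂(μHE[n] : Measure M) =
      - ∫ b, f ((chartAt 𝔼 x₀).symm b) *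
        fderiv ℝ (Th (n := n) x₀ φ) b (EuclideanSpace.single i (1:ℝ)) := by
  have h0 : ∀ z, z ∉ (chartAt 𝔼 x₀).source →
      inner ℝ (Gr (n := n) f z) (φ z • Ef x₀ i z) = 0 := by
    intro z hz
    rw [image_eq_zero_of_notMem_tsupport (fun h => hz (hs h)), zero_smul, inner_zero_right]
  rw [integral_eq_of_support x₀ _ h0]
  have h1 : ∫ a in (chartAt 𝔼 x₀).target, dens (n := n) x₀ a •
      inner ℝ (Gr (n := n) f ((chartAt 𝔼 x₀).symm a)) (φ ((chartAt 𝔼 x₀).symm a) •
        Ef x₀ i ((chartAt 𝔼 x₀).symm a)) =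
      ∫ a in (chartAt 𝔼 x₀).target, fderiv ℝ (fun b => f ((chartAt 𝔼 x₀).symm b)) a
        (EuclideanSpace.single i (1:ℝ)) * Th x₀ φ a := by
    refine setIntegral_congr_fun (measurableSet_target x₀) fun a ha => ?_
    have hz : (chartAt 𝔼 x₀).symm a ∈ (chartAt 𝔼 x₀).source := (chartAt 𝔼 x₀).map_target ha
    rw [Th_of_mem x₀ φ ha, inner_smul_right, real_inner_comm, inner_Ef x₀ i hz,
      (chartAt 𝔼 x₀).right_inv ha, smul_eq_mul, pderiv]
    ring
  rw [h1]
  have h2 : ∫ a in (chartAt 𝔼 x₀).target, fderiv ℝ (fun b => f ((chartAt 𝔼 x₀).symm b)) a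
        (EuclideanSpace.single i (1:ℝ)) * Th x₀ φ a =
      ∫ a, fderiv ℝ (fun b => f ((chartAt 𝔼 x₀).symm b)) a
        (EuclideanSpace.single i (1:ℝ)) * Th x₀ φ a := by
    refine setIntegral_eq_integral_of_forall_compl_eq_zero fun a ha => ?_
    have : Th (n := n) x₀ φ a = 0 := indicator_of_notMem ha _
    rw [this, mul_zero]
  rw [h2, ibp_euclid (chartAt 𝔼 x₀).open_target (LLo_chart (x₀ := x₀) hf) (lip_Th hφ hc hs)
    (compact_Th hc hs) ((tsupport_Th hc hs).trans (img_subset hs)), neg_neg]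

/-- the right-hand side of `ibp_Ef` tends to `0` if `f k → 0` in `L²`. -/
theorem rhs_tendsto (i : Fin n) {φ : M → ℝ} {f : ℕ → M → ℝ} (hφ : LocallyLipschitz φ)
    (hc : HasCompactSupport φ) (hs : tsupport φ ⊆ (chartAt 𝔼 x₀).source)
    (hf : ∀ k, LocallyLipschitz (f k))
    (h0 : L2To (μHE[n] : Measure M) f (fun _ => 0)) :
    Tendsto (fun k => - ∫ b, f k ((chartAt 𝔼 x₀).symm b) *
      fderiv ℝ (Th (n := n) x₀ φ) b (EuclideanSpace.single i (1:ℝ))) atTop (𝓝 0) := by
  have hloc := isLocallyFiniteMeasure n M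
  set K : Set 𝔼 := (chartAt 𝔼 x₀) '' tsupport φ with hK
  have hKc : IsCompact K := isCompact_img hc hs
  have hKt : K ⊆ (chartAt 𝔼 x₀).target := img_subset hs
  have hKm : MeasurableSet K := hKc.isClosed.measurableSet
  -- Lipschitz constant of the weighted test function
  obtain ⟨L, hL⟩ := exists_lipschitzWith (lip_Th hφ hc hs) (compact_Th (x₀ := x₀) (n := n) hc hs)
  have hd : ∀ b, |fderiv ℝ (Th (n := n) x₀ φ) b (EuclideanSpace.single i (1:ℝ))| ≤ L := by
    intro b
    have h1 := (fderiv ℝ (Th (n := n) x₀ φ) b).le_opNorm (EuclideanSpace.single i (1:ℝ))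
    have h2 := norm_fderiv_le_of_lipschitz ℝ hL (x₀ := b)
    rw [PiLp.norm_single, norm_one, mul_one] at h1
    exact h1.trans h2
  have hd0 : ∀ b, b ∉ K → fderiv ℝ (Th (n := n) x₀ φ) b (EuclideanSpace.single i (1:ℝ)) = 0 := by
    intro b hb
    have hb' : b ∉ tsupport (Th (n := n) x₀ φ) := fun h => hb (tsupport_Th hc hs h)
    have hev : Th (n := n) x₀ φ =ᶠ[𝓝 b] fun _ => 0 := notMem_tsupport_iff_eventuallyEq.1 hb'
    rw [hev.fderiv_eq]
    simp
  -- lower bound of the density
  obtain ⟨m, hm0, hm⟩ : ∃ m : ℝ, 0 < m ∧ ∀ b ∈ K, m ≤ dens (n := n) x₀ b := by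
    rcases K.eq_empty_or_nonempty with he | hne
    · exact ⟨1, one_pos, fun b hb => by rw [he] at hb; exact absurd hb (notMem_empty b)⟩
    · obtain ⟨b0, hb0, hmin⟩ := hKc.exists_isMinOn hne ((continuousOn_dens (n := n) x₀).mono hKt)
      exact ⟨dens x₀ b0, dens_pos x₀ (hKt hb0), fun b hb => hmin hb⟩
  set S : Set M := (chartAt 𝔼 x₀).symm '' K with hS
  have hSc : IsCompact S := hKc.image_of_continuousOn ((chartAt 𝔼 x₀).continuousOn_symm.mono hKt)
  have hSm : MeasurableSet S := hSc.isClosed.measurableSet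
  have hSfin : (μHE[n] : Measure M) S < ⊤ := hSc.measure_lt_top
  have h1S : MemLp (S.indicator fun _ => (1:ℝ)) 2 (μHE[n] : Measure M) :=
    memLp_indicator_const 2 hSm 1 (Or.inr hSfin.ne)
  -- the bound
  have key : ∀ k, ‖- ∫ b, f k ((chartAt 𝔼 x₀).symm b) *
      fderiv ℝ (Th (n := n) x₀ φ) b (EuclideanSpace.single i (1:ℝ))‖ ≤
      L / m * (√(∫ z, ‖f k z - 0‖ ^ 2 ∂(μHE[n] : Measure M)) *
        √(∫ z, ‖S.indicator (fun _ => (1:ℝ)) z‖ ^ 2 ∂(μHE[n] : Measure M))) := by
    intro k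
    have hFc : ContinuousOn (fun b => f k ((chartAt 𝔼 x₀).symm b)) (chartAt 𝔼 x₀).target :=
      (LLo_chart (x₀ := x₀) (hf k)).continuousOn
    have hiF : IntegrableOn (fun b => |f k ((chartAt 𝔼 x₀).symm b)|) K :=
      (hFc.mono hKt).abs.integrableOn_compact hKc
    have hidF : IntegrableOn (fun b => dens (n := n) x₀ b * |f k ((chartAt 𝔼 x₀).symm b)|) K :=
      (((continuousOn_dens (n := n) x₀).mono hKt).mul (hFc.mono hKt).abs).integrableOn_compact hKc
    have e1 : ∫ b, f k ((chartAt 𝔼 x₀).symm b) *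
        fderiv ℝ (Th (n := n) x₀ φ) b (EuclideanSpace.single i (1:ℝ)) =
        ∫ b in K, f k ((chartAt 𝔼 x₀).symm b) *
        fderiv ℝ (Th (n := n) x₀ φ) b (EuclideanSpace.single i (1:ℝ)) := by
      refine (setIntegral_eq_integral_of_forall_compl_eq_zero fun b hb => ?_).symm
      rw [hd0 b hb, mul_zero]
    rw [norm_neg, e1]
    calc ‖∫ b in K, f k ((chartAt 𝔼 x₀).symm b) *
        fderiv ℝ (Th (n := n) x₀ φ) b (EuclideanSpace.single i (1:ℝ))‖
        ≤ ∫ b in K, ‖f k ((chartAt 𝔼 x₀).symm b) *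
          fderiv ℝ (Th (n := n) x₀ φ) b (EuclideanSpace.single i (1:ℝ))‖ :=
          norm_integral_le_integral_norm _
      _ ≤ ∫ b in K, L / m * (dens (n := n) x₀ b * |f k ((chartAt 𝔼 x₀).symm b)|) := by
          refine setIntegral_mono_on ?_ (hidF.const_mul _) hKm ?_
          · refine (hiF.const_mul (L:ℝ)).mono' ?_ ?_
            · refine (((hFc.mono hKt).aestronglyMeasurable hKm).mul ?_).norm
              exact (measurable_fderiv_apply_const ℝ _ _).aestronglyMeasurable
            · refine Eventually.of_forall fun b => ?_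
              rw [norm_norm, norm_mul, mul_comm, Real.norm_eq_abs, Real.norm_eq_abs]
              exact mul_le_mul_of_nonneg_right (hd b) (abs_nonneg _)
          · intro b hb
            rw [norm_mul, Real.norm_eq_abs, Real.norm_eq_abs]
            have h2 := hd b
            have h3 := hm b hb
            have h4 : |f k ((chartAt 𝔼 x₀).symm b)| * (L:ℝ) ≤
                L / m * (dens (n := n) x₀ b * |f k ((chartAt 𝔼 x₀).symm b)|) := by
              have h5 : (L:ℝ) ≤ L / m * dens (n := n) x₀ b := by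
                rw [div_mul_eq_mul_div, le_div_iff₀ hm0]
                exact mul_le_mul_of_nonneg_left h3 L.2
              calc |f k ((chartAt 𝔼 x₀).symm b)| * (L:ℝ)
                  ≤ |f k ((chartAt 𝔼 x₀).symm b)| * (L / m * dens (n := n) x₀ b) := by gcongr
                _ = _ := by ring
            exact (mul_le_mul_of_nonneg_left h2 (abs_nonneg _)).trans h4
      _ = L / m * ∫ z in S, |f k z| ∂(μHE[n] : Measure M) := by
          rw [integral_const_mul, hS, integral_symm_image x₀ hKt hKm]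
          rfl
      _ = L / m * ∫ z, ‖f k z‖ * ‖S.indicator (fun _ => (1:ℝ)) z‖ ∂(μHE[n] : Measure M) := by
          congr 1
          rw [← integral_indicator hSm]
          refine integral_congr_ae (Eventually.of_forall fun z => ?_)
          by_cases hz : z ∈ S
          · simp [hz]
          · simp [hz]
      _ ≤ _ := by
          gcongr
          have h6 := cs_norm (h0.mem k) h1S
          simpa using h6
  refine squeeze_zero_norm key ?_
  have h7 := (h0.lim.sqrt).mul_const
    (√(∫ z, ‖S.indicator (fun _ => (1:ℝ)) z‖ ^ 2 ∂(μHE[n] : Measure M)))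
  have h8 := h7.const_mul ((L:ℝ) / m)
  simpa using h8

/-- `Ef x₀ i` is bounded on compact subsets of the source -/
theorem Ef_bdd (i : Fin n) {K : Set M} (hK : IsCompact K) (hKs : K ⊆ (chartAt 𝔼 x₀).source) :
    ∃ C : ℝ, 0 ≤ C ∧ ∀ z ∈ K, ‖Ef x₀ i z‖ ≤ C := by
  have hc : ContinuousOn (fun z => chartMetric n M x₀ (chartAt 𝔼 x₀ z) i i)
      (chartAt 𝔼 x₀).source :=
    ((isRiemannianOn_chartMetric (n := n) x₀).contDiffOn i i).continuousOn.comp
      (chartAt 𝔼 x₀).continuousOn (fun z hz => (chartAt 𝔼 x₀).map_source hz)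
  obtain ⟨C, hC⟩ := hK.exists_bound_of_continuousOn (hc.mono hKs)
  refine ⟨√C, Real.sqrt_nonneg _, fun z hz => ?_⟩
  have h1 : ‖Ef x₀ i z‖ ^ 2 = chartMetric n M x₀ (chartAt 𝔼 x₀ z) i i := by
    rw [← inner_Ef_Ef x₀ i i (hKs hz), real_inner_self_eq_norm_sq]
  rw [← Real.sqrt_sq (norm_nonneg (Ef x₀ i z)), h1]
  exact Real.sqrt_le_sqrt ((le_abs_self _).trans (hC z hz))

/-- the limit gradient is orthogonal to the chart vectors -/
theorem integral_eq_zero (i : Fin n) {φ : M → ℝ} {f : ℕ → M → ℝ} {g : M → 𝔼}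
    (hφ : LocallyLipschitz φ) (hc : HasCompactSupport φ)
    (hs : tsupport φ ⊆ (chartAt 𝔼 x₀).source)
    (hf : ∀ k, LocallyLipschitz (f k))
    (h0 : L2To (μHE[n] : Measure M) f (fun _ => 0))
    (hg : L2To (μHE[n] : Measure M) (fun k => Gr (n := n) (f k)) g) :
    ∫ z, φ z • inner ℝ (g z) (Ef x₀ i z) ∂(μHE[n] : Measure M) = 0 := by
  have hloc := isLocallyFiniteMeasure n M
  obtain ⟨C, hC0, hC⟩ := Ef_bdd (x₀ := x₀) (n := n) i hc.isCompact hs
  obtain ⟨C', hC'⟩ := hc.exists_bound_of_continuous hφ.continuous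
  have hw : MemLp (fun z => φ z • Ef x₀ i z) 2 (μHE[n] : Measure M) := by
    refine memLp_of_compact (C := C' * C) ?_ hc.isCompact ?_ ?_
    · exact hφ.continuous.aestronglyMeasurable.smul (measurable_Ef x₀ i).aestronglyMeasurable
    · intro z hz
      rw [norm_smul]
      exact mul_le_mul (hC' z) (hC z hz) (norm_nonneg _) ((norm_nonneg _).trans (hC' z))
    · intro z hz
      rw [image_eq_zero_of_notMem_tsupport hz, zero_smul]
  have h1 := hg.inner_const hw
  have h2 : Tendsto (fun k => ∫ z, inner ℝ (Gr (n := n) (f k) z) (φ z • Ef x₀ i z)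
      ∂(μHE[n] : Measure M)) atTop (𝓝 0) := by
    refine (rhs_tendsto (x₀ := x₀) i hφ hc hs hf h0).congr fun k => ?_
    exact (ibp_Ef i hφ hc hs (hf k)).symm
  have h3 := tendsto_nhds_unique h1 h2
  rw [← h3]
  refine integral_congr_ae (Eventually.of_forall fun z => ?_)
  simp only [inner_smul_right, smul_eq_mul]

end Chart

/-- **closability** -/
theorem closable_Gr (f : ℕ → M → ℝ) (g : M → 𝔼)
    (hf : ∀ k, LocallyLipschitz (f k) ∧ HasCompactSupport (f k))
    (h0 : Tendsto (fun k => eLpNorm (f k) 2 (μHE[n] : Measure M)) atTop (𝓝 0))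
    (hg : MemLp g 2 (μHE[n] : Measure M))
    (hG : Tendsto (fun k => eLpNorm (fun x => Gr (n := n) (f k) x - g x) 2
      (μHE[n] : Measure M)) atTop (𝓝 0)) : g =ᵐ[(μHE[n] : Measure M)] 0 := by
  have hloc := isLocallyFiniteMeasure n M
  have hlc := locallyCompactSpace n M
  have l0 : L2To (μHE[n] : Measure M) f (fun _ => 0) := by
    refine l2To_of_eLpNorm (fun k => memLp_test (n := n) (hf k).1 (hf k).2) MemLp.zero' ?_
    simpa using h0
  have l1 : L2To (μHE[n] : Measure M) (fun k => Gr (n := n) (f k)) g :=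
    l2To_of_eLpNorm (fun k => memLp_Gr (hf k).1 (hf k).2) hg hG
  -- on every chart
  have key : ∀ x₀ : M, ∀ᵐ z ∂(μHE[n] : Measure M), z ∈ (chartAt 𝔼 x₀).source → g z = 0 := by
    intro x₀
    have h1 : ∀ i : Fin n, ∀ᵐ z ∂(μHE[n] : Measure M), z ∈ (chartAt 𝔼 x₀).source →
        inner ℝ (g z) (Ef x₀ i z) = 0 := by
      intro i
      refine IsOpen.ae_eq_zero_of_integral_contMDiff_smul_eq_zero (𝓡 n)
        (chartAt 𝔼 x₀).open_source ?_ ?_
      · rw [locallyIntegrableOn_iff (chartAt 𝔼 x₀).open_source.isLocallyClosed]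
        intro K hKs hK
        obtain ⟨C, hC0, hC⟩ := Ef_bdd (x₀ := x₀) (n := n) i hK hKs
        have hfin : IsFiniteMeasure ((μHE[n] : Measure M).restrict K) :=
          ⟨by rw [Measure.restrict_apply_univ]; exact hK.measure_lt_top⟩
        have hgi : IntegrableOn g K (μHE[n] : Measure M) :=
          (hg.restrict K).integrable (by norm_num)
        refine (hgi.norm.const_mul C).mono' ?_ ?_
        · exact hg.1.restrict.inner (measurable_Ef x₀ i).aestronglyMeasurable
        · filter_upwards [ae_restrict_mem hK.isClosed.measurableSet] with z hz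
          rw [Real.norm_eq_abs]
          refine (abs_real_inner_le_norm _ _).trans ?_
          rw [mul_comm]
          exact mul_le_mul_of_nonneg_right (hC z hz) (norm_nonneg _)
      · intro φ hφ hφc hφs
        exact integral_eq_zero i (Bs84.locallyLipschitz_of_contMDiff (hφ.of_le (by simp))) hφc hφs
          (fun k => (hf k).1) l0 l1
    rw [← ae_all_iff] at h1
    filter_upwards [h1] with z hz hzs
    refine eq_zero_of_inner_Ef x₀ hzs fun i => ?_
    rw [real_inner_comm]
    exact hz i hzs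
  rw [Filter.EventuallyEq, ae_iff]
  refine measure_null_of_locally_null _ fun z hz => ?_
  refine ⟨{y | ¬ g y = (0 : M → 𝔼) y} ∩ (chartAt 𝔼 z).source,
    inter_mem_nhdsWithin _ ((chartAt 𝔼 z).open_source.mem_nhds (mem_chart_source 𝔼 z)), ?_⟩
  refine measure_mono_null ?_ (ae_iff.1 (key z))
  rintro y ⟨hy, hys⟩ h
  exact hy (h hys)

variable (n M) in
/-- **the gradient structure of the manifold** -/
def gradS : GradS M 𝔼 (μHE[n] : Measure M) where
  G := Gr (n := n)
  meas := fun {f} _ => (measurable_Gr f).aestronglyMeasurable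
  add := by
    intro f g hf hg
    filter_upwards [ae_mdifferentiableAt (n := n) hf, ae_mdifferentiableAt (n := n) hg]
      with x h1 h2
    exact Gr_add h1 h2
  smul := by
    intro c f hf
    filter_upwards [ae_mdifferentiableAt (n := n) hf] with x h1
    exact Gr_const_mul c h1
  mul := by
    intro f g hf hg
    filter_upwards [ae_mdifferentiableAt (n := n) hf, ae_mdifferentiableAt (n := n) hg]
      with x h1 h2
    exact Gr_mul h1 h2
  comp := by
    intro f χ hf hχ
    filter_upwards [ae_mdifferentiableAt (n := n) hf] with x h1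
    exact Gr_comp h1 (hχ.differentiable (by simp) _)
  norm_le := by
    intro f K U _ hU hK
    exact Eventually.of_forall fun x hx => norm_Gr_le_of_lipschitzOn (hU.mem_nhds hx) hK
  closable := closable_Gr

@[simp] theorem gradS_G : (gradS n M).G = Gr (n := n) := rfl

end

end Crest.Agent.R247.Gs939
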