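import Crest.Agent.R247.Gs2_939
import Crest.Agent.R247.Iso2_311
import Crest.Agent.R247.Obj3_554

/-!
# R247 (helper554): the hypotheses of blocks (5-Q), (1-S) on the manifold
-/

set_option autoImplicit false
set_option maxSynthPendingDepth 3
set_option linter.unusedSectionVars false
set_option linter.unusedVariables false

open Bundle Bornology Set MeasureTheory Manifold Filter Metric Topology
open scoped ENNReal ContDiff Topology NNReal RealInnerProductSpace
open Crest.GeometryTopology.CoordMetric Crest.GeometryTopology.ChartCurvature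
open Crest.Agent.R247.Ms322 Crest.Agent.R247.Mcp688 Crest.Agent.R247.Dir593
open Crest.Agent.R247.Dir593.GradS Crest.Agent.R247.Smv126
open Crest.Agent.R242 Crest.Agent.R247.Fd656 Crest.Agent.R247.Far553

noncomputable section
namespace Crest.Agent.R247.Obj554

variable {n : ℕ} {M : Type*} [MetricSpace M] [ChartedSpace (EuclideanSpace ℝ (Fin n)) M]
  [IsManifold (𝓡 n) ∞ M]
  [RiemannianBundle (fun p : M => TangentSpace (𝓡 n) p)]
  [IsContMDiffRiemannianBundle (𝓡 n) ∞ (EuclideanSpace ℝ (Fin n)) (fun p : M => TangentSpace (𝓡 n) p)]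
  [IsRiemannianManifold (𝓡 n) M] [MeasurableSpace M] [BorelSpace M]

local notation "𝔼" => EuclideanSpace ℝ (Fin n)

variable (n) in
/-- balls have positive measure -/
theorem hpos_muHE (x : M) (r : ℝ) (hr : 0 < r) : (μHE[n] : Measure M) (ball x r) ≠ 0 := by
  have := isOpenPosMeasure n M
  exact (measure_ball_pos _ x hr).ne'

/-- the constant of the upper volume density -/
def hdC (n : ℕ) : ℝ :=
  Real.exp 2 * 2 ^ n * (volume (ball (0 : EuclideanSpace ℝ (Fin n)) 1)).toReal

lemma hdC_pos (n : ℕ) : 0 < hdC n := by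
  unfold hdC
  have h : 0 < (volume (ball (0 : EuclideanSpace ℝ (Fin n)) 1)).toReal :=
    ENNReal.toReal_pos (measure_ball_pos _ _ one_pos).ne' measure_ball_lt_top.ne
  positivity

/-- small closed balls -/
theorem closedBall_le [ProperSpace M] {κ : ℝ} (C : Rad n κ M (μHE[n] : Measure M))
    (hκ : 0 ≤ κ) (hκ1 : κ ≤ 1) (y : M) {ε : ℝ} (hε : 0 < ε) (hε1 : ε ≤ 1) :
    (μHE[n] : Measure M) (closedBall y ε) ≤ ENNReal.ofReal (hdC n * ε ^ n) := by
  have h1 := Iso311.bishop C hκ y (2 * ε)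
  have h2 : closedBall y ε ⊆ ball y (2 * ε) := closedBall_subset_ball (by linarith)
  refine (measure_mono h2).trans (h1.trans ?_)
  have h3 : volume (ball (0 : 𝔼) 1) =
      ENNReal.ofReal (volume (ball (0 : 𝔼) 1)).toReal :=
    (ENNReal.ofReal_toReal measure_ball_lt_top.ne).symm
  rw [h3, ← ENNReal.ofReal_mul (by positivity)]
  apply ENNReal.ofReal_le_ofReal
  unfold hdC
  have h4 : Real.exp (κ * (2 * ε) ^ 2 / 2) ≤ Real.exp 2 := by
    apply Real.exp_le_exp.2
    have : (2 * ε) ^ 2 ≤ 4 := by nlinarith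
    nlinarith [sq_nonneg (2 * ε)]
  have h5 : 0 ≤ (volume (ball (0 : 𝔼) 1)).toReal := ENNReal.toReal_nonneg
  calc Real.exp (κ * (2 * ε) ^ 2 / 2) * (2 * ε) ^ n * (volume (ball (0 : 𝔼) 1)).toReal
      ≤ Real.exp 2 * (2 * ε) ^ n * (volume (ball (0 : 𝔼) 1)).toReal := by gcongr
    _ = _ := by rw [mul_pow]; ring

/-- **(hd)** -/
theorem hd_muHE [ProperSpace M] {κ : ℝ} (C : Rad n κ M (μHE[n] : Measure M))
    (hκ : 0 ≤ κ) (hκ1 : κ ≤ 1) (y : M) :
    ∀ᶠ ε in 𝓝[>] (0:ℝ), (μHE[n] : Measure M) (closedBall y ε) ≤ ENNReal.ofReal (hdC n * ε ^ n) := by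
  filter_upwards [Ioc_mem_nhdsGT (zero_lt_one' ℝ)] with ε hε
  exact closedBall_le C hκ hκ1 y hε.1 hε.2

variable (n M) in
theorem sFinite_muHE [SecondCountableTopology M] : SFinite (μHE[n] : Measure M) := by
  have := isLocallyFiniteMeasure n M
  infer_instance

end Crest.Agent.R247.Obj554
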