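import Crest.Agent.R247.Ms8_322

/-!
R247, leaf (0e) (helper216): joint measurability, in `(y, z)`, of the frame gradient `Gr (f y) z` of a
family `f : Y → M → ℝ` with `(y, z) ↦ f y z` continuous, of its set of differentiability, and
Rademacher's theorem for almost every pair.  Special case `f y z = dist y z`.
-/

set_option autoImplicit false
set_option maxSynthPendingDepth 3
set_option linter.unusedSectionVars false
set_option linter.unusedVariables false

open Bundle Bornology Set MeasureTheory Manifold Filter Metric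
open scoped ENNReal ContDiff Topology NNReal
open Crest.GeometryTopology.CoordMetric Crest.GeometryTopology.ChartCurvature
open Crest.GeometryTopology.Geodesic
open Crest.Agent.R226.ChartMet842
open Crest.Agent.R247.Ms322

namespace Crest.Agent.R247.Jm216

noncomputable section

/-- measurability on a countable measurable cover -/
theorem measurable_of_cover {α β ι : Type*} [MeasurableSpace α] [MeasurableSpace β] [Countable ι]
    {g : α → β} {A : ι → Set α} {G : ι → α → β} (hA : ∀ i, MeasurableSet (A i))
    (hc : ∀ x, ∃ i, x ∈ A i) (hG : ∀ i, Measurable (G i)) (hg : ∀ i, ∀ x ∈ A i, g x = G i x) :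
    Measurable g := by
  intro S hS
  have e : g ⁻¹' S = ⋃ i, A i ∩ G i ⁻¹' S := by
    ext x
    simp only [mem_preimage, mem_iUnion, mem_inter_iff]
    constructor
    · intro h
      obtain ⟨i, hi⟩ := hc x
      exact ⟨i, hi, by rw [← hg i x hi]; exact h⟩
    · rintro ⟨i, hi, h⟩
      rw [hg i x hi]; exact h
  rw [e]
  exact MeasurableSet.iUnion fun i => (hA i).inter (hG i hS)

theorem measurableSet_of_cover {α ι : Type*} [MeasurableSpace α] [Countable ι]
    {S : Set α} {A B : ι → Set α} (hA : ∀ i, MeasurableSet (A i))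
    (hc : ∀ x, ∃ i, x ∈ A i) (hB : ∀ i, MeasurableSet (B i)) (hS : ∀ i, ∀ x ∈ A i, x ∈ S ↔ x ∈ B i) :
    MeasurableSet S := by
  have e : S = ⋃ i, A i ∩ B i := by
    ext x
    simp only [mem_iUnion, mem_inter_iff]
    constructor
    · intro h
      obtain ⟨i, hi⟩ := hc x
      exact ⟨i, hi, (hS i x hi).1 h⟩
    · rintro ⟨i, hi, h⟩
      exact (hS i x hi).2 h
  rw [e]
  exact MeasurableSet.iUnion fun i => (hA i).inter (hB i)

section Ret

variable {E : Type*} [NormedAddCommGroup E] [NormedSpace ℝ E]

/-- radial retraction onto a closed ball -/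
def ret (c : E) (r : ℝ) (b : E) : E := c + (r / max r ‖b - c‖) • (b - c)

theorem continuous_ret (c : E) {r : ℝ} (hr : 0 < r) : Continuous (ret c r) := by
  unfold ret
  refine continuous_const.add (Continuous.smul (continuous_const.div ?_ ?_) (by fun_prop))
  · fun_prop
  · intro b
    have : 0 < max r ‖b - c‖ := lt_max_of_lt_left hr
    exact this.ne'

theorem ret_mem (c : E) {r : ℝ} (hr : 0 < r) (b : E) : ret c r b ∈ closedBall c r := by
  unfold ret
  have h0 : 0 < max r ‖b - c‖ := lt_max_of_lt_left hr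
  rw [mem_closedBall, dist_eq_norm, add_sub_cancel_left, norm_smul, Real.norm_eq_abs,
    abs_of_nonneg (by positivity), div_mul_eq_mul_div, div_le_iff₀ h0]
  exact mul_le_mul_of_nonneg_left (le_max_right _ _) hr.le

theorem ret_eq (c : E) {r : ℝ} (hr : 0 < r) {b : E} (hb : b ∈ closedBall c r) : ret c r b = b := by
  unfold ret
  rw [mem_closedBall, dist_eq_norm] at hb
  rw [max_eq_left hb, div_self hr.ne', one_smul, add_sub_cancel]

theorem ret_eventuallyEq {β : Type*} (F : E → β) (c : E) {r : ℝ} (hr : 0 < r) {b : E}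
    (hb : b ∈ ball c r) : (fun b => F (ret c r b)) =ᶠ[𝓝 b] F := by
  filter_upwards [isOpen_ball.mem_nhds hb] with b' hb'
  rw [ret_eq c hr (ball_subset_closedBall hb')]

end Ret

variable {n : ℕ} {M : Type*} [MetricSpace M] [ChartedSpace (EuclideanSpace ℝ (Fin n)) M]
  [IsManifold (𝓡 n) ∞ M]
  [RiemannianBundle (fun p : M => TangentSpace (𝓡 n) p)]
  [IsContMDiffRiemannianBundle (𝓡 n) ∞ (EuclideanSpace ℝ (Fin n)) (fun p : M => TangentSpace (𝓡 n) p)]
  [IsRiemannianManifold (𝓡 n) M]

local notation "𝔼" => EuclideanSpace ℝ (Fin n)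

variable [MeasurableSpace M] [BorelSpace M] [SecondCountableTopology M] [Nonempty M]

variable (n M) in
/-- indices of the pieces: chart number, centre number, radius number -/
abbrev Ix := ℕ × ℕ × ℕ

variable (n) in
/-- centre of a coordinate ball -/
def bc (i : ℕ × ℕ × ℕ) : EuclideanSpace ℝ (Fin n) := TopologicalSpace.denseSeq _ i.2.1

/-- radius of a coordinate ball -/
def br (i : ℕ × ℕ × ℕ) : ℝ := 1 / ((i.2.2 : ℝ) + 1)

theorem br_pos (i : ℕ × ℕ × ℕ) : 0 < br i := by unfold br; positivity

variable (n M) in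
/-- the piece of `M` with index `i` -/
def piece (i : ℕ × ℕ × ℕ) : Set M :=
  {z | idx n z = i.1 ∧ closedBall (bc n i) (br i) ⊆ (chartAt 𝔼 (cen n M i.1)).target ∧
    z ∈ (chartAt 𝔼 (cen n M i.1)).source ∧ chartAt 𝔼 (cen n M i.1) z ∈ ball (bc n i) (br i)}

theorem measurableSet_piece (i : ℕ × ℕ × ℕ) : MeasurableSet (piece n M i) := by
  by_cases h : closedBall (bc n i) (br i) ⊆ (chartAt 𝔼 (cen n M i.1)).target
  · have e : piece n M i = {z : M | idx n z = i.1} ∩
        ((chartAt 𝔼 (cen n M i.1)).source ∩
          (chartAt 𝔼 (cen n M i.1)) ⁻¹' ball (bc n i) (br i)) := by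
      ext z
      simp only [piece, mem_ofPred_eq, mem_inter_iff, mem_preimage]
      tauto
    rw [e]
    exact (measurableSet_idx i.1).inter
      ((chartAt 𝔼 (cen n M i.1)).isOpen_inter_preimage isOpen_ball).measurableSet
  · have e : piece n M i = ∅ := by
      ext z
      simp only [piece, mem_ofPred_eq, mem_empty_iff_false]
      tauto
    rw [e]
    exact MeasurableSet.empty

theorem exists_piece (z : M) : ∃ i, z ∈ piece n M i := by
  set k := idx n z with hk
  have hz : z ∈ (chartAt 𝔼 (cen n M k)).source := mem_sel (n := n) z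
  set a := chartAt 𝔼 (cen n M k) z with ha
  have hat : a ∈ (chartAt 𝔼 (cen n M k)).target := (chartAt 𝔼 _).map_source hz
  obtain ⟨ε, hε, hb⟩ := Metric.isOpen_iff.1 (chartAt 𝔼 (cen n M k)).open_target a hat
  obtain ⟨m, hm⟩ := exists_nat_one_div_lt (show (0 : ℝ) < ε / 2 by positivity)
  have hm0 : (0 : ℝ) < 1 / ((m : ℝ) + 1) := by positivity
  obtain ⟨c, hc, ⟨l, hl⟩⟩ := (TopologicalSpace.denseRange_denseSeq 𝔼).exists_dist_lt a hm0
    |>.elim (fun l hl => (⟨TopologicalSpace.denseSeq 𝔼 l, hl, ⟨l, rfl⟩⟩ :
      ∃ c : 𝔼, dist a c < 1 / ((m : ℝ) + 1) ∧ ∃ l, TopologicalSpace.denseSeq 𝔼 l = c))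
  refine ⟨(k, l, m), ?_⟩
  refine ⟨rfl, ?_, hz, ?_⟩
  · intro b hb'
    apply hb
    simp only [bc, br, hl] at hb'
    rw [mem_closedBall] at hb'
    rw [mem_ball]
    calc dist b a ≤ dist b c + dist c a := dist_triangle _ _ _
      _ < 1 / ((m : ℝ) + 1) + 1 / ((m : ℝ) + 1) := by
        rw [dist_comm c a]; exact add_lt_add_of_le_of_lt hb' hc
      _ < ε := by linarith
  · simp only [bc, br, hl]
    exact hc

variable (n M) in
/-- the chart, made globally measurable -/
def mch (k : ℕ) : M → 𝔼 := (chartAt 𝔼 (cen n M k)).source.indicator (chartAt 𝔼 (cen n M k))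

theorem measurable_mch (k : ℕ) : Measurable (mch n M k) := by
  classical
  unfold mch
  rw [← Set.piecewise_eq_indicator]
  exact (chartAt 𝔼 (cen n M k)).continuousOn.measurable_piecewise
    continuousOn_const (chartAt 𝔼 (cen n M k)).open_source.measurableSet

theorem mch_eq {i : ℕ × ℕ × ℕ} {z : M} (hz : z ∈ piece n M i) :
    mch n M i.1 z = chartAt 𝔼 (cen n M i.1) z := indicator_of_mem hz.2.2.1 _

variable {Y : Type*} [TopologicalSpace Y] [MeasurableSpace Y] [OpensMeasurableSpace Y]

variable (n) in
/-- local model of the family -/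
def Fl (f : Y → M → ℝ) (i : ℕ × ℕ × ℕ) (y : Y) (b : EuclideanSpace ℝ (Fin n)) : ℝ :=
  f y ((chartAt (EuclideanSpace ℝ (Fin n)) (cen n M i.1)).symm (ret (bc n i) (br i) b))

theorem continuous_Fl {f : Y → M → ℝ} (hf : Continuous (Function.uncurry f)) {i : ℕ × ℕ × ℕ}
    (hi : closedBall (bc n i) (br i) ⊆ (chartAt 𝔼 (cen n M i.1)).target) :
    Continuous (Function.uncurry (Fl n f i)) := by
  have h1 : Continuous (fun b : 𝔼 =>
      (chartAt 𝔼 (cen n M i.1)).symm (ret (bc n i) (br i) b)) :=
    (chartAt 𝔼 (cen n M i.1)).continuousOn_symm.comp_continuous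
      (continuous_ret _ (br_pos i)) (fun b => hi (ret_mem _ (br_pos i) b))
  have h2 : Continuous (fun p : Y × 𝔼 =>
      (p.1, (chartAt 𝔼 (cen n M i.1)).symm (ret (bc n i) (br i) p.2))) :=
    continuous_fst.prodMk (h1.comp continuous_snd)
  exact hf.comp h2

theorem Fl_eventuallyEq (f : Y → M → ℝ) {i : ℕ × ℕ × ℕ} (y : Y) {b : 𝔼}
    (hb : b ∈ ball (bc n i) (br i)) :
    Fl n f i y =ᶠ[𝓝 b] (fun b => f y ((chartAt 𝔼 (cen n M i.1)).symm b)) :=
  ret_eventuallyEq (fun b => f y ((chartAt 𝔼 (cen n M i.1)).symm b)) _ (br_pos i) hb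

/-- **(0e-a)** joint measurability of the frame gradient -/
theorem measurable_Gr_param {f : Y → M → ℝ} (hf : Continuous (Function.uncurry f)) :
    Measurable (fun p : Y × M => Gr (n := n) (f p.1) p.2) := by
  classical
  have hcomp : ∀ j : Fin n, Measurable (fun p : Y × M => Gr (n := n) (f p.1) p.2 j) := by
    intro j
    refine measurable_of_cover (ι := ℕ × ℕ × ℕ) (A := fun i => Prod.snd ⁻¹' piece n M i)
      (G := fun i p => if closedBall (bc n i) (br i) ⊆ (chartAt 𝔼 (cen n M i.1)).target then
        ∑ l, isq (chartMetric n M (cen n M i.1) (ret (bc n i) (br i) (mch n M i.1 p.2))) l j *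
          fderiv ℝ (Fl n f i p.1) (mch n M i.1 p.2) (EuclideanSpace.single l 1) else 0)
      (fun i => measurable_snd (measurableSet_piece i)) (fun p => exists_piece p.2) ?_ ?_
    · intro i
      by_cases hi : closedBall (bc n i) (br i) ⊆ (chartAt 𝔼 (cen n M i.1)).target
      · simp only [hi, if_true]
        refine Finset.measurable_sum _ fun l _ => Measurable.mul ?_ ?_
        · have h1 : ContinuousOn (fun b : 𝔼 => isq (chartMetric n M (cen n M i.1) b) l j)
              (chartAt 𝔼 (cen n M i.1)).target := by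
            refine continuousOn_isq ?_
              (fun b hb => (isRiemannianOn_chartMetric (n := n) _).posDef b hb) l j
            refine continuousOn_pi.2 fun p => continuousOn_pi.2 fun q => ?_
            exact ((isRiemannianOn_chartMetric (n := n)
              (cen n M i.1)).contDiffOn p q).continuousOn
          have h2 : Continuous (fun b : 𝔼 =>
              isq (chartMetric n M (cen n M i.1) (ret (bc n i) (br i) b)) l j) :=
            h1.comp_continuous (continuous_ret _ (br_pos i))
              (fun b => hi (ret_mem _ (br_pos i) b))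
          exact h2.measurable.comp ((measurable_mch i.1).comp measurable_snd)
        · have h1 := measurable_fderiv_apply_const_with_param ℝ (continuous_Fl (n := n) hf hi)
            (EuclideanSpace.single l (1 : ℝ))
          exact h1.comp (measurable_fst.prodMk ((measurable_mch i.1).comp measurable_snd))
      · simp only [hi, if_false]
        exact measurable_const
    · rintro i ⟨y, z⟩ hz
      simp only [mem_preimage] at hz
      have hi := hz.2.1
      have hk : idx n z = i.1 := hz.1
      simp only [hi, if_true]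
      rw [Gr_apply_chart, fderiv_eq_sum]
      unfold crd sel
      rw [hk, mch_eq hz, ret_eq _ (br_pos i) (ball_subset_closedBall hz.2.2.2),
        (Fl_eventuallyEq f y hz.2.2.2).fderiv_eq]
      rfl
  have h2 : Measurable (fun p : Y × M => (WithLp.ofLp (Gr (n := n) (f p.1) p.2) : Fin n → ℝ)) :=
    measurable_pi_lambda _ hcomp
  exact (WithLp.measurable_toLp 2 (Fin n → ℝ)).comp h2

/-- **(0e-b)** joint measurability of the set of differentiability -/
theorem measurableSet_mdiff_param {f : Y → M → ℝ} (hf : Continuous (Function.uncurry f)) :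
    MeasurableSet {p : Y × M | MDifferentiableAt (𝓡 n) 𝓘(ℝ) (f p.1) p.2} := by
  classical
  refine measurableSet_of_cover (ι := ℕ × ℕ × ℕ) (A := fun i => Prod.snd ⁻¹' piece n M i)
      (B := fun i => {p : Y × M | closedBall (bc n i) (br i) ⊆ (chartAt 𝔼 (cen n M i.1)).target ∧
        DifferentiableAt ℝ (Fl n f i p.1) (mch n M i.1 p.2)})
      (fun i => measurable_snd (measurableSet_piece i)) (fun p => exists_piece p.2) ?_ ?_
  · intro i
    by_cases hi : closedBall (bc n i) (br i) ⊆ (chartAt 𝔼 (cen n M i.1)).target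
    · simp only [hi, true_and]
      have h1 : MeasurableSet {q : Y × 𝔼 | DifferentiableAt ℝ (Fl n f i q.1) q.2} :=
        measurableSet_of_differentiableAt_with_param ℝ (continuous_Fl (n := n) hf hi)
      have h2 : Measurable (fun p : Y × M => (p.1, mch n M i.1 p.2)) :=
        measurable_fst.prodMk ((measurable_mch (n := n) (M := M) i.1).comp measurable_snd)
      exact h2 h1
    · simp only [hi, false_and]
      exact MeasurableSet.const _
  · rintro i ⟨y, z⟩ hz
    simp only [mem_preimage] at hz
    have hi := hz.2.1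
    simp only [mem_ofPred_eq, hi, true_and]
    rw [mdifferentiableAt_iff_chart _ hz.2.2.1, mch_eq hz,
      (Fl_eventuallyEq f y hz.2.2.2).differentiableAt_iff]

theorem ae_prod_of {α β : Type*} [MeasurableSpace α] [MeasurableSpace β] {ν : Measure α}
    {μ : Measure β} [SFinite μ] {s : Set (α × β)} (hs : MeasurableSet s)
    (h : ∀ y, ∀ᵐ z ∂μ, (y, z) ∈ s) : ∀ᵐ p ∂(ν.prod μ), p ∈ s :=
  (Measure.ae_prod_mem_iff_ae_ae_mem hs).2 (ae_of_all _ h)

theorem ae_prod_swap_of {α β : Type*} [MeasurableSpace α] [MeasurableSpace β] {ν : Measure α}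
    {μ : Measure β} [SFinite μ] [SFinite ν] {s : Set (α × β)} (hs : MeasurableSet s)
    (h : ∀ y, ∀ᵐ z ∂μ, (y, z) ∈ s) : ∀ᵐ z ∂μ, ∀ᵐ y ∂ν, (y, z) ∈ s := by
  have h1 : ∀ᵐ p ∂(ν.prod μ), p ∈ s := ae_prod_of hs h
  have h2 : ∀ᵐ p ∂(μ.prod ν), p.swap ∈ s :=
    (Measure.measurePreserving_swap (μ := μ) (ν := ν)).quasiMeasurePreserving.ae h1
  exact Measure.ae_ae_of_ae_prod h2

variable (n) in
/-- pairs `(y, z)` such that `f y` is differentiable at `z` -/
def MD (f : Y → M → ℝ) : Set (Y × M) := {p | MDifferentiableAt (𝓡 n) 𝓘(ℝ) (f p.1) p.2}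

theorem mem_MD {f : Y → M → ℝ} {y : Y} {z : M} :
    (y, z) ∈ MD n f ↔ MDifferentiableAt (𝓡 n) 𝓘(ℝ) (f y) z := Iff.rfl

theorem measurableSet_MD {f : Y → M → ℝ} (hf : Continuous (Function.uncurry f)) :
    MeasurableSet (MD n f) := measurableSet_mdiff_param hf

theorem ae_mem_MD {f : Y → M → ℝ} (y : Y) (hL : LocallyLipschitz (f y)) :
    ∀ᵐ z ∂(μHE[n] : Measure M), (y, z) ∈ MD n f := by
  filter_upwards [ae_mdifferentiableAt (n := n) hL] with z hz
  exact mem_MD.2 hz

theorem ae_MD {f : Y → M → ℝ} (hf : Continuous (Function.uncurry f))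
    (hL : ∀ y, LocallyLipschitz (f y)) (ν : Measure Y)
    [SFinite (μHE[n] : Measure M)]  :
    ∀ᵐ p ∂(ν.prod (μHE[n] : Measure M)), p ∈ MD n f := 
  ae_prod_of (measurableSet_MD hf) fun y => ae_mem_MD y (hL y)

theorem ae_MD_swap {f : Y → M → ℝ} (hf : Continuous (Function.uncurry f))
    (hL : ∀ y, LocallyLipschitz (f y)) (ν : Measure Y) [SFinite ν]
    [SFinite (μHE[n] : Measure M)] :
    ∀ᵐ z ∂(μHE[n] : Measure M), ∀ᵐ y ∂ν, (y, z) ∈ MD n f :=
  ae_prod_swap_of (measurableSet_MD hf) fun y => ae_mem_MD y (hL y)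

section Dist

variable (n) in
/-- frame gradient of the distance from `a` -/
def gd (a z : M) : EuclideanSpace ℝ (Fin n) := Gr (n := n) (fun u => dist a u) z

variable (n) in
/-- frame gradient of `dist a · ^ 2 / 2` -/
def gf (a z : M) : EuclideanSpace ℝ (Fin n) := Gr (n := n) (fun u => dist a u ^ 2 / 2) z

theorem measurable_gd : Measurable (fun p : M × M => gd n p.1 p.2) :=
  measurable_Gr_param (n := n) (Y := M) (f := fun a u => dist a u) (by exact continuous_dist)

theorem measurable_gf : Measurable (fun p : M × M => gf n p.1 p.2) :=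
  measurable_Gr_param (n := n) (Y := M) (f := fun a u => dist a u ^ 2 / 2)
    (by unfold Function.uncurry; fun_prop)

theorem measurable_gd_left (z : M) : Measurable (fun a : M => gd n a z) := by
  have h : Measurable (fun a : M => (a, z)) := measurable_id.prodMk measurable_const
  have h2 := (measurable_gd (n := n) (M := M)).comp h
  simpa only [Function.comp_def] using h2

theorem measurable_gf_left (z : M) : Measurable (fun a : M => gf n a z) := by
  have h : Measurable (fun a : M => (a, z)) := measurable_id.prodMk measurable_const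
  have h2 := (measurable_gf (n := n) (M := M)).comp h
  simpa only [Function.comp_def] using h2

theorem measurable_gd_right (a : M) : Measurable (fun z : M => gd n a z) := by
  have h : Measurable (fun z : M => (a, z)) := measurable_const.prodMk measurable_id
  have h2 := (measurable_gd (n := n) (M := M)).comp h
  simpa only [Function.comp_def] using h2

theorem measurable_gf_right (a : M) : Measurable (fun z : M => gf n a z) := by
  have h : Measurable (fun z : M => (a, z)) := measurable_const.prodMk measurable_id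
  have h2 := (measurable_gf (n := n) (M := M)).comp h
  simpa only [Function.comp_def] using h2

/-- `(a, b, u) ↦ ⟨∇f_a, ∇f_b⟩(u)` -/
theorem measurable_inner_gf :
    Measurable (fun p : M × M × M => inner ℝ (gf n p.1 p.2.2) (gf n p.2.1 p.2.2)) :=
  ((measurable_gf (n := n) (M := M)).comp (measurable_fst.prodMk (measurable_snd.comp measurable_snd))).inner
    ((measurable_gf (n := n) (M := M)).comp ((measurable_fst.comp measurable_snd).prodMk
      (measurable_snd.comp measurable_snd)))

/-- `(a, b, u) ↦ ⟨∇d_a, ∇d_b⟩(u)` -/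
theorem measurable_inner_gd :
    Measurable (fun p : M × M × M => inner ℝ (gd n p.1 p.2.2) (gd n p.2.1 p.2.2)) :=
  ((measurable_gd (n := n) (M := M)).comp (measurable_fst.prodMk (measurable_snd.comp measurable_snd))).inner
    ((measurable_gd (n := n) (M := M)).comp ((measurable_fst.comp measurable_snd).prodMk
      (measurable_snd.comp measurable_snd)))

/-- `(a, b, u) ↦ ⟨∇f_a, ∇d_b⟩(u)` -/
theorem measurable_inner_gf_gd :
    Measurable (fun p : M × M × M => inner ℝ (gf n p.1 p.2.2) (gd n p.2.1 p.2.2)) :=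
  ((measurable_gf (n := n) (M := M)).comp (measurable_fst.prodMk (measurable_snd.comp measurable_snd))).inner
    ((measurable_gd (n := n) (M := M)).comp ((measurable_fst.comp measurable_snd).prodMk
      (measurable_snd.comp measurable_snd)))

/-- almost every pair: `d_a` is differentiable at `z` -/
theorem ae_MD_dist (ν : Measure M) [SFinite (μHE[n] : Measure M)] :
    ∀ᵐ p ∂(ν.prod (μHE[n] : Measure M)), p ∈ MD n (fun a u : M => dist a u) :=
  ae_MD (Y := M) (by exact continuous_dist)
    (fun a => (LipschitzWith.dist_right a).locallyLipschitz) ν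

theorem ae_MD_dist_swap (ν : Measure M) [SFinite ν] [SFinite (μHE[n] : Measure M)] :
    ∀ᵐ z ∂(μHE[n] : Measure M), ∀ᵐ a ∂ν, (a, z) ∈ MD n (fun a u : M => dist a u) :=
  ae_MD_swap (Y := M) (by exact continuous_dist)
    (fun a => (LipschitzWith.dist_right a).locallyLipschitz) ν

end Dist

end

end Crest.Agent.R247.Jm216
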