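import Crest.Agent.R247.Fd2_656

/-!
# R247, (1-K) (7) (helper622): the interface between the weighted estimates and the fields

`Core`: the weighted estimates for one centre and one pair of scales `j ≤ k`, the weight is
`wt = R_{ρ/2} ψ`, `ρ = dy k`, where `ψ` is the density of `Lam C x (dy j)`.
`CoreP n`: they hold with a constant which depends on `n` only.
-/

set_option autoImplicit false
set_option linter.unusedSectionVars false
set_option linter.unusedVariables false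

open MeasureTheory Filter Topology Set Metric
open scoped RealInnerProductSpace ENNReal NNReal

noncomputable section

namespace Crest.Agent.R247.Kt622

universe u

open Crest.Agent.R242 Crest.Agent.R247.Dir593 Crest.Agent.R247.Dir593.GradS
open Crest.Agent.R247.Smv126 Crest.Agent.R247.Obj554 Crest.Agent.R247.Hes124
open Crest.Agent.R247.Far553 Crest.Agent.R247.Mcp688 Crest.Agent.R247.Max193
open Crest.Agent.R247.Fd656

section
variable {n : ℕ} {κ : ℝ} {X : Type u} [MetricSpace X] [ProperSpace X] [MeasurableSpace X]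
  [BorelSpace X] {μ : Measure X} [IsFiniteMeasureOnCompacts μ]

/-- the weight `R_{ρ/2} ψ`, `ρ = dy k` -/
def wt (B : BochS n κ X μ) (ψ : Lp ℝ 2 μ) (k : ℕ) : Lp ℝ 2 μ :=
  (QF B.toGradS).res (dy k ^ 2 / 4) ψ

/-- the weighted estimates -/
structure Core (B : BochS n κ X μ) (C : Rad n κ X μ) (x : X) (O : HObj B x) (A : ℝ) (j k : ℕ)
    (ψ : Lp ℝ 2 μ) : Prop where
  nonneg : ∀ᵐ z ∂μ, 0 ≤ ψ z
  lam : Lam C x (dy j) = μ.withDensity (fun z => ENNReal.ofReal (ψ z))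
  wt_nonneg : ∀ᵐ z ∂μ, 0 ≤ wt B ψ k z
  H : ∫⁻ z, ENNReal.ofReal (wt B ψ k z * ((Hf O k z + gf B x k z) ^ 2 -
        {z | 32 < dist x z}.indicator (fun _ => A) z)) ∂μ ≤
      ENNReal.ofReal (A * (phx n κ μ x j * dy j ^ n))
  q : ∫⁻ z, ENNReal.ofReal (wt B ψ k z * qf B x k z) ∂μ ≤
      ENNReal.ofReal (A * (phx n κ μ x j * dy j ^ n))
  kk : ∫⁻ z in {z | dist x z ≤ 32}, ENNReal.ofReal (wt B ψ k z * |kf B x k z|) ∂μ ≤
      ENNReal.ofReal (A * dy k ^ 2 * (phx n κ μ x j * dy j ^ n))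
  n2 : ∫⁻ z in {z | dist x z ≤ 32} ∩ {z | |kf B x k z| ≤ dy k ^ 2},
        ENNReal.ofReal (wt B ψ k z * nf O k z ^ 2) ∂μ ≤
      ENNReal.ofReal (A * dy k ^ 2 * (phx n κ μ x j * dy j ^ n))
  n1 : ∀ L : ℝ, 1 ≤ L →
      ∫⁻ z in {z | dist x z ≤ 32} ∩ {z | dy k ^ 2 < |kf B x k z| ∧ |kf B x k z| ≤ L * dy j ^ 2},
        ENNReal.ofReal (wt B ψ k z * nf O k z) ∂μ ≤
      ENNReal.ofReal (A * L * dy k * (1 + (k - j : ℕ)) * (phx n κ μ x j * dy j ^ n))
  sup : ∀ᵐ z ∂μ, dist x z ≤ 32 → |kf B x k z| ≤ A * (dist x z ^ 2 + dy k ^ 2)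
  far : ∀ᵐ z ∂μ, |kf B x k z| ≤ A ∧ nf O k z ≤ A * Hf O k z

end

/-- **interface** -/
def CoreP (n : ℕ) : Prop := ∃ A : ℝ, 1 ≤ A ∧
  ∀ (κ : ℝ) (X : Type u) [MetricSpace X] [ProperSpace X] [MeasurableSpace X] [BorelSpace X]
    (μ : Measure X) [IsFiniteMeasureOnCompacts μ] (B : BochS n κ X μ) (C : Rad n κ X μ) (x : X)
    (δ : ℝ), EnvF B C x δ → ∀ O : HObj B x, ∀ j k : ℕ, 4 ≤ j → j ≤ k →
    ∃ ψ : Lp ℝ 2 μ, Core B C x O A j k ψ

end Crest.Agent.R247.Kt622
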