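import Crest.Agent.R247.Kt11_622
import Crest.Agent.R247.Kt7_622
import Crest.Agent.R247.Kb1_301

/-!
# R247, (1-K) (12) (helper622): `CoreP n`
-/

set_option autoImplicit false
set_option linter.unusedSectionVars false
set_option linter.unusedVariables false

open MeasureTheory Filter Topology Set Metric
open scoped RealInnerProductSpace ENNReal NNReal

noncomputable section

namespace Crest.Agent.R247.Kt622

universe u

open Crest.Agent.R242 Crest.Agent.R247.Dir593 Crest.Agent.R247.Dir593.GradS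
open Crest.Agent.R247.Smv126 Crest.Agent.R247.Obj554 Crest.Agent.R247.Hes124
open Crest.Agent.R247.Far553 Crest.Agent.R247.Mcp688 Crest.Agent.R247.Max193
open Crest.Agent.R247.Fd656 Crest.Agent.R247.LX149

section Obj

variable {n : ℕ} {κ : ℝ} {X : Type u} [MetricSpace X] [ProperSpace X] [MeasurableSpace X]
  [BorelSpace X] {μ : Measure X} [IsFiniteMeasureOnCompacts μ] {B : BochS n κ X μ} {x : X}

/-- from integrals to lower integrals -/
lemma lint_le {f g : X → ℝ} {D : Set X} {Y : ℝ} (hD : MeasurableSet D) (hg : Integrable g μ)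
    (hg0 : ∀ᵐ z ∂μ, 0 ≤ g z) (hfg : ∀ᵐ z ∂μ, z ∈ D → f z ≤ g z) (hY : ∫ z, g z ∂μ ≤ Y) :
    ∫⁻ z in D, ENNReal.ofReal (f z) ∂μ ≤ ENNReal.ofReal Y := by
  have h1 : ∫⁻ z in D, ENNReal.ofReal (f z) ∂μ ≤ ∫⁻ z in D, ENNReal.ofReal (g z) ∂μ := by
    refine lintegral_mono_ae ((ae_restrict_iff' hD).2 ?_)
    filter_upwards [hfg] with z h2 hz using ENNReal.ofReal_le_ofReal (h2 hz)
  refine h1.trans ((setLIntegral_le_lintegral _ _).trans ?_)
  rw [← ofReal_integral_eq_lintegral_ofReal hg hg0]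
  exact ENNReal.ofReal_le_ofReal hY

lemma LK_self {h : ℝ} (h0 : 0 < h) : LK h h ≤ 2 * h := by
  unfold LK
  have e : 1 + 2 * h / h = 3 := by field_simp; norm_num
  rw [e]
  have h1 : Real.log 3 ≤ 2 := by
    have := Real.log_le_sub_one_of_pos (show (0:ℝ) < 3 by norm_num)
    linarith
  nlinarith

/-- the constant of `Core` -/
def cC (n : ℕ) (V : ℝ) : ℝ :=
  1 + 1200 * cY n V + 5 * CE n + (2 + 8 * CN n 1 + bC n) +
    ((2 * CA n 1) ^ 2 + 2 * (2 * cinf + CN n 1)) + 4 * CA n 1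

lemma sqrt_LK_le {L : ℝ} (hL : 1 ≤ L) {j k : ℕ} (hjk : j ≤ k) :
    Real.sqrt (LK (dy k ^ 2) (L * dy j ^ 2)) ≤ 4 * L * dy k * (1 + ((k - j : ℕ) : ℝ)) := by
  have hk := dy_pos k
  have h1 := Kb301.log_le L hL hjk
  have h2 : (0:ℝ) ≤ ((k - j : ℕ) : ℝ) := Nat.cast_nonneg _
  refine Real.sqrt_le_iff.2 ⟨by positivity, ?_⟩
  unfold LK
  have h3 : dy k ^ 2 * Real.log (1 + 2 * (L * dy j ^ 2) / dy k ^ 2) ≤
      dy k ^ 2 * ((2 * L + 2) * (1 + ((k - j : ℕ) : ℝ))) :=
    mul_le_mul_of_nonneg_left h1 (sq_nonneg _)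
  refine h3.trans ?_
  have e : (4 * L * dy k * (1 + ((k - j : ℕ) : ℝ))) ^ 2 =
      dy k ^ 2 * ((16 * L ^ 2) * (1 + ((k - j : ℕ) : ℝ)) ^ 2) := by ring
  rw [e]
  refine mul_le_mul_of_nonneg_left ?_ (sq_nonneg _)
  have h4 : 1 ≤ 1 + ((k - j : ℕ) : ℝ) := by linarith
  have h5 : 1 + ((k - j : ℕ) : ℝ) ≤ (1 + ((k - j : ℕ) : ℝ)) ^ 2 := by nlinarith
  have h6 : 2 * L + 2 ≤ 16 * L ^ 2 := by nlinarith
  have h7 : 0 ≤ 2 * L + 2 := by linarith
  calc (2 * L + 2) * (1 + ((k - j : ℕ) : ℝ)) ≤ (2 * L + 2) * (1 + ((k - j : ℕ) : ℝ)) ^ 2 := by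
        gcongr
    _ ≤ _ := by gcongr

/-- **the weighted estimates** -/
theorem core_of (C : Rad n κ X μ) (hκ : 0 ≤ κ) (hκ1 : 4 * κ ≤ 1) (hL : Obj554.LK B.toGradS C)
    (W : WLap B.toGradS n κ) {V : ℝ} (hV : μ.real (closedBall x 64) ≤ V) (O : HObj B x) {j k : ℕ}
    (hj : 4 ≤ j) (hjk : j ≤ k) : ∃ ψ : Lp ℝ 2 μ, Core B C x O (cC n V) j k ψ := by
  have hκ1' : κ ≤ 1 := by linarith
  have hV0 : 0 ≤ V := measureReal_nonneg.trans hV
  have hρ := dy_pos k
  have hρ1 := dy_le_one k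
  have h0 : (0:ℝ) < dy k ^ 2 := by positivity
  have h16 : dy k ≤ 1 / 16 := dy_le_16 (hj.trans hjk)
  have hκρ : 8 * κ * dy k ^ 2 ≤ 1 := by nlinarith
  obtain ⟨P, h⟩ := exists_bw hκ W O k (by nlinarith)
  obtain ⟨ψ, hψ0, hψL, M⟩ := exists_sm C hκ hκ1 hL W hV hj hjk h hκ1' hκρ
  set K := kin h W hκ hκ1' hκρ with hK
  set T := phat n κ μ x (c3 n / 64) j * dy j ^ n with hT
  have hYT := M.Y0
  have hcY := cY_pos n hV0
  have hT0 : 0 ≤ T := by
    by_contra h'
    have := mul_neg_of_pos_of_neg hcY (not_le.1 h')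
    linarith
  have hCE := CE_nonneg n
  have hCN := CN_nonneg n zero_le_one
  have hbC := bC_nonneg n
  have hCA := CA_pos n zero_le_one
  have hci := cinf_pos
  set Cc := cC n V with hCc
  have c1 : 1200 * cY n V ≤ Cc := by rw [hCc]; unfold cC; nlinarith [sq_nonneg (2 * CA n 1)]
  have c2 : 5 * CE n ≤ Cc := by rw [hCc]; unfold cC; nlinarith [sq_nonneg (2 * CA n 1)]
  have c3' : 2 + 8 * CN n 1 + bC n ≤ Cc := by
    rw [hCc]; unfold cC; nlinarith [sq_nonneg (2 * CA n 1)]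
  have c4 : (2 * CA n 1) ^ 2 + 2 * (2 * cinf + CN n 1) ≤ Cc := by
    rw [hCc]; unfold cC; nlinarith [sq_nonneg (2 * CA n 1)]
  have c5 : 4 * CA n 1 ≤ Cc := by rw [hCc]; unfold cC; nlinarith [sq_nonneg (2 * CA n 1)]
  have hCc0 : 0 ≤ Cc := by linarith
  have hYle : 1200 * (cY n V * T) ≤ Cc * T := by nlinarith
  have w0 : ∀ᵐ z ∂μ, 0 ≤ wt B ψ k z := (B.markov B.dense_V).res_nonneg (by positivity) hψ0
  have wb : ∃ c, ∀ᵐ z ∂μ, |wt B ψ k z| ≤ c :=
    KIn.res_bdd (S := B.toGradS) (hd := B.dense_V) hψ0 M.Ψb (by positivity)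
  have hnear : MeasurableSet {z : X | dist x z ≤ 32} :=
    measurableSet_le (by fun_prop) measurable_const
  have hkm := kf_meas B x k
  refine ⟨ψ, ?_⟩
  constructor
  · exact hψ0
  · exact hψL
  · exact w0
  · -- H
    have i1 : Integrable (fun z => (K.SS z + K.b z) * wt B ψ k z) μ := K.SSb_int wb
    have i2 : ∫ z, (K.SS z + K.b z) * wt B ψ k z ∂μ ≤ 36 * (cY n V * T) := M.A2
    rw [← setLIntegral_univ]
    refine lint_le (g := fun z => 5 * ((K.SS z + K.b z) * wt B ψ k z)) MeasurableSet.univ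
      (i1.const_mul 5) ?_ ?_ ?_
    · filter_upwards [w0, K.SS_ge] with z a1 a2
      have : 0 ≤ K.SS z + K.b z := by linarith
      positivity
    · filter_upwards [w0, Fx_sq_le h W hκ hκ1' hρ hρ1 hκρ, bL_nonneg (μ := μ) n x]
        with z a1 a2 a3 _
      have a4 : (Hf O k z + gf B x k z) ^ 2 ≤ 5 * (Spx B x (dy k) (O.A k) z +
        {z | 32 < dist x z}.indicator (fun _ => CE n) z) := a2
      have a5 : 5 * {z | 32 < dist x z}.indicator (fun _ => CE n) z ≤
          {z | 32 < dist x z}.indicator (fun _ => Cc) z := by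
        by_cases hz : z ∈ {z | 32 < dist x z}
        · rw [indicator_of_mem hz, indicator_of_mem hz]; exact c2
        · rw [indicator_of_notMem hz, indicator_of_notMem hz]; simp
      have a6 : (Hf O k z + gf B x k z) ^ 2 - {z | 32 < dist x z}.indicator (fun _ => Cc) z ≤
          5 * (K.SS z + K.b z) := by
        show _ ≤ 5 * (Spx B x (dy k) (O.A k) z + bL μ n x z)
        linarith
      calc wt B ψ k z * ((Hf O k z + gf B x k z) ^ 2 -
            {z | 32 < dist x z}.indicator (fun _ => Cc) z)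
          ≤ wt B ψ k z * (5 * (K.SS z + K.b z)) := mul_le_mul_of_nonneg_left a6 a1
        _ = _ := by ring
    · rw [integral_const_mul]
      show _ ≤ Cc * T
      linarith
  · -- q
    have i1 : Integrable (fun z => qk B x k z * wt B ψ k z) μ := integrable_mul_L2 _ _
    have i2 : ∫ z, qk B x k z * wt B ψ k z ∂μ ≤ 2 * (cY n V * T) := by
      have := M.A3
      rw [inner_eq_integral] at this
      exact this
    rw [← setLIntegral_univ]
    refine lint_le (g := fun z => qk B x k z * wt B ψ k z) MeasurableSet.univ i1 ?_ ?_ ?_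
    · filter_upwards [w0, qL_nonneg W hρ x] with z a1 a2
      exact mul_nonneg a2 a1
    · filter_upwards [qf_ae x k W] with z a1 _
      rw [a1, mul_comm]
    · show _ ≤ Cc * T
      linarith
  · -- k
    have i2 := M.A4
    have i1 : Integrable (fun z => wt B ψ k z * |K.k z|) μ := M.kφ'_int
    refine lint_le (g := fun z => wt B ψ k z * |K.k z|) hnear i1 ?_ ?_ ?_
    · filter_upwards [w0] with z a1
      positivity
    · filter_upwards [kL_eq_kf h] with z a1 hz
      have a2 : K.k z = kf B x k z := a1 hz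
      rw [a2]
    · refine i2.trans ?_
      show dy k ^ 2 * (20 * (cY n V * T)) ≤ Cc * dy k ^ 2 * T
      have : dy k ^ 2 * (20 * (cY n V * T)) ≤ dy k ^ 2 * (Cc * T) :=
        mul_le_mul_of_nonneg_left (by linarith) h0.le
      linarith
  · -- n2
    obtain ⟨⟨i1, i2⟩, -⟩ := M.A7 (K0 := dy k ^ 2) le_rfl
    refine lint_le (g := fun z => wt B ψ k z * (if |K.k z| ≤ dy k ^ 2 ∧ |K.k z| ≤ dy k ^ 2 then
      ‖B.D K.k z‖ else 0) ^ 2) (hnear.inter (measurableSet_le hkm.abs measurable_const)) i1 ?_ ?_ ?_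
    · filter_upwards [w0] with z a1
      positivity
    · filter_upwards [kL_eq_kf h, norm_D_kL h] with z a1 a3 hz
      have a2 : K.k z = kf B x k z := a1 hz.1
      have a4 : ‖B.D K.k z‖ = nf O k z := a3 hz.1
      rw [a2, if_pos ⟨hz.2, hz.2⟩, a4]
    · refine i2.trans ?_
      have h1 := LK_self h0
      have h2 : 600 * LK (dy k ^ 2) (dy k ^ 2) * (cY n V * T) ≤
          600 * (2 * dy k ^ 2) * (cY n V * T) := by gcongr
      refine h2.trans ?_
      show _ ≤ Cc * dy k ^ 2 * T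
      have : dy k ^ 2 * (1200 * (cY n V * T)) ≤ dy k ^ 2 * (Cc * T) :=
        mul_le_mul_of_nonneg_left hYle h0.le
      linarith
  · -- n1
    intro L hL1
    have hdj := dy_pos j
    have hle : dy k ^ 2 ≤ L * dy j ^ 2 := by
      have h1 : dy k ≤ dy j := by
        unfold dy
        exact pow_le_pow_of_le_one (by norm_num) (by norm_num) hjk
      have h2 : dy k ^ 2 ≤ dy j ^ 2 := pow_le_pow_left₀ hρ.le h1 2
      nlinarith [sq_nonneg (dy j)]
    obtain ⟨-, ⟨i1, i2⟩⟩ := M.A7 (K0 := L * dy j ^ 2) hle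
    have hmD : MeasurableSet {z : X | dy k ^ 2 < |kf B x k z| ∧ |kf B x k z| ≤ L * dy j ^ 2} :=
      (measurableSet_lt measurable_const hkm.abs).inter (measurableSet_le hkm.abs measurable_const)
    refine lint_le (g := fun z => wt B ψ k z * (if dy k ^ 2 < |K.k z| ∧ |K.k z| ≤ L * dy j ^ 2 then
      ‖B.D K.k z‖ else 0)) (hnear.inter hmD) i1 ?_ ?_ ?_
    · filter_upwards [w0] with z a1
      split_ifs
      · positivity
      · simp
    · filter_upwards [kL_eq_kf h, norm_D_kL h] with z a1 a3 hz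
      have a2 : K.k z = kf B x k z := a1 hz.1
      have a4 : ‖B.D K.k z‖ = nf O k z := a3 hz.1
      rw [a2, if_pos (show dy k ^ 2 < |kf B x k z| ∧ |kf B x k z| ≤ L * dy j ^ 2 from hz.2), a4]
    · refine i2.trans ?_
      have h1 := sqrt_LK_le hL1 hjk
      have h2 : (0:ℝ) ≤ ((k - j : ℕ) : ℝ) := Nat.cast_nonneg _
      have h3 : 110 * Real.sqrt (LK (dy k ^ 2) (L * dy j ^ 2)) * (cY n V * T) ≤
          110 * (4 * L * dy k * (1 + ((k - j : ℕ) : ℝ))) * (cY n V * T) := by gcongr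
      refine h3.trans ?_
      show _ ≤ Cc * L * dy k * (1 + ((k - j : ℕ) : ℝ)) * T
      have h4 : 0 ≤ L * dy k * (1 + ((k - j : ℕ) : ℝ)) := by positivity
      have h5 : L * dy k * (1 + ((k - j : ℕ) : ℝ)) * (440 * (cY n V * T)) ≤
        L * dy k * (1 + ((k - j : ℕ) : ℝ)) * (Cc * T) :=
        mul_le_mul_of_nonneg_left (by linarith) h4
      linarith
  · -- sup
    filter_upwards [abs_kf_le hκ hκ1' W h hκρ] with z a1 hz
    refine (a1 hz).trans ?_
    have : 0 ≤ dist x z ^ 2 + dy k ^ 2 := by positivity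
    exact mul_le_mul_of_nonneg_right c3' this
  · -- far
    filter_upwards [far_bounds hκ hκ1 W O k] with z a1
    refine ⟨a1.1.trans c4, a1.2.trans ?_⟩
    exact mul_le_mul_of_nonneg_right c5 (norm_nonneg _)

end Obj

/-- **`CoreP n`** -/
theorem coreP (n : ℕ) : CoreP.{u} n := by
  have hV0 : 0 ≤ V64 n := by unfold V64 om; positivity
  have h1 : 1 ≤ cC n (V64 n) := by
    have a1 := cY_pos n hV0
    have a2 := CE_nonneg n
    have a3 := CN_nonneg n zero_le_one
    have a4 := bC_nonneg n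
    have a5 := CA_pos n zero_le_one
    have a6 := cinf_pos
    unfold cC
    nlinarith [sq_nonneg (2 * CA n 1)]
  refine ⟨cC n (V64 n), h1, ?_⟩
  intro κ X _ _ _ _ μ _ B C x δ E O j k hj hjk
  have hκ := E.κ_nonneg
  have hκ1 : 4 * κ ≤ 1 := by have := E.κ_le; linarith
  exact core_of C hκ hκ1 E.hL E.W E.vol64 O hj hjk

end Crest.Agent.R247.Kt622
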