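import Crest.Agent.R247.Kt8_328
import Crest.Agent.R247.Kt12_622

/-!
# R247, block (1-K): the six fields `d2_*`, unconditional (helper328, from helper622's `coreP`)
-/

set_option autoImplicit false

noncomputable section

namespace Crest.Agent.R247.Kt328

universe u

theorem d2HP (n : ℕ) : Fd656.D2HP.{u} n := d2HP_of n (Kt622.coreP n)

theorem d2gP (n : ℕ) : Fd656.D2gP.{u} n := d2gP_of n (Kt622.coreP n)

theorem d2qP (n : ℕ) : Fd656.D2qP.{u} n := d2qP_of n (Kt622.coreP n)

theorem d2kP (n : ℕ) : Fd656.D2kP.{u} n := d2kP_of n (Kt622.coreP n)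

theorem d2n2P (n : ℕ) : Fd656.D2n2P.{u} n := d2n2P_of n (Kt622.coreP n)

theorem d2n1P (n : ℕ) : Fd656.D2n1P.{u} n := d2n1P_of n (Kt622.coreP n)

end Crest.Agent.R247.Kt328
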