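import Crest.Agent.R247.Loc1_596
import Crest.Agent.R247.Q9_550

/-!
# `LocP` : (m) and (L) at small scales (helper596)
-/

set_option autoImplicit false
set_option linter.unusedSectionVars false
open MeasureTheory Set Filter Topology Metric
open scoped ENNReal NNReal

noncomputable section
namespace Crest.Agent.R247.Loc596

universe u

open Crest.Agent.R247.Mcp688 Crest.Agent.R247.Far553 Crest.Agent.R247.Cal550
  Crest.Agent.R247.Q9550

section m

variable {n : ℕ} {κ : ℝ} {X : Type*} [MetricSpace X] [MeasurableSpace X] [BorelSpace X]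
  {μ : Measure X} (C : Rad n κ X μ)

include C in
/-- the volume drop dominates the curvature error -/
lemma two_mul_le_drop (hκ : 0 ≤ κ) (x : X) {r : ℝ} (hr : 0 < r)
    (hfin : μ (closedBall x r) ≠ ∞) : 2 * (κ * r ^ 2) * Vc μ x r ≤ Rad.drop n κ μ x r := by
  have hV2 := C.Vc_le hκ x hr (R := 2 * r) (by linarith) hfin
  have e0 : Real.exp (κ * (2 * r) ^ 2 / 2) * (2 * r / r) ^ n =
      Real.exp (2 * κ * r ^ 2) * 2 ^ n := by
    congr 2
    · ring
    · field_simp
  rw [e0] at hV2
  have hV : 0 ≤ Vc μ x r := ENNReal.toReal_nonneg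
  unfold Rad.drop
  set V := Vc μ x r with hVd
  set y := κ * r ^ 2 with hy
  have hy0 : 0 ≤ y := by positivity
  have e1 : 2 * κ * r ^ 2 = 2 * y := by rw [hy]; ring
  have e2 : 4 * κ * r ^ 2 = 4 * y := by rw [hy]; ring
  rw [e1, e2]
  rw [e1] at hV2
  set e := Real.exp (2 * y) with he
  have he1 : 1 ≤ e := Real.one_le_exp (by linarith)
  -- `e - 1 ≤ 2 y e`
  have he2 : e - 1 ≤ 2 * y * e := by
    have h1 := Real.add_one_le_exp (-(2 * y))
    have h2 : Real.exp (-(2 * y)) * e = 1 := by rw [he, ← Real.exp_add]; simp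
    have h3 : (1 - 2 * y) * e ≤ 1 := by
      calc (1 - 2 * y) * e ≤ Real.exp (-(2 * y)) * e := by
            apply mul_le_mul_of_nonneg_right (by linarith) (by linarith)
        _ = 1 := h2
    linarith
  have hp : (1 : ℝ) ≤ 2 ^ n := one_le_pow₀ (by norm_num)
  have h5 : 2 * y * V ≤ (-(e - 1) + 4 * y * (e * 2 ^ n)) * V := by
    apply mul_le_mul_of_nonneg_right _ hV
    have h6 : 4 * y * e ≤ 4 * y * (e * 2 ^ n) := by
      have : e ≤ e * 2 ^ n := by nlinarith
      have h7 : 0 ≤ 4 * y := by linarith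
      nlinarith
    have h8 : 2 * y ≤ 2 * y * e := by nlinarith
    linarith
  have h9 : 2 ^ (n + 1) * V - 2 * Vc μ x (2 * r) ≥ 2 ^ (n + 1) * V - 2 * (e * 2 ^ n * V) := by
    linarith
  have h10 : (2 : ℝ) ^ (n + 1) = 2 * 2 ^ n := by rw [pow_succ]; ring
  rw [h10] at h9 ⊢
  nlinarith

include C in
/-- **(m)** in terms of the volume drop at a larger radius -/
lemma MM_of_drop [SFinite μ] (hκ : 0 ≤ κ) (x : X) {r R : ℝ} (hr : 0 < r) (hrR : r ≤ R)
    (hfin : μ (closedBall x R) ≠ ∞) : MM C x r (2 * Rad.drop n κ μ x R) := by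
  intro ζ Dζ S hL hS h0 hD
  obtain ⟨L, hL⟩ := hL
  have hR : 0 < R := hr.trans_le hrR
  have hS0 : 0 ≤ S := (abs_nonneg _).trans (hS x)
  have hc : Continuous ζ := by
    have : LipschitzWith (Real.toNNReal (max L 0)) ζ := by
      refine LipschitzWith.of_dist_le_mul fun y z => ?_
      rw [Real.dist_eq, Real.coe_toNNReal _ (le_max_right _ _)]
      exact (hL y z).trans (mul_le_mul_of_nonneg_right (le_max_left _ _) dist_nonneg)
    exact this.continuous
  have hm : Measurable ζ := hc.measurable
  have hs : ∀ z, R < dist x z → ζ z = 0 := fun z hz => h0 z (hrR.trans hz.le)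
  have h1 := C.nu_bound hκ x hR hfin hm hL hs hS hD
  have hDint : Integrable Dζ μ := hD.integrable hm hL hs hfin
  have hmb : MeasurableSet (closedBall x R) := isClosed_closedBall.measurableSet
  have hζint : Integrable ζ μ := by
    have hb : Integrable ((closedBall x R).indicator fun _ => S) μ :=
      (integrable_indicator_iff hmb).2 (integrableOn_const hfin)
    refine hb.mono' hm.aestronglyMeasurable (Eventually.of_forall fun z => ?_)
    by_cases hz : z ∈ closedBall x R
    · rw [indicator_of_mem hz, Real.norm_eq_abs]; exact hS z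
    · rw [indicator_of_notMem hz, Real.norm_eq_abs]
      rw [mem_closedBall, dist_comm, not_le] at hz
      rw [hs z hz, abs_zero]
  have hk : ∀ z, |κ * dist x z ^ 2 * ζ z| ≤ (closedBall x R).indicator
      (fun _ => κ * R ^ 2 * S) z := by
    intro z
    by_cases hz : z ∈ closedBall x R
    · rw [indicator_of_mem hz, abs_mul, abs_of_nonneg (by positivity)]
      rw [mem_closedBall, dist_comm] at hz
      have := hS z
      gcongr
    · rw [indicator_of_notMem hz]
      rw [mem_closedBall, dist_comm, not_le] at hz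
      rw [hs z hz, mul_zero, abs_zero]
  have hdm : Measurable fun z : X => dist x z := (continuous_const.dist continuous_id).measurable
  have hbI : Integrable ((closedBall x R).indicator fun _ => κ * R ^ 2 * S) μ :=
    (integrable_indicator_iff hmb).2 (integrableOn_const hfin)
  have hkint : Integrable (fun z => κ * dist x z ^ 2 * ζ z) μ :=
    hbI.mono' ((((hdm.pow_const 2).const_mul κ).mul hm).aestronglyMeasurable)
      (Eventually.of_forall fun z => by rw [Real.norm_eq_abs]; exact hk z)
  have h2 : |∫ z, κ * dist x z ^ 2 * ζ z ∂μ| ≤ κ * R ^ 2 * S * Vc μ x R := by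
    calc |∫ z, κ * dist x z ^ 2 * ζ z ∂μ| ≤ ∫ z, |κ * dist x z ^ 2 * ζ z| ∂μ :=
          abs_integral_le_integral_abs
      _ ≤ ∫ z, (closedBall x R).indicator (fun _ => κ * R ^ 2 * S) z ∂μ :=
          integral_mono hkint.abs hbI hk
      _ = κ * R ^ 2 * S * Vc μ x R := by
          rw [integral_indicator hmb, setIntegral_const, smul_eq_mul, mul_comm]
          rfl
  have e : ∫ z, ((n + κ * dist x z ^ 2) * ζ z + Dζ z) ∂μ =
      (∫ z, Dζ z ∂μ + n * ∫ z, ζ z ∂μ) + ∫ z, κ * dist x z ^ 2 * ζ z ∂μ := by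
    have hI1 : Integrable (fun z => Dζ z + n * ζ z) μ := hDint.add (hζint.const_mul _)
    rw [← integral_const_mul, ← integral_add hDint (hζint.const_mul _),
      ← integral_add hI1 hkint]
    congr 1
    ext z
    ring
  rw [e] at h1
  have h3 := two_mul_le_drop C hκ x hR hfin
  have h4 : κ * R ^ 2 * S * Vc μ x R ≤ S * Rad.drop n κ μ x R := by
    have hV : 0 ≤ Vc μ x R := ENNReal.toReal_nonneg
    have h5 : κ * R ^ 2 * Vc μ x R ≤ Rad.drop n κ μ x R := by
      have : 0 ≤ κ * R ^ 2 * Vc μ x R := by positivity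
      linarith
    calc κ * R ^ 2 * S * Vc μ x R = S * (κ * R ^ 2 * Vc μ x R) := by ring
      _ ≤ _ := mul_le_mul_of_nonneg_left h5 hS0
  have h6 := abs_sub_abs_le_abs_sub (∫ z, Dζ z ∂μ + n * ∫ z, ζ z ∂μ)
    (-(∫ z, κ * dist x z ^ 2 * ζ z ∂μ))
  rw [abs_neg, sub_neg_eq_add] at h6
  linarith

end m

/-- **(m) and (L)** : the literal leaf of `Q9_550`. -/
theorem locP (n : ℕ) (c : FarK) : LocP.{u} n c := by
  intro A hA
  refine ⟨max (2 * A) (AL0 n c), le_max_of_le_left (by linarith), 4, le_rfl, ?_⟩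
  intro κ δ hκ hκ1 hδ X _ _ _ _ μ _ C G x ph hG hat D hdrop k hk
  have hs := dy_pos k
  have hph := D.ph_nonneg k
  have hfin : ∀ r, μ (closedBall x r) ≠ ∞ := fun r => (isCompact_closedBall x r).measure_ne_top
  constructor
  · refine (MM_of_drop C hκ x hs (R := 16 * dy k) (by linarith) (hfin _)).mono ?_
    have h1 := hdrop k hk
    calc 2 * Rad.drop n κ μ x (16 * dy k) ≤ 2 * (A * ph k * dy k ^ n) := by linarith
      _ = 2 * A * (ph k * dy k ^ n) := by ring
      _ ≤ max (2 * A) (AL0 n c) * (ph k * dy k ^ n) := by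
          apply mul_le_mul_of_nonneg_right (le_max_left _ _) (by positivity)
      _ = _ := by ring
  · have h1 := L_of_far' D hG (fun z _ => hat z) hκ hκ1 (by linarith) hk
    have hm : Measurable fun p : X × X => ENNReal.ofReal (PP G x p.1 p.2 ^ 2) := by
      unfold PP ff
      have h2 : Measurable fun p : X × X => G x p.1 p.2 :=
        hG.meas.comp (measurable_const.prodMk (measurable_fst.prodMk measurable_snd))
      have h3 : Measurable fun p : X × X => dist x p.2 := measurable_const.dist measurable_snd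
      have h4 : Measurable fun p : X × X => dist p.1 p.2 := measurable_fst.dist measurable_snd
      have h5 : Measurable fun p : X × X => dist x p.1 := measurable_const.dist measurable_fst
      exact ((((h2.sub ((h3.pow_const 2).div_const 2)).sub ((h4.pow_const 2).div_const 2)).add
        ((h5.pow_const 2).div_const 2)).pow_const 2).ennreal_ofReal
    have hsub : ball x (dy k) ⊆ ball x (8 * dy k) := ball_subset_ball (by linarith)
    have h2 : ∫⁻ v in ball x (dy k), ∫⁻ u in ball x (dy k), ENNReal.ofReal (PP G x v u ^ 2) ∂μ ∂μ ≤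
        ∫⁻ v in ball x (8 * dy k), ∫⁻ u in ball x (8 * dy k),
          ENNReal.ofReal (PP G x v u ^ 2) ∂μ ∂μ :=
      lintegral_mono' (Measure.restrict_mono hsub le_rfl) fun v =>
        lintegral_mono' (Measure.restrict_mono hsub le_rfl) fun u => le_rfl
    have h3 : ∫⁻ v in ball x (8 * dy k), ∫⁻ u in ball x (8 * dy k),
          ENNReal.ofReal (PP G x v u ^ 2) ∂μ ∂μ =
        ∫⁻ u in ball x (8 * dy k), ∫⁻ v in ball x (8 * dy k),
          ENNReal.ofReal (PP G x v u ^ 2) ∂μ ∂μ :=
      lintegral_lintegral_swap hm.aemeasurable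
    refine h2.trans (h3.le.trans (h1.trans (ENNReal.ofReal_le_ofReal ?_)))
    rw [mul_assoc, mul_assoc]
    apply mul_le_mul_of_nonneg_right (le_max_right _ _) (by positivity)

end Crest.Agent.R247.Loc596
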