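import Crest.Agent.R247.Nis3_710
import Crest.Agent.R247.Iso3_311
import Crest.Agent.R247.Rdg4_879
import Crest.Agent.R247.Jm1_216
import Crest.Agent.R247.Cal_550

/-!
R247, block (2a), near isometry (helper710), part 2: the lower bound
`‖Ψ x - Ψ y‖ ≥ (√((1-(n-1)ε)/n) - τ) d(x,y)` on a Riemannian manifold, from far propagation (F) at
one scale comparable to `d(x,y)`.
-/

set_option autoImplicit false
set_option maxSynthPendingDepth 3
set_option linter.unusedSectionVars false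
set_option linter.unusedVariables false

open Bundle Set Filter Topology MeasureTheory Metric
open scoped Manifold ContDiff ENNReal NNReal RealInnerProductSpace
open Crest.Agent.R226.CutSmooth77 (SC)
open Crest.Agent.R247.Sm879 Crest.Agent.R247.Mcp688 Crest.Agent.R247.Ms322
open Crest.Agent.R247.Rdg879 Crest.Agent.R247.Iso311 Crest.Agent.R247.Nis710
open Crest.Agent.R247.Cal550 Crest.Agent.R247.Jm216
open Crest.Agent.R247.Far553 (ann dy dy_pos dy_succ)

noncomputable section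
namespace Crest.Agent.R247.Near710

variable {n : ℕ} {M : Type*} [MetricSpace M] [ChartedSpace (EuclideanSpace ℝ (Fin n)) M]
  [IsManifold (𝓡 n) ∞ M]
  [RiemannianBundle (fun p : M => TangentSpace (𝓡 n) p)]
  [IsContMDiffRiemannianBundle (𝓡 n) ∞ (EuclideanSpace ℝ (Fin n))
    (fun p : M => TangentSpace (𝓡 n) p)]
  [IsRiemannianManifold (𝓡 n) M] [ProperSpace M] [SecondCountableTopology M] [Nonempty M]
  [MeasurableSpace M] [BorelSpace M]
  [IsFiniteMeasureOnCompacts (μHE[n] : Measure M)]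

local notation "𝔼" => EuclideanSpace ℝ (Fin n)

/-- `Ed G x u w = ⟪Gr f_x u, Gr d_w u⟫` for a.e. `u` -/
lemma Ed_eq {κ : ℝ} (C : Rad n κ M (μHE[n] : Measure M)) (hn : 1 ≤ n) (hm : ExM M)
    {G : M → M → M → ℝ} (hG : GRep C G) (x w : M) :
    ∀ᵐ u ∂(μHE[n] : Measure M), Ed G x u w = ⟪gf n x u, gd n w u⟫ := by
  have h1 : ∀ᵐ z ∂(μHE[n] : Measure M), MDifferentiableAt (𝓡 n) 𝓘(ℝ) (fun z => dist w z) z :=
    ae_mdifferentiableAt (LipschitzWith.dist_right w).locallyLipschitz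
  have h2 := rd_muHE C hn hm x h1
  have h3 := hG.rd_dist (muHE_singleton n hn) x w
  have e : (fun z : M => dist z w) = fun z => dist w z := by
    funext z; exact dist_comm _ _
  rw [e] at h3
  exact h3.unique h2

/-- `‖Gr f_x u‖ = d(x,u)` for a.e. `u` -/
lemma norm_gf {κ : ℝ} (C : Rad n κ M (μHE[n] : Measure M)) (hn : 1 ≤ n) (hm : ExM M)
    {G : M → M → M → ℝ} (hG : GRep C G) (x : M) :
    ∀ᵐ u ∂(μHE[n] : Measure M), ‖gf n x u‖ = dist x u := by
  have h2 := rd_muHE C hn hm x (ae_mdiff_muHE C hn hm x)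
  filter_upwards [(hG.rd x x).unique h2] with u hu
  rw [hG.self, real_inner_self_eq_norm_sq] at hu
  exact ((pow_left_inj₀ dist_nonneg (norm_nonneg _) two_ne_zero).1 hu).symm

/-- a.e. `u`, a.e. `w` -/
lemma Ed_eq_ae {κ : ℝ} (C : Rad n κ M (μHE[n] : Measure M)) (hn : 1 ≤ n) (hm : ExM M)
    {G : M → M → M → ℝ} (hG : GRep C G) (x : M) (ν : Measure M) [SFinite ν] :
    ∀ᵐ u ∂(μHE[n] : Measure M), ∀ᵐ w ∂ν, Ed G x u w = ⟪gf n x u, gd n w u⟫ := by
  have hs : MeasurableSet {p : M × M | Ed G x p.2 p.1 = ⟪gf n x p.2, gd n p.1 p.2⟫} := by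
    apply measurableSet_eq_fun
    · exact (hG.meas_Ed x).comp measurable_swap
    · exact ((measurable_gf_right x).comp measurable_snd).inner measurable_gd
  exact ae_prod_swap_of hs fun w => Ed_eq C hn hm hG x w

/-- measurability of the inner integral -/
lemma aem_ee {κ : ℝ} {C : Rad n κ M (μHE[n] : Measure M)}
    {G : M → M → M → ℝ} (hG : GRep C G) (x : M) (ν : Measure M) [SFinite ν] :
    Measurable (fun u => ∫⁻ w, ENNReal.ofReal (ee G x u w ^ 2) ∂ν) := by
  have h1 : Measurable (fun p : M × M => ee G x p.1 p.2) := by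
    unfold ee
    exact (hG.meas_Ed x).sub ((measurable_fst.dist measurable_snd).sub
      (measurable_const.dist measurable_snd))
  exact ((h1.pow_const 2).ennreal_ofReal).lintegral_prod_right'

/-- the measure of the unit ball as a real number -/
def om (n : ℕ) : ℝ := (volume (ball (0 : EuclideanSpace ℝ (Fin n)) 1)).toReal

lemma om_pos (n : ℕ) : 0 < om n :=
  ENNReal.toReal_pos (measure_ball_pos _ _ one_pos).ne' measure_ball_lt_top.ne

lemma ofReal_om (n : ℕ) : ENNReal.ofReal (om n) = volume (ball (0 : EuclideanSpace ℝ (Fin n)) 1) :=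
  ENNReal.ofReal_toReal measure_ball_lt_top.ne

/-- the lower bound with explicit constants -/
theorem psi_lower_one {κ : ℝ} (hn : 1 ≤ n) (C : Rad n κ M (μHE[n] : Measure M)) (hm : ExM M)
    {G : M → M → M → ℝ} (hG : GRep C G) {p : M} {ε c w0 τ : ℝ} (hε0 : 0 ≤ ε)
    (hε1 : (n - 1) * ε ≤ 1)
    (hprob : IsProbabilityMeasure (nuf (μHE[n] : Measure M) p))
    (hN : ∀ u : M, dist p u ≤ c →
        (∀ ξ : EuclideanSpace ℝ (Fin n),
          ∫ w, (inner ℝ (Gr (n := n) (fun z => dist w z) u) ξ) ^ 2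
            ∂(nuf (μHE[n] : Measure M) p) ≤ (1 + ε) * ‖ξ‖ ^ 2 / n) ∧
        ∀ᵐ w ∂(nuf (μHE[n] : Measure M) p),
          MDifferentiableAt (𝓡 n) 𝓘(ℝ) (fun z => dist w z) u ∧
            ‖Gr (n := n) (fun z => dist w z) u‖ = 1)
    (hw0 : 0 < w0) (hW : ENNReal.ofReal w0 * volume (ball (0 : 𝔼) 1) ≤ μHE[n] (ann p 4 8))
    (hτ : 0 < τ) (hτ1 : τ ≤ 1) {x y : M} {k : ℕ} (hxc : dist p x + dy k ≤ c)
    (hxy0 : 0 < dist x y) (hxy1 : dist x y ≤ dy (k + 1)) (hxy2 : dy (k + 2) ≤ dist x y)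
    (hvol : ∀ s, 0 < s → s ≤ 1 → ENNReal.ofReal (1 / 2 * s ^ n) * volume (ball (0 : 𝔼) 1) ≤
      μHE[n] (ball y s))
    {ε₁ : ℝ} (hε₁ : 0 ≤ ε₁)
    (hε₁' : ε₁ ≤ w0 * om n ^ 2 * (τ / 4) ^ 2 / 16 * (τ / 16) ^ n)
    (hF : ∫⁻ z in ball x (dy k), ∫⁻ w in ann p 4 8, ENNReal.ofReal (ee G x z w ^ 2)
        ∂(μHE[n] : Measure M) ∂(μHE[n] : Measure M) ≤ ENNReal.ofReal (ε₁ * dy k ^ (n + 2))) :
    Real.sqrt ((1 - (n - 1) * ε) / n) * dist x y - τ * dist x y ≤
      ‖psi (nuf (μHE[n] : Measure M) p) y - psi (nuf (μHE[n] : Measure M) p) x‖ := by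
  set ν := nuf (μHE[n] : Measure M) p with hν
  have hk := dy_pos k
  have e1 : dy (k + 1) = dy k / 2 := dy_succ k
  have e2 : dy (k + 2) = dy k / 4 := by rw [dy_succ (k + 1), e1]; ring
  rw [e1] at hxy1
  rw [e2] at hxy2
  set d := dist x y with hd
  set ρ : ℝ := τ / 4 * d with hρ
  have hρ0 : 0 < ρ := by positivity
  have hom := om_pos n
  have e3 : 2 * (dy k / 2) = dy k := by ring
  have hball : ∀ u ∈ ball x (dy k), dist p u ≤ c := fun u hu => by
    rw [mem_ball, dist_comm] at hu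
    linarith [dist_triangle p x u]
  set K : ℝ≥0∞ := ENNReal.ofReal (1 / 4 * (τ / 16) ^ n * dy k ^ n * om n) with hK
  have hmain := psi_lower (ν := ν) (μ := (μHE[n] : Measure M)) (n := n) (by omega)
    (p := p) (R := 8) (ε := ε) (by
      filter_upwards [ae_nuf_mem (μHE[n] : Measure M) p] with w hw
      rw [dist_comm]; exact hw.2)
    (D := fun w u => gd n w u)
    (fun u ξ => ((measurable_gd_left u).inner measurable_const).aestronglyMeasurable)
    (x := x) (y := y) (r := dy k / 2) (ρ := ρ) (τ := τ / 4) (by linarith) hε0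
    (by
      rw [e3]
      intro u hu
      rw [mem_ball] at hu ⊢
      have h1 := dist_triangle u y x
      rw [dist_comm y x] at h1
      have h2 : ρ ≤ 1 / 4 * d := by rw [hρ]; gcongr
      have h3 : 1 / 4 * d ≤ 1 / 4 * (dy k / 2) := by gcongr
      rw [← hd] at h1
      linarith)
    (by
      rw [e3]
      refine (ae_restrict_iff' measurableSet_ball).2 (Eventually.of_forall fun u hu => ?_)
      filter_upwards [(hN u (hball u hu)).2] with w hw
      exact hw.2)
    (by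
      rw [e3]
      refine (ae_restrict_iff' measurableSet_ball).2 (Eventually.of_forall fun u hu ξ => ?_)
      exact (hN u (hball u hu)).1 ξ)
    (F := fun u => gf n x u) (ae_restrict_of_ae (norm_gf C hn hm hG x))
    (e := fun u w => ee G x u w)
    (by
      apply ae_restrict_of_ae
      filter_upwards [Ed_eq_ae C hn hm hG x ν] with u hu
      filter_upwards [hu] with w hw
      unfold ee
      rw [hw, dist_comm u w, dist_comm x w]
      ring)
    (aem_ee hG x ν).aemeasurable (by positivity) (K := K)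
    (by
      rw [e3]
      have hWne : (μHE[n] (ann p 4 8) : ℝ≥0∞)⁻¹ ≤ ENNReal.ofReal ((w0 * om n)⁻¹) := by
        rw [ENNReal.ofReal_inv_of_pos (by positivity)]
        apply ENNReal.inv_le_inv.2
        rw [ENNReal.ofReal_mul hw0.le, ofReal_om]
        exact hW
      calc ∫⁻ u in ball x (dy k), ∫⁻ w, ENNReal.ofReal (ee G x u w ^ 2) ∂ν ∂(μHE[n] : Measure M)
          = ∫⁻ u in ball x (dy k), (μHE[n] (ann p 4 8) : ℝ≥0∞)⁻¹ *
              ∫⁻ w in ann p 4 8, ENNReal.ofReal (ee G x u w ^ 2) ∂(μHE[n] : Measure M)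
                ∂(μHE[n] : Measure M) := by
            apply lintegral_congr
            intro u
            rw [hν, nuf, lintegral_smul_measure, smul_eq_mul]
        _ = (μHE[n] (ann p 4 8) : ℝ≥0∞)⁻¹ * ∫⁻ u in ball x (dy k),
              ∫⁻ w in ann p 4 8, ENNReal.ofReal (ee G x u w ^ 2) ∂(μHE[n] : Measure M)
                ∂(μHE[n] : Measure M) := by
            apply lintegral_const_mul'
            exact ne_top_of_le_ne_top ENNReal.ofReal_ne_top hWne
        _ ≤ ENNReal.ofReal ((w0 * om n)⁻¹) * ENNReal.ofReal (ε₁ * dy k ^ (n + 2)) := by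
            gcongr
        _ = ENNReal.ofReal ((w0 * om n)⁻¹ * (ε₁ * dy k ^ (n + 2))) := by
            rw [← ENNReal.ofReal_mul (by positivity)]
        _ ≤ ENNReal.ofReal ((τ / 4 * (dy k / 2)) ^ 2 *
              (1 / 4 * (τ / 16) ^ n * dy k ^ n * om n)) := by
            apply ENNReal.ofReal_le_ofReal
            rw [inv_mul_le_iff₀ (by positivity)]
            calc ε₁ * dy k ^ (n + 2)
                ≤ (w0 * om n ^ 2 * (τ / 4) ^ 2 / 16 * (τ / 16) ^ n) * dy k ^ (n + 2) := by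
                  gcongr
              _ = w0 * om n * ((τ / 4 * (dy k / 2)) ^ 2 *
                    (1 / 4 * (τ / 16) ^ n * dy k ^ n * om n)) := by ring
        _ = ENNReal.ofReal ((τ / 4 * (dy k / 2)) ^ 2) * K := by
            rw [hK, ← ENNReal.ofReal_mul (by positivity)])
    (by
      have h1 : τ / 16 * dy k ≤ ρ := by
        rw [hρ]
        calc τ / 16 * dy k = τ / 4 * (dy k / 4) := by ring
          _ ≤ τ / 4 * d := by gcongr
      have hρ1 : ρ ≤ 1 := by
        have h2 : d ≤ 1 := by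
          have := Crest.Agent.R247.Far553.dy_le_one k
          linarith
        rw [hρ]
        calc τ / 4 * d ≤ 1 * 1 := by gcongr; linarith
          _ = 1 := one_mul 1
      refine lt_of_lt_of_le ?_ (hvol ρ hρ0 hρ1)
      rw [← ofReal_om, ← ENNReal.ofReal_mul (by positivity), hK]
      rw [ENNReal.ofReal_lt_ofReal_iff (by positivity)]
      have h3 : (τ / 16 * dy k) ^ n ≤ ρ ^ n := by gcongr
      rw [mul_pow] at h3
      have h4 : 0 < (τ / 16) ^ n * dy k ^ n := by positivity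
      have h5 : 1 / 4 * (τ / 16) ^ n * dy k ^ n < 1 / 2 * ρ ^ n := by nlinarith
      exact mul_lt_mul_of_pos_right h5 hom)
  have h9 : τ / 4 * (dy k / 2) + 2 * ρ ≤ τ * d := by
    rw [hρ]
    have : dy k / 2 ≤ 2 * d := by linarith
    calc τ / 4 * (dy k / 2) + 2 * (τ / 4 * d) ≤ τ / 4 * (2 * d) + 2 * (τ / 4 * d) := by gcongr
      _ = τ * d := by ring
  linarith

/-- **Lower bound of the near isometry**, in the form promised to helper551. -/
theorem psi_lower_far (n : ℕ) (hn : 0 < n) {ε : ℝ} (hε : 0 < ε) (hε1 : (n - 1) * ε ≤ 1) :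
    ∃ c : ℝ, 0 < c ∧ c < 1 ∧ ∀ τ : ℝ, 0 < τ → ∃ ε₁ : ℝ, 0 < ε₁ ∧
    ∀ (M : Type*) [MetricSpace M] [ChartedSpace (EuclideanSpace ℝ (Fin n)) M]
      [IsManifold (𝓡 n) ∞ M] [RiemannianBundle (fun p : M => TangentSpace (𝓡 n) p)]
      [IsContMDiffRiemannianBundle (𝓡 n) ∞ (EuclideanSpace ℝ (Fin n))
        (fun p : M => TangentSpace (𝓡 n) p)]
      [IsRiemannianManifold (𝓡 n) M] [MeasurableSpace M] [BorelSpace M] [ProperSpace M]
      [SecondCountableTopology M] [Nonempty M] [IsFiniteMeasureOnCompacts (μHE[n] : Measure M)]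
      (κ : ℝ) (C : Rad n κ M (μHE[n] : Measure M)) (_ : 0 ≤ κ) (_ : κ ≤ c) (_ : ExM M)
      (G : M → M → M → ℝ) (_ : GRep C G) (p : M)
      (_ : ENNReal.ofReal ((1 - c) * 8 ^ n) * volume (ball (0 : EuclideanSpace ℝ (Fin n)) 1) ≤
        μHE[n] (ball p 8)) (x y : M) (k : ℕ), dist p x + dy k ≤ c → 0 < dist x y →
      dist x y ≤ dy (k + 1) → dy (k + 2) ≤ dist x y →
      (∀ s, 0 < s → s ≤ 1 → ENNReal.ofReal (1 / 2 * s ^ n) *
        volume (ball (0 : EuclideanSpace ℝ (Fin n)) 1) ≤ μHE[n] (ball y s)) →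
      ∫⁻ z in ball x (dy k), ∫⁻ w in ann p 4 8, ENNReal.ofReal (ee G x z w ^ 2)
        ∂(μHE[n] : Measure M) ∂(μHE[n] : Measure M) ≤ ENNReal.ofReal (ε₁ * dy k ^ (n + 2)) →
      Real.sqrt ((1 - (n - 1) * ε) / n) * dist x y - τ * dist x y ≤
        ‖psi (nuf (μHE[n] : Measure M) p) y - psi (nuf (μHE[n] : Measure M) p) x‖ := by
  obtain ⟨c₁, hc₁, hc₁1, H₁⟩ := n1 n hn hε
  obtain ⟨c₂, hc₂, hc₂1, -, hpos⟩ := exists_const n hn hε
  refine ⟨min c₁ c₂, lt_min hc₁ hc₂, (min_le_left _ _).trans_lt hc₁1, ?_⟩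
  intro τ hτ
  set w0 : ℝ := (1 - c₂) * 8 ^ n - Real.exp (8 * c₂) * 4 ^ n with hw0
  set t : ℝ := min τ 1 with ht
  have ht0 : 0 < t := lt_min hτ one_pos
  refine ⟨w0 * om n ^ 2 * (t / 4) ^ 2 / 16 * (t / 16) ^ n, ?_, ?_⟩
  · have := om_pos n
    positivity
  intro M _ _ _ _ _ _ _ _ _ _ _ _ κ C hκ hκc hm G hG p hvol8 x y k hxc hxy0 hxy1 hxy2 hvol hF
  have h8 : (0 : ℝ) < 8 ^ n := by positivity
  have hv1 : ENNReal.ofReal ((1 - c₁) * 8 ^ n) * volume (ball (0 : EuclideanSpace ℝ (Fin n)) 1) ≤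
      μHE[n] (ball p 8) := by
    refine le_trans ?_ hvol8
    gcongr
    exact min_le_left _ _
  have hv2 : ENNReal.ofReal ((1 - c₂) * 8 ^ n) * volume (ball (0 : EuclideanSpace ℝ (Fin n)) 1) ≤
      μHE[n] (ball p 8) := by
    refine le_trans ?_ hvol8
    gcongr
    exact min_le_right _ _
  obtain ⟨hprob, hN⟩ := H₁ M κ C hκ (hκc.trans (min_le_left _ _)) hm p hv1
  have hW := ann_ge C hκ hc₂ hc₂1 (hκc.trans (min_le_right _ _)) p hv2
  have h := psi_lower_one (n := n) hn C hm hG (p := p) (ε := ε) (c := c₁) (w0 := w0) (τ := t)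
    hε.le hε1 hprob hN hpos hW ht0 (min_le_right _ _) (x := x) (y := y) (k := k)
    (hxc.trans (min_le_left _ _)) hxy0 hxy1 hxy2 hvol
    (ε₁ := w0 * om n ^ 2 * (t / 4) ^ 2 / 16 * (t / 16) ^ n)
    (by have := om_pos n; positivity) le_rfl hF
  have h2 : t * dist x y ≤ τ * dist x y := by
    gcongr
    exact min_le_left _ _
  linarith

end Crest.Agent.R247.Near710
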