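import Crest.Agent.R247.Near1_551
import Crest.Agent.R247.Near2_710
import Crest.Agent.R247.Q9_550

/-!
R247, block (2a), near isometry: `NearP n` (literal Prop of `Q9_550`) from `psi_upper_far` (551) and
`psi_lower_far` (710).
-/

set_option autoImplicit false
set_option maxSynthPendingDepth 3
set_option linter.unusedSectionVars false
set_option linter.unusedVariables false

open Bundle Set Filter Topology MeasureTheory Metric
open scoped Manifold ContDiff ENNReal NNReal
open Crest.GeometryTopology.CoordMetric Crest.GeometryTopology.ChartCurvature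
  Crest.GeometryTopology.PointedLimit
open Crest.Agent.R247.Mcp688 Crest.Agent.R247.Ms322 Crest.Agent.R247.Sm879
open Crest.Agent.R247.Rdg879 Crest.Agent.R247.Iso311 Crest.Agent.R247.Nis710
open Crest.Agent.R247.Cal550 Crest.Agent.R247.Q9550
open Crest.Agent.R247.Far553 (ann dy dy_pos dy_succ dy_anti dy_le_one)

noncomputable section
namespace Crest.Agent.R247.Near710

universe u

lemma volume_ball_eq (n : ℕ) {r : ℝ} (hr : 0 < r) :
    volume (ball (0 : EuclideanSpace ℝ (Fin n)) r) =
      ENNReal.ofReal (r ^ n) * volume (ball (0 : EuclideanSpace ℝ (Fin n)) 1) := by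
  rw [Measure.addHaar_ball_of_pos volume (0 : EuclideanSpace ℝ (Fin n)) hr,
    finrank_euclideanSpace_fin]

lemma exists_scale {d : ℝ} {J : ℕ} (h0 : 0 < d) (h1 : d ≤ dy (J + 1)) :
    ∃ k, J ≤ k ∧ d ≤ dy (k + 1) ∧ dy (k + 2) ≤ d := by
  classical
  have hex : ∃ k, dy (k + 2) ≤ d := by
    obtain ⟨k, hk⟩ := exists_pow_lt_of_lt_one h0 (show (1 / 2 : ℝ) < 1 by norm_num)
    refine ⟨k, ?_⟩
    have : dy (k + 2) ≤ dy k := dy_anti (by omega)
    have h2 : dy k = (1 / 2 : ℝ) ^ k := rfl
    linarith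
  by_cases hJ : dy (J + 2) ≤ d
  · exact ⟨J, le_rfl, h1, hJ⟩
  set k := Nat.find hex with hk
  have hk1 : dy (k + 2) ≤ d := Nat.find_spec hex
  have hJk : J < k := by
    by_contra h
    push Not at h
    exact hJ ((dy_anti (by omega)).trans hk1)
  refine ⟨k, hJk.le, ?_, hk1⟩
  have h3 := Nat.find_min hex (m := k - 1) (by omega)
  have h4 : k - 1 + 2 = k + 1 := by omega
  rw [h4] at h3
  exact (not_le.1 h3).le

/-- **Near isometry.** -/
theorem nearP (n : ℕ) (hn : 1 ≤ n) : NearP.{u} n := by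
  intro ε hε
  have hn' : (0 : ℝ) < n := by exact_mod_cast (show 0 < n by omega)
  have hn1 : (1 : ℝ) ≤ n := by exact_mod_cast hn
  have hs : 0 < Real.sqrt n := Real.sqrt_pos.2 hn'
  set e : ℝ := min (ε / (2 * n)) (1 / n) with he
  have he0 : 0 < e := lt_min (by positivity) (by positivity)
  have he1 : (n - 1) * e ≤ 1 := by
    have h1 : e ≤ 1 / n := min_le_right _ _
    calc (n - 1) * e ≤ n * (1 / n) := by
          have : (n : ℝ) - 1 ≤ n := by linarith
          have h2 : (0 : ℝ) ≤ n - 1 := by linarith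
          gcongr
      _ = 1 := by field_simp
  set τ : ℝ := ε / (2 * Real.sqrt n) with hτ
  have hτ0 : 0 < τ := by positivity
  obtain ⟨cu, hcu, hcu1, Hu⟩ := Near551.psi_upper_far.{u} n hn he0
  obtain ⟨cl, hcl, hcl1, Hl'⟩ := psi_lower_far.{u} n hn he0 he1
  obtain ⟨ε₁, hε₁, Hl⟩ := Hl' τ hτ0
  set c : ℝ := min cu cl with hc
  have hc0 : 0 < c := lt_min hcu hcl
  obtain ⟨J₁, hJ₁⟩ := exists_pow_lt_of_lt_one (show 0 < c / 2 by positivity)
    (show (1 / 2 : ℝ) < 1 by norm_num)
  refine ⟨ε₁, hε₁, min c (1 / 2), lt_min hc0 (by norm_num), J₁, ?_⟩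
  intro δ hδ0 hδ M _ _ _ _ _ _ _ _ _ _ q hric hpinch C G hG J hJ hFF x hx y hy
  have := HR216.properSpace_of_riemannian n M
  have := isLocallyFinite_muHE n M
  have := HR216.secondCountable_of_riemannian n M
  have : Nonempty M := ⟨q⟩
  have hm := exM_block n M
  have hδc : δ ≤ c := hδ.trans (min_le_left _ _)
  have hδh : δ ≤ 1 / 2 := hδ.trans (min_le_right _ _)
  have hJc : dy J < c / 2 := (dy_anti hJ).trans_lt hJ₁
  have hJ2 : dy (J + 2) = dy J / 4 := by rw [dy_succ (J + 1), dy_succ J]; ring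
  have hJ1 : dy (J + 1) = dy J / 2 := dy_succ J
  have hJ0 := dy_pos J
  rw [mem_ball, hJ2] at hx hy
  have hc1 : c ≤ 1 := (min_le_left _ _).trans hcu1.le
  -- volumes
  have hvol : ∀ a : M, dist a q < 50 → ∀ b : ℝ, δ ≤ b → ∀ r, 0 < r → r ≤ 40 →
      ENNReal.ofReal ((1 - b) * r ^ n) * volume (ball (0 : EuclideanSpace ℝ (Fin n)) 1) ≤
        Measure.euclideanHausdorffMeasure n (ball a r) := by
    intro a ha b hb r hr hr'
    refine le_trans ?_ (hpinch a ha r hr hr')
    rw [volume_ball_eq n hr, ← mul_assoc, mul_comm (ENNReal.ofReal (1 - δ)),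
      ← ENNReal.ofReal_mul (by positivity)]
    gcongr ENNReal.ofReal ?_ * _
    have : 0 < r ^ n := by positivity
    nlinarith
  have hq0 : dist q q < 50 := by rw [dist_self]; norm_num
  rcases eq_or_ne x y with rfl | hxy
  · simp
  have hd0 : 0 < dist x y := dist_pos.2 hxy
  have hd1 : dist x y ≤ dy (J + 1) := by
    have := dist_triangle x q y
    rw [dist_comm q y] at this
    rw [hJ1]
    linarith
  obtain ⟨k, hk, hk1, hk2⟩ := exists_scale hd0 hd1
  have hkJ : dy k ≤ dy J := dy_anti hk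
  have hup := Hu M δ C hδ0.le (hδc.trans (min_le_left _ _)) hm q
    (hvol q hq0 cu (hδc.trans (min_le_left _ _)) 8 (by norm_num) (by norm_num)) x y
    (by rw [dist_comm]; have : c ≤ cu := min_le_left _ _; linarith)
    (by rw [dist_comm]; have : c ≤ cu := min_le_left _ _; linarith)
  have hlo := Hl M δ C hδ0.le (hδc.trans (min_le_right _ _)) hm G hG q
    (hvol q hq0 cl (hδc.trans (min_le_right _ _)) 8 (by norm_num) (by norm_num)) x y k
    (by rw [dist_comm]; have : c ≤ cl := min_le_right _ _; linarith) hd0 hk1 hk2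
    (by
      intro s hs0 hs1
      have h1 := hvol y (by linarith) (1 / 2) hδh s hs0 (by linarith)
      norm_num at h1 ⊢
      exact h1)
    (hFF k hk x (by linarith))
  have h := near_of_bounds (n := n) (by omega) (ε := e) (τ := τ) (ρ' := 0) (d := dist x y)
    (N := ‖psi (nuf (Measure.euclideanHausdorffMeasure n : Measure M) q) x -
      psi (nuf (Measure.euclideanHausdorffMeasure n : Measure M) q) y‖) he0.le he1 hd0.le hup
    (by rw [norm_sub_rev]; linarith) hτ0.le le_rfl
  refine h.trans ?_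
  have h2 : n * e ≤ ε / 2 := by
    calc n * e ≤ n * (ε / (2 * n)) := by gcongr; exact min_le_left _ _
      _ = ε / 2 := by field_simp
  have h3 : Real.sqrt n * (τ + 2 * 0) = ε / 2 := by
    rw [hτ]; field_simp; ring
  have h4 : n * e + Real.sqrt n * (τ + 2 * 0) ≤ ε := by linarith
  gcongr

end Crest.Agent.R247.Near710
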