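import Crest.Agent.R247.PlI2_585
import Crest.Agent.R247.Pln2_923

/-!
R247 block (2b), helper585: existence of the nodes (923's `Node`) from 550's `PlData`
(79's `round`, near isometry, volumes).
-/

set_option autoImplicit false
set_option linter.unusedSectionVars false

noncomputable section

namespace Crest.Agent.R247.PlI585

open MeasureTheory Set Filter Topology Metric
open scoped ENNReal NNReal
open Crest.Agent.R247.Mcp688 Crest.Agent.R247.Cal550 Crest.Agent.R247.Gap79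
open Crest.Agent.R247.Far553

universe u

/-- the constant of the nodes -/
def Qn (n : ℕ) (A : ℝ) : ℝ := 32 * A * 3 ^ n * (n + 1)

/-- constant of 79's `round` -/
def cR1 (V : ℝ) : ℝ := 4 * 8 ^ 2 * V ^ 2 * ((192 * (1 + 16 * V)) ^ 2 + ((1 + 96 * 8) ^ 2 + 2))

/-- constant of 79's `round` -/
def cR2 (V : ℝ) : ℝ := 8 * (192 * (1 + 16 * V) * V + (2 + 96 * 8) * V) + 96 * (1 + 16 * V) * V

theorem dy_five (k : ℕ) : dy (k + 5) = 4 * dy (k + 7) := by
  unfold dy
  rw [pow_add, pow_add]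
  ring

theorem Qn_facts (n : ℕ) {A : ℝ} (hA : 1 ≤ A) :
    1 ≤ Qn n A ∧ 2 * n * A ≤ Qn n A ∧ 32 * (A * 3 ^ n) ≤ Qn n A ∧ A ≤ Qn n A := by
  have hA0 : 0 < A := by linarith
  have h3 : (1 : ℝ) ≤ 3 ^ n := one_le_pow₀ (by norm_num)
  have h4 : A * 1 ≤ A * 3 ^ n := mul_le_mul_of_nonneg_left h3 hA0.le
  have h6 : 0 ≤ (n : ℝ) := Nat.cast_nonneg n
  have h5 : A * 1 * n ≤ A * 3 ^ n * n := mul_le_mul_of_nonneg_right h4 h6
  have h7 : 0 ≤ A * n := by positivity
  have e : Qn n A = 32 * (A * 3 ^ n * n) + 32 * (A * 3 ^ n) := by unfold Qn; ring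
  rw [e]
  refine ⟨by linarith, by linarith, by linarith, by linarith⟩

theorem small_consts {V v0 δ T c3 : ℝ} (hV : 0 ≤ V) (hv0 : 0 < v0) (hδ : 0 < δ) (hT : 1 ≤ T)
    (hc3 : 0 < c3) : ∃ ε₀ : ℝ, 0 < ε₀ ∧ ∀ ε : ℝ, 0 < ε → ε ≤ ε₀ → T * ε ≤ 1 ∧
      Real.sqrt (cR1 V * (T * ε)) / v0 ^ 2 ≤ δ ∧
      cR2 V * Real.sqrt (T * ε) ≤ 1 / 2 * v0 ^ 2 ∧ c3 * ε ≤ 1 := by
  have hc1 : 0 ≤ cR1 V := by unfold cR1; positivity
  have hc2 : 0 ≤ cR2 V := by unfold cR2; positivity
  have hT0 : 0 < T := by linarith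
  set a1 : ℝ := (δ * v0 ^ 2) ^ 2 / (cR1 V + 1) with ha1
  set a2 : ℝ := (v0 ^ 2 / (2 * (cR2 V + 1))) ^ 2 with ha2
  have p1 : 0 < a1 := by positivity
  have p2 : 0 < a2 := by positivity
  refine ⟨min (min (1 / T) (a1 / T)) (min (a2 / T) (1 / c3)), by positivity, fun ε h0 h => ?_⟩
  have h1 : ε ≤ 1 / T := h.trans ((min_le_left _ _).trans (min_le_left _ _))
  have h2 : ε ≤ a1 / T := h.trans ((min_le_left _ _).trans (min_le_right _ _))
  have h3 : ε ≤ a2 / T := h.trans ((min_le_right _ _).trans (min_le_left _ _))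
  have h4 : ε ≤ 1 / c3 := h.trans ((min_le_right _ _).trans (min_le_right _ _))
  rw [le_div_iff₀ hT0, mul_comm] at h1 h2 h3
  rw [le_div_iff₀ hc3, mul_comm] at h4
  refine ⟨h1, ?_, ?_, h4⟩
  · rw [div_le_iff₀ (by positivity), Real.sqrt_le_left (by positivity)]
    have h5 : (cR1 V + 1) * (T * ε) ≤ (δ * v0 ^ 2) ^ 2 := by
      rw [ha1, le_div_iff₀ (by positivity)] at h2
      linarith
    have h6 : 0 ≤ T * ε := by positivity
    linarith
  · have h5 : Real.sqrt (T * ε) ≤ v0 ^ 2 / (2 * (cR2 V + 1)) := by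
      rw [Real.sqrt_le_left (by positivity)]
      exact h3
    rw [le_div_iff₀ (by positivity)] at h5
    have h6 := Real.sqrt_nonneg (T * ε)
    nlinarith

set_option maxHeartbeats 1000000 in
/-- **Existence of the nodes.** -/
theorem exists_node (n : ℕ) {A : ℝ} (hA : 1 ≤ A) {e₁ : ℝ} (he₁ : 0 < e₁) (he₁' : e₁ ≤ 1 / 4) :
    ∃ ε₀ : ℝ, 0 < ε₀ ∧ ∀ (κ : ℝ) (X : Type u) [MetricSpace X] [MeasurableSpace X] [BorelSpace X]
      [ProperSpace X] (μ : Measure X) [IsFiniteMeasureOnCompacts μ] (C : Rad n κ X μ)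
      (G : X → X → X → ℝ) (p : X) [SFinite (Q9550.nuW μ p)] (ε : ℝ) (J₀ : ℕ) (E : ℕ → X → ℝ),
      Q9550.PlData C G p A ε J₀ E → ε ≤ ε₀ → ∀ k, J₀ ≤ k → ∀ x ∈ ball p (dy J₀ / 2),
      Nonempty (Pln923.Node (mx μ ηc (dy (k + 7)) x) (Q9550.nuW μ p) (K (fr (dy (k + 7))) x)
        (jr (dy (k + 7)) x) (∫ u, φc (fr (dy (k + 7)) x u) ∂μ) e₁ (Qn n A)
        (dy (k + 7) ^ n) n) := by
  set V : ℝ := A * 3 ^ n with hVdef
  have hA0 : 0 < A := by linarith
  have hV0 : 0 < V := by positivity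
  have hv0 : 0 < A⁻¹ := by positivity
  set δ : ℝ := min (1 / (100 * ((n : ℝ) + 1))) (2 / 5 * e₁) with hδdef
  have hδ : 0 < δ := by positivity
  set T : ℝ := A * 128 ^ (2 * n + 4) with hTdef
  have h128 : (1 : ℝ) ≤ 128 ^ (2 * n + 4) := one_le_pow₀ (by norm_num)
  have hT : 1 ≤ T := by nlinarith
  obtain ⟨ε₀, hε₀, hsm⟩ := small_consts hV0.le hv0 hδ hT
    (by positivity : (0 : ℝ) < 2304 * V * A)
  refine ⟨min ε₀ 1, by positivity, ?_⟩
  intro κ X _ _ _ _ μ _ C G p _ ε J₀ E D hεε k hk x hx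
  obtain ⟨s1, s2, s3, s4⟩ := hsm ε D.ε_pos (hεε.trans (min_le_left _ _))
  have hε1 : ε ≤ 1 := hεε.trans (min_le_right _ _)
  set r : ℝ := dy (k + 7) with hr
  have h0r : 0 < r := dy_pos _
  have hrn : 0 < r ^ n := by positivity
  have hdk : dy k = 128 * r := dy_seven k
  have hdk1 : 128 * r ≤ dy J₀ := by rw [← hdk]; exact dy_anti hk
  have hJ1 : dy J₀ ≤ 1 / 16 := by
    have h1 := dy_anti D.J₀_ge
    have h2 : dy 4 = 1 / 16 := by unfold dy; norm_num
    linarith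
  have hr1 : r ≤ 1 := by linarith
  have hfin : ∀ (a : X) (R : ℝ), μ (closedBall a R) ≠ ∞ := fun a R =>
    (isCompact_closedBall a R).measure_lt_top.ne
  -- points near `x`
  have hnear : ∀ a ∈ closedBall x (2 * r), a ∈ ball p (dy J₀) := by
    intro a ha
    rw [mem_closedBall] at ha
    rw [mem_ball] at hx ⊢
    have := dist_triangle a x p
    linarith
  have hnear1 : ∀ a ∈ closedBall x (2 * r), a ∈ ball p 1 := fun a ha =>
    ball_subset_ball (by linarith) (hnear a ha)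
  have hxx : x ∈ closedBall x (2 * r) := mem_closedBall_self (by positivity)
  have hx1 := hnear1 x hxx
  -- volumes
  have hVball : μ (closedBall x (2 * r)) ≤ ENNReal.ofReal (V * r ^ n) := by
    refine (measure_mono (closedBall_subset_ball (by linarith : 2 * r < 3 * r))).trans
      ((D.vol_le x hx1 (3 * r) (by positivity) (by linarith)).trans
        (ENNReal.ofReal_le_ofReal (le_of_eq ?_)))
    rw [mul_pow, hVdef]; ring
  have hVreal : μ.real (closedBall x (2 * r)) ≤ V * r ^ n := by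
    rw [measureReal_def]
    exact ENNReal.toReal_le_of_le_ofReal (by positivity) hVball
  have hLam : A⁻¹ * r ^ n ≤ ∫ u, φc (fr r x u) ∂μ :=
    lam_ge h0r x (hfin x _) (D.vol_ge x hx1 r h0r hr1)
  have hLam2 : ∫ u, φc (fr r x u) ∂μ ≤ V * r ^ n := (lam_le h0r x (hfin x _)).trans hVreal
  set Λ : ℝ := ∫ u, φc (fr r x u) ∂μ with hΛdef
  have hΛ0 : 0 < Λ := lt_of_lt_of_le (by positivity) hLam
  -- (4a), (4b)
  have hTe : 0 ≤ T * ε := by have := D.ε_pos; positivity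
  have h4n : (4 : ℝ) ^ n ≤ 128 ^ (2 * n + 4) := by
    calc (4 : ℝ) ^ n ≤ 128 ^ n := by gcongr; norm_num
      _ ≤ 128 ^ (2 * n + 4) := pow_le_pow_right₀ (by norm_num) (by omega)
  obtain ⟨hK, Ee, hR, hf, hrank⟩ := round (C := C) D.grep cutG h0r x D.κ_nonneg hfin
    (V := V) (v0 := A⁻¹) (e := T * ε) hv0 hTe s1 hVreal hLam
    (fun a ha => by
      have h1 := D.drop_small (k + 5) (by omega) a (hnear1 a ha)
      rw [dy_five, ← hr] at h1
      refine h1.trans ?_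
      rw [mul_pow, hTdef]
      have h2 : A * ε * (4 ^ n * r ^ n) ≤ A * ε * (128 ^ (2 * n + 4) * r ^ n) := by
        have := D.ε_pos
        gcongr
      refine h2.trans (le_of_eq ?_)
      ring)
    (by
      have h1 := D.κ_small
      have h2 := D.κ_nonneg
      have h3 : r ^ 2 ≤ 1 := pow_le_one₀ h0r.le hr1
      have h4 : κ * r ^ 2 ≤ κ * 1 := mul_le_mul_of_nonneg_left h3 h2
      have h5 : 1 * ε ≤ T * ε := mul_le_mul_of_nonneg_right hT D.ε_pos.le
      linarith)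
    (fun a ha => by
      have h1 := D.L k hk a (hnear1 a ha)
      rw [hdk] at h1
      have hsub : closedBall x (2 * r) ⊆ ball a (128 * r) := by
        intro b hb
        rw [mem_closedBall] at ha hb
        rw [mem_ball]
        have := dist_triangle_right b a x
        linarith
      refine (lintegral_mono fun v => lintegral_mono_set hsub).trans
        ((lintegral_mono_set hsub).trans (h1.trans (ENNReal.ofReal_le_ofReal ?_)))
      rw [mul_pow, hTdef]
      have h2 := D.E_le k hk a (hnear1 a ha)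
      have h3 : A * E k a * (128 ^ (2 * n + 4) * r ^ (2 * n + 4)) ≤
          A * ε * (128 ^ (2 * n + 4) * r ^ (2 * n + 4)) := by gcongr
      refine h3.trans (le_of_eq ?_)
      ring)
    rfl (s2.trans (min_le_left _ _)) s3
  have hRnd : Pl2661.Rnd (Λ⁻¹ • Ker585.kop hK) Ee e₁ := by
    refine ⟨hR.sa, hR.idem, hR.comm, hR.near.trans ?_⟩
    have h1 := s2.trans (min_le_right _ _)
    have h2 : (Real.sqrt (4 * 8 ^ 2 * V ^ 2 * ((192 * (1 + 16 * V)) ^ 2
      + ((1 + 96 * 8) ^ 2 + 2)) * (T * ε)) / A⁻¹ ^ 2) ≤ 2 / 5 * e₁ := h1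
    linarith
  -- the far measure
  have hprob : IsProbabilityMeasure (Q9550.nuW μ p) := by
    refine Q9550.nuW_prob ?_ ?_
    · have := D.volW_ge
      intro h0
      rw [h0] at this
      have h1 : ENNReal.ofReal A⁻¹ = 0 := le_antisymm this bot_le
      rw [ENNReal.ofReal_eq_zero] at h1
      linarith
    · exact ne_top_of_le_ne_top ENNReal.ofReal_ne_top D.volW_le
  have hν := Q9550.nuW_bound μ p
  have hj : Ker585.HK (Q9550.nuW μ p) (mx μ ηc r x) (jr r x) := HK_jr h0r x (hfin x _)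
  have hmx : (mx μ ηc r x).real univ ≤ 8 * (V * r ^ n) :=
    mx_real_univ_le h0r x (by positivity) hVball
  have hmx0 : 0 ≤ (mx μ ηc r x).real univ := measureReal_nonneg
  have hn0 : (0 : ℝ) < n := by exact_mod_cast D.n_pos
  have hn1 : (1 : ℝ) ≤ n := by exact_mod_cast D.n_pos
  have hβ : 72 * ε * (mx μ ηc r x).real univ ≤ Λ / 4 := by
    have h1 : 72 * ε * (mx μ ηc r x).real univ ≤ 72 * ε * (8 * (V * r ^ n)) := by
      have := D.ε_pos
      gcongr
    have h2 : 2304 * V * ε ≤ A⁻¹ := by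
      rw [le_inv_comm₀ (by have := D.ε_pos; positivity) hA0]
      rw [le_inv_comm₀ hA0 (by have := D.ε_pos; positivity)]
      rw [← one_div, le_div_iff₀ hA0]
      linarith
    have h3 : 2304 * V * ε * r ^ n ≤ A⁻¹ * r ^ n := by gcongr
    linarith
  obtain ⟨hQ1, hQA, hQV, hQA'⟩ := Qn_facts n hA
  rw [← hVdef] at hQV
  have hQ0 : 0 < Qn n A := by linarith
  refine ⟨{ hk := hK, sk := fun a b => K_symm (fr_symm r) x a b, hj := hj, E := Ee, R := hRnd,
            fin := hf, rank := hrank, low := fun v hv => ?_, up := ?_, s_pos := hrn,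
            Q_ge := hQ1, Λ_ge := ?_, Λ_le := ?_, e_half := he₁' }⟩
  · have h1 := Pln923.low_of_near' hK hj hΛ0 hn0 (by have := D.ε_pos; positivity) hRnd he₁' hβ
      (near_hs2 (n := n) hν h0r (hfin x _) D.ε_pos.le hε1
        (fun u hu v hv => D.near u (hnear u hu) v (hnear v hv))) v hv
    refine le_trans ?_ h1
    refine mul_le_mul_of_nonneg_right ?_ (norm_nonneg _)
    have h2 : (Qn n A)⁻¹ * Real.sqrt (r ^ n) = Real.sqrt ((Qn n A)⁻¹ ^ 2 * r ^ n) := by
      rw [Real.sqrt_mul (by positivity), Real.sqrt_sq (by positivity)]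
    rw [h2]
    apply Real.sqrt_le_sqrt
    rw [le_div_iff₀ (by positivity)]
    have h3 : (Qn n A)⁻¹ * (2 * n * A) ≤ 1 := by
      rw [inv_mul_le_iff₀ hQ0]; linarith
    have h4 : (Qn n A)⁻¹ ≤ 1 := inv_le_one_of_one_le₀ hQ1
    have h5 : 0 < (Qn n A)⁻¹ := by positivity
    have h6 : (Qn n A)⁻¹ ^ 2 * (2 * n) ≤ A⁻¹ := by
      rw [← one_div A, le_div_iff₀ hA0]
      calc (Qn n A)⁻¹ ^ 2 * (2 * n) * A = (Qn n A)⁻¹ * ((Qn n A)⁻¹ * (2 * n * A)) := by ring
        _ ≤ 1 * 1 := by gcongr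
        _ = 1 := one_mul _
    calc (Qn n A)⁻¹ ^ 2 * r ^ n * (2 * n) = (Qn n A)⁻¹ ^ 2 * (2 * n) * r ^ n := by ring
      _ ≤ A⁻¹ * r ^ n := by gcongr
      _ ≤ Λ := hLam
  · refine (norm_jr_le h0r x (hfin x _) hj).trans ?_
    have h1 : 2 * Real.sqrt ((mx μ ηc r x).real univ) ≤ Real.sqrt (32 * V * r ^ n) := by
      have h2 : (2 : ℝ) = Real.sqrt 4 := by
        rw [show (4 : ℝ) = 2 ^ 2 by norm_num, Real.sqrt_sq (by norm_num)]
      rw [h2, ← Real.sqrt_mul (by norm_num)]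
      apply Real.sqrt_le_sqrt
      linarith
    refine h1.trans ?_
    rw [Real.sqrt_mul (by positivity)]
    refine mul_le_mul_of_nonneg_right ?_ (Real.sqrt_nonneg _)
    rw [Real.sqrt_le_left hQ0.le, sq]
    calc 32 * V ≤ 1 * Qn n A := by linarith
      _ ≤ Qn n A * Qn n A := mul_le_mul_of_nonneg_right hQ1 hQ0.le
  · refine le_trans ?_ hLam
    exact mul_le_mul_of_nonneg_right (inv_anti₀ hA0 hQA') hrn.le
  · refine hLam2.trans ?_
    refine mul_le_mul_of_nonneg_right ?_ hrn.le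
    linarith

end Crest.Agent.R247.PlI585
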