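import Crest.Agent.R247.PlI4_585
import Crest.Agent.R247.PlI3_585

/-!
# R247, block (2b), Pl5' part 7 (helper923): the planes theorem `Q9550.PlThm n`
-/

set_option autoImplicit false
set_option linter.unusedSectionVars false

noncomputable section

namespace Crest.Agent.R247.Pln923

open MeasureTheory Filter Set Metric
open scoped ENNReal InnerProductSpace
open Crest.Agent.R247.Mcp688 Crest.Agent.R247.Cal550
open Crest.Agent.R247.Far553
open Crest.Agent.R247.Gap79 (fr Gs mx)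
open Crest.Agent.R247.Gap79 (K P)
open Crest.Agent.R247.Pl5661 (Env Cut MB Far)
open Crest.Agent.R247.Pl6661 (EE C1)
open Crest.Agent.R247.PlI585

universe u

/-- the constant -/
def QQ (n : ℕ) (A : ℝ) : ℝ :=
  Qn n A * 2 ^ n + C1 n (2 ^ 16) 8 + A ^ 2 * 128 ^ (2 * n + 4) + 2 ^ (n + 1) + 8

theorem QQ_facts (n : ℕ) {A : ℝ} (hA : 1 ≤ A) :
    1 ≤ QQ n A ∧ Qn n A ≤ QQ n A ∧ Qn n A * 2 ^ n ≤ QQ n A ∧ C1 n (2 ^ 16) 8 ≤ QQ n A ∧
    A ^ 2 * 128 ^ (2 * n + 4) ≤ QQ n A ∧ 2 ^ (n + 1) ≤ QQ n A ∧ 8 ≤ QQ n A := by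
  have h1 := (Qn_facts n hA).1
  have h2 : (1 : ℝ) ≤ 2 ^ n := one_le_pow₀ (by norm_num)
  have h3 : Qn n A * 1 ≤ Qn n A * 2 ^ n := by gcongr
  have h4 : 0 ≤ C1 n (2 ^ 16) 8 := C1_nonneg (by positivity) (by norm_num)
  have h5 : 0 ≤ A ^ 2 * 128 ^ (2 * n + 4) := by positivity
  have h6 : (0 : ℝ) ≤ 2 ^ (n + 1) := by positivity
  unfold QQ
  refine ⟨by linarith, by linarith, by linarith, by linarith, by linarith, by linarith,
    by linarith⟩

theorem MB_mono {X : Type*} [MeasurableSpace X] {vol : Measure X}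
    {R : X → (X → ℝ) → (X → ℝ) → Prop} {n : ℕ} {B : Set X} {x : X} {β β' : ℝ}
    (h : MB vol R n B x β) (hβ : β ≤ β') : MB vol R n B x β' := by
  intro ζ dζ S hR h0 hS
  refine (h ζ dζ S hR h0 hS).trans ?_
  have : 0 ≤ S := (abs_nonneg _).trans (hS x)
  gcongr

theorem le_sqrt_self {E : ℝ} (h0 : 0 ≤ E) (h1 : E ≤ 1) : E ≤ Real.sqrt E := by
  apply Real.le_sqrt_of_sq_le
  nlinarith

section data

variable {n : ℕ} {κ : ℝ} {X : Type u} [MetricSpace X] [MeasurableSpace X] [BorelSpace X]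
  {μ : Measure X} [ProperSpace X] [IsFiniteMeasureOnCompacts μ] {C : Rad n κ X μ}
  {G : X → X → X → ℝ} {p : X} {A ε : ℝ} {J₀ : ℕ} {E : ℕ → X → ℝ}

theorem nuW_isProb (D : Q9550.PlData C G p A ε J₀ E) :
    IsProbabilityMeasure (Q9550.nuW μ p) := by
  have hA := D.A_ge
  refine Q9550.nuW_prob ?_ ?_
  · have := D.volW_ge
    intro h0
    rw [h0] at this
    have h1 : ENNReal.ofReal A⁻¹ = 0 := le_antisymm this bot_le
    rw [ENNReal.ofReal_eq_zero] at h1
    have : 0 < A⁻¹ := by positivity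
    linarith
  · exact ne_top_of_le_ne_top ENNReal.ofReal_ne_top D.volW_le

/-- the data of a pair -/
theorem com_one (D : Q9550.PlData C G p A ε J₀ E) (hε : ε ≤ 1) {k : ℕ} (hk : J₀ ≤ k) {r : ℝ}
    (hr : r = dy (k + 7)) {x y : X} (hx : x ∈ ball p 1) (hy : y ∈ ball p 1)
    (hxy : dist x y ≤ 8 * r) :
    ∃ B : Set X, ∃ β : ℝ,
    Com μ (Q9550.nuW μ p) (Rr C) (fr r) (Gs G r) (PlI585.hr r) (ghr G r) B (2 ^ 16)
      ηc ηc' φc 8 n 7000 β (QQ n A) (r ^ n) (Real.sqrt (E k x) + Real.sqrt (E k y)) ∧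
    One μ (Q9550.nuW μ p) (Rr C) (fr r) (Gs G r) (PlI585.hr r) (ghr G r) B (2 ^ 16)
      n 7000 β (QQ n A) (r ^ n) (Real.sqrt (E k x) + Real.sqrt (E k y)) x ∧
    One μ (Q9550.nuW μ p) (Rr C) (fr r) (Gs G r) (PlI585.hr r) (ghr G r) B (2 ^ 16)
      n 7000 β (QQ n A) (r ^ n) (Real.sqrt (E k x) + Real.sqrt (E k y)) y ∧
    ∃ c0 : ℝ, |c0| ≤ 2 ^ 16 ∧ |fr r y x - c0| ≤ 7000 ∧
      ∫⁻ u in B, ‖P (fr r) (Gs G r) x y u - c0‖ₑ ∂μ ≤
        ENNReal.ofReal (QQ n A * r ^ n * (Real.sqrt (E k x) + Real.sqrt (E k y))) := by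
  obtain ⟨hE, ⟨xB, yB⟩, ⟨fx, fy⟩, ⟨mx', my'⟩, ⟨Lx, Ly⟩, ⟨c, hc1, hc2⟩, ⟨Fx, Fy⟩, hvol, hfxy⟩ :=
    pair_data D hk hr hx hy hxy (B := BB x y r) rfl
  have hA := D.A_ge
  have h0r : 0 < r := by rw [hr]; exact dy_pos _
  have hrn : 0 < r ^ n := by positivity
  obtain ⟨q1, q2, q3, q4, q5, q6, q7⟩ := QQ_facts n hA
  have hprob := nuW_isProb D
  set ex := E k x with hex
  set ey := E k y with hey
  have ex0 : 0 ≤ ex := D.E_nonneg k x hx
  have ey0 : 0 ≤ ey := D.E_nonneg k y hy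
  have ex1 : ex ≤ 1 := (D.E_le k hk x hx).trans hε
  have ey1 : ey ≤ 1 := (D.E_le k hk y hy).trans hε
  set δ := Real.sqrt ex + Real.sqrt ey with hδ
  have sx0 := Real.sqrt_nonneg ex
  have sy0 := Real.sqrt_nonneg ey
  have hδ0 : 0 ≤ δ := by positivity
  have hexδ : ex ≤ δ ^ 2 := by
    have := Real.sq_sqrt ex0
    rw [hδ]
    nlinarith
  have heyδ : ey ≤ δ ^ 2 := by
    have := Real.sq_sqrt ey0
    rw [hδ]
    nlinarith
  have hsum : ex + ey ≤ δ := add_le_add (le_sqrt_self ex0 ex1) (le_sqrt_self ey0 ey1)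
  have hA2 : A ≤ A ^ 2 := by nlinarith
  have p128 : ∀ m : ℕ, (0 : ℝ) < 128 ^ m := fun m => by positivity
  have pm : ∀ m : ℕ, m ≤ 2 * n + 4 → (128 : ℝ) ^ m ≤ 128 ^ (2 * n + 4) := fun m hm =>
    pow_le_pow_right₀ (by norm_num) hm
  have k1 : ∀ m : ℕ, m ≤ 2 * n + 4 → A * 128 ^ m ≤ QQ n A := fun m hm => by
    refine le_trans ?_ q5
    exact mul_le_mul hA2 (pm m hm) (p128 m).le (by positivity)
  have k2 : ∀ m : ℕ, m ≤ 2 * n + 4 → A ^ 2 * 128 ^ m ≤ QQ n A := fun m hm => by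
    refine le_trans ?_ q5
    exact mul_le_mul le_rfl (pm m hm) (p128 m).le (by positivity)
  have hQ0 : 0 < QQ n A := by linarith
  refine ⟨BB x y r, A * (ex + ey) * 128 ^ n * r ^ n, ?_, ?_, ?_, c, ?_, ?_, ?_⟩
  · refine ⟨hE, cutP, D.n_pos, q1, hrn, hδ0, q4, q7, ?_, ?_, ?_, by norm_num⟩
    · refine hvol.trans (ENNReal.ofReal_le_ofReal ?_)
      exact mul_le_mul_of_nonneg_right (k1 n (by omega)) hrn.le
    · calc A * (ex + ey) * 128 ^ n * r ^ n = A * 128 ^ n * r ^ n * (ex + ey) := by ring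
        _ ≤ QQ n A * r ^ n * δ := by
            have := k1 n (by omega)
            gcongr
    · exact prob_le_one
  · refine ⟨xB, fx, MB_mono mx' ?_, ?_, ?_, Lx.trans (ENNReal.ofReal_le_ofReal ?_),
      Fx.trans (ENNReal.ofReal_le_ofReal ?_)⟩
    · gcongr
      linarith
    · exact (D.grep.meas.comp (measurable_const.prodMk
        (measurable_fst.prodMk measurable_snd))).div_const _
    · exact ((D.grep.meas_Ed x).comp measurable_swap).div_const _
    · calc A * ex * 128 ^ (2 * n + 4) * (r ^ n) ^ 2 = A * 128 ^ (2 * n + 4) * (r ^ n) ^ 2 * ex := by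
            ring
        _ ≤ QQ n A * (r ^ n) ^ 2 * δ ^ 2 := by
            have := k1 (2 * n + 4) le_rfl
            gcongr
    · calc A ^ 2 * ex * 128 ^ (n + 2) * r ^ n = A ^ 2 * 128 ^ (n + 2) * r ^ n * ex := by ring
        _ ≤ QQ n A * r ^ n * δ ^ 2 := by
            have := k2 (n + 2) (by omega)
            gcongr
  · refine ⟨yB, fy, MB_mono my' ?_, ?_, ?_, Ly.trans (ENNReal.ofReal_le_ofReal ?_),
      Fy.trans (ENNReal.ofReal_le_ofReal ?_)⟩
    · gcongr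
      linarith
    · exact (D.grep.meas.comp (measurable_const.prodMk
        (measurable_fst.prodMk measurable_snd))).div_const _
    · exact ((D.grep.meas_Ed y).comp measurable_swap).div_const _
    · calc A * ey * 128 ^ (2 * n + 4) * (r ^ n) ^ 2 = A * 128 ^ (2 * n + 4) * (r ^ n) ^ 2 * ey := by
            ring
        _ ≤ QQ n A * (r ^ n) ^ 2 * δ ^ 2 := by
            have := k1 (2 * n + 4) le_rfl
            gcongr
    · calc A ^ 2 * ey * 128 ^ (n + 2) * r ^ n = A ^ 2 * 128 ^ (n + 2) * r ^ n * ey := by ring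
        _ ≤ QQ n A * r ^ n * δ ^ 2 := by
            have := k2 (n + 2) (by omega)
            gcongr
  · exact hc1.trans (by norm_num)
  · have h1 : fr r y x = fr r x y := hE.symm y x
    rw [h1]
    refine (abs_sub _ _).trans ?_
    linarith
  · refine hc2.trans (ENNReal.ofReal_le_ofReal ?_)
    calc A * δ * 128 ^ (n + 2) * r ^ n = A * 128 ^ (n + 2) * r ^ n * δ := by ring
      _ ≤ QQ n A * r ^ n * δ := by
          have := k1 (n + 2) (by omega)
          gcongr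

end data

/-- the coordinate difference in `L²(ν)` -/
theorem psi_diff {X : Type u} [MetricSpace X] [MeasurableSpace X] [BorelSpace X]
    {ν : Measure X} [IsFiniteMeasure ν] {p : X}
    (hν : ∀ᵐ w ∂ν, dist w p ≤ 8) (r : ℝ) (x y : X) :
    (r⁻¹ • (Nis710.psi ν y - Nis710.psi ν x) : Lp ℝ 2 ν) =ᵐ[ν]
      fun w => PlI585.hr r w y - PlI585.hr r w x := by
  have h1 := Nis710.coe_psi (Nis710.memLp_dist hν x)
  have h2 := Nis710.coe_psi (Nis710.memLp_dist hν y)
  filter_upwards [Lp.coeFn_smul r⁻¹ (Nis710.psi ν y - Nis710.psi ν x),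
    Lp.coeFn_sub (Nis710.psi ν y) (Nis710.psi ν x), h1, h2] with w e1 e2 e3 e4
  rw [e1, Pi.smul_apply, e2, Pi.sub_apply, e3, e4]
  simp only [PlI585.hr, smul_eq_mul]
  rw [dist_comm w y, dist_comm w x]
  ring

/-- **The planes theorem.** -/
theorem plThm (n : ℕ) : Q9550.PlThm.{u} n := by
  intro A hA
  obtain ⟨q1, q2, q3, q4, q5, q6, q7⟩ := QQ_facts n hA
  set Q := QQ n A with hQdef
  have hQ0 : 0 < Q := by linarith
  set e₁ : ℝ := 1 / (4 * Q ^ 4) with he₁def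
  have he₁ : 0 < e₁ := by positivity
  have hQ4 : 1 ≤ Q ^ 4 := one_le_pow₀ q1
  have he₁' : e₁ ≤ 1 / 4 := by
    rw [he₁def]
    apply one_div_le_one_div_of_le (by norm_num)
    linarith
  have he : 4 * Q ^ 4 * e₁ ≤ 1 := by
    rw [he₁def]
    field_simp
    norm_num
  obtain ⟨ε₀, hε₀, hnode⟩ := exists_node.{u} n hA he₁ he₁'
  refine ⟨144 * Q ^ 10, ?_, min ε₀ 1, by positivity, ?_⟩
  · have := one_le_pow₀ (n := 10) q1
    linarith
  intro κ X _ _ _ _ μ _ C G p J₀ E D J hJ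
  have hprob := nuW_isProb D
  have hν := Q9550.nuW_bound μ p
  have hball : ∀ x ∈ ball p (dy J / 2), x ∈ ball p (dy J₀ / 2) := fun x hx =>
    ball_subset_ball (by have := dy_anti (show J₀ ≤ J by omega); linarith) hx
  have hball1 : ∀ x ∈ ball p (dy J / 2), x ∈ ball p 1 := fun x hx =>
    ball_subset_ball (by have := dy_le_one J; linarith) hx
  have hnd := hnode κ X μ C G p (min ε₀ 1) J₀ E D (min_le_left _ _)
  choose Nd hNd using fun (k : ℕ) (x : X) (h : J₀ ≤ k ∧ x ∈ ball p (dy J₀ / 2)) =>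
    (⟨Classical.choice (hnd k h.1 x h.2), trivial⟩ : ∃ _ : Node (mx μ ηc (dy (k + 7)) x)
      (Q9550.nuW μ p) (K (fr (dy (k + 7))) x) (jr (dy (k + 7)) x)
      (∫ u, φc (fr (dy (k + 7)) x u) ∂μ) e₁ (Qn n A) (dy (k + 7) ^ n) n, True)
  classical
  refine ⟨fun k x => if h : J₀ ≤ J + k - 7 ∧ x ∈ ball p (dy J₀ / 2) then
    (Nd (J + k - 7) x h).P else 0, ?_, ?_, ?_, ?_, ?_⟩
  · intro k hk x hx
    have h : J₀ ≤ J + k - 7 ∧ x ∈ ball p (dy J₀ / 2) := ⟨by omega, hball x hx⟩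
    simp only [dif_pos h]
    exact (Nd _ x h).isProj
  · intro x hx
    have h : J₀ ≤ J + 1 - 7 ∧ x ∈ ball p (dy J₀ / 2) := ⟨by omega, hball x hx⟩
    simp only [dif_pos h]
    exact (Nd _ x h).exists_range
  · intro k hk x hx y hy hxy
    have h : J₀ ≤ J + k - 7 ∧ x ∈ ball p (dy J₀ / 2) := ⟨by omega, hball x hx⟩
    simp only [dif_pos h]
    set k' := J + k - 7 with hk'
    have hkk : k' + 7 = J + k := by omega
    have hrr : dy J / 2 ^ k = dy (k' + 7) := by rw [Q9550.dy_eq_div, hkk]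
    rw [hrr] at hxy ⊢
    set r := dy (k' + 7) with hr
    have h0r : 0 < r := dy_pos _
    have hrn : 0 < r ^ n := by positivity
    obtain ⟨B, β, d, ox, oy, c0, hc0, hL, hc⟩ := com_one D (min_le_right _ _) h.1 hr
      (hball1 x hx) (hball1 y hy) hxy
    set u := Nis710.psi (Q9550.nuW μ p) y - Nis710.psi (Q9550.nuW μ p) x with hu
    have h1 : ‖r⁻¹ • u - (Nd k' x h).P (r⁻¹ • u)‖ ≤
        15 * Q ^ 6 * (Real.sqrt (E k' x) + Real.sqrt (E k' y)) :=
      d.A1 ox oy hc0 hL hc ((Nd k' x h).weaken hrn q2 (by gcongr) (by gcongr)) (r⁻¹ • u)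
        (psi_diff hν r x y)
    have h3 : (1 - (Nd k' x h).P) u = r • (r⁻¹ • u - (Nd k' x h).P (r⁻¹ • u)) := by
      rw [map_smul, ← smul_sub, smul_smul, mul_inv_cancel₀ h0r.ne', one_smul]
      rfl
    rw [h3, norm_smul, Real.norm_eq_abs, abs_of_pos h0r, mul_comm]
    have h4 : 15 * Q ^ 6 * (Real.sqrt (E k' x) + Real.sqrt (E k' y)) ≤
        144 * Q ^ 10 * (Real.sqrt (E k' x) + Real.sqrt (E k' y)) := by
      have h5 : Q ^ 6 ≤ Q ^ 10 := pow_le_pow_right₀ q1 (by norm_num)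
      have h6 : 0 ≤ Q ^ 6 := by positivity
      have h7 : 15 * Q ^ 6 ≤ 144 * Q ^ 10 := by linarith
      gcongr
    exact mul_le_mul_of_nonneg_right (h1.trans h4) h0r.le
  · intro k hk x hx y hy hxy
    have h : J₀ ≤ J + k - 7 ∧ x ∈ ball p (dy J₀ / 2) := ⟨by omega, hball x hx⟩
    have h' : J₀ ≤ J + k - 7 ∧ y ∈ ball p (dy J₀ / 2) := ⟨by omega, hball y hy⟩
    simp only [dif_pos h, dif_pos h']
    set k' := J + k - 7 with hk'
    have hkk : k' + 7 = J + k := by omega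
    have hrr : dy J / 2 ^ k = dy (k' + 7) := by rw [Q9550.dy_eq_div, hkk]
    rw [hrr] at hxy
    set r := dy (k' + 7) with hr
    have h0r : 0 < r := dy_pos _
    have hrn : 0 < r ^ n := by positivity
    obtain ⟨B, β, d, ox, oy, c0, hc0, hL, hc⟩ := com_one D (min_le_right _ _) h.1 hr
      (hball1 x hx) (hball1 y hy) hxy
    have h1 := d.A2 ox oy hc0 hL hc ((Nd k' x h).weaken hrn q2 (by gcongr) (by gcongr))
      ((Nd k' y h').weaken hrn q2 (by gcongr) (by gcongr)) he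
    refine h1.trans ?_
    have h4 : 72 * Q ^ 10 ≤ 144 * Q ^ 10 := by
      have : 0 ≤ Q ^ 10 := by positivity
      linarith
    gcongr
  · intro k hk x hx
    have h : J₀ ≤ J + k - 7 ∧ x ∈ ball p (dy J₀ / 2) := ⟨by omega, hball x hx⟩
    have h' : J₀ ≤ J + (k + 1) - 7 ∧ x ∈ ball p (dy J₀ / 2) := ⟨by omega, hball x hx⟩
    simp only [dif_pos h, dif_pos h']
    have hk2 : J + (k + 1) - 7 = (J + k - 7) + 1 := by omega
    set k' := J + k - 7 with hk'
    set k'' := J + (k + 1) - 7 with hk''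
    set r := dy (k' + 7) with hr
    have h0r : 0 < r := dy_pos _
    have hrn : 0 < r ^ n := by positivity
    have hr2 : dy (k'' + 7) = r / 2 := by
      rw [hk2, hr]
      unfold dy
      rw [show k' + 1 + 7 = (k' + 7) + 1 by ring, pow_succ]
      ring
    obtain ⟨B, β, d, ox, -, -⟩ := com_one D (min_le_right _ _) h.1 hr
      (hball1 x hx) (hball1 x hx) (by rw [dist_self]; positivity)
    have hs2 : 0 < dy (k'' + 7) ^ n := pow_pos (dy_pos _) _
    have hQn := (Qn_facts n hA).1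
    have h2n : (1 : ℝ) ≤ 2 ^ n := one_le_pow₀ (by norm_num)
    have e2 : dy (k'' + 7) ^ n * 2 ^ n = r ^ n := by
      rw [hr2, ← mul_pow]; congr 1; ring
    have h1 := A3' d ox q6 ((Nd k' x h).weaken hrn q2 (by gcongr) (by gcongr))
      (f' := fr (dy (k'' + 7))) (by
        funext a u
        rw [hr2]
        unfold Gap79.fr
        ring)
      (j' := jr (dy (k'' + 7)) x) (by
        funext w u
        rw [hr2]
        unfold jr PlI585.hr
        field_simp)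
      ((Nd k'' x h').weaken hrn q2 (by
        have : dy (k'' + 7) ^ n ≤ r ^ n := by
          rw [← e2]
          nlinarith
        gcongr) (by
        rw [← e2]
        calc Qn n A * (dy (k'' + 7) ^ n * 2 ^ n) = (Qn n A * 2 ^ n) * dy (k'' + 7) ^ n := by ring
          _ ≤ Q * dy (k'' + 7) ^ n := by gcongr)) he
    refine h1.trans ?_
    have s1 := Real.sqrt_nonneg (E k' x)
    have s2 := Real.sqrt_nonneg (E k'' x)
    calc 72 * Q ^ 10 * (Real.sqrt (E k' x) + Real.sqrt (E k' x)) =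
        144 * Q ^ 10 * Real.sqrt (E k' x) := by ring
      _ ≤ 144 * Q ^ 10 * (Real.sqrt (E k' x) + Real.sqrt (E k'' x)) := by
          gcongr
          linarith

end Crest.Agent.R247.Pln923
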