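import Crest.Agent.R247.Q9b_550

/-!
# R247: dimension zero and the final form `GlueDataT 40 n`
-/

set_option autoImplicit false
set_option linter.unusedSectionVars false
noncomputable section
open Set Filter Topology MeasureTheory Metric
open scoped ContDiff Manifold ENNReal
open Bundle Crest.GeometryTopology.CoordMetric Crest.GeometryTopology.ChartCurvature
  Crest.GeometryTopology.PointedLimit

namespace Crest.Agent.R247.Q9550

universe u

open Crest.Agent.R247.Mcp688 Crest.Agent.R247.Far553 Crest.Agent.R247.Cal550
  Crest.Agent.R247.GluM923 Crest.Agent.R247.Nis710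

/-- A connected `0`-manifold is a point. -/
theorem subsingleton_of_zero (M : Type u) [MetricSpace M] [ConnectedSpace M]
    [ChartedSpace (EuclideanSpace ℝ (Fin 0)) M] : Subsingleton M := by
  have hd : DiscreteTopology M := by
    rw [discreteTopology_iff_isOpen_singleton]
    intro x
    have h1 : (chartAt (EuclideanSpace ℝ (Fin 0)) x).source = {x} := by
      ext y
      constructor
      · intro hy
        exact (chartAt (EuclideanSpace ℝ (Fin 0)) x).injOn hy
          (mem_chart_source (EuclideanSpace ℝ (Fin 0)) x) (Subsingleton.elim _ _)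
      · rintro rfl
        exact mem_chart_source (EuclideanSpace ℝ (Fin 0)) _
    rw [← h1]
    exact (chartAt (EuclideanSpace ℝ (Fin 0)) x).open_source
  exact PreconnectedSpace.trivial_of_discrete

theorem glueDataT_zero (T : ℝ) : GlueDataT.{u} T 0 := by
  refine ⟨1, le_rfl, 1, one_pos, fun η hη => ⟨1, one_pos, le_rfl, 1, le_rfl, 1, one_pos, ?_⟩⟩
  intro M _ _ _ _ _ _ _ _ _ _ q _ _
  have hsub := subsingleton_of_zero M
  refine ⟨Lp ℝ 2 (0 : Measure M), inferInstance, inferInstance, inferInstance, fun _ => 0,
    fun _ _ => 0, fun _ _ => 0, ?_⟩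
  refine
    { Ψ_le := fun x _ y _ => by simp
      near := fun x _ y _ => by
        rw [Subsingleton.elim x y]; simp
      D_nonneg := fun _ _ _ _ => le_rfl
      D_sum := fun x _ m => by simpa using hη.le
      proj := fun k _ x _ => ?_
      rank := fun x _ => ⟨⊥, inferInstance, finrank_bot ℝ _, fun v => by simp⟩
      A1 := fun k _ x _ y _ _ => by
        simp
      A2 := fun k _ x _ y _ _ => by simp
      A3 := fun k _ x _ => by simp }
  constructor <;> simp

/-- **Choice of the constants**, all dimensions. -/
theorem glueDataT_of' {n : ℕ} (h : 1 ≤ n → ∃ c : FarK, PkP.{u} n c ∧ FarConcl.{u} n c ∧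
    NearP.{u} n ∧ LocP.{u} n c ∧ PlThm.{u} n) : GlueDataT.{u} 40 n := by
  rcases Nat.eq_zero_or_pos n with rfl | hn
  · exact glueDataT_zero 40
  · obtain ⟨c, h1, h2, h3, h4, h5⟩ := h hn
    exact glueDataT_of hn h1 h2 h3 h4 h5

end Crest.Agent.R247.Q9550
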