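import Crest.Agent.R247.Top_546
import Crest.Agent.R247.Q9c_550
import Crest.Agent.R247.Ch6_111
import Crest.Agent.R247.Near4_710
import Crest.Agent.R247.Loc2_596
import Crest.Agent.R247.Pln7_923

/-!
# R247: S0381 from the package Prop `PkP n c` alone
-/

set_option autoImplicit false
noncomputable section
open Set Filter Topology MeasureTheory Metric
open scoped ContDiff Manifold ENNReal NNReal
open Bundle Crest.GeometryTopology.CoordMetric Crest.GeometryTopology.ChartCurvature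
  Crest.GeometryTopology.PointedLimit

namespace Crest.Agent.R247.Last550

universe u

/-- `GlueDataT 40 n` from the package. -/
theorem glue_of_pkP (n : ℕ) (h : 1 ≤ n → ∃ c : Far553.FarK, Q9550.PkP.{u} n c) :
    GluM923.GlueDataT.{u} 40 n := by
  refine Q9550.glueDataT_of' fun hn => ?_
  obtain ⟨c, hc⟩ := h hn
  exact ⟨c, hc, Ch111.farConcl c hn, Near710.nearP n hn, Loc596.locP n c, Pln923.plThm n⟩

/-- **S0381** from the package. -/
theorem s0381_of_pkP (n : ℕ) (h : 1 ≤ n → ∃ c : Far553.FarK, Q9550.PkP.{u} n c) :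
    ∃ L : ℝ, 1 ≤ L ∧
      ∀ (K : ℝ) (M : ℕ → Type u) [∀ k, MetricSpace (M k)] [∀ k, CompleteSpace (M k)]
        [∀ k, ConnectedSpace (M k)] [∀ k, ChartedSpace (EuclideanSpace ℝ (Fin n)) (M k)]
        [∀ k, IsManifold 𝓘(ℝ, EuclideanSpace ℝ (Fin n)) ∞ (M k)]
        [∀ k, RiemannianBundle (fun x : M k => TangentSpace 𝓘(ℝ, EuclideanSpace ℝ (Fin n)) x)]
        [∀ k, IsContMDiffRiemannianBundle 𝓘(ℝ, EuclideanSpace ℝ (Fin n)) ∞ (EuclideanSpace ℝ (Fin n))
          (fun x : M k => TangentSpace 𝓘(ℝ, EuclideanSpace ℝ (Fin n)) x)]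
        [∀ k, IsRiemannianManifold 𝓘(ℝ, EuclideanSpace ℝ (Fin n)) (M k)]
        [∀ k, MeasurableSpace (M k)] [∀ k, BorelSpace (M k)] (q : ∀ k, M k),
        (∀ k, HasRicciLowerBound n (M k) K) →
        (∃ v : ℝ, 0 < v ∧ ∀ k, ENNReal.ofReal v ≤
          MeasureTheory.Measure.euclideanHausdorffMeasure n (Metric.ball (q k) 1)) →
        ∀ (X : Type u) [MetricSpace X] [CompleteSpace X] (p : X),
          SeqPointedTendsto q p → RescalingsTendstoEuclidean p n →
          ∃ U : Set X, IsOpen U ∧ p ∈ U ∧ ∃ F : X → EuclideanSpace ℝ (Fin n), IsOpen (F '' U) ∧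
            ∀ x ∈ U, ∀ z ∈ U, L⁻¹ * dist x z ≤ dist (F x) (F z) ∧
              dist (F x) (F z) ≤ L * dist x z :=
  Top546.s0381_of_glue n (glue_of_pkP n h)

end Crest.Agent.R247.Last550
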