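import Crest.Agent.R247.Sm5_879
import Crest.Agent.R247.Bo7_84
import Crest.Agent.R247.Lc2_582

/-!
Row 247, leaf (c-prime), file 3 (helper582): velocity of a minimiser in a chart.

If `dist z (γ t) = t` and `dist (γ t) (γ s) ≤ |t - s|` for `t` near `s > 0` and `d²/2` is smooth at
`(z, γ s)`, then in the chart at any `x₀` the curve has derivative `s⁻¹ ∇f` at `s`
(`f = d(z, ·)²/2`).
-/

set_option autoImplicit false
set_option maxSynthPendingDepth 3
set_option linter.unusedSectionVars false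

open Bundle Set Filter Topology
open scoped Manifold ContDiff NNReal
open Crest.GeometryTopology.CoordMetric Crest.GeometryTopology.ChartCurvature
  Crest.GeometryTopology.PointedLimit
open Crest.GeometryTopology.MTW
open Crest.Agent.R226.ChartMet842
open Crest.Agent.R226.CutSmooth77 (SC)
open Crest.Agent.R202.Tens Crest.Agent.R247.Bo84
open Crest.Agent.R247.Sm879 (ExM fz exists_grad_chart gam_fz contDiffAt_fz sc_of_btw)

noncomputable section

namespace Crest.Agent.R247.Lc582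

variable {n : ℕ} {M : Type*} [MetricSpace M] [ChartedSpace (EuclideanSpace ℝ (Fin n)) M]
  [IsManifold (𝓡 n) ∞ M]
  [RiemannianBundle (fun p : M => TangentSpace (𝓡 n) p)]
  [IsContMDiffRiemannianBundle (𝓡 n) ∞ (EuclideanSpace ℝ (Fin n)) (fun p : M => TangentSpace (𝓡 n) p)]
  [IsRiemannianManifold (𝓡 n) M]

local notation "𝔼" => EuclideanSpace ℝ (Fin n)

/-- the gradient in the chart represents the differential with respect to `gm`. -/
theorem gm_grad (x₀ : M) {a : 𝔼} (ha : a ∈ (chartAt 𝔼 x₀).target) (F : 𝔼 → ℝ) (ξ : 𝔼) :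
    gm x₀ a (grad (chartMetric n M x₀) F a) ξ = fderiv ℝ F a ξ := by
  rw [← Sm879.bil_chartMetric, bil_grad (isRiemannianOn_chartMetric x₀) ha]

set_option maxHeartbeats 1000000 in
/-- **velocity of a minimiser in a chart**. -/
theorem velocity (hm : ExM M) {z x₀ : M} {γ : ℝ → M} {s : ℝ} (hs : 0 < s)
    (hsrc : γ s ∈ (chartAt 𝔼 x₀).source) (hsc : SC n z (γ s))
    (hd : ∀ᶠ t in 𝓝 s, dist z (γ t) = t) (hl : ∀ᶠ t in 𝓝 s, dist (γ t) (γ s) ≤ |t - s|) :
    HasDerivAt (fun t => chartAt 𝔼 x₀ (γ t))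
      (s⁻¹ • grad (chartMetric n M x₀) (fz z x₀) (chartAt 𝔼 x₀ (γ s))) s := by
  set φ := chartAt 𝔼 x₀ with hφ
  set a := φ (γ s) with ha_def
  have ha : a ∈ φ.target := φ.map_source hsrc
  have hsa : φ.symm a = γ s := φ.left_inv hsrc
  set F := fz (n := n) z x₀ with hF
  set w := grad (chartMetric n M x₀) F a with hw
  have hsc' : SC n z (φ.symm a) := by rw [hsa]; exact hsc
  have hFd : DifferentiableAt ℝ F a := (contDiffAt_fz ha hsc').differentiableAt (by simp)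
  have hds : dist z (γ s) = s := hd.self_of_nhds
  -- norm of the gradient
  have hww : gm x₀ a w w = s ^ 2 := by
    have h1 := gam_fz hm ha hsc'
    rw [gam_eq_bil (isRiemannianOn_chartMetric x₀) ha, Sm879.bil_chartMetric] at h1
    rw [← hF, ← hw] at h1
    rw [h1, hF, fz, hsa, halfDistSq, hds]
    ring
  obtain ⟨A, hA, -⟩ := Ms322.exists_isometry x₀ ha
  -- continuity
  have hcγ : Tendsto γ (𝓝 s) (𝓝 (γ s)) := by
    rw [tendsto_iff_dist_tendsto_zero]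
    have h1 : Tendsto (fun t : ℝ => |t - s|) (𝓝 s) (𝓝 0) := by
      have : Tendsto (fun t : ℝ => |t - s|) (𝓝 s) (𝓝 |s - s|) :=
        ((continuous_id.sub continuous_const).abs).tendsto s
      simpa using this
    exact squeeze_zero' (Eventually.of_forall fun t => dist_nonneg) hl h1
  have hcφ : Tendsto (fun t => φ (γ t)) (𝓝 s) (𝓝 a) :=
    (φ.continuousAt hsrc).tendsto.comp hcγ
  have hsrcev : ∀ᶠ t in 𝓝 s, γ t ∈ φ.source := hcγ (φ.open_source.mem_nhds hsrc)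
  -- value of `F` along the curve
  have hFv : ∀ᶠ t in 𝓝 s, F (φ (γ t)) = t ^ 2 / 2 := by
    filter_upwards [hsrcev, hd] with t ht1 ht2
    rw [hF, fz, ← hφ, φ.left_inv ht1, halfDistSq, ht2]
  have hFs : F a = s ^ 2 / 2 := hFv.self_of_nhds
  set K : ℝ := ‖(A.symm : 𝔼 →L[ℝ] 𝔼)‖ + 1 with hK
  have hK0 : 0 < K := by positivity
  have hAv : ∀ v : 𝔼, ‖v‖ ≤ K * ‖A v‖ := by
    intro v
    have h1 := (A.symm : 𝔼 →L[ℝ] 𝔼).le_opNorm (A v)
    have h2 : (A.symm : 𝔼 →L[ℝ] 𝔼) (A v) = v := A.symm_apply_apply v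
    rw [h2] at h1
    refine h1.trans ?_
    have := norm_nonneg (A v)
    nlinarith
  rw [hasDerivAt_iff_isLittleO, Asymptotics.isLittleO_iff]
  have hFw : ∀ ξ, inner ℝ (A w) (A ξ) = fderiv ℝ F a ξ := by
    intro ξ
    rw [hA, hw, gm_grad x₀ ha]
  clear_value w F
  intro c hc
  -- choose ε with K ε ≤ c
  set ε : ℝ := c / K with hε
  have hε0 : 0 < ε := by positivity
  -- η with (1+η)² - 1 ≤ ε²/2
  obtain ⟨η, hη0, hη⟩ : ∃ η : ℝ≥0, 0 < η ∧ (1 + (η : ℝ)) ^ 2 - 1 ≤ ε ^ 2 / 2 ∧ (η : ℝ) ≤ 1 := by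
    have h3 : 0 < min 1 (ε ^ 2 / 6) := by positivity
    refine ⟨Real.toNNReal (min 1 (ε ^ 2 / 6)), Real.toNNReal_pos.2 h3, ?_, ?_⟩
    · rw [Real.coe_toNNReal _ h3.le]
      have h1 := min_le_left 1 (ε ^ 2 / 6)
      have h2 := min_le_right 1 (ε ^ 2 / 6)
      nlinarith
    · rw [Real.coe_toNNReal _ h3.le]
      exact min_le_left _ _
  obtain ⟨r, hr0, hrt, -, hrL⟩ := Ms322.exists_bilip x₀ ha hA hη0
  -- derivative of F
  have hFo := hFd.hasFDerivAt.isLittleO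
  rw [Asymptotics.isLittleO_iff] at hFo
  set δ : ℝ := s * ε ^ 2 / (16 * K) with hδ
  have hδ0 : 0 < δ := by positivity
  have hF1 := hcφ (hFo hδ0)
  have hball : ∀ᶠ t in 𝓝 s, φ (γ t) ∈ Metric.ball a r := hcφ (Metric.ball_mem_nhds a hr0)
  have hsmall : ∀ᶠ t in 𝓝 s, |t - s| ≤ s * ε ^ 2 / 4 := by
    have : Metric.closedBall s (s * ε ^ 2 / 4) ∈ 𝓝 s :=
      Metric.closedBall_mem_nhds s (by positivity)
    filter_upwards [this] with t ht
    rwa [Metric.mem_closedBall, Real.dist_eq] at ht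
  filter_upwards [hF1, hball, hFv, hsrcev, hl, hsmall] with t ht1 ht2 ht3 ht4 ht5 ht6
  set Δ := φ (γ t) - a with hΔ
  set h := t - s with hh
  -- ‖A Δ‖ ≤ (1+η)|h|
  have hL1 : ‖A Δ‖ ≤ (1 + η) * |h| := by
    have h1 : γ t ∈ φ.symm '' Metric.ball a r := ⟨φ (γ t), ht2, φ.left_inv ht4⟩
    have h2 : γ s ∈ φ.symm '' Metric.ball a r := ⟨a, Metric.mem_ball_self hr0, hsa⟩
    have h3 := hrL.dist_le_mul _ h1 _ h2
    rw [← hφ, dist_eq_norm, ← map_sub, ← ha_def] at h3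
    refine h3.trans ?_
    push_cast
    have : (0:ℝ) ≤ 1 + η := by positivity
    gcongr
  have hL2 : ‖A Δ‖ ≤ 2 * |h| := by
    refine hL1.trans ?_
    have := abs_nonneg h
    nlinarith [hη.2]
  have hΔn : ‖Δ‖ ≤ 2 * K * |h| := by
    have := hAv Δ
    nlinarith
  -- F' Δ = s h + small
  have hF2 : |fderiv ℝ F a Δ - s * h| ≤ δ * (2 * K * |h|) + h ^ 2 / 2 := by
    have ht1 : ‖F (φ (γ t)) - F a - fderiv ℝ F a (φ (γ t) - a)‖ ≤ δ * ‖φ (γ t) - a‖ := ht1
    rw [Real.norm_eq_abs, ht3, hFs, ← hΔ] at ht1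
    have h1 : t ^ 2 / 2 - s ^ 2 / 2 = s * h + h ^ 2 / 2 := by rw [hh]; ring
    rw [h1] at ht1
    have h2 : δ * ‖Δ‖ ≤ δ * (2 * K * |h|) := by gcongr
    have h3 := ht1.trans h2
    have h4 := sq_nonneg h
    rw [abs_le] at h3 ⊢
    obtain ⟨h3a, h3b⟩ := h3
    constructor
    · linarith
    · linarith
  have hinner : inner ℝ (A w) (A Δ) = fderiv ℝ F a Δ := hFw Δ
  have hAw : ‖A w‖ ^ 2 = s ^ 2 := by
    rw [← real_inner_self_eq_norm_sq, hA, hww]
  -- the main estimate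
  have hmain : ‖A (Δ - h • (s⁻¹ • w))‖ ^ 2 ≤ ε ^ 2 * h ^ 2 := by
    have e1 : ‖A (Δ - h • (s⁻¹ • w))‖ ^ 2 = ‖A Δ‖ ^ 2 - 2 * (h / s) * fderiv ℝ F a Δ + h ^ 2 := by
      rw [map_sub, map_smul, map_smul, norm_sub_sq_real, real_inner_smul_right,
        real_inner_smul_right, real_inner_comm, hinner, norm_smul, norm_smul, mul_pow, mul_pow,
        hAw, Real.norm_eq_abs, Real.norm_eq_abs, sq_abs, sq_abs]
      field_simp
    rw [e1]
    have h4 : ‖A Δ‖ ^ 2 ≤ (1 + η) ^ 2 * h ^ 2 := by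
      have := pow_le_pow_left₀ (norm_nonneg _) hL1 2
      rw [mul_pow, sq_abs] at this
      exact this
    have h5 : |(h / s) * (fderiv ℝ F a Δ - s * h)| ≤ ε ^ 2 / 4 * h ^ 2 := by
      rw [abs_mul, abs_div, abs_of_pos hs]
      have h6 : |h| / s * |fderiv ℝ F a Δ - s * h| ≤ |h| / s * (δ * (2 * K * |h|) + h ^ 2 / 2) := by
        gcongr
      refine h6.trans ?_
      have e2 : |h| / s * (δ * (2 * K * |h|) + h ^ 2 / 2) =
          ε ^ 2 / 8 * |h| ^ 2 + |h| * |h| ^ 2 / (2 * s) := by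
        rw [hδ, sq_abs]
        field_simp
        ring_nf
        rw [sq_abs]
        ring
      rw [e2]
      have h7 : |h| * |h| ^ 2 / (2 * s) ≤ ε ^ 2 / 8 * |h| ^ 2 := by
        rw [div_le_iff₀ (by positivity)]
        have h8 : |h| * |h| ^ 2 ≤ (s * ε ^ 2 / 4) * |h| ^ 2 := by gcongr
        linarith
      rw [sq_abs] at h7 ⊢
      linarith
    have h9 := (abs_le.1 h5).1
    have e3 : 2 * (h / s) * fderiv ℝ F a Δ = 2 * ((h / s) * (fderiv ℝ F a Δ - s * h)) + 2 * h ^ 2 := by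
      field_simp
      ring
    rw [e3]
    have h10 : (1 + (η : ℝ)) ^ 2 * h ^ 2 ≤ (1 + ε ^ 2 / 2) * h ^ 2 := by
      have := hη.1
      gcongr
      linarith
    linarith
  have hfin : ‖A (Δ - h • (s⁻¹ • w))‖ ≤ ε * |h| := by
    rw [← sq_abs h, ← mul_pow] at hmain
    exact le_of_sq_le_sq hmain (by positivity)
  calc ‖φ (γ t) - φ (γ s) - (t - s) • s⁻¹ • w‖ = ‖Δ - h • (s⁻¹ • w)‖ := rfl
    _ ≤ K * ‖A (Δ - h • (s⁻¹ • w))‖ := hAv _
    _ ≤ K * (ε * |h|) := by gcongr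
    _ = c * ‖t - s‖ := by rw [hε, Real.norm_eq_abs, ← hh]; field_simp

end Crest.Agent.R247.Lc582
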