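import Crest.Agent.R247.Mcs9_816
import Crest.Agent.R247.Sm5_879
import Crest.Agent.R247.Ms3_322

/-!
Row 247, block (6c)/(6d) (helper816), file 10: the barrier family `(d(x,z) + d(z,·))²/2` in a chart:
geometric background, jointly `C²`, eikonal equation, Laplacian.
-/

set_option autoImplicit false
set_option maxSynthPendingDepth 3
set_option linter.unusedSectionVars false

open Bundle Set Filter Topology
open scoped Manifold ContDiff
open Crest.GeometryTopology.CoordMetric Crest.GeometryTopology.ChartCurvature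
open Crest.GeometryTopology.PointedLimit
open Crest.GeometryTopology.MTW Crest.Agent.R244 Crest.Agent.R226
open Crest.Agent.R226.ChartMet842
open Crest.Agent.R226.CutSmooth77 (SC)
open Crest.Agent.R202.Tens Crest.Agent.R247.Ms322 Crest.Agent.R247.Sm879

noncomputable section

namespace Crest.Agent.R247.Mcs816

variable {n : ℕ} {M : Type*} [MetricSpace M] [ChartedSpace (EuclideanSpace ℝ (Fin n)) M]
  [IsManifold (𝓡 n) ∞ M]
  [RiemannianBundle (fun p : M => TangentSpace (𝓡 n) p)]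
  [IsContMDiffRiemannianBundle (𝓡 n) ∞ (EuclideanSpace ℝ (Fin n)) (fun p : M => TangentSpace (𝓡 n) p)]

local notation "𝔼" => EuclideanSpace ℝ (Fin n)

/-- the chart data of the Riemannian metric and volume. -/
theorem bg_chart (y0 : M) : BG (chartAt 𝔼 y0).target (gm (n := n) y0) (dens (n := n) y0) where
  isOpen := (chartAt 𝔼 y0).open_target
  gg_smooth := (isLC_gm y0).g_smooth.of_le (WithTop.coe_le_coe.2 le_top)
  gg_pos := (isLC_gm y0).g_pos
  w_smooth := (contDiffOn_dens y0).of_le (WithTop.coe_le_coe.2 le_top)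
  w_pos := fun _ ha => dens_pos y0 ha

theorem gv_eq_grad (y0 : M) {a : 𝔼} (ha : a ∈ (chartAt 𝔼 y0).target) (f : 𝔼 → ℝ) :
    gv (gm (n := n) y0) f a = Bo84.grad (chartMetric n M y0) f a :=
  ((bg_chart y0).gv_unique ha fun u => by
    rw [← bil_chartMetric, Bo84.bil_grad (isRiemannianOn_chartMetric y0) ha]).symm

theorem lapw_eq (y0 : M) {a : 𝔼} (ha : a ∈ (chartAt 𝔼 y0).target) {f : 𝔼 → ℝ}
    (hf : ContDiffAt ℝ 2 f a) : lapw (gm (n := n) y0) (dens (n := n) y0) f a =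
      dens (n := n) y0 a * laplaceBeltrami (chartMetric n M y0) f a := by
  have hg := isRiemannianOn_chartMetric (n := n) y0
  have hev : gv (gm (n := n) y0) f =ᶠ[𝓝 a] Bo84.grad (chartMetric n M y0) f := by
    filter_upwards [(chartAt 𝔼 y0).open_target.mem_nhds ha] with b hb using gv_eq_grad y0 hb f
  set V := Bo84.grad (chartMetric n M y0) f with hV
  have hVd : DifferentiableAt ℝ V a :=
    (Bo84.contDiffAt_grad hg ha (m := 1) hf (by norm_num) (by simp)).differentiableAt (by norm_num)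
  have hs : DifferentiableAt ℝ (dens (n := n) y0) a :=
    ((contDiffOn_dens y0).contDiffAt ((chartAt 𝔼 y0).open_target.mem_nhds ha)).differentiableAt
      (by simp)
  have hVi : ∀ i, HasFDerivAt (fun y => V y i)
      ((EuclideanSpace.proj i : 𝔼 →L[ℝ] ℝ).comp (fderiv ℝ V a)) a := fun i =>
    (EuclideanSpace.proj i : 𝔼 →L[ℝ] ℝ).hasFDerivAt.comp a hVd.hasFDerivAt
  have hpos := dens_pos (n := n) y0 ha
  unfold lapw
  rw [hev.fderiv_eq, hev.self_of_nhds, ← Bo84.divg_grad, ← hV]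
  have h1 : ∀ i, pderiv i (fun y => Real.sqrt (chartMetric n M y0 y).det * V y i) a =
      dens (n := n) y0 a * (fderiv ℝ V a (EuclideanSpace.single i 1)) i +
        V a i * pderiv i (dens (n := n) y0) a := by
    intro i
    have h2 := (hs.hasFDerivAt.fun_mul (hVi i)).fderiv
    unfold pderiv
    change fderiv ℝ (fun y => dens (n := n) y0 y * V y i) a _ = _
    rw [h2]
    simp only [_root_.add_apply, _root_.smul_apply, smul_eq_mul, ContinuousLinearMap.comp_apply]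
    rfl
  have h3 : Bo84.divg (chartMetric n M y0) V a = (1 / dens (n := n) y0 a) *
      ∑ i, pderiv i (fun y => Real.sqrt (chartMetric n M y0 y).det * V y i) a := rfl
  rw [h3]
  simp only [h1]
  rw [Finset.sum_add_distrib, ← Finset.mul_sum, ← mul_assoc, mul_one_div_cancel hpos.ne', one_mul,
    add_comm]
  congr 1
  · rw [← Bo84.trL_apply, Bo84.trL_eq_trace]
    rfl
  · rw [fderiv_eq_sum]

/-- the open set of parameters and points. -/
def OO (n : ℕ) {M : Type*} [MetricSpace M] [ChartedSpace (EuclideanSpace ℝ (Fin n)) M] (y0 : M) :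
    Set (M × EuclideanSpace ℝ (Fin n)) :=
  {q | q.2 ∈ (chartAt (EuclideanSpace ℝ (Fin n)) y0).target ∧
    q.1 ≠ (chartAt (EuclideanSpace ℝ (Fin n)) y0).symm q.2 ∧
    ((chartAt (EuclideanSpace ℝ (Fin n)) y0).symm q.2, q.1) ∈ Om M}

/-- the barriers. -/
def FF (n : ℕ) {M : Type*} [MetricSpace M] [ChartedSpace (EuclideanSpace ℝ (Fin n)) M]
    (x y0 z : M) (b : EuclideanSpace ℝ (Fin n)) : ℝ := Gc (dist x z) (fz (n := n) z y0 b)

theorem fz_eq (z y0 : M) (b : 𝔼) : fz (n := n) z y0 b = dist z ((chartAt 𝔼 y0).symm b) ^ 2 / 2 :=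
  rfl

theorem sqrt_fz (z y0 : M) (b : 𝔼) :
    √(2 * fz (n := n) z y0 b) = dist z ((chartAt 𝔼 y0).symm b) := by
  rw [fz_eq, mul_div_cancel₀ _ (two_ne_zero), Real.sqrt_sq dist_nonneg]

theorem FF_eq (x y0 z : M) (b : 𝔼) :
    FF n x y0 z b = (dist x z + dist z ((chartAt 𝔼 y0).symm b)) ^ 2 / 2 := by
  rw [FF, Gc, sqrt_fz]

theorem fz_pos {z y0 : M} {b : 𝔼} (h : z ≠ (chartAt 𝔼 y0).symm b) : 0 < fz (n := n) z y0 b := by
  have := dist_pos.2 h
  rw [fz_eq]
  positivity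

variable [IsRiemannianManifold (𝓡 n) M] [ProperSpace M]

theorem isOpen_OO (hm : ExM M) (y0 : M) : IsOpen (OO n y0) := by
  have h1 : ContinuousOn (fun q : M × 𝔼 => ((chartAt 𝔼 y0).symm q.2, q.1))
      (univ ×ˢ (chartAt 𝔼 y0).target) := by
    refine ContinuousOn.prodMk ?_ continuousOn_fst
    exact (chartAt 𝔼 y0).continuousOn_symm.comp continuousOn_snd fun p hp => hp.2
  have h2 : IsOpen {p : M × M | p.2 ≠ p.1 ∧ p ∈ Om M} :=
    (isOpen_ne_fun continuous_snd continuous_fst).inter (isOpen_Om n hm)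
  have h3 := h1.isOpen_inter_preimage (isOpen_univ.prod (chartAt 𝔼 y0).open_target) h2
  convert h3 using 1
  ext q
  simp only [OO, mem_ofPred_eq, mem_inter_iff, mem_prod, mem_univ, true_and, mem_preimage]

theorem sc_of_OO (hm : ExM M) {y0 : M} {q : M × 𝔼} (hq : q ∈ OO n y0) :
    SC n q.1 ((chartAt 𝔼 y0).symm q.2) := sc_of_Om' hm hq.2.2

/-- the barrier family is jointly `C²`. -/
theorem jf_barrier (hm : ExM M) (x y0 : M) :
    JF (chartAt 𝔼 y0).target (OO n y0) (FF n x y0) := by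
  have key : ∀ q ∈ OO n y0, ContDiffAt ℝ 2 (FF n x y0 q.1) q.2 ∧
      ContinuousAt (fun q : M × 𝔼 => fderiv ℝ (FF n x y0 q.1) q.2) q ∧
      ContinuousAt (fun q : M × 𝔼 => fderiv ℝ (fderiv ℝ (FF n x y0 q.1)) q.2) q := by
    rintro ⟨z, b⟩ hq
    have hsc : SC n ((chartAt 𝔼 z).symm (chartAt 𝔼 z z)) ((chartAt 𝔼 y0).symm b) := by
      rw [(chartAt 𝔼 z).left_inv (mem_chart_source 𝔼 z)]
      exact sc_of_OO hm hq
    have hp := contDiffAt_pair (mem_chart_target 𝔼 z) hq.1 hsc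
    have hpos : 0 < halfDistSq ((chartAt 𝔼 z).symm (chartAt 𝔼 z z)) ((chartAt 𝔼 y0).symm b) := by
      rw [(chartAt 𝔼 z).left_inv (mem_chart_source 𝔼 z)]
      exact fz_pos hq.2.1
    have hψ : ContDiffAt ℝ ∞ (fun p : (𝔼 × ℝ) × 𝔼 => Gc p.1.2
        (halfDistSq ((chartAt 𝔼 z).symm p.1.1) ((chartAt 𝔼 y0).symm p.2)))
        ((chartAt 𝔼 z z, dist x z), b) := by
      have e1 : ContDiffAt ℝ ∞ (fun p : (𝔼 × ℝ) × 𝔼 =>
          halfDistSq ((chartAt 𝔼 z).symm p.1.1) ((chartAt 𝔼 y0).symm p.2))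
          ((chartAt 𝔼 z z, dist x z), b) :=
        ContDiffAt.comp ((chartAt 𝔼 z z, dist x z), b)
          (f := fun p : (𝔼 × ℝ) × 𝔼 => (p.1.1, p.2)) hp (by fun_prop)
      have e2 : ContDiffAt ℝ ∞ (fun p : (𝔼 × ℝ) × 𝔼 =>
          √(2 * halfDistSq ((chartAt 𝔼 z).symm p.1.1) ((chartAt 𝔼 y0).symm p.2)))
          ((chartAt 𝔼 z z, dist x z), b) :=
        (contDiffAt_const.mul e1).sqrt (mul_pos two_pos hpos).ne'
      have e3 : ContDiffAt ℝ ∞ (fun p : (𝔼 × ℝ) × 𝔼 => p.1.2)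
          ((chartAt 𝔼 z z, dist x z), b) := by fun_prop
      exact ((e3.add e2).pow 2).div_const 2
    refine param_JF (P := M) (A := 𝔼 × ℝ) (φ := fun z' => (chartAt 𝔼 z z', dist x z'))
      (ψ := fun p : (𝔼 × ℝ) × 𝔼 => Gc p.1.2
        (halfDistSq ((chartAt 𝔼 z).symm p.1.1) ((chartAt 𝔼 y0).symm p.2))) ?_
      (hψ.of_le (WithTop.coe_le_coe.2 le_top)) ?_
    · exact ((chartAt 𝔼 z).continuousAt (mem_chart_source 𝔼 z)).prodMk (by fun_prop)
    · have hs : ∀ᶠ q : M × 𝔼 in 𝓝 (z, b), q.1 ∈ (chartAt 𝔼 z).source :=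
        continuousAt_fst.eventually (chart_source_mem_nhds 𝔼 z)
      filter_upwards [hs] with q hq
      simp only [FF, fz, (chartAt 𝔼 z).left_inv hq]
  exact ⟨isOpen_OO hm y0, fun q hq => hq.1, fun q hq => (key q hq).1,
    fun q hq => (key q hq).2.1.continuousWithinAt, fun q hq => (key q hq).2.2.continuousWithinAt⟩

theorem eik_fz (hm : ExM M) {y0 z : M} {b : 𝔼} (hb : b ∈ (chartAt 𝔼 y0).target)
    (h : SC n z ((chartAt 𝔼 y0).symm b)) :
    gm y0 b (gv (gm y0) (fz (n := n) z y0) b) (gv (gm y0) (fz (n := n) z y0) b) =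
      2 * fz (n := n) z y0 b := by
  rw [← gam_fz hm hb h, Bo84.gam_eq_bil (isRiemannianOn_chartMetric y0) hb, bil_chartMetric,
    gv_eq_grad y0 hb]

theorem eik_FF (hm : ExM M) (x : M) {y0 : M} {q : M × 𝔼} (hq : q ∈ OO n y0) :
    gm y0 q.2 (gv (gm y0) (FF n x y0 q.1) q.2) (gv (gm y0) (FF n x y0 q.1) q.2) =
      2 * FF n x y0 q.1 q.2 := by
  have hsc := sc_of_OO hm hq
  exact eik_barrier ((contDiffAt_fz hq.1 hsc).differentiableAt (by simp)) (fz_pos hq.2.1)
    (eik_fz hm hq.1 hsc) _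

/-- Laplacian of the barrier. -/
theorem lapw_FF (hm : ExM M) (x : M) {y0 : M} {q : M × 𝔼} (hq : q ∈ OO n y0) {Λ : ℝ}
    (hΛ : laplaceBeltrami (chartMetric n M y0) (fz (n := n) q.1 y0) q.2 ≤ Λ) :
    lapw (gm (n := n) y0) (dens (n := n) y0) (FF n x y0 q.1) q.2 ≤
      (1 + dist x q.1 / dist q.1 ((chartAt 𝔼 y0).symm q.2)) * Λ * dens (n := n) y0 q.2 := by
  have hsc := sc_of_OO hm hq
  have hcd : ContDiffAt ℝ 2 (fz (n := n) q.1 y0) q.2 :=
    (contDiffAt_fz hq.1 hsc).of_le (WithTop.coe_le_coe.2 le_top)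
  have h1 := (bg_chart (n := n) y0).lapw_barrier hq.1 hcd (fz_pos hq.2.1)
    (eik_fz hm hq.1 hsc) (c := dist x q.1) (Λ := Λ) dist_nonneg (by
      rw [lapw_eq y0 hq.1 hcd, mul_comm]
      exact mul_le_mul_of_nonneg_right hΛ (dens_nonneg y0 _))
  rw [sqrt_fz] at h1
  exact h1

end Crest.Agent.R247.Mcs816
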