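import Crest.Agent.R247.Mcs10_816
import Crest.Agent.R247.Mcs6_816

/-!
Row 247, block (6c)/(6d) (helper816), file 11: distance in a chart from above by the length of the
segment; local minimiser points; local contraction on the manifold.
-/

set_option autoImplicit false
set_option maxSynthPendingDepth 3
set_option linter.unusedSectionVars false

open Bundle Set Filter Topology MeasureTheory Metric
open scoped Manifold ContDiff ENNReal NNReal
open Crest.GeometryTopology.CoordMetric Crest.GeometryTopology.ChartCurvature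
open Crest.GeometryTopology.PointedLimit
open Crest.GeometryTopology.MTW Crest.Agent.R244 Crest.Agent.R226
open Crest.Agent.R226.ChartMet842
open Crest.Agent.R226.CutSmooth77 (SC)
open Crest.Agent.R202.Tens Crest.Agent.R247.Ms322 Crest.Agent.R247.Sm879

noncomputable section

namespace Crest.Agent.R247.Mcs816

section metric

variable {M : Type*} [MetricSpace M]

/-- the points at distance `δ` from `x` on the minimisers from `x` to `q`. -/
def SS (x : M) (δ : ℝ) (q : M) : Set M := {z | dist x z = δ ∧ dist z q = dist x q - δ}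

theorem isCompact_SS [ProperSpace M] (x : M) (δ : ℝ) (q : M) : IsCompact (SS x δ q) := by
  refine (isCompact_sphere x δ).of_isClosed_subset ?_ ?_
  · exact (isClosed_eq (by fun_prop) (by fun_prop)).inter (isClosed_eq (by fun_prop) (by fun_prop))
  · intro z hz
    rw [mem_sphere, dist_comm]
    exact hz.1

/-- upper semicontinuity of the set of intermediate points. -/
theorem SS_eventually [ProperSpace M] {x : M} {δ : ℝ} {q0 : M} {K : Set M}
    (hK : SS x δ q0 ⊆ interior K) : ∀ᶠ q in 𝓝 q0, SS x δ q ⊆ interior K := by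
  have hc : IsCompact (sphere x δ \ interior K) := (isCompact_sphere x δ).diff isOpen_interior
  have h1 : ∀ᶠ q in 𝓝 q0, ∀ z ∈ sphere x δ \ interior K, dist z q ≠ dist x q - δ := by
    refine hc.eventually_forall_of_forall_eventually fun z hz => ?_
    have h2 : dist z q0 ≠ dist x q0 - δ := by
      intro h
      refine hz.2 (hK ⟨?_, h⟩)
      have := hz.1
      rwa [mem_sphere, dist_comm] at this
    have h3 : ContinuousAt (fun p : M × M => dist p.2 p.1) (q0, z) := by fun_prop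
    have h4 : ContinuousAt (fun p : M × M => dist x p.1 - δ) (q0, z) := by fun_prop
    filter_upwards [(h3.sub h4).eventually_ne (sub_ne_zero.2 h2)] with p hp
    exact sub_ne_zero.1 hp
  filter_upwards [h1] with q hq z hz
  by_contra hne
  refine hq z ⟨?_, hne⟩ hz.2
  rw [mem_sphere, dist_comm]
  exact hz.1

/-- finite nets in a dense sequence of a compact set. -/
theorem exists_net {K : Set M} (hK : IsCompact K) {zk : ℕ → M}
    (hd : ∀ z ∈ K, ∀ e > 0, ∃ k, dist z (zk k) < e) {e : ℝ} (he : 0 < e) :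
    ∃ N > 0, ∀ z ∈ K, ∃ k < N, dist z (zk k) < e := by
  obtain ⟨t, ht⟩ := hK.elim_finite_subcover (fun k : ℕ => ball (zk k) e) (fun k => isOpen_ball)
    (fun z hz => by
      obtain ⟨k, hk⟩ := hd z hz e he
      exact mem_iUnion.2 ⟨k, hk⟩)
  refine ⟨t.sup id + 1, Nat.succ_pos _, fun z hz => ?_⟩
  obtain ⟨k, hk⟩ := mem_iUnion.1 (ht hz)
  obtain ⟨hkt, hk2⟩ := mem_iUnion.1 hk
  exact ⟨k, Nat.lt_succ_of_le (Finset.le_sup (f := id) hkt), hk2⟩

theorem exists_dense_seq' [ProperSpace M] {K : Set M} (hne : K.Nonempty) :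
    ∃ zk : ℕ → M, (∀ k, zk k ∈ K) ∧ ∀ z ∈ K, ∀ e > 0, ∃ k, dist z (zk k) < e := by
  have : Nonempty K := hne.to_subtype
  obtain ⟨u, hu⟩ := TopologicalSpace.exists_dense_seq K
  refine ⟨fun k => u k, fun k => (u k).2, fun z hz e he => ?_⟩
  obtain ⟨k, hk⟩ := hu.exists_dist_lt (⟨z, hz⟩ : K) he
  exact ⟨k, hk⟩

end metric

section mfd

variable {n : ℕ} {M : Type*} [MetricSpace M] [ChartedSpace (EuclideanSpace ℝ (Fin n)) M]
  [IsManifold (𝓡 n) ∞ M]
  [RiemannianBundle (fun p : M => TangentSpace (𝓡 n) p)]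
  [IsContMDiffRiemannianBundle (𝓡 n) ∞ (EuclideanSpace ℝ (Fin n)) (fun p : M => TangentSpace (𝓡 n) p)]
  [IsRiemannianManifold (𝓡 n) M]

local notation "𝔼" => EuclideanSpace ℝ (Fin n)

/-- the distance is at most the length of the segment in the chart. -/
theorem dist_le_chart (y0 : M) {b : 𝔼} {r : ℝ} (hb : closedBall b r ⊆ (chartAt 𝔼 y0).target) :
    ∃ C : ℝ, 0 ≤ C ∧ ∀ y ∈ ball b r, ∀ y' ∈ ball b r,
      dist ((chartAt 𝔼 y0).symm y) ((chartAt 𝔼 y0).symm y') ≤
        √(gm (n := n) y0 y (y' - y) (y' - y)) + C * ‖y' - y‖ ^ 2 := by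
  obtain ⟨C, hC, -, -, -, h4, h5⟩ := (bg_chart (n := n) y0).bounds hb
  have hC0 : 0 < C := by linarith
  refine ⟨C ^ 2, by positivity, fun y hy y' hy' => ?_⟩
  rcases eq_or_ne y' y with rfl | hne
  · simp
  set u := y' - y with hu
  have hu0 : 0 < ‖u‖ := norm_pos_iff.2 (sub_ne_zero.2 hne)
  set a := gm (n := n) y0 y u u with ha
  have hau : ‖u‖ ^ 2 ≤ C * a := h4 y hy u
  have ha0 : 0 < a := by
    by_contra hneg
    push Not at hneg
    have : C * a ≤ 0 := mul_nonpos_of_nonneg_of_nonpos hC0.le hneg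
    have : 0 < ‖u‖ ^ 2 := by positivity
    linarith
  have hsa : ‖u‖ / C ≤ √a := by
    apply Real.le_sqrt_of_sq_le
    rw [div_pow, div_le_iff₀ (by positivity)]
    calc ‖u‖ ^ 2 ≤ C * a := hau
      _ ≤ a * C ^ 2 := by nlinarith
  set L := √a + C ^ 2 * ‖u‖ ^ 2 with hL
  have hL0 : 0 ≤ L := by positivity
  have hsq : √a ^ 2 = a := Real.sq_sqrt ha0.le
  have hLsq : a + 2 * C * ‖u‖ ^ 3 ≤ L ^ 2 := by
    have h1 : ‖u‖ ≤ C * √a := by rwa [div_le_iff₀' hC0] at hsa
    have h2 : 2 * C * ‖u‖ ^ 3 ≤ 2 * √a * (C ^ 2 * ‖u‖ ^ 2) := by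
      have : 2 * C * ‖u‖ ^ 2 * ‖u‖ ≤ 2 * C * ‖u‖ ^ 2 * (C * √a) := by gcongr
      calc 2 * C * ‖u‖ ^ 3 = 2 * C * ‖u‖ ^ 2 * ‖u‖ := by ring
        _ ≤ 2 * C * ‖u‖ ^ 2 * (C * √a) := this
        _ = _ := by ring
    have h3 : 0 ≤ (C ^ 2 * ‖u‖ ^ 2) ^ 2 := by positivity
    have h4 : L ^ 2 = √a ^ 2 + 2 * √a * (C ^ 2 * ‖u‖ ^ 2) + (C ^ 2 * ‖u‖ ^ 2) ^ 2 := by
      rw [hL]; ring
    rw [h4, hsq]
    linarith
  -- the segment
  set l : ℝ →ᵃ[ℝ] 𝔼 := AffineMap.lineMap y y' with hl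
  have hlt : ∀ t : ℝ, l t = y + t • u := by
    intro t
    rw [hl, AffineMap.lineMap_apply, vsub_eq_sub, vadd_eq_add, add_comm]
  have hld : ∀ t : ℝ, HasDerivAt l u t := by
    intro t
    have : HasDerivAt (fun t : ℝ => y + t • u) u t := by
      simpa using ((hasDerivAt_id t).smul_const u).const_add y
    exact this.congr_of_eventuallyEq (Eventually.of_forall hlt)
  set s : Set ℝ := l ⁻¹' ball b r ∩ Ioo (-2) 2 with hs
  have hsc : Convex ℝ s := ((convex_ball b r).affine_preimage l).inter (convex_Ioo _ _)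
  have hlc : Continuous l := continuous_iff_continuousAt.2 fun t => (hld t).continuousAt
  have hso : IsOpen s := (isOpen_ball.preimage hlc).inter isOpen_Ioo
  have h0s : (0 : ℝ) ∈ s := by
    refine ⟨?_, by norm_num, by norm_num⟩
    rw [mem_preimage, hlt, zero_smul, add_zero]
    exact hy
  have h1s : (1 : ℝ) ∈ s := by
    refine ⟨?_, by norm_num, by norm_num⟩
    rw [mem_preimage, hlt, one_smul, hu, add_sub_cancel]
    exact hy'
  have hst : ∀ t ∈ s, l t ∈ (chartAt 𝔼 y0).target := fun t ht => hb (ball_subset_closedBall ht.1)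
  have hsm : ContMDiffOn 𝓘(ℝ, ℝ) (𝓡 n) 1 (fun t => (chartAt 𝔼 y0).symm (l t)) s := by
    have h1 : ContMDiffOn 𝓘(ℝ, 𝔼) (𝓡 n) 1 (chartAt 𝔼 y0).symm (chartAt 𝔼 y0).target :=
      (contMDiffOn_chart_symm (n := ∞)).of_le (by exact_mod_cast le_top)
    have h2 : ContMDiff 𝓘(ℝ, ℝ) 𝓘(ℝ, 𝔼) 1 l := by
      rw [contMDiff_iff_contDiff]
      have : (l : ℝ → 𝔼) = fun t => y + t • u := funext hlt
      rw [this]
      fun_prop
    exact h1.comp h2.contMDiffOn hst
  have hbd : ∀ t ∈ s, √(gm (n := n) y0 (l t) u u) ≤ L := by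
    intro t ht
    apply Real.sqrt_le_iff.2
    refine ⟨hL0, ?_⟩
    have h6 := (abs_le.1 (h5 y hy (l t) ht.1 u u)).2
    have h7 : ‖l t - y‖ ≤ 2 * ‖u‖ := by
      rw [hlt, add_sub_cancel_left, norm_smul, Real.norm_eq_abs]
      have : |t| ≤ 2 := abs_le.2 ⟨ht.2.1.le, ht.2.2.le⟩
      gcongr
    have h8 : C * ‖l t - y‖ * ‖u‖ * ‖u‖ ≤ 2 * C * ‖u‖ ^ 3 := by
      calc C * ‖l t - y‖ * ‖u‖ * ‖u‖ ≤ C * (2 * ‖u‖) * ‖u‖ * ‖u‖ := by gcongr
        _ = _ := by ring
    linarith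
  have key := edist_le_of_convex (I := 𝓡 n) (f := fun t => (chartAt 𝔼 y0).symm (l t)) hsc hso hsm
    (C := L.toNNReal) ?_ h0s h1s
  · have e0 : l 0 = y := by rw [hlt, zero_smul, add_zero]
    have e1 : l 1 = y' := by rw [hlt, one_smul, hu, add_sub_cancel]
    simp only [e0, e1] at key
    have h01 : edist (0 : ℝ) 1 = 1 := by
      rw [edist_dist]; simp
    rw [h01, mul_one, edist_dist] at key
    exact (ENNReal.ofReal_le_ofReal_iff hL0).1 key
  · intro t ht v
    have hd : HasMFDerivAt 𝓘(ℝ, ℝ) (𝓡 n) (fun t => (chartAt 𝔼 y0).symm (l t)) t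
        ((dS y0 (l t)).comp (ContinuousLinearMap.toSpanSingleton ℝ u)) := by
      have h2 : HasMFDerivAt 𝓘(ℝ, ℝ) 𝓘(ℝ, 𝔼) l t
          (ContinuousLinearMap.toSpanSingleton ℝ u) := (hld t).hasFDerivAt.hasMFDerivAt
      have h1 : HasMFDerivAt 𝓘(ℝ, 𝔼) (𝓡 n) (chartAt 𝔼 y0).symm (l t) (dS y0 (l t)) :=
        ((mdifferentiable_chart' y0).symm.mdifferentiableAt (hst t ht)).hasMFDerivAt
      exact h1.comp t h2
    rw [hd.mfderiv]
    have h4 : ‖dS y0 (l t) (v • u)‖ ≤ L * ‖v‖ := by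
      rw [map_smul, norm_smul, norm_dS, mul_comm]
      gcongr
      exact hbd t ht
    refine le_trans (le_of_eq (?_ : _ = ENNReal.ofReal ‖dS y0 (l t) (v • u)‖)) ?_
    · exact (ofReal_norm _).symm
    calc ENNReal.ofReal ‖dS y0 (l t) (v • u)‖ ≤ ENNReal.ofReal (L * ‖v‖) :=
          ENNReal.ofReal_le_ofReal h4
      _ = (L.toNNReal : ℝ≥0∞) * ENNReal.ofReal ‖v‖ := by
          rw [ENNReal.ofReal_mul hL0]; rfl
      _ = _ := by rw [ofReal_norm]

end mfd

end Crest.Agent.R247.Mcs816
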