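import Crest.Agent.R247.Mcs11_816

/-!
Row 247, block (6c)/(6d) (helper816), file 12: **the contraction property (MCP) of the Riemannian
volume** from the Laplacian comparison.
-/

set_option autoImplicit false
set_option maxSynthPendingDepth 3
set_option linter.unusedSectionVars false

open Bundle Set Filter Topology MeasureTheory Metric
open scoped Manifold ContDiff ENNReal NNReal
open Crest.GeometryTopology.CoordMetric Crest.GeometryTopology.ChartCurvature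
open Crest.GeometryTopology.PointedLimit
open Crest.GeometryTopology.MTW Crest.Agent.R244 Crest.Agent.R226
open Crest.Agent.R226.ChartMet842
open Crest.Agent.R226.CutSmooth77 (SC)
open Crest.Agent.R202.Tens Crest.Agent.R247.Ms322 Crest.Agent.R247.Sm879

noncomputable section

namespace Crest.Agent.R247.Mcs816

variable {n : ℕ} {M : Type*} [MetricSpace M] [ChartedSpace (EuclideanSpace ℝ (Fin n)) M]
  [IsManifold (𝓡 n) ∞ M]
  [RiemannianBundle (fun p : M => TangentSpace (𝓡 n) p)]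
  [IsContMDiffRiemannianBundle (𝓡 n) ∞ (EuclideanSpace ℝ (Fin n)) (fun p : M => TangentSpace (𝓡 n) p)]

local notation "𝔼" => EuclideanSpace ℝ (Fin n)

variable (n M) in
/-- Laplacian comparison at smooth pairs. -/
def LapC (κ : ℝ) : Prop :=
  ∀ z y0 : M, ∀ a ∈ (chartAt (EuclideanSpace ℝ (Fin n)) y0).target,
    SC n z ((chartAt (EuclideanSpace ℝ (Fin n)) y0).symm a) →
    laplaceBeltrami (chartMetric n M y0) (fz (n := n) z y0) a ≤
      n + κ * dist z ((chartAt (EuclideanSpace ℝ (Fin n)) y0).symm a) ^ 2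

variable [IsRiemannianManifold (𝓡 n) M] [ProperSpace M] [MeasurableSpace M] [BorelSpace M]

theorem exists_delta {A d ε : ℝ} (hA0 : 0 ≤ A) (hd0 : 0 < d) (hε : 0 < ε) :
    ∃ δ : ℝ, 0 < δ ∧ δ ≤ d / 4 ∧ δ / (d - δ) * A < ε := by
  refine ⟨min (d / 4) (ε * d / (4 * A + 4)), by positivity, min_le_left _ _, ?_⟩
  set δ0 := min (d / 4) (ε * d / (4 * A + 4)) with hδ0
  have hδ0p : 0 < δ0 := by positivity
  have hδ1 : δ0 ≤ d / 4 := min_le_left _ _
  have hδ2 : δ0 * (4 * A + 4) ≤ ε * d := by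
    have : δ0 ≤ ε * d / (4 * A + 4) := min_le_right _ _
    rwa [le_div_iff₀ (by positivity)] at this
  rw [div_mul_eq_mul_div, div_lt_iff₀ (by linarith)]
  nlinarith

theorem near_aux {s q D e η : ℝ} (hs0 : 0 ≤ s) (hs1 : s ≤ q + 2 * e) (hq : q ≤ D)
    (he0 : 0 ≤ e) (he1 : e ≤ 1) (he2 : e * (2 * D + 2) ≤ η) : s ^ 2 / 2 ≤ q ^ 2 / 2 + η := by
  have hsq : s ^ 2 ≤ (q + 2 * e) ^ 2 := by gcongr
  have hexp : (q + 2 * e) ^ 2 / 2 = q ^ 2 / 2 + e * (2 * q + 2 * e) := by ring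
  have hlast : e * (2 * q + 2 * e) ≤ e * (2 * D + 2) := by
    apply mul_le_mul_of_nonneg_left _ he0
    linarith
  linarith

/-- the family of barriers satisfies `MF`. -/
theorem mf_of (hm : ExM M) {x y0 : M} {b0 : 𝔼} {r δ d C1 C : ℝ} {K : Set M}
    (hd : 0 < d) (hδ : 0 ≤ δ) (hδd : δ ≤ d / 2) (hK : IsCompact K)
    (hKO : ∀ z ∈ K, ∀ b ∈ ball b0 r, (z, b) ∈ OO n y0)
    (hgood : ∀ b ∈ ball b0 r, SS x δ ((chartAt 𝔼 y0).symm b) ⊆ K ∧
      d / 2 < dist x ((chartAt 𝔼 y0).symm b) ∧ dist x ((chartAt 𝔼 y0).symm b) < 2 * d)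
    (hdist : ∀ y ∈ ball b0 r, ∀ y' ∈ ball b0 r,
      dist ((chartAt 𝔼 y0).symm y) ((chartAt 𝔼 y0).symm y') ≤
        √(gm (n := n) y0 y (y' - y) (y' - y)) + C1 * ‖y' - y‖ ^ 2)
    (hC1 : C1 ≤ C) (hC2 : 2 * d ≤ C) {zk : ℕ → M} (hzk : ∀ k, zk k ∈ K)
    (hdense : ∀ z ∈ K, ∀ e > 0, ∃ k, dist z (zk k) < e) :
    MF x (chartAt 𝔼 y0).symm (ball b0 r) (gm (n := n) y0) (fun k => FF n x y0 (zk k))
      (fun k => gv (gm (n := n) y0) (FF n x y0 (zk k))) C (d / 2) := by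
  refine ⟨by positivity, ?_, ?_, ?_, ?_, ?_, ?_⟩
  · intro y hy y' hy'
    exact (hdist y hy y' hy').trans
      (add_le_add le_rfl (mul_le_mul_of_nonneg_right hC1 (by positivity)))
  · intro k y hy
    show dist x ((chartAt 𝔼 y0).symm y) ^ 2 / 2 ≤ FF n x y0 (zk k) y
    rw [FF_eq]
    have h1 := dist_triangle x (zk k) ((chartAt 𝔼 y0).symm y)
    have h2 := pow_le_pow_left₀ dist_nonneg h1 2
    linarith
  · intro k y hy
    have h := eik_FF (n := n) hm x (q := (zk k, y)) (hKO (zk k) (hzk k) y hy)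
    exact h
  · intro η hη
    set D := 2 * d with hD
    have hD0 : 0 < D := by positivity
    set e := min 1 (η / (2 * D + 2)) with he
    have he0 : 0 < e := by positivity
    obtain ⟨N, hN0, hN⟩ := exists_net hK hdense he0
    refine ⟨N, hN0, fun y hy => ?_⟩
    obtain ⟨g1, g2, g3⟩ := hgood y hy
    obtain ⟨z, hz1, hz2⟩ := hm.pt x ((chartAt 𝔼 y0).symm y) (t := δ) hδ (by linarith)
    have hzK : z ∈ K := g1 ⟨hz1, hz2⟩
    obtain ⟨k, hkN, hk⟩ := hN z hzK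
    refine ⟨k, hkN, ?_⟩
    show FF n x y0 (zk k) y ≤ dist x ((chartAt 𝔼 y0).symm y) ^ 2 / 2 + η
    rw [FF_eq]
    have t1 := dist_triangle x z (zk k)
    have t2 := dist_triangle (zk k) z ((chartAt 𝔼 y0).symm y)
    rw [dist_comm (zk k) z] at t2
    have t3 : dist x z + dist z ((chartAt 𝔼 y0).symm y) = dist x ((chartAt 𝔼 y0).symm y) := by
      rw [hz1, hz2]; ring
    have he1 : e ≤ 1 := min_le_left _ _
    have he2 : e * (2 * D + 2) ≤ η := by
      have : e ≤ η / (2 * D + 2) := min_le_right _ _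
      rwa [le_div_iff₀ (by positivity)] at this
    exact near_aux (by positivity) (by linarith) g3.le he0.le he1 he2
  · intro y hy
    exact (hgood y hy).2.1.le
  · intro y hy
    exact (hgood y hy).2.2.le.trans hC2

/-- local contraction on the manifold. -/
theorem exists_locC [IsFiniteMeasureOnCompacts (μHE[n] : Measure M)] (hm : ExM M) {κ : ℝ}
    (hκ : 0 ≤ κ) (hL : LapC n M κ) {x y0 : M} (hy0 : y0 ≠ x) {ε : ℝ} (hε : 0 < ε) :
    ∃ W, IsOpen W ∧ y0 ∈ W ∧ ∃ τ0 > 0,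
      LocC (μHE[n] : Measure M) x W (n + κ * dist x y0 ^ 2 + ε) τ0 := by
  have hd0 : 0 < dist x y0 := dist_pos.2 hy0.symm
  obtain ⟨d, hd⟩ : ∃ d, dist x y0 = d := ⟨_, rfl⟩
  rw [hd] at hd0 ⊢
  obtain ⟨b0, hb0⟩ : ∃ b0 : 𝔼, b0 = chartAt 𝔼 y0 y0 := ⟨_, rfl⟩
  have hb0t : b0 ∈ (chartAt 𝔼 y0).target := by
    rw [hb0]; exact mem_chart_target 𝔼 y0
  have hXb0 : (chartAt 𝔼 y0).symm b0 = y0 := by
    rw [hb0]; exact (chartAt 𝔼 y0).left_inv (mem_chart_source 𝔼 y0)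
  have hA0 : 0 ≤ (n : ℝ) + κ * d ^ 2 := by positivity
  obtain ⟨δ0, hδ0p, hδ1, hδ2⟩ := exists_delta hA0 hd0 hε
  have hZc : IsCompact (SS x δ0 y0) := isCompact_SS x δ0 y0
  have hZO : ∀ z ∈ SS x δ0 y0, (z, b0) ∈ OO n y0 := by
    intro z hz
    have h1 : dist x z = δ0 := hz.1
    have h2 : dist z y0 = d - δ0 := by rw [hz.2, hd]
    refine ⟨hb0t, ?_, ?_⟩
    · show z ≠ (chartAt 𝔼 y0).symm b0
      rw [hXb0]
      apply dist_pos.1
      rw [h2]; linarith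
    · show ((chartAt 𝔼 y0).symm b0, z) ∈ Om M
      rw [hXb0]
      refine mem_Om_of_btw' (x := x) (dist_pos.1 (by rw [h1]; exact hδ0p)) ?_
      rw [h1, h2, hd]; ring
  have hZH : ∀ z ∈ SS x δ0 y0, lapw (gm (n := n) y0) (dens (n := n) y0) (FF n x y0 z) b0 <
      (n + κ * d ^ 2 + ε) * dens (n := n) y0 b0 := by
    intro z hz
    have h1 : dist x z = δ0 := hz.1
    have h2 : dist z y0 = d - δ0 := by rw [hz.2, hd]
    have h3 := hL z y0 b0 hb0t (sc_of_OO (n := n) hm (q := (z, b0)) (hZO z hz))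
    have h4 : (n : ℝ) + κ * dist z ((chartAt 𝔼 y0).symm b0) ^ 2 ≤ n + κ * d ^ 2 := by
      rw [hXb0, h2]
      have : (d - δ0) ^ 2 ≤ d ^ 2 := pow_le_pow_left₀ (by linarith) (by linarith) 2
      have := mul_le_mul_of_nonneg_left this hκ
      linarith
    have h5 := lapw_FF (n := n) hm x (q := (z, b0)) (hZO z hz) (h3.trans h4)
    refine h5.trans_lt ?_
    have hw := dens_pos (n := n) y0 hb0t
    refine mul_lt_mul_of_pos_right ?_ hw
    show (1 + dist x z / dist z ((chartAt 𝔼 y0).symm b0)) * (n + κ * d ^ 2) < _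
    rw [hXb0, h1, h2]
    calc (1 + δ0 / (d - δ0)) * (n + κ * d ^ 2) =
        (n + κ * d ^ 2) + δ0 / (d - δ0) * (n + κ * d ^ 2) := by ring
      _ < (n + κ * d ^ 2) + ε := by linarith
  obtain ⟨K, hK, hZK, r, hr, hrT, hKO, C0, hLF⟩ :=
    exists_LF (bg_chart (n := n) y0) (jf_barrier hm x y0) hZc hb0t hZO hZH
  -- shrink the ball
  have hcX : ContinuousAt (chartAt 𝔼 y0).symm b0 := (chartAt 𝔼 y0).continuousAt_symm hb0t
  have hev1 : ∀ᶠ b in 𝓝 b0, SS x δ0 ((chartAt 𝔼 y0).symm b) ⊆ interior K := by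
    have h1 : ∀ᶠ q in 𝓝 ((chartAt 𝔼 y0).symm b0), SS x δ0 q ⊆ interior K := by
      rw [hXb0]; exact SS_eventually hZK
    exact hcX.eventually h1
  have hev2 : ∀ᶠ b in 𝓝 b0, d / 2 < dist x ((chartAt 𝔼 y0).symm b) := by
    have h1 : ∀ᶠ q in 𝓝 ((chartAt 𝔼 y0).symm b0), d / 2 < dist x q := by
      have hc : ContinuousAt (fun q => dist x q) y0 := by fun_prop
      rw [hXb0]
      exact hc.eventually (lt_mem_nhds (by show d / 2 < dist x y0; rw [hd]; linarith))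
    exact hcX.eventually h1
  have hev3 : ∀ᶠ b in 𝓝 b0, dist x ((chartAt 𝔼 y0).symm b) < 2 * d := by
    have h1 : ∀ᶠ q in 𝓝 ((chartAt 𝔼 y0).symm b0), dist x q < 2 * d := by
      have hc : ContinuousAt (fun q => dist x q) y0 := by fun_prop
      rw [hXb0]
      exact hc.eventually (gt_mem_nhds (by show dist x y0 < 2 * d; rw [hd]; linarith))
    exact hcX.eventually h1
  obtain ⟨r1, hr1, hr1'⟩ := Metric.eventually_nhds_iff.1 (hev1.and (hev2.and hev3))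
  obtain ⟨r2, hr2p, hr2r, hr2r1⟩ : ∃ r2 : ℝ, 0 < r2 ∧ r2 ≤ r ∧ r2 ≤ r1 :=
    ⟨min r r1, lt_min hr hr1, min_le_left _ _, min_le_right _ _⟩
  have hsub : ball b0 r2 ⊆ ball b0 r := ball_subset_ball hr2r
  have hsubc : closedBall b0 r2 ⊆ (chartAt 𝔼 y0).target :=
    (closedBall_subset_closedBall hr2r).trans hrT
  have hgood : ∀ b ∈ ball b0 r2, SS x δ0 ((chartAt 𝔼 y0).symm b) ⊆ K ∧
      d / 2 < dist x ((chartAt 𝔼 y0).symm b) ∧ dist x ((chartAt 𝔼 y0).symm b) < 2 * d := by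
    intro b hb
    have := hr1' (lt_of_lt_of_le (mem_ball.1 hb) hr2r1)
    exact ⟨this.1.trans interior_subset, this.2⟩
  obtain ⟨C1, hC1, hdist⟩ := dist_le_chart (n := n) y0 hsubc
  -- the dense sequence
  have hKne : K.Nonempty := by
    obtain ⟨c, hc1, hc2⟩ := hm.pt x y0 (t := δ0) hδ0p.le (by rw [hd]; linarith)
    exact ⟨c, interior_subset (hZK ⟨hc1, hc2⟩)⟩
  obtain ⟨zk, hzk, hdense⟩ := exists_dense_seq' hKne
  obtain ⟨C, hCp, hCC0, hCC1, hCd⟩ : ∃ C : ℝ, 0 < C ∧ C0 ≤ C ∧ C1 ≤ C ∧ 2 * d ≤ C :=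
    ⟨|C0| + C1 + 2 * d, by positivity, by have := le_abs_self C0; linarith,
      by have := abs_nonneg C0; linarith, by have := abs_nonneg C0; linarith⟩
  have hLF' := (hLF zk hzk).mono isOpen_ball hsub hCC0
  have hMF := mf_of (n := n) hm (x := x) (y0 := y0) (b0 := b0) (r := r2) (δ := δ0) (d := d)
    (C1 := C1) (C := C) (K := K) hd0 hδ0p.le (by linarith) hK
    (fun z hz b hb => hKO ⟨hz, ball_subset_closedBall (hsub hb)⟩) hgood hdist hCC1 hCd hzk hdense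
  -- the neighbourhood
  refine ⟨(chartAt 𝔼 y0).source ∩ (chartAt 𝔼 y0) ⁻¹' ball b0 (r2 / 2),
    (chartAt 𝔼 y0).isOpen_inter_preimage isOpen_ball,
    ⟨mem_chart_source 𝔼 y0, by rw [mem_preimage, ← hb0]; exact mem_ball_self (by positivity)⟩,
    min 1 (r2 / (2 * C)), by positivity, ?_⟩
  refine locC_of (E := 𝔼) (μHE[n] : Measure M) hLF' hMF (φ := chartAt 𝔼 y0)
    ((chartAt 𝔼 y0).continuousOn.mono inter_subset_left)
    (fun m hm' => (chartAt 𝔼 y0).left_inv hm'.1) (min_le_left _ _) ?_ ?_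
  · intro m hmW y hy
    have h1 : dist (chartAt 𝔼 y0 m) b0 < r2 / 2 := hmW.2
    have h2 : dist y (chartAt 𝔼 y0 m) ≤ C * min 1 (r2 / (2 * C)) := hy
    have h3 : C * min 1 (r2 / (2 * C)) ≤ r2 / 2 := by
      calc C * min 1 (r2 / (2 * C)) ≤ C * (r2 / (2 * C)) := by
            gcongr; exact min_le_right _ _
        _ = r2 / 2 := by field_simp
    rw [mem_ball]
    have := dist_triangle y (chartAt 𝔼 y0 m) b0
    linarith
  · intro B hB hBm
    exact muHE_symm_image y0 (hB.trans (ball_subset_closedBall.trans hsubc)) hBm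

end Crest.Agent.R247.Mcs816
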