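import Crest.Agent.R247.Mcs13_816
import Crest.Agent.R247.Lc4_582

/-!
Row 247, block (6c)/(6d) (helper816), file 14: **the contraction property (MCP) of the Riemannian
volume** of a complete manifold with `Ric ≥ -κ`.
-/

set_option autoImplicit false
set_option maxSynthPendingDepth 3
set_option linter.unusedSectionVars false

open Bundle Set Filter Topology MeasureTheory Metric
open scoped Manifold ContDiff ENNReal NNReal
open Crest.GeometryTopology.CoordMetric Crest.GeometryTopology.ChartCurvature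
open Crest.GeometryTopology.PointedLimit
open Crest.Agent.R247.Sm879

noncomputable section

namespace Crest.Agent.R247.Mcs816

variable {n : ℕ} {M : Type*} [MetricSpace M] [ChartedSpace (EuclideanSpace ℝ (Fin n)) M]
  [IsManifold (𝓡 n) ∞ M]
  [RiemannianBundle (fun p : M => TangentSpace (𝓡 n) p)]
  [IsContMDiffRiemannianBundle (𝓡 n) ∞ (EuclideanSpace ℝ (Fin n)) (fun p : M => TangentSpace (𝓡 n) p)]
  [IsRiemannianManifold (𝓡 n) M] [ProperSpace M]

theorem lapC_of_ricci (hm : ExM M) {κ : ℝ} (hK : HasRicciLowerBound n M (-κ)) :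
    LapC n M (κ / 3) := by
  intro z y0 a ha hsc
  have h := Lc582.lap_chart_le (n := n) hm hK ha hsc
  have e : κ / 3 * dist z ((chartAt (EuclideanSpace ℝ (Fin n)) y0).symm a) ^ 2 =
      κ * dist z ((chartAt (EuclideanSpace ℝ (Fin n)) y0).symm a) ^ 2 / 3 := by ring
  rw [e]
  exact h

variable [MeasurableSpace M] [BorelSpace M]

/-- **MCP**, set form, sharp constant. -/
theorem mcp_ricci' (hn : 1 ≤ n) (hm : ExM M) {κ : ℝ} (hκ : 0 ≤ κ)
    (hK : HasRicciLowerBound n M (-κ)) (x : M) {t : ℝ} (ht : t ∈ Ioc (0 : ℝ) 1) (R : ℝ)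
    (A : Set M) (hA : IsCompact A) (hAR : A ⊆ closedBall x R) :
    ENNReal.ofReal (t ^ n * Real.exp (-(κ / 3 * R ^ 2 * (1 - t ^ 2) / 2))) *
      (μHE[n] : Measure M) A ≤ (μHE[n] : Measure M) (Ipt x t A) :=
  mcp_set hn hm (by positivity) (lapC_of_ricci hm hK) x ht R A hA hAR

/-- **MCP**, set form, in the form of `Mcp688.Rad.ofSet`. -/
theorem mcp_ricci (hn : 1 ≤ n) (hm : ExM M) {κ : ℝ} (hκ : 0 ≤ κ)
    (hK : HasRicciLowerBound n M (-κ)) (x : M) {t : ℝ} (ht : t ∈ Ioc (0 : ℝ) 1) (R : ℝ)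
    (A : Set M) (hA : IsCompact A) (hAR : A ⊆ closedBall x R) :
    ENNReal.ofReal (t ^ n * Real.exp (-(κ * R ^ 2 * (1 - t ^ 2) / 2))) *
      (μHE[n] : Measure M) A ≤ (μHE[n] : Measure M) (Ipt x t A) := by
  refine le_trans ?_ (mcp_ricci' hn hm hκ hK x ht R A hA hAR)
  gcongr
  · exact pow_nonneg ht.1.le n
  · have : 0 ≤ 1 - t ^ 2 := by
      have := ht.1; have := ht.2; nlinarith
    exact this
  · linarith

end Crest.Agent.R247.Mcs816
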