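import Crest.Agent.R247.Mcs14_816
import Crest.Agent.R247.Bgr2_546

/-!
Row 247, block (6c)/(6d) (helper816), file 15: `LocAll`, `LOC n`, `RAD n`, `BGr n` unconditionally.
-/

set_option autoImplicit false
set_option maxSynthPendingDepth 3
set_option linter.unusedSectionVars false

open Bundle Set Filter Topology MeasureTheory Metric
open scoped Manifold ContDiff ENNReal NNReal
open Crest.GeometryTopology.CoordMetric Crest.GeometryTopology.ChartCurvature
open Crest.GeometryTopology.PointedLimit
open Crest.Agent.R247.Sm879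

noncomputable section

namespace Crest.Agent.R247.Mcs816

universe u

section

variable {n : ℕ} {M : Type*} [MetricSpace M] [ChartedSpace (EuclideanSpace ℝ (Fin n)) M]
  [IsManifold (𝓡 n) ∞ M]
  [RiemannianBundle (fun p : M => TangentSpace (𝓡 n) p)]
  [IsContMDiffRiemannianBundle (𝓡 n) ∞ (EuclideanSpace ℝ (Fin n)) (fun p : M => TangentSpace (𝓡 n) p)]
  [IsRiemannianManifold (𝓡 n) M] [ProperSpace M]

theorem LapC.mono {κ κ' : ℝ} (h : LapC n M κ) (hκ : κ ≤ κ') : LapC n M κ' := by
  intro z y0 a ha hsc
  refine (h z y0 a ha hsc).trans ?_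
  have := mul_le_mul_of_nonneg_right hκ
    (sq_nonneg (dist z ((chartAt (EuclideanSpace ℝ (Fin n)) y0).symm a)))
  linarith

variable [MeasurableSpace M] [BorelSpace M]

/-- the local contraction estimates on `M`. -/
theorem locAll (hm : ExM M) {κ : ℝ} (hκ : 0 ≤ κ) (hK : HasRicciLowerBound n M (-κ)) :
    Mcp688.LocAll n κ M := by
  have := locFin n M
  intro x y hy ε hε
  exact exists_locC hm hκ ((lapC_of_ricci hm hK).mono (by linarith)) hy hε

end

theorem loc_holds (n : ℕ) : Bgr546.LOC.{u} n := by
  intro κ hκ M _ _ _ _ _ _ _ _ _ _ hric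
  have := HR216.properSpace_of_riemannian n M
  exact locAll (Bgr546.exM_of_riemannian n M) hκ hric

/-- **radial contraction structures exist on every complete manifold with `Ric ≥ -κ`**. -/
theorem rad_holds (n : ℕ) : Bgr546.RAD.{u} n := Bgr546.rad_of_loc fun _ => loc_holds n

/-- **Bishop–Gromov** in the form of `Asm951`. -/
theorem bgr_holds (n : ℕ) : Asm951.BGr.{u} n := Bgr546.bgr_of_loc fun _ => loc_holds n

end Crest.Agent.R247.Mcs816
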