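import Crest.Agent.R247.Ms8_322
import Crest.Agent.R247.Ms9_322
import Crest.Agent.R247.Bo7_84

/-!
R247, block (0) (helper322), part 10: local finiteness and positivity of the measure, the link with
84's `mGam`, the chart frame `Ef x₀ i z` (= `∂_i` of the chart at `x₀`, written in the frame at `z`).
-/

set_option autoImplicit false
set_option maxSynthPendingDepth 3
set_option linter.unusedSectionVars false
set_option linter.unusedVariables false

open Bundle Bornology Set MeasureTheory Manifold Filter Metric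
open scoped ENNReal ContDiff Topology NNReal
open Crest.GeometryTopology.CoordMetric Crest.GeometryTopology.ChartCurvature
open Crest.GeometryTopology.Geodesic
open Crest.Agent.R226.ChartMet842

namespace Crest.Agent.R247.Ms322

noncomputable section

variable {n : ℕ} {M : Type*} [MetricSpace M] [ChartedSpace (EuclideanSpace ℝ (Fin n)) M]
  [IsManifold (𝓡 n) ∞ M]
  [RiemannianBundle (fun p : M => TangentSpace (𝓡 n) p)]
  [IsContMDiffRiemannianBundle (𝓡 n) ∞ (EuclideanSpace ℝ (Fin n)) (fun p : M => TangentSpace (𝓡 n) p)]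

local notation "𝔼" => EuclideanSpace ℝ (Fin n)

theorem locallyCompactSpace (n : ℕ) (M : Type*) [TopologicalSpace M]
    [ChartedSpace (EuclideanSpace ℝ (Fin n)) M] : LocallyCompactSpace M :=
  ChartedSpace.locallyCompactSpace (EuclideanSpace ℝ (Fin n)) M

/-! ### the measure -/

section Measure

variable [IsRiemannianManifold (𝓡 n) M] [MeasurableSpace M] [BorelSpace M]

variable (n M) in
/-- the Hausdorff measure is locally finite. -/
theorem isLocallyFiniteMeasure : IsLocallyFiniteMeasure (μHE[n] : Measure M) := by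
  refine ⟨fun z => ?_⟩
  have hzs : z ∈ (chartAt 𝔼 z).source := mem_chart_source 𝔼 z
  set a : 𝔼 := chartAt 𝔼 z z with ha
  have hat : a ∈ (chartAt 𝔼 z).target := (chartAt 𝔼 z).map_source hzs
  have hza : (chartAt 𝔼 z).symm a = z := (chartAt 𝔼 z).left_inv hzs
  obtain ⟨r, hr0, hr⟩ := nhds_basis_closedBall.mem_iff.1 ((chartAt 𝔼 z).open_target.mem_nhds hat)
  obtain ⟨C, hC⟩ := (isCompact_closedBall a r).exists_bound_of_continuousOn
    ((continuousOn_dens z).mono hr)
  have hbt : ball a r ⊆ (chartAt 𝔼 z).target := ball_subset_closedBall.trans hr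
  refine ⟨(chartAt 𝔼 z).symm '' ball a r, ?_, ?_⟩
  · have hVo : IsOpen ((chartAt 𝔼 z).symm '' ball a r) :=
      (chartAt 𝔼 z).symm.isOpen_image_of_subset_source isOpen_ball hbt
    exact hVo.mem_nhds ⟨a, mem_ball_self hr0, hza⟩
  · rw [muHE_symm_image z hbt measurableSet_ball]
    calc ∫⁻ b in ball a r, ENNReal.ofReal (dens z b)
        ≤ ∫⁻ _ in ball a r, ENNReal.ofReal C := by
          refine setLIntegral_mono measurable_const fun b hb => ?_
          exact ENNReal.ofReal_le_ofReal ((le_abs_self _).trans (hC b (ball_subset_closedBall hb)))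
      _ = ENNReal.ofReal C * volume (ball a r) := by rw [setLIntegral_const]
      _ < ⊤ := ENNReal.mul_lt_top ENNReal.ofReal_lt_top measure_ball_lt_top

variable (n M) in
/-- the Hausdorff measure charges open sets. -/
theorem isOpenPosMeasure : (μHE[n] : Measure M).IsOpenPosMeasure := by
  refine ⟨fun U hU hne h0 => ?_⟩
  obtain ⟨z, hz⟩ := hne
  have hzs : z ∈ (chartAt 𝔼 z).source := mem_chart_source 𝔼 z
  set a : 𝔼 := chartAt 𝔼 z z with ha
  have hat : a ∈ (chartAt 𝔼 z).target := (chartAt 𝔼 z).map_source hzs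
  have hza : (chartAt 𝔼 z).symm a = z := (chartAt 𝔼 z).left_inv hzs
  set B : Set 𝔼 := (chartAt 𝔼 z).target ∩ (chartAt 𝔼 z).symm ⁻¹' U with hB
  have hBo : IsOpen B := (chartAt 𝔼 z).isOpen_inter_preimage_symm hU
  have hBt : B ⊆ (chartAt 𝔼 z).target := inter_subset_left
  have haB : a ∈ B := ⟨hat, by rw [mem_preimage, hza]; exact hz⟩
  have h1 : μHE[n] ((chartAt 𝔼 z).symm '' B) = 0 := by
    refine measure_mono_null ?_ h0
    rintro _ ⟨b, hb, rfl⟩
    exact hb.2
  rw [muHE_symm_image z hBt hBo.measurableSet] at h1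
  have hmeas : AEMeasurable (fun b => ENNReal.ofReal (dens z b)) (volume.restrict B) :=
    (((continuousOn_dens z).mono hBt).aemeasurable hBo.measurableSet).ennreal_ofReal
  rw [lintegral_eq_zero_iff' hmeas, Filter.EventuallyEq, ae_restrict_iff' hBo.measurableSet] at h1
  have h2 : volume B = 0 := by
    have h3 : ∀ᵐ b ∂(volume : Measure 𝔼), b ∉ B := by
      filter_upwards [h1] with b hb hbB
      have h4 := hb hbB
      simp only [Pi.zero_apply, ENNReal.ofReal_eq_zero] at h4
      exact absurd (dens_pos z (hBt hbB)) (not_lt.2 h4)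
    have := ae_iff.1 h3
    simpa using this
  exact (hBo.measure_pos volume ⟨a, haB⟩).ne' h2

end Measure

section Frame

variable [SecondCountableTopology M] [Nonempty M]

/-- **link with 84**: `⟪Gr f, Gr g⟫ = mGam f g`. -/
theorem inner_Gr_eq_mGam (f g : M → ℝ) (z : M) :
    inner ℝ (Gr (n := n) f z) (Gr (n := n) g z) = Bo84.mGam n f g z :=
  inner_Gr_chart z (mem_chart_source 𝔼 z) f g

theorem norm_Gr_sq_eq_mGam (f : M → ℝ) (z : M) :
    ‖Gr (n := n) f z‖ ^ 2 = Bo84.mGam n f f z := by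
  rw [← inner_Gr_eq_mGam, real_inner_self_eq_norm_sq]

/-- the `k`-th coordinate of the chart at `x₀` -/
def cdf (x₀ : M) (k : Fin n) (z : M) : ℝ := (chartAt 𝔼 x₀ z) k

theorem pderiv_cdf (x₀ : M) (k i : Fin n) {a : 𝔼} (ha : a ∈ (chartAt 𝔼 x₀).target) :
    pderiv i (fun b => cdf x₀ k ((chartAt 𝔼 x₀).symm b)) a = if i = k then 1 else 0 := by
  have hev : (fun b => cdf x₀ k ((chartAt 𝔼 x₀).symm b)) =ᶠ[𝓝 a]
      fun b => (EuclideanSpace.proj k : 𝔼 →L[ℝ] ℝ) b := by
    filter_upwards [(chartAt 𝔼 x₀).open_target.mem_nhds ha] with b hb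
    simp only [cdf, (chartAt 𝔼 x₀).right_inv hb]
    rfl
  rw [pderiv, hev.fderiv_eq, ContinuousLinearMap.fderiv]
  change (EuclideanSpace.single i (1:ℝ) : 𝔼) k = _
  rw [PiLp.single_apply]
  by_cases h : k = i
  · rw [if_pos h, if_pos h.symm]
  · rw [if_neg h, if_neg (fun h' => h h'.symm)]

theorem inner_Gr_cdf (x₀ : M) {z : M} (hz : z ∈ (chartAt 𝔼 x₀).source) (k : Fin n) (f : M → ℝ) :
    inner ℝ (Gr (n := n) (cdf x₀ k) z) (Gr (n := n) f z) =
      ∑ j, inverseField (chartMetric n M x₀) (chartAt 𝔼 x₀ z) k j *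
        pderiv j (fun b => f ((chartAt 𝔼 x₀).symm b)) (chartAt 𝔼 x₀ z) := by
  rw [inner_Gr_chart x₀ hz, Bo84.gam, Finset.sum_eq_single k]
  · refine Finset.sum_congr rfl fun j _ => ?_
    rw [pderiv_cdf x₀ k k ((chartAt 𝔼 x₀).map_source hz), if_pos rfl]
    ring
  · intro i _ hi
    refine Finset.sum_eq_zero fun j _ => ?_
    rw [pderiv_cdf x₀ k i ((chartAt 𝔼 x₀).map_source hz), if_neg hi]
    ring
  · intro h; exact absurd (Finset.mem_univ k) h

open Classical in
/-- The coordinate vector `∂_i` of the chart at `x₀`, written in the orthonormal frame at `z`. -/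
def Ef (x₀ : M) (i : Fin n) (z : M) : 𝔼 :=
  if z ∈ (chartAt 𝔼 x₀).source then
    ∑ k, chartMetric n M x₀ (chartAt 𝔼 x₀ z) i k • Gr (n := n) (cdf x₀ k) z
  else 0

theorem Ef_of_mem (x₀ : M) (i : Fin n) {z : M} (hz : z ∈ (chartAt 𝔼 x₀).source) :
    Ef x₀ i z = ∑ k, chartMetric n M x₀ (chartAt 𝔼 x₀ z) i k • Gr (n := n) (cdf x₀ k) z :=
  if_pos hz

/-- (e1') `∂_i f = ⟪Ef i, Gr f⟫`, for EVERY function, at every point of the source. -/
theorem inner_Ef (x₀ : M) (i : Fin n) {z : M} (hz : z ∈ (chartAt 𝔼 x₀).source) (f : M → ℝ) :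
    inner ℝ (Ef x₀ i z) (Gr (n := n) f z) =
      pderiv i (fun b => f ((chartAt 𝔼 x₀).symm b)) (chartAt 𝔼 x₀ z) := by
  have hat := (chartAt 𝔼 x₀).map_source hz
  rw [Ef_of_mem x₀ i hz, sum_inner]
  simp only [real_inner_smul_left, inner_Gr_cdf x₀ hz, Finset.mul_sum]
  rw [Finset.sum_comm]
  have h2 : ∀ j : Fin n, ∑ k, chartMetric n M x₀ (chartAt 𝔼 x₀ z) i k *
      (inverseField (chartMetric n M x₀) (chartAt 𝔼 x₀ z) k j *
        pderiv j (fun b => f ((chartAt 𝔼 x₀).symm b)) (chartAt 𝔼 x₀ z)) =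
      if i = j then pderiv j (fun b => f ((chartAt 𝔼 x₀).symm b)) (chartAt 𝔼 x₀ z) else 0 := by
    intro j
    have h3 := Bo84.mul_inv_apply (isRiemannianOn_chartMetric (n := n) x₀) hat i j
    simp only [← mul_assoc]
    rw [← Finset.sum_mul, h3]
    split_ifs with h
    · rw [one_mul]
    · rw [zero_mul]
  simp only [h2]
  rw [Finset.sum_ite_eq, if_pos (Finset.mem_univ i)]

/-- (e2) `⟪Ef i, Ef j⟫ = g_ij`. -/
theorem inner_Ef_Ef (x₀ : M) (i j : Fin n) {z : M} (hz : z ∈ (chartAt 𝔼 x₀).source) :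
    inner ℝ (Ef x₀ i z) (Ef x₀ j z) = chartMetric n M x₀ (chartAt 𝔼 x₀ z) i j := by
  have hat := (chartAt 𝔼 x₀).map_source hz
  rw [Ef_of_mem x₀ j hz, inner_sum]
  simp only [real_inner_smul_right, inner_Ef x₀ i hz, pderiv_cdf x₀ _ _ hat]
  simp only [mul_ite, mul_one, mul_zero]
  rw [Finset.sum_ite_eq, if_pos (Finset.mem_univ i)]
  exact Crest.Agent.R202.Tens.metric_symm (isRiemannianOn_chartMetric (n := n) x₀) hat j i

/-- the chart vectors span. -/
theorem eq_zero_of_inner_Ef (x₀ : M) {z : M} (hz : z ∈ (chartAt 𝔼 x₀).source) {v : 𝔼}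
    (h : ∀ i, inner ℝ (Ef x₀ i z) v = 0) : v = 0 := by
  have hat := (chartAt 𝔼 x₀).map_source hz
  have hpos := (isRiemannianOn_chartMetric (n := n) x₀).posDef _ hat
  have hli : LinearIndependent ℝ (fun i : Fin n => Ef x₀ i z) := by
    rw [Fintype.linearIndependent_iff]
    intro c hc
    have h1 : inner ℝ (∑ i, c i • Ef x₀ i z) (∑ i, c i • Ef x₀ i z) = (0:ℝ) := by
      rw [hc, inner_zero_left]
    have h2 : c ⬝ᵥ (chartMetric n M x₀ (chartAt 𝔼 x₀ z)).mulVec c = 0 := by
      rw [← h1, sum_inner]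
      unfold dotProduct Matrix.mulVec dotProduct
      refine Finset.sum_congr rfl fun i _ => ?_
      rw [inner_sum, Finset.mul_sum]
      refine Finset.sum_congr rfl fun j _ => ?_
      rw [real_inner_smul_left, real_inner_smul_right, inner_Ef_Ef x₀ i j hz]
      ring
    by_contra hne
    have hc0 : c ≠ 0 := by
      intro h0
      exact hne fun i => by rw [h0]; rfl
    have h3 := hpos.dotProduct_mulVec_pos hc0
    simp only [star_trivial] at h3
    rw [h2] at h3
    exact lt_irrefl _ h3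
  have hsp : Submodule.span ℝ (Set.range fun i : Fin n => Ef x₀ i z) = ⊤ :=
    hli.span_eq_top_of_card_eq_finrank' (by rw [Fintype.card_fin, finrank_euclideanSpace_fin])
  have h4 : ∀ w ∈ Submodule.span ℝ (Set.range fun i : Fin n => Ef x₀ i z), inner ℝ w v = (0:ℝ) := by
    intro w hw
    induction hw using Submodule.span_induction with
    | mem w hw => obtain ⟨i, rfl⟩ := hw; exact h i
    | zero => exact inner_zero_left v
    | add a b _ _ ha hb => rw [inner_add_left, ha, hb, add_zero]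
    | smul c a _ ha => rw [real_inner_smul_left, ha, mul_zero]
  have h5 := h4 v (by rw [hsp]; trivial)
  exact inner_self_eq_zero.1 h5

section Meas

variable [IsRiemannianManifold (𝓡 n) M] [MeasurableSpace M] [BorelSpace M]

/-- (e0) the chart frame is measurable. -/
theorem measurable_Ef (x₀ : M) (i : Fin n) : Measurable (Ef (n := n) x₀ i) := by
  classical
  set S := (chartAt 𝔼 x₀).source with hS
  have hSm : MeasurableSet S := (chartAt 𝔼 x₀).open_source.measurableSet
  set c : Fin n → M → ℝ := fun k =>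
    S.piecewise (fun z => chartMetric n M x₀ (chartAt 𝔼 x₀ z) i k) (fun _ => 0) with hc
  have hcm : ∀ k, Measurable (c k) := by
    intro k
    refine ContinuousOn.measurable_piecewise ?_ continuousOn_const hSm
    exact ((isRiemannianOn_chartMetric (n := n) x₀).contDiffOn i k).continuousOn.comp
      (chartAt 𝔼 x₀).continuousOn (fun z hz => (chartAt 𝔼 x₀).map_source hz)
  have e : Ef (n := n) x₀ i = fun z => ∑ k, c k z • Gr (n := n) (cdf x₀ k) z := by
    funext z
    by_cases hz : z ∈ S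
    · rw [Ef_of_mem x₀ i hz]
      refine Finset.sum_congr rfl fun k _ => ?_
      rw [hc]; simp only; rw [Set.piecewise_eq_of_mem _ _ _ hz]
    · rw [Ef, if_neg hz]
      symm
      refine Finset.sum_eq_zero fun k _ => ?_
      rw [hc]; simp only; rw [Set.piecewise_eq_of_notMem _ _ _ hz, zero_smul]
  rw [e]
  exact Finset.measurable_sum _ fun k _ => (hcm k).smul (measurable_Gr _)

end Meas

end Frame

end

end Crest.Agent.R247.Ms322
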