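import Crest.Agent.R247.Ms10_322

/-!
R247, block (0d) (helper322), part 11: integration by parts on `M`:
`∫ ⟪Gr f, Gr φ⟫ = - ∫ φ mLap f` for `f` of class `C²` on the open set `U`, `φ` locally Lipschitz with
compact support in `U`.
-/

set_option autoImplicit false
set_option maxSynthPendingDepth 3
set_option linter.unusedSectionVars false
set_option linter.unusedVariables false

open Bundle Bornology Set MeasureTheory Manifold Filter Metric
open scoped ENNReal ContDiff Topology NNReal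
open Crest.GeometryTopology.CoordMetric Crest.GeometryTopology.ChartCurvature
open Crest.GeometryTopology.Geodesic
open Crest.Agent.R226.ChartMet842

namespace Crest.Agent.R247.Ms322

noncomputable section

section Euclid

variable {n : ℕ}

local notation "𝔼" => EuclideanSpace ℝ (Fin n)

theorem fderiv_zero_off {φ : 𝔼 → ℝ} {b : 𝔼} (hb : b ∉ tsupport φ) : fderiv ℝ φ b = 0 := by
  have hev : φ =ᶠ[𝓝 b] fun _ => 0 := by
    filter_upwards [(isClosed_tsupport φ).isOpen_compl.mem_nhds hb] with y hy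
    exact image_eq_zero_of_notMem_tsupport hy
  rw [hev.fderiv_eq, fderiv_const_apply]

theorem integrable_of_compact {f : 𝔼 → ℝ} {K : Set 𝔼} (hK : IsCompact K)
    (hf : AEStronglyMeasurable f (volume.restrict K)) {C : ℝ} (hC : ∀ b ∈ K, ‖f b‖ ≤ C)
    (h0 : ∀ b, b ∉ K → f b = 0) : Integrable f := by
  refine (integrableOn_iff_integrable_of_support_subset (s := K) ?_).1 ?_
  · intro b hb
    by_contra h
    exact hb (h0 b h)
  · refine ⟨hf, HasFiniteIntegral.restrict_of_bounded (C := C) hK.measure_lt_top ?_⟩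
    filter_upwards [ae_restrict_mem hK.measurableSet] with b hb using hC b hb

theorem integrable_mul_fderiv {U : Set 𝔼} {w φ : 𝔼 → ℝ} (hw : ContinuousOn w U)
    (hφ : LocallyLipschitz φ) (hc : HasCompactSupport φ) (hs : tsupport φ ⊆ U) (v : 𝔼) :
    Integrable (fun b => w b * fderiv ℝ φ b v) := by
  obtain ⟨K, hK⟩ := exists_lipschitzWith hφ hc
  obtain ⟨C, hC⟩ := hc.isCompact.exists_bound_of_continuousOn (hw.mono hs)
  refine integrable_of_compact hc.isCompact (C := C * (K * ‖v‖)) ?_ ?_ ?_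
  · refine AEStronglyMeasurable.mul ?_ ?_
    · exact (hw.mono hs).aestronglyMeasurable hc.isCompact.measurableSet
    · exact (measurable_fderiv_apply_const ℝ φ v).aestronglyMeasurable
  · intro b hb
    rw [norm_mul]
    have h1 := hC b hb
    have h2 : ‖fderiv ℝ φ b v‖ ≤ K * ‖v‖ :=
      (ContinuousLinearMap.le_opNorm _ _).trans
        (mul_le_mul_of_nonneg_right (norm_fderiv_le_of_lipschitz ℝ hK) (norm_nonneg _))
    exact mul_le_mul h1 h2 (norm_nonneg _) ((norm_nonneg _).trans h1)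
  · intro b hb
    rw [fderiv_zero_off hb]
    simp

theorem integrable_mul_of_continuousOn {U : Set 𝔼} {w φ : 𝔼 → ℝ} (hw : ContinuousOn w U)
    (hφ : Continuous φ) (hc : HasCompactSupport φ) (hs : tsupport φ ⊆ U) :
    Integrable (fun b => w b * φ b) := by
  obtain ⟨C, hC⟩ := hc.isCompact.exists_bound_of_continuousOn ((hw.mono hs).mul hφ.continuousOn)
  refine integrable_of_compact hc.isCompact (C := C) ?_ hC ?_
  · exact ((hw.mono hs).mul hφ.continuousOn).aestronglyMeasurable hc.isCompact.measurableSet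
  · intro b hb
    rw [image_eq_zero_of_notMem_tsupport hb, mul_zero]

end Euclid

variable {n : ℕ} {M : Type*} [MetricSpace M] [ChartedSpace (EuclideanSpace ℝ (Fin n)) M]
  [IsManifold (𝓡 n) ∞ M]
  [RiemannianBundle (fun p : M => TangentSpace (𝓡 n) p)]
  [IsContMDiffRiemannianBundle (𝓡 n) ∞ (EuclideanSpace ℝ (Fin n)) (fun p : M => TangentSpace (𝓡 n) p)]

local notation "𝔼" => EuclideanSpace ℝ (Fin n)

/-! ### the chart-level formula -/

theorem ibp_chart (x₀ : M) {U : Set 𝔼} (hU : IsOpen U) (hUt : U ⊆ (chartAt 𝔼 x₀).target)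
    {F Φ : 𝔼 → ℝ} (hF : ∀ a ∈ U, ContDiffAt ℝ 2 F a) (hΦ : LocallyLipschitz Φ)
    (hc : HasCompactSupport Φ) (hs : tsupport Φ ⊆ U) :
    ∫ a, dens x₀ a * Bo84.gam (chartMetric n M x₀) F Φ a =
      - ∫ a, dens x₀ a * (Φ a * laplaceBeltrami (chartMetric n M x₀) F a) := by
  have hg := isRiemannianOn_chartMetric (n := n) x₀
  set g := chartMetric n M x₀ with hgdef
  set W : Fin n → 𝔼 → ℝ := fun j a => Real.sqrt (g a).det * Bo84.grad g F a j with hW
  have hdens : ∀ a : 𝔼, dens x₀ a = Real.sqrt (g a).det := fun a => rfl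
  have hWd : ∀ j, ∀ a ∈ U, ContDiffAt ℝ 1 (W j) a := by
    intro j a ha
    have h1 : ContDiffAt ℝ 1 (fun a => Real.sqrt (g a).det) a :=
      ((contDiffOn_dens x₀).contDiffAt ((chartAt 𝔼 x₀).open_target.mem_nhds (hUt ha))).of_le
        (by simp)
    have h2 : ContDiffAt ℝ 1 (Bo84.grad g F) a :=
      Bo84.contDiffAt_grad hg (hUt ha) (m := 1) (hF a ha) (by norm_num) (by simp)
    have h3 : ContDiffAt ℝ 1 (fun a => Bo84.grad g F a j) a :=
      (EuclideanSpace.proj j : 𝔼 →L[ℝ] ℝ).contDiff.contDiffAt.comp a h2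
    exact h1.mul h3
  have hWL : ∀ j, LLo U (W j) := fun j a ha => (hWd j a ha).exists_lipschitzOnWith
  have hWc : ∀ j, ContinuousOn (W j) U := fun j a ha => (hWd j a ha).continuousAt.continuousWithinAt
  have hWc' : ∀ j, ContinuousOn (fun a => pderiv j (W j) a) U := by
    intro j a ha
    have h1 : ContDiffAt ℝ 0 (fderiv ℝ (W j)) a := (hWd j a ha).fderiv_right (by norm_num)
    have h2 : ContinuousAt (fun a => fderiv ℝ (W j) a (EuclideanSpace.single j 1)) a :=
      h1.continuousAt.clm_apply continuousAt_const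
    exact h2.continuousWithinAt
  -- left-hand side
  have e1 : (fun a => dens x₀ a * Bo84.gam g F Φ a) = fun a => ∑ j, W j a * pderiv j Φ a := by
    funext a
    by_cases ha : a ∈ U
    · rw [hdens, Bo84.gam, Finset.sum_comm, Finset.mul_sum]
      refine Finset.sum_congr rfl fun j _ => ?_
      rw [hW]
      simp only
      rw [Bo84.grad_apply, mul_assoc, Finset.sum_mul]
      congr 1
      refine Finset.sum_congr rfl fun i _ => ?_
      rw [Bo84.inv_symm hg (hUt ha) i j]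
    · have h0 : fderiv ℝ Φ a = 0 := fderiv_zero_off fun h => ha (hs h)
      have h1 : ∀ j, pderiv j Φ a = 0 := fun j => by rw [pderiv, h0]; rfl
      rw [Bo84.gam]
      simp [h1]
  have e2 : (fun a => dens x₀ a * (Φ a * laplaceBeltrami g F a)) =
      fun a => ∑ j, pderiv j (W j) a * Φ a := by
    funext a
    by_cases ha : a ∈ U
    · have h1 : laplaceBeltrami g F a = (1 / Real.sqrt (g a).det) * ∑ j, pderiv j (W j) a := rfl
      have h2 : Real.sqrt (g a).det ≠ 0 := (dens_pos (n := n) x₀ (hUt ha)).ne'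
      rw [h1, hdens, ← Finset.sum_mul]
      field_simp
    · have h0 : Φ a = 0 := image_eq_zero_of_notMem_tsupport fun h => ha (hs h)
      simp [h0]
  rw [e1, e2, integral_finsetSum, integral_finsetSum, ← Finset.sum_neg_distrib]
  · refine Finset.sum_congr rfl fun j _ => ?_
    exact ibp_euclid hU (hWL j) hΦ hc hs (EuclideanSpace.single j 1)
  · intro j _
    exact integrable_mul_of_continuousOn (hWc' j) hΦ.continuous hc hs
  · intro j _
    exact integrable_mul_fderiv (hWc j) hΦ hc hs (EuclideanSpace.single j 1)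

/-! ### functions on `M` with compact support in a chart domain -/

/-- A function read in the chart at `x₀`, extended by zero. -/
def pll (x₀ : M) (φ : M → ℝ) : EuclideanSpace ℝ (Fin n) → ℝ :=
  (chartAt (EuclideanSpace ℝ (Fin n)) x₀).target.indicator
    fun a => φ ((chartAt (EuclideanSpace ℝ (Fin n)) x₀).symm a)

theorem pll_of_mem (x₀ : M) (φ : M → ℝ) {a : 𝔼} (ha : a ∈ (chartAt 𝔼 x₀).target) :
    pll x₀ φ a = φ ((chartAt 𝔼 x₀).symm a) := indicator_of_mem ha _

theorem pll_of_notMem (x₀ : M) (φ : M → ℝ) {a : 𝔼} (ha : a ∉ (chartAt 𝔼 x₀).target) :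
    pll x₀ φ a = 0 := indicator_of_notMem ha _

theorem pll_eventually (x₀ : M) (φ : M → ℝ) {a : 𝔼} (ha : a ∈ (chartAt 𝔼 x₀).target) :
    pll x₀ φ =ᶠ[𝓝 a] fun b => φ ((chartAt 𝔼 x₀).symm b) := by
  filter_upwards [(chartAt 𝔼 x₀).open_target.mem_nhds ha] with b hb using pll_of_mem x₀ φ hb

theorem support_pll (x₀ : M) (φ : M → ℝ) :
    Function.support (pll (n := n) x₀ φ) ⊆ chartAt 𝔼 x₀ '' (tsupport φ ∩ (chartAt 𝔼 x₀).source) := by
  intro a ha
  have hat : a ∈ (chartAt 𝔼 x₀).target := by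
    by_contra h
    exact ha (pll_of_notMem x₀ φ h)
  rw [Function.mem_support, pll_of_mem x₀ φ hat] at ha
  exact ⟨(chartAt 𝔼 x₀).symm a, ⟨subset_tsupport φ ha, (chartAt 𝔼 x₀).map_target hat⟩,
    (chartAt 𝔼 x₀).right_inv hat⟩

theorem isCompact_chart_image (x₀ : M) {K : Set M} (hK : IsCompact K)
    (hs : K ⊆ (chartAt 𝔼 x₀).source) : IsCompact (chartAt 𝔼 x₀ '' K) :=
  hK.image_of_continuousOn ((chartAt 𝔼 x₀).continuousOn.mono hs)

theorem tsupport_pll_subset (x₀ : M) {φ : M → ℝ} (hc : HasCompactSupport φ)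
    (hs : tsupport φ ⊆ (chartAt 𝔼 x₀).source) :
    tsupport (pll (n := n) x₀ φ) ⊆ chartAt 𝔼 x₀ '' tsupport φ := by
  refine closure_minimal ?_ (isCompact_chart_image x₀ hc.isCompact hs).isClosed
  refine (support_pll x₀ φ).trans (image_mono inter_subset_left)

theorem hasCompactSupport_pll (x₀ : M) {φ : M → ℝ} (hc : HasCompactSupport φ)
    (hs : tsupport φ ⊆ (chartAt 𝔼 x₀).source) : HasCompactSupport (pll (n := n) x₀ φ) :=
  (isCompact_chart_image x₀ hc.isCompact hs).of_isClosed_subset (isClosed_tsupport _)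
    (tsupport_pll_subset x₀ hc hs)

theorem tsupport_pll_target (x₀ : M) {φ : M → ℝ} (hc : HasCompactSupport φ)
    (hs : tsupport φ ⊆ (chartAt 𝔼 x₀).source) {U : Set M} (hU : tsupport φ ⊆ U) :
    tsupport (pll (n := n) x₀ φ) ⊆ (chartAt 𝔼 x₀).target ∩ (chartAt 𝔼 x₀).symm ⁻¹' U := by
  refine (tsupport_pll_subset x₀ hc hs).trans ?_
  rintro _ ⟨z, hz, rfl⟩
  refine ⟨(chartAt 𝔼 x₀).map_source (hs hz), ?_⟩
  rw [mem_preimage, (chartAt 𝔼 x₀).left_inv (hs hz)]
  exact hU hz

theorem locallyLipschitz_pll [IsRiemannianManifold (𝓡 n) M] (x₀ : M) {φ : M → ℝ}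
    (hφ : LocallyLipschitz φ) (hc : HasCompactSupport φ)
    (hs : tsupport φ ⊆ (chartAt 𝔼 x₀).source) : LocallyLipschitz (pll (n := n) x₀ φ) := by
  intro a
  by_cases ha : a ∈ (chartAt 𝔼 x₀).target
  · obtain ⟨K, r, hr0, hrt, hK⟩ := exists_lipschitz_chart (n := n) x₀ ha (f := φ) (hφ _)
    refine ⟨K, ball a r, ball_mem_nhds a hr0, ?_⟩
    intro b hb c hc'
    rw [pll_of_mem x₀ φ (hrt hb), pll_of_mem x₀ φ (hrt hc')]
    exact hK hb hc'
  · have h1 : a ∉ tsupport (pll (n := n) x₀ φ) := fun h =>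
      ha (tsupport_pll_target x₀ hc hs (subset_univ _) h).1
    refine ⟨0, (tsupport (pll (n := n) x₀ φ))ᶜ, (isClosed_tsupport _).isOpen_compl.mem_nhds h1, ?_⟩
    intro b hb c hc'
    simp [image_eq_zero_of_notMem_tsupport hb, image_eq_zero_of_notMem_tsupport hc']

/-! ### bounds for the gradient -/

section Sel

variable [SecondCountableTopology M] [Nonempty M]

theorem Gr_zero_off {φ : M → ℝ} {z : M} (hz : z ∉ tsupport φ) : Gr (n := n) φ z = 0 := by
  have hev : φ =ᶠ[𝓝 z] fun _ => 0 := by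
    filter_upwards [(isClosed_tsupport φ).isOpen_compl.mem_nhds hz] with y hy
    exact image_eq_zero_of_notMem_tsupport hy
  rw [Gr_congr hev]
  ext j
  rw [Gr_apply]
  have : df (n := n) (fun _ : M => (0:ℝ)) z = 0 := by
    unfold df
    rw [mfderiv_const]
    rfl
  rw [this]
  rfl

variable [IsRiemannianManifold (𝓡 n) M]

theorem LLo.exists_bound_Gr {U : Set M} {f : M → ℝ} (hf : LLo U f) {K : Set M} (hK : IsCompact K)
    (hKU : K ⊆ U) : ∃ C : ℝ, 0 ≤ C ∧ ∀ z ∈ K, ‖Gr (n := n) f z‖ ≤ C := by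
  refine hK.induction_on (p := fun s => ∃ C : ℝ, 0 ≤ C ∧ ∀ z ∈ s, ‖Gr (n := n) f z‖ ≤ C) ?_ ?_ ?_ ?_
  · exact ⟨0, le_rfl, fun z hz => absurd hz (notMem_empty z)⟩
  · rintro s t hst ⟨C, hC0, hC⟩
    exact ⟨C, hC0, fun z hz => hC z (hst hz)⟩
  · rintro s t ⟨C, hC0, hC⟩ ⟨C', hC0', hC'⟩
    refine ⟨max C C', le_max_of_le_left hC0, ?_⟩
    rintro z (hz | hz)
    · exact (hC z hz).trans (le_max_left _ _)
    · exact (hC' z hz).trans (le_max_right _ _)
  · intro z hz
    obtain ⟨L, t, ht, hL⟩ := hf z (hKU hz)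
    refine ⟨interior t, mem_nhdsWithin_of_mem_nhds (interior_mem_nhds.2 ht), L, L.2, ?_⟩
    intro y hy
    exact norm_Gr_le_of_lipschitzOn (isOpen_interior.mem_nhds hy) (hL.mono interior_subset)

theorem exists_bound_Gr {φ : M → ℝ} (hφ : LocallyLipschitz φ) (hc : HasCompactSupport φ) :
    ∃ C : ℝ, 0 ≤ C ∧ ∀ z, ‖Gr (n := n) φ z‖ ≤ C := by
  obtain ⟨C, hC0, hC⟩ := (LLo.of_loc hφ (U := univ)).exists_bound_Gr (n := n) hc.isCompact
    (subset_univ _)
  refine ⟨C, hC0, fun z => ?_⟩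
  by_cases hz : z ∈ tsupport φ
  · exact hC z hz
  · rw [Gr_zero_off hz, norm_zero]; exact hC0

variable [MeasurableSpace M] [BorelSpace M]

theorem integrable_of_compact_M {f : M → ℝ} {K : Set M} (hK : IsCompact K)
    (hf : AEStronglyMeasurable f (μHE[n].restrict K)) {C : ℝ} (hC : ∀ b ∈ K, ‖f b‖ ≤ C)
    (h0 : ∀ b, b ∉ K → f b = 0) : Integrable f (μHE[n] : Measure M) := by
  haveI := isLocallyFiniteMeasure n M
  refine (integrableOn_iff_integrable_of_support_subset (s := K) ?_).1 ?_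
  · intro b hb
    by_contra h
    exact hb (h0 b h)
  · refine ⟨hf, HasFiniteIntegral.restrict_of_bounded (C := C) hK.measure_lt_top ?_⟩
    filter_upwards [ae_restrict_mem hK.measurableSet] with b hb using hC b hb

theorem integrable_inner_Gr {U : Set M} {f φ : M → ℝ} (hf : LLo U f)
    (hφ : LocallyLipschitz φ) (hc : HasCompactSupport φ) (hs : tsupport φ ⊆ U) :
    Integrable (fun z => inner ℝ (Gr (n := n) f z) (Gr (n := n) φ z)) (μHE[n] : Measure M) := by
  obtain ⟨C, hC0, hC⟩ := hf.exists_bound_Gr (n := n) hc.isCompact hs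
  obtain ⟨C', hC0', hC'⟩ := exists_bound_Gr (n := n) hφ hc
  refine integrable_of_compact_M hc.isCompact (C := C * C') ?_ ?_ ?_
  · exact ((measurable_Gr f).inner (measurable_Gr φ)).aestronglyMeasurable
  · intro z hz
    exact (norm_inner_le_norm _ _).trans (mul_le_mul (hC z hz) (hC' z) (norm_nonneg _) hC0)
  · intro z hz
    rw [Gr_zero_off hz, inner_zero_right]

theorem integrable_mul_of_continuousOn_M {U : Set M} {w φ : M → ℝ} (hw : ContinuousOn w U)
    (hφ : Continuous φ) (hc : HasCompactSupport φ) (hs : tsupport φ ⊆ U) :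
    Integrable (fun b => φ b * w b) (μHE[n] : Measure M) := by
  obtain ⟨C, hC⟩ := hc.isCompact.exists_bound_of_continuousOn (hφ.continuousOn.mul (hw.mono hs))
  refine integrable_of_compact_M hc.isCompact (C := C) ?_ hC ?_
  · exact (hφ.continuousOn.mul (hw.mono hs)).aestronglyMeasurable hc.isCompact.measurableSet
  · intro b hb
    rw [image_eq_zero_of_notMem_tsupport hb, zero_mul]

omit [SecondCountableTopology M] [Nonempty M] [IsRiemannianManifold (𝓡 n) M] [MeasurableSpace M]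
  [BorelSpace M] in
theorem continuousOn_mLap {U : Set M} {f : M → ℝ}
    (hf : ∀ z ∈ U, ContMDiffAt (𝓡 n) 𝓘(ℝ, ℝ) 2 f z) : ContinuousOn (Bo84.mLap n f) U := by
  intro z hz
  have h1 := Bo84.contMDiffAt_mLap (m := 0) (hf z hz) (by norm_num) Bo84.two_le_infty
  exact h1.continuousAt.continuousWithinAt

omit [SecondCountableTopology M] [Nonempty M] [MeasurableSpace M] [BorelSpace M] in
/-- the chart is Lipschitz near every point of its source -/
theorem exists_lipschitz_chartAt (x : M) {z : M} (hz : z ∈ (chartAt 𝔼 x).source) :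
    ∃ K : ℝ≥0, ∃ t ∈ 𝓝 z, LipschitzOnWith K (chartAt 𝔼 x) t := by
  have ha : chartAt 𝔼 x z ∈ (chartAt 𝔼 x).target := (chartAt 𝔼 x).map_source hz
  obtain ⟨A, hA, _⟩ := exists_isometry (n := n) x ha
  obtain ⟨r, hr0, hrt, _, hL⟩ := exists_bilip (n := n) x ha hA (η := 1) one_pos
  refine ⟨‖(A.symm : 𝔼 →L[ℝ] 𝔼)‖₊ * (1 + 1), (chartAt 𝔼 x).symm '' ball (chartAt 𝔼 x z) r, ?_, ?_⟩
  · have hVo : IsOpen ((chartAt 𝔼 x).symm '' ball (chartAt 𝔼 x z) r) :=
      (chartAt 𝔼 x).symm.isOpen_image_of_subset_source isOpen_ball hrt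
    exact hVo.mem_nhds ⟨chartAt 𝔼 x z, mem_ball_self hr0, (chartAt 𝔼 x).left_inv hz⟩
  · have h1 : LipschitzWith ‖(A.symm : 𝔼 →L[ℝ] 𝔼)‖₊ (fun b => A.symm b) :=
      (A.symm : 𝔼 →L[ℝ] 𝔼).lipschitz
    have h2 := (h1.lipschitzOnWith (s := univ)).comp hL (mapsTo_univ _ _)
    have e : (fun b => A.symm b) ∘ (fun z => A (chartAt 𝔼 x z)) = chartAt 𝔼 x := by
      funext b; simp
    rwa [e] at h2

omit [SecondCountableTopology M] [Nonempty M] [MeasurableSpace M] [BorelSpace M] in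
/-- `C¹` functions are locally Lipschitz. -/
theorem LLo.of_contMDiffAt {U : Set M} {f : M → ℝ}
    (hf : ∀ z ∈ U, ContMDiffAt (𝓡 n) 𝓘(ℝ, ℝ) 1 f z) : LLo U f := by
  intro z hz
  have hzs : z ∈ (chartAt 𝔼 z).source := mem_chart_source 𝔼 z
  have hat : chartAt 𝔼 z z ∈ (chartAt 𝔼 z).target := (chartAt 𝔼 z).map_source hzs
  have h1 : ContDiffAt ℝ 1 (Bo84.inCh n z f) (chartAt 𝔼 z z) := by
    refine Bo84.contDiffAt_inCh (by simp) hat ?_
    rw [(chartAt 𝔼 z).left_inv hzs]
    exact hf z hz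
  obtain ⟨K, s, hs, hK⟩ := h1.exists_lipschitzOnWith
  obtain ⟨L, t, ht, hL⟩ := exists_lipschitz_chartAt (n := n) z hzs
  have hc : ContinuousAt (chartAt 𝔼 z) z := (chartAt 𝔼 z).continuousAt hzs
  refine ⟨K * L, (t ∩ chartAt 𝔼 z ⁻¹' s) ∩ (chartAt 𝔼 z).source,
    inter_mem (inter_mem ht (hc.preimage_mem_nhds hs)) ((chartAt 𝔼 z).open_source.mem_nhds hzs), ?_⟩
  have h2 : LipschitzOnWith (K * L) (Bo84.inCh n z f ∘ chartAt 𝔼 z) (t ∩ chartAt 𝔼 z ⁻¹' s) :=
    hK.comp (hL.mono inter_subset_left) (fun y hy => hy.2)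
  intro y hy w hw
  have h3 := h2 hy.1 hw.1
  simp only [Function.comp, Bo84.inCh, (chartAt 𝔼 z).left_inv hy.2,
    (chartAt 𝔼 z).left_inv hw.2] at h3
  exact h3

/-! ### the formula on `M` -/

/-- chart case -/
theorem ibp_mLap_chart (x₀ : M) {U : Set M} (hU : IsOpen U) {f φ : M → ℝ}
    (hf : ∀ z ∈ U, ContMDiffAt (𝓡 n) 𝓘(ℝ, ℝ) 2 f z) (hφ : LocallyLipschitz φ)
    (hc : HasCompactSupport φ) (hs : tsupport φ ⊆ U) (hsx : tsupport φ ⊆ (chartAt 𝔼 x₀).source) :
    ∫ z, inner ℝ (Gr (n := n) f z) (Gr (n := n) φ z) ∂(μHE[n] : Measure M) =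
      - ∫ z, φ z * Bo84.mLap n f z ∂(μHE[n] : Measure M) := by
  set T := (chartAt 𝔼 x₀).target with hT
  have hTm : MeasurableSet T := (chartAt 𝔼 x₀).open_target.measurableSet
  set U' : Set 𝔼 := T ∩ (chartAt 𝔼 x₀).symm ⁻¹' U with hU'
  have hU'o : IsOpen U' := (chartAt 𝔼 x₀).isOpen_inter_preimage_symm hU
  have hts := tsupport_pll_target (n := n) x₀ hc hsx hs
  have hF : ∀ a ∈ U', ContDiffAt ℝ 2 (Bo84.inCh n x₀ f) a := fun a ha =>
    Bo84.contDiffAt_inCh Bo84.two_le_infty ha.1 (hf _ ha.2)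
  have key := ibp_chart x₀ hU'o inter_subset_left hF (locallyLipschitz_pll (n := n) x₀ hφ hc hsx)
    (hasCompactSupport_pll x₀ hc hsx) hts
  have e1 : ∫ z, inner ℝ (Gr (n := n) f z) (Gr (n := n) φ z) ∂(μHE[n] : Measure M) =
      ∫ a, dens x₀ a * Bo84.gam (chartMetric n M x₀) (Bo84.inCh n x₀ f) (pll x₀ φ) a := by
    rw [integral_eq_of_support x₀ _ (fun z hz => by
      rw [Gr_zero_off (fun h => hz (hsx h)), inner_zero_right])]
    have h0 : ∀ a, a ∉ T → dens x₀ a * Bo84.gam (chartMetric n M x₀) (Bo84.inCh n x₀ f)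
        (pll x₀ φ) a = 0 := by
      intro a ha
      have h1 : fderiv ℝ (pll (n := n) x₀ φ) a = 0 := fderiv_zero_off fun h => ha (hts h).1
      have h2 : ∀ j, pderiv j (pll (n := n) x₀ φ) a = 0 := fun j => by rw [pderiv, h1]; rfl
      rw [Bo84.gam]
      simp [h2]
    rw [← setIntegral_eq_integral_of_forall_compl_eq_zero (s := T) h0]
    refine setIntegral_congr_fun hTm fun a ha => ?_
    simp only [smul_eq_mul]
    rw [inner_Gr_chart x₀ ((chartAt 𝔼 x₀).map_target ha), (chartAt 𝔼 x₀).right_inv ha]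
    congr 1
    exact Bo84.gam_congr (EventuallyEq.refl _ _) (pll_eventually x₀ φ ha).symm
  have e2 : ∫ z, φ z * Bo84.mLap n f z ∂(μHE[n] : Measure M) =
      ∫ a, dens x₀ a * (pll x₀ φ a *
        laplaceBeltrami (chartMetric n M x₀) (Bo84.inCh n x₀ f) a) := by
    rw [integral_eq_of_support x₀ _ (fun z hz => by
      rw [image_eq_zero_of_notMem_tsupport (fun h => hz (hsx h)), zero_mul])]
    have h0 : ∀ a, a ∉ T → dens x₀ a * (pll x₀ φ a *
        laplaceBeltrami (chartMetric n M x₀) (Bo84.inCh n x₀ f) a) = 0 := by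
      intro a ha
      rw [pll_of_notMem x₀ φ ha]
      ring
    rw [← setIntegral_eq_integral_of_forall_compl_eq_zero (s := T) h0]
    refine setIntegral_congr_fun hTm fun a ha => ?_
    simp only [smul_eq_mul]
    rw [pll_of_mem x₀ φ ha]
    by_cases hz : (chartAt 𝔼 x₀).symm a ∈ tsupport φ
    · rw [Bo84.mLap_chart ha (hf _ (hs hz))]
    · rw [image_eq_zero_of_notMem_tsupport hz]
      ring
  rw [e1, e2, key]

/-- The integral identity for all test functions supported in `V`. -/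
def IbpOn (f : M → ℝ) (V : Set M) : Prop :=
  ∀ φ : M → ℝ, LocallyLipschitz φ → HasCompactSupport φ → tsupport φ ⊆ V →
    ∫ z, inner ℝ (Gr (n := n) f z) (Gr (n := n) φ z) ∂(μHE[n] : Measure M) =
      - ∫ z, φ z * Bo84.mLap n f z ∂(μHE[n] : Measure M)

theorem IbpOn.union {U V W : Set M} (hU : IsOpen U) {f : M → ℝ}
    (hf : ∀ z ∈ U, ContMDiffAt (𝓡 n) 𝓘(ℝ, ℝ) 2 f z) (hVo : IsOpen V) (hWo : IsOpen W)
    (hVU : V ⊆ U) (hWU : W ⊆ U) (hV : IbpOn (n := n) f V) (hW : IbpOn (n := n) f W) :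
    IbpOn (n := n) f (V ∪ W) := by
  intro φ hφ hc hs
  haveI := locallyCompactSpace n M
  have hfL : LLo U f := LLo.of_contMDiffAt fun z hz => (hf z hz).of_le (by norm_num)
  have hK : IsCompact (tsupport φ \ W) := hc.isCompact.diff hWo
  have hKV : tsupport φ \ W ⊆ V := fun z hz => (hs hz.1).resolve_right hz.2
  obtain ⟨χ, ⟨L, hL⟩, hχc, hχV, ⟨O, hOo, hKO, hO1⟩, -⟩ := exists_lip_cutoff hK hVo hKV
  set φ₁ : M → ℝ := fun z => χ z * φ z with hφ₁
  set φ₂ : M → ℝ := fun z => (1 - χ z) * φ z with hφ₂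
  have h1L : LocallyLipschitz φ₁ :=
    LLo.loc ((LLo.of_loc hL.locallyLipschitz).mul (LLo.of_loc hφ))
  have h2L : LocallyLipschitz φ₂ :=
    LLo.loc (((LLo.const 1).sub (LLo.of_loc hL.locallyLipschitz)).mul (LLo.of_loc hφ))
  have h1c : HasCompactSupport φ₁ := hχc.mul_right
  have h2c : HasCompactSupport φ₂ := hc.mul_left
  have h1V : tsupport φ₁ ⊆ V := (tsupport_mul_subset_left).trans hχV
  have h2W : tsupport φ₂ ⊆ W := by
    intro z hz
    by_contra hzW
    have hzφ : z ∈ tsupport φ := tsupport_mul_subset_right hz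
    have hzO : z ∈ O := hKO ⟨hzφ, hzW⟩
    have hdis : z ∉ tsupport φ₂ := by
      rw [notMem_tsupport_iff_eventuallyEq]
      filter_upwards [hOo.mem_nhds hzO] with y hy
      rw [hφ₂]
      simp [hO1 y hy]
    exact hdis hz
  have hsum : φ = fun z => φ₁ z + φ₂ z := by
    funext z
    rw [hφ₁, hφ₂]
    ring
  have hG : ∀ᵐ z ∂(μHE[n] : Measure M), inner ℝ (Gr (n := n) f z) (Gr (n := n) φ z) =
      inner ℝ (Gr (n := n) f z) (Gr (n := n) φ₁ z) +
        inner ℝ (Gr (n := n) f z) (Gr (n := n) φ₂ z) := by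
    filter_upwards [ae_mdifferentiableAt (n := n) h1L, ae_mdifferentiableAt (n := n) h2L]
      with z d1 d2
    rw [← inner_add_right, ← Gr_add d1 d2, ← hsum]
  have i1 := integrable_inner_Gr (n := n) hfL h1L h1c (h1V.trans hVU)
  have i2 := integrable_inner_Gr (n := n) hfL h2L h2c (h2W.trans hWU)
  have hLc := continuousOn_mLap (n := n) hf
  have j1 := integrable_mul_of_continuousOn_M (n := n) hLc h1L.continuous h1c (h1V.trans hVU)
  have j2 := integrable_mul_of_continuousOn_M (n := n) hLc h2L.continuous h2c (h2W.trans hWU)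
  have hR : ∫ z, φ z * Bo84.mLap n f z ∂(μHE[n] : Measure M) =
      ∫ z, φ₁ z * Bo84.mLap n f z ∂(μHE[n] : Measure M) +
        ∫ z, φ₂ z * Bo84.mLap n f z ∂(μHE[n] : Measure M) := by
    rw [← integral_add j1 j2]
    refine integral_congr_ae (Eventually.of_forall fun z => ?_)
    have := congrFun hsum z
    simp only at this ⊢
    rw [this]
    ring
  rw [integral_congr_ae hG, integral_add i1 i2, hV φ₁ h1L h1c h1V, hW φ₂ h2L h2c h2W, hR]
  ring

/-- **Integration by parts on `M`.** -/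
theorem ibp_mLap {U : Set M} (hU : IsOpen U) {f φ : M → ℝ}
    (hf : ∀ z ∈ U, ContMDiffAt (𝓡 n) 𝓘(ℝ, ℝ) 2 f z) (hφ : LocallyLipschitz φ)
    (hc : HasCompactSupport φ) (hs : tsupport φ ⊆ U) :
    ∫ z, inner ℝ (Gr (n := n) f z) (Gr (n := n) φ z) ∂(μHE[n] : Measure M) =
      - ∫ z, φ z * Bo84.mLap n f z ∂(μHE[n] : Measure M) := by
  classical
  -- finite subsets
  set V : M → Set M := fun x => (chartAt 𝔼 x).source ∩ U with hV
  have hVo : ∀ x, IsOpen (V x) := fun x => (chartAt 𝔼 x).open_source.inter hU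
  have hfin : ∀ s : Finset M, IbpOn (n := n) f (⋃ x ∈ s, V x) := by
    intro s
    induction s using Finset.induction_on with
    | empty =>
      intro φ hφ hc hs
      have h0 : tsupport φ = ∅ := by
        rw [← subset_empty_iff]
        simpa using hs
      have h1 : ∀ z, φ z = 0 := fun z => image_eq_zero_of_notMem_tsupport (by rw [h0]; simp)
      have h2 : ∀ z, Gr (n := n) φ z = 0 := fun z => Gr_zero_off (by rw [h0]; simp)
      simp [h1, h2]
    | insert a s ha ih =>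
      rw [Finset.set_biUnion_insert]
      refine IbpOn.union hU hf (hVo a) (isOpen_biUnion fun x _ => hVo x) inter_subset_right
        (iUnion₂_subset fun x _ => inter_subset_right) ?_ ih
      intro φ hφ hc hs
      exact ibp_mLap_chart a hU hf hφ hc (hs.trans inter_subset_right)
        (hs.trans inter_subset_left)
  obtain ⟨s, hs'⟩ := hc.isCompact.elim_finite_subcover V hVo (fun z hz =>
    mem_iUnion.2 ⟨z, mem_chart_source 𝔼 z, hs hz⟩)
  exact hfin s φ hφ hc hs'

end Sel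

end

end Crest.Agent.R247.Ms322
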