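import Crest.Agent.R247.Ms11_322
import Crest.Agent.R247.Dir0_593

/-!
R247, block (0c) (helper322), part 12: closability of the gradient, the term `gradS n M` of 593's
structure `GradS M 𝔼 (μHE[n])`, with `(gradS n M).G = Gr` definitionally.
-/

set_option autoImplicit false
set_option maxSynthPendingDepth 3
set_option linter.unusedSectionVars false
set_option linter.unusedVariables false

open Bundle Bornology Set MeasureTheory Manifold Filter Metric
open scoped ENNReal ContDiff Topology NNReal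
open Crest.GeometryTopology.CoordMetric Crest.GeometryTopology.ChartCurvature
open Crest.GeometryTopology.Geodesic
open Crest.Agent.R226.ChartMet842

namespace Crest.Agent.R247.Ms322

noncomputable section

section L2

variable {X : Type*} [MeasurableSpace X] {μ : Measure X} {F : Type*} [NormedAddCommGroup F]
  [InnerProductSpace ℝ F]

theorem tendsto_integral_inner {h : X → F} (hh : MemLp h 2 μ) {u : ℕ → X → F} {v : X → F}
    (hu : ∀ k, MemLp (u k) 2 μ) (hv : MemLp v 2 μ)
    (ht : Tendsto (fun k => eLpNorm (fun x => u k x - v x) 2 μ) atTop (𝓝 0)) :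
    Tendsto (fun k => ∫ x, inner ℝ (h x) (u k x) ∂μ) atTop (𝓝 (∫ x, inner ℝ (h x) (v x) ∂μ)) := by
  have h1 : Tendsto (fun k => (hu k).toLp (u k)) atTop (𝓝 (hv.toLp v)) :=
    (Lp.tendsto_Lp_iff_tendsto_eLpNorm'' u hu v hv).2 ht
  have e : ∀ {w : X → F} (hw : MemLp w 2 μ),
      inner ℝ (hh.toLp h) (hw.toLp w) = ∫ x, inner ℝ (h x) (w x) ∂μ := by
    intro w hw
    rw [L2.inner_def]
    refine integral_congr_ae ?_
    filter_upwards [hh.coeFn_toLp, hw.coeFn_toLp] with x e1 e2
    rw [e1, e2]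
  have h2 : Tendsto (fun k => inner ℝ (hh.toLp h) ((hu k).toLp (u k))) atTop
      (𝓝 (inner ℝ (hh.toLp h) (hv.toLp v))) :=
    ((continuous_const.inner continuous_id).tendsto (hv.toLp v)).comp h1
  simpa only [e] using h2

end L2

variable {n : ℕ} {M : Type*} [MetricSpace M] [ChartedSpace (EuclideanSpace ℝ (Fin n)) M]
  [IsManifold (𝓡 n) ∞ M]
  [RiemannianBundle (fun p : M => TangentSpace (𝓡 n) p)]
  [IsContMDiffRiemannianBundle (𝓡 n) ∞ (EuclideanSpace ℝ (Fin n)) (fun p : M => TangentSpace (𝓡 n) p)]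
  [SecondCountableTopology M] [Nonempty M] [IsRiemannianManifold (𝓡 n) M]
  [MeasurableSpace M] [BorelSpace M]

local notation "𝔼" => EuclideanSpace ℝ (Fin n)

theorem memLp_of_compact {F : Type*} [NormedAddCommGroup F] {f : M → F} {K : Set M}
    (hK : IsCompact K) (hf : AEStronglyMeasurable f ((μHE[n] : Measure M).restrict K)) {C : ℝ}
    (hC : ∀ b ∈ K, ‖f b‖ ≤ C) (h0 : ∀ b, b ∉ K → f b = 0) (p : ℝ≥0∞) :
    MemLp f p (μHE[n] : Measure M) := by
  have := isLocallyFiniteMeasure n M
  have hind : f = K.indicator f := by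
    funext z
    by_cases hz : z ∈ K
    · rw [indicator_of_mem hz]
    · rw [indicator_of_notMem hz, h0 z hz]
  have h1 : MemLp (K.indicator fun _ => |C|) p (μHE[n] : Measure M) :=
    memLp_indicator_const p hK.measurableSet _ (Or.inr hK.measure_lt_top.ne)
  refine h1.mono ?_ (Eventually.of_forall fun z => ?_)
  · rw [hind]
    exact (aestronglyMeasurable_indicator_iff hK.measurableSet).2 hf
  · by_cases hz : z ∈ K
    · rw [indicator_of_mem hz, Real.norm_of_nonneg (abs_nonneg C)]
      exact (hC z hz).trans (le_abs_self C)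
    · rw [h0 z hz, indicator_of_notMem hz, norm_zero, norm_zero]

open Classical in
/-- adjoint of `f ↦ ⟪Ef i, Gr f⟫` -/
def dvi (x₀ : M) (i : Fin n) (φ : M → ℝ) (z : M) : ℝ :=
  if z ∈ (chartAt (EuclideanSpace ℝ (Fin n)) x₀).source then
    fderiv ℝ (fun a => pll (n := n) x₀ φ a * dens x₀ a)
      (chartAt (EuclideanSpace ℝ (Fin n)) x₀ z) (EuclideanSpace.single i 1) /
      dens x₀ (chartAt (EuclideanSpace ℝ (Fin n)) x₀ z)
  else 0

variable (x₀ : M) {φ : M → ℝ}

theorem locLip_pll_dens (hφ : LocallyLipschitz φ) (hc : HasCompactSupport φ)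
    (hs : tsupport φ ⊆ (chartAt 𝔼 x₀).source) :
    LocallyLipschitz (fun a => pll (n := n) x₀ φ a * dens x₀ a) :=
  LLo.mul_supp (locallyLipschitz_pll x₀ hφ hc hs)
    (LLo.of_contDiffOn (chartAt 𝔼 x₀).open_target ((contDiffOn_dens (n := n) x₀).of_le (by simp)))
    (fun a ha => (tsupport_pll_target x₀ hc hs (subset_univ _) ha).1)

theorem tsupport_pll_dens :
    tsupport (fun a => pll (n := n) x₀ φ a * dens x₀ a) ⊆ tsupport (pll (n := n) x₀ φ) :=
  tsupport_mul_subset_left

/-- integration by parts against a chart vector field -/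
theorem integral_inner_Ef {f : M → ℝ} (hf : LocallyLipschitz f) (i : Fin n)
    (hφ : LocallyLipschitz φ) (hc : HasCompactSupport φ)
    (hs : tsupport φ ⊆ (chartAt 𝔼 x₀).source) :
    ∫ z, inner ℝ (φ z • Ef x₀ i z) (Gr (n := n) f z) ∂(μHE[n] : Measure M) =
      - ∫ z, inner ℝ (dvi x₀ i φ z) (f z) ∂(μHE[n] : Measure M) := by
  set T := (chartAt 𝔼 x₀).target with hT
  have hTo : IsOpen T := (chartAt 𝔼 x₀).open_target
  have hTm : MeasurableSet T := hTo.measurableSet
  have hts : tsupport (pll (n := n) x₀ φ) ⊆ T := fun a ha =>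
    (tsupport_pll_target x₀ hc hs (subset_univ _) ha).1
  have hts' := (tsupport_pll_dens (n := n) x₀ (φ := φ)).trans hts
  set F : 𝔼 → ℝ := fun b => f ((chartAt 𝔼 x₀).symm b) with hF
  set Φ : 𝔼 → ℝ := fun a => pll (n := n) x₀ φ a * dens x₀ a with hΦ
  have hFL : LLo T F := by
    intro a ha
    obtain ⟨K, r, hr0, hrt, hK⟩ := exists_lipschitz_chart (n := n) x₀ ha (f := f) (hf _)
    exact ⟨K, ball a r, ball_mem_nhds a hr0, hK⟩
  have key := ibp_euclid hTo hFL (locLip_pll_dens (n := n) x₀ hφ hc hs)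
    ((hasCompactSupport_pll x₀ hc hs).mul_right) hts' (EuclideanSpace.single i 1)
  have e1 : ∫ z, inner ℝ (φ z • Ef x₀ i z) (Gr (n := n) f z) ∂(μHE[n] : Measure M) =
      ∫ a, fderiv ℝ F a (EuclideanSpace.single i 1) * Φ a := by
    rw [integral_eq_of_support x₀ _ (fun z hz => by
      rw [image_eq_zero_of_notMem_tsupport (fun h => hz (hs h)), zero_smul, inner_zero_left])]
    have h0 : ∀ a, a ∉ T → fderiv ℝ F a (EuclideanSpace.single i 1) * Φ a = 0 := by
      intro a ha
      rw [hΦ]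
      simp only
      rw [pll_of_notMem x₀ φ ha]
      ring
    rw [← setIntegral_eq_integral_of_forall_compl_eq_zero (s := T) h0]
    refine setIntegral_congr_fun hTm fun a ha => ?_
    simp only [smul_eq_mul, real_inner_smul_left]
    rw [inner_Ef x₀ i ((chartAt 𝔼 x₀).map_target ha), (chartAt 𝔼 x₀).right_inv ha, hΦ]
    simp only
    rw [pll_of_mem x₀ φ ha, pderiv]
    ring
  have e2 : ∫ z, inner ℝ (dvi x₀ i φ z) (f z) ∂(μHE[n] : Measure M) =
      ∫ a, F a * fderiv ℝ Φ a (EuclideanSpace.single i 1) := by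
    rw [integral_eq_of_support x₀ _ (fun z hz => by
      rw [dvi, if_neg hz, inner_zero_left])]
    have h0 : ∀ a, a ∉ T → F a * fderiv ℝ Φ a (EuclideanSpace.single i 1) = 0 := by
      intro a ha
      rw [fderiv_zero_off fun h => ha (hts' h)]
      simp
    rw [← setIntegral_eq_integral_of_forall_compl_eq_zero (s := T) h0]
    refine setIntegral_congr_fun hTm fun a ha => ?_
    have hd := dens_pos (n := n) x₀ ha
    simp only [smul_eq_mul]
    rw [dvi, if_pos ((chartAt 𝔼 x₀).map_target ha), (chartAt 𝔼 x₀).right_inv ha]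
    simp only [RCLike.inner_apply, conj_trivial]
    have hd' : dens (n := n) x₀ a ≠ 0 := hd.ne'
    change dens x₀ a * (F a * (fderiv ℝ Φ a (EuclideanSpace.single i 1) / dens x₀ a)) = _
    field_simp
  rw [e1, e2, key, neg_neg]

theorem memLp_dvi (i : Fin n) (hφ : LocallyLipschitz φ) (hc : HasCompactSupport φ)
    (hs : tsupport φ ⊆ (chartAt 𝔼 x₀).source) : MemLp (dvi x₀ i φ) 2 (μHE[n] : Measure M) := by
  set Φ : 𝔼 → ℝ := fun a => pll (n := n) x₀ φ a * dens x₀ a with hΦ
  obtain ⟨K, hK⟩ := exists_lipschitzWith (locLip_pll_dens (n := n) x₀ hφ hc hs)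
    ((hasCompactSupport_pll x₀ hc hs).mul_right)
  have hchc : ContinuousOn (chartAt 𝔼 x₀) (tsupport φ) := (chartAt 𝔼 x₀).continuousOn.mono hs
  have hdc : ContinuousOn (fun z => dens x₀ (chartAt 𝔼 x₀ z)) (tsupport φ) :=
    (continuousOn_dens (n := n) x₀).comp hchc (fun z hz => (chartAt 𝔼 x₀).map_source (hs hz))
  have hd0 : ∀ z ∈ tsupport φ, dens (n := n) x₀ (chartAt 𝔼 x₀ z) ≠ 0 := fun z hz =>
    (dens_pos x₀ ((chartAt 𝔼 x₀).map_source (hs hz))).ne'
  obtain ⟨C, hC⟩ := hc.isCompact.exists_bound_of_continuousOn (hdc.inv₀ hd0)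
  have hKm := hc.isCompact.measurableSet
  have hon : ∀ z ∈ tsupport φ, dvi x₀ i φ z = fderiv ℝ Φ (chartAt 𝔼 x₀ z)
      (EuclideanSpace.single i 1) * (dens x₀ (chartAt 𝔼 x₀ z))⁻¹ := by
    intro z hz
    rw [dvi, if_pos (hs hz), div_eq_mul_inv]
  refine memLp_of_compact hc.isCompact (C := K * C) ?_ ?_ ?_ 2
  · have h1 : AEStronglyMeasurable (fun z => fderiv ℝ Φ (chartAt 𝔼 x₀ z)
        (EuclideanSpace.single i 1) * (dens x₀ (chartAt 𝔼 x₀ z))⁻¹)
        ((μHE[n] : Measure M).restrict (tsupport φ)) := by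
      refine AEStronglyMeasurable.mul ?_ ?_
      · exact ((measurable_fderiv_apply_const ℝ Φ _).comp_aemeasurable
          (hchc.aemeasurable hKm)).aestronglyMeasurable
      · exact (hdc.inv₀ hd0).aestronglyMeasurable hKm
    refine h1.congr ?_
    filter_upwards [ae_restrict_mem hKm] with z hz using (hon z hz).symm
  · intro z hz
    rw [hon z hz, norm_mul]
    have h1 : ‖fderiv ℝ Φ (chartAt 𝔼 x₀ z) (EuclideanSpace.single i 1)‖ ≤ K := by
      refine (ContinuousLinearMap.le_opNorm _ _).trans ?_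
      rw [PiLp.norm_single, norm_one, mul_one]
      exact norm_fderiv_le_of_lipschitz ℝ hK
    exact mul_le_mul h1 (hC z hz) (norm_nonneg _) K.2
  · intro z hz
    by_cases hzs : z ∈ (chartAt 𝔼 x₀).source
    · rw [dvi, if_pos hzs]
      have h1 : chartAt 𝔼 x₀ z ∉ tsupport (fun a => pll (n := n) x₀ φ a * dens x₀ a) := by
        intro h
        obtain ⟨w, hw, hwz⟩ := tsupport_pll_subset x₀ hc hs (tsupport_pll_dens x₀ h)
        exact hz ((chartAt 𝔼 x₀).injOn (hs hw) hzs hwz ▸ hw)
      rw [fderiv_zero_off h1]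
      simp
    · rw [dvi, if_neg hzs]

theorem exists_bound_Ef (i : Fin n) {K : Set M} (hK : IsCompact K)
    (hs : K ⊆ (chartAt 𝔼 x₀).source) : ∃ C : ℝ, 0 ≤ C ∧ ∀ z ∈ K, ‖Ef (n := n) x₀ i z‖ ≤ C := by
  have hc : ContinuousOn (fun z => chartMetric n M x₀ (chartAt 𝔼 x₀ z) i i) K :=
    ((isRiemannianOn_chartMetric (n := n) x₀).contDiffOn i i).continuousOn.comp
      ((chartAt 𝔼 x₀).continuousOn.mono hs) (fun z hz => (chartAt 𝔼 x₀).map_source (hs hz))
  obtain ⟨C, hC⟩ := hK.exists_bound_of_continuousOn hc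
  refine ⟨√|C|, Real.sqrt_nonneg _, fun z hz => ?_⟩
  refine Real.le_sqrt_of_sq_le ?_
  rw [← real_inner_self_eq_norm_sq, inner_Ef_Ef x₀ i i (hs hz)]
  exact (le_abs_self _).trans ((hC z hz).trans (le_abs_self C))

theorem memLp_smul_Ef (i : Fin n) (hφ : Continuous φ) (hc : HasCompactSupport φ)
    (hs : tsupport φ ⊆ (chartAt 𝔼 x₀).source) :
    MemLp (fun z => φ z • Ef x₀ i z) 2 (μHE[n] : Measure M) := by
  obtain ⟨C, hC0, hC⟩ := exists_bound_Ef (n := n) x₀ i hc.isCompact hs
  obtain ⟨B, hB⟩ := hφ.bounded_above_of_compact_support hc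
  refine memLp_of_compact hc.isCompact (C := B * C) ?_ ?_ ?_ 2
  · exact (hφ.measurable.smul (measurable_Ef x₀ i)).aestronglyMeasurable
  · intro z hz
    rw [norm_smul]
    exact mul_le_mul (hB z) (hC z hz) (norm_nonneg _) ((norm_nonneg _).trans (hB z))
  · intro z hz
    rw [image_eq_zero_of_notMem_tsupport hz, zero_smul]

theorem closable_aux {f : ℕ → M → ℝ} {g : M → 𝔼}
    (hf : ∀ k, LocallyLipschitz (f k) ∧ HasCompactSupport (f k))
    (h0 : Tendsto (fun k => eLpNorm (f k) 2 (μHE[n] : Measure M)) atTop (𝓝 0))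
    (hg : MemLp g 2 (μHE[n] : Measure M))
    (hG : Tendsto (fun k => eLpNorm (fun x => Gr (n := n) (f k) x - g x) 2 (μHE[n] : Measure M))
      atTop (𝓝 0)) (i : Fin n) :
    ∀ᵐ z ∂(μHE[n] : Measure M), z ∈ (chartAt 𝔼 x₀).source → inner ℝ (Ef x₀ i z) (g z) = (0:ℝ) := by
  have := isLocallyFiniteMeasure n M
  have := locallyCompactSpace n M
  have hGr : ∀ k, MemLp (Gr (n := n) (f k)) 2 (μHE[n] : Measure M) := by
    intro k
    obtain ⟨C, hC0, hC⟩ := exists_bound_Gr (n := n) (hf k).1 (hf k).2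
    exact memLp_of_compact (hf k).2.isCompact (measurable_Gr _).aestronglyMeasurable
      (fun z _ => hC z) (fun z hz => Gr_zero_off hz) 2
  have hfm : ∀ k, MemLp (f k) 2 (μHE[n] : Measure M) := fun k =>
    (hf k).1.continuous.memLp_of_hasCompactSupport (hf k).2
  refine (chartAt 𝔼 x₀).open_source.ae_eq_zero_of_integral_contMDiff_smul_eq_zero (𝓡 n) ?_ ?_
  · rw [locallyIntegrableOn_iff (chartAt 𝔼 x₀).open_source.isLocallyClosed]
    intro K hKs hK
    obtain ⟨C, hC0, hC⟩ := exists_bound_Ef (n := n) x₀ i hK hKs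
    have hfin : IsFiniteMeasure ((μHE[n] : Measure M).restrict K) :=
      ⟨by rw [Measure.restrict_apply_univ]; exact hK.measure_lt_top⟩
    have h1 : IntegrableOn g K (μHE[n] : Measure M) :=
      (hg.restrict K).integrable (by norm_num : (1:ℝ≥0∞) ≤ 2)
    refine (h1.norm.const_mul C).mono' ?_ ?_
    · exact ((measurable_Ef x₀ i).aestronglyMeasurable.inner hg.1).restrict
    · filter_upwards [ae_restrict_mem hK.measurableSet] with z hz
      exact (norm_inner_le_norm _ _).trans (mul_le_mul_of_nonneg_right (hC z hz) (norm_nonneg _))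
  · intro φ hφs hφc hφ
    have hφL : LocallyLipschitz φ := LLo.loc (LLo.of_contMDiffAt (n := n) fun z _ =>
      (hφs.contMDiffAt).of_le (by simp))
    have t1 := tendsto_integral_inner (memLp_smul_Ef x₀ i hφL.continuous hφc hφ) hGr hg hG
    have t2 := tendsto_integral_inner (memLp_dvi x₀ i hφL hφc hφ) hfm (v := fun _ => 0)
      (MemLp.zero' (μ := (μHE[n] : Measure M)) (p := 2)) (by simpa using h0)
    have e : ∀ k, ∫ x, inner ℝ (φ x • Ef x₀ i x) (Gr (n := n) (f k) x) ∂(μHE[n] : Measure M) =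
        - ∫ x, inner ℝ (dvi x₀ i φ x) (f k x) ∂(μHE[n] : Measure M) := fun k =>
      integral_inner_Ef x₀ (hf k).1 i hφL hφc hφ
    simp only [e] at t1
    have t3 := tendsto_nhds_unique t1 t2.neg
    simp only [real_inner_smul_left, inner_zero_right, integral_zero, neg_zero] at t3
    exact t3

variable (n M) in
/-- **(0c): the gradient structure of `M`.** `(gradS n M).G = Gr`. -/
def gradS : Dir593.GradS M (EuclideanSpace ℝ (Fin n)) (μHE[n] : Measure M) where
  G := Gr (n := n)
  meas := fun {f} _ => (measurable_Gr f).aestronglyMeasurable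
  add := by
    intro f g hf hg
    filter_upwards [ae_mdifferentiableAt (n := n) hf, ae_mdifferentiableAt (n := n) hg]
      with z d1 d2 using Gr_add d1 d2
  smul := by
    intro c f hf
    filter_upwards [ae_mdifferentiableAt (n := n) hf] with z d1 using Gr_const_mul c d1
  mul := by
    intro f g hf hg
    filter_upwards [ae_mdifferentiableAt (n := n) hf, ae_mdifferentiableAt (n := n) hg]
      with z d1 d2 using Gr_mul d1 d2
  comp := by
    intro f χ hf hχ
    filter_upwards [ae_mdifferentiableAt (n := n) hf] with z d1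
    exact Gr_comp d1 (hχ.differentiable (by norm_num) _)
  norm_le := by
    intro f K U hf hU hK
    refine Eventually.of_forall fun z hz => ?_
    exact norm_Gr_le_of_lipschitzOn (hU.mem_nhds hz) hK
  closable := by
    intro f g hf h0 hg hG
    have h1 : ∀ᵐ z ∂(μHE[n] : Measure M), ∀ k : ℕ, ∀ i : Fin n,
        z ∈ (chartAt 𝔼 (cen n M k)).source → inner ℝ (Ef (cen n M k) i z) (g z) = (0:ℝ) := by
      rw [ae_all_iff]
      intro k
      rw [ae_all_iff]
      intro i
      exact closable_aux (cen n M k) hf h0 hg hG i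
    filter_upwards [h1] with z hz
    exact eq_zero_of_inner_Ef (sel n z) (mem_sel z) (fun i => hz (idx n z) i (mem_sel z))

theorem gradS_G : (gradS n M).G = Gr (n := n) := rfl

end

end Crest.Agent.R247.Ms322
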