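import Crest.Agent.R247.Ms3_322

/-!
R247, block (0) (helper322), part 4: integral forms of the exact chart formula.
-/

set_option autoImplicit false
set_option maxSynthPendingDepth 3
set_option linter.unusedSectionVars false
set_option linter.unusedVariables false

open Bundle Bornology Set MeasureTheory Manifold Filter Metric
open scoped ENNReal ContDiff Topology NNReal
open Crest.GeometryTopology.CoordMetric Crest.GeometryTopology.ChartCurvature
open Crest.GeometryTopology.Geodesic
open Crest.Agent.R226.ChartMet842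

namespace Crest.Agent.R247.Ms322

noncomputable section

variable {n : ℕ} {M : Type*} [MetricSpace M] [ChartedSpace (EuclideanSpace ℝ (Fin n)) M]
  [IsManifold (𝓡 n) ∞ M]
  [RiemannianBundle (fun p : M => TangentSpace (𝓡 n) p)]
  [IsContMDiffRiemannianBundle (𝓡 n) ∞ (EuclideanSpace ℝ (Fin n)) (fun p : M => TangentSpace (𝓡 n) p)]

local notation "𝔼" => EuclideanSpace ℝ (Fin n)

theorem measurableSet_target (x : M) : MeasurableSet (chartAt 𝔼 x).target :=
  (chartAt 𝔼 x).open_target.measurableSet

/-- The chart-side volume measure: `√(det g) · Lebesgue` on the target. -/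
def cvol (x : M) : Measure 𝔼 :=
  (volume.restrict (chartAt 𝔼 x).target).withDensity (fun a => ENNReal.ofReal (dens x a))

theorem aemeasurable_dens (x : M) :
    AEMeasurable (dens (n := n) x) (volume.restrict (chartAt 𝔼 x).target) :=
  (continuousOn_dens x).aemeasurable (measurableSet_target x)

theorem cvol_apply (x : M) {B : Set 𝔼} (hB : MeasurableSet B) :
    cvol x B = ∫⁻ a in B ∩ (chartAt 𝔼 x).target, ENNReal.ofReal (dens x a) := by
  rw [cvol, withDensity_apply _ hB, Measure.restrict_restrict hB]

variable [IsRiemannianManifold (𝓡 n) M] [MeasurableSpace M] [BorelSpace M]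

theorem measurableEmbedding_symm (x : M) :
    MeasurableEmbedding (fun a : (chartAt 𝔼 x).target => (chartAt 𝔼 x).symm a) where
  injective := by
    intro a b h
    exact Subtype.ext ((chartAt 𝔼 x).symm.injOn a.2 b.2 h)
  measurable :=
    ((chartAt 𝔼 x).symm.continuousOn.comp_continuous continuous_subtype_val
      (fun z => z.2)).measurable
  measurableSet_image' := by
    intro S hS
    have e : (fun a : (chartAt 𝔼 x).target => (chartAt 𝔼 x).symm a) '' S
        = (chartAt 𝔼 x).symm '' (Subtype.val '' S) := by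
      rw [image_image]
    rw [e]
    exact measurableSet_symm_image x (by rintro _ ⟨a, _, rfl⟩; exact a.2)
      (MeasurableSet.subtype_image (measurableSet_target x) hS)

/-- **Exact chart formula**, measure form. -/
theorem restrict_source_eq (x : M) :
    (μHE[n] : Measure M).restrict (chartAt 𝔼 x).source =
      Measure.map (fun a : (chartAt 𝔼 x).target => (chartAt 𝔼 x).symm a)
        (Measure.comap Subtype.val (cvol x)) := by
  ext S hS
  rw [Measure.restrict_apply hS, (measurableEmbedding_symm x).map_apply,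
    (MeasurableEmbedding.subtype_coe (measurableSet_target x)).comap_apply]
  have e1 : (Subtype.val '' ((fun a : (chartAt 𝔼 x).target => (chartAt 𝔼 x).symm a) ⁻¹' S))
      = (chartAt 𝔼 x).target ∩ (chartAt 𝔼 x).symm ⁻¹' S := by
    ext a
    simp only [mem_image, mem_preimage, Subtype.exists, exists_and_left, exists_prop, exists_eq_right_right, mem_inter_iff]
    tauto
  have hmeas : MeasurableSet ((chartAt 𝔼 x).target ∩ (chartAt 𝔼 x).symm ⁻¹' S) := by
    rw [← e1]
    exact MeasurableSet.subtype_image (measurableSet_target x)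
      ((measurableEmbedding_symm x).measurable hS)
  rw [e1, cvol_apply x hmeas]
  have e2 : (chartAt 𝔼 x).target ∩ (chartAt 𝔼 x).symm ⁻¹' S ∩ (chartAt 𝔼 x).target
      = (chartAt 𝔼 x).target ∩ (chartAt 𝔼 x).symm ⁻¹' S := by
    ext a; simp only [mem_inter_iff]; tauto
  rw [e2, ← muHE_symm_image x inter_subset_left hmeas]
  congr 1
  ext z
  constructor
  · rintro ⟨hz, hzs⟩
    exact ⟨chartAt 𝔼 x z, ⟨(chartAt 𝔼 x).map_source hzs, by
      rw [mem_preimage, (chartAt 𝔼 x).left_inv hzs]; exact hz⟩, (chartAt 𝔼 x).left_inv hzs⟩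
  · rintro ⟨a, ⟨ha, haS⟩, rfl⟩
    exact ⟨haS, (chartAt 𝔼 x).map_target ha⟩

/-- **Exact chart formula**, `lintegral` form (no measurability of `f` is needed). -/
theorem lintegral_source (x : M) (f : M → ℝ≥0∞) :
    ∫⁻ z in (chartAt 𝔼 x).source, f z ∂μHE[n] =
      ∫⁻ a in (chartAt 𝔼 x).target, ENNReal.ofReal (dens x a) * f ((chartAt 𝔼 x).symm a) := by
  rw [restrict_source_eq, (measurableEmbedding_symm x).lintegral_map]
  have h1 : ∫⁻ a : (chartAt 𝔼 x).target, f ((chartAt 𝔼 x).symm a) ∂(Measure.comap Subtype.val (cvol x))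
      = ∫⁻ a in (chartAt 𝔼 x).target, f ((chartAt 𝔼 x).symm a) ∂(cvol x) :=
    lintegral_subtype_comap (measurableSet_target x) (fun a => f ((chartAt 𝔼 x).symm a))
  rw [h1]
  have h2 : (cvol x).restrict (chartAt 𝔼 x).target = cvol x := by
    rw [cvol, restrict_withDensity (measurableSet_target x),
      Measure.restrict_restrict (measurableSet_target x), inter_self]
  rw [h2, cvol, lintegral_withDensity_eq_lintegral_mul_non_measurable₀ _
    (aemeasurable_dens x).ennreal_ofReal (ae_of_all _ fun a => ENNReal.ofReal_lt_top)]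
  rfl

theorem indicator_symm (x : M) {G : Type*} [Zero G] (B : Set 𝔼) (hB : B ⊆ (chartAt 𝔼 x).target)
    (f : M → G) {a : 𝔼} (ha : a ∈ (chartAt 𝔼 x).target) :
    ((chartAt 𝔼 x).symm '' B).indicator f ((chartAt 𝔼 x).symm a) =
      B.indicator (fun a => f ((chartAt 𝔼 x).symm a)) a := by
  by_cases h : a ∈ B
  · rw [indicator_of_mem h, indicator_of_mem (mem_image_of_mem _ h)]
  · rw [indicator_of_notMem h, indicator_of_notMem]
    rintro ⟨b, hb, hba⟩
    exact h ((chartAt 𝔼 x).symm.injOn (hB hb) ha hba ▸ hb)

theorem lintegral_symm_image (x : M) {B : Set 𝔼} (hB : B ⊆ (chartAt 𝔼 x).target)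
    (hBm : MeasurableSet B) (f : M → ℝ≥0∞) :
    ∫⁻ z in (chartAt 𝔼 x).symm '' B, f z ∂μHE[n] =
      ∫⁻ a in B, ENNReal.ofReal (dens x a) * f ((chartAt 𝔼 x).symm a) := by
  have hm := measurableSet_symm_image (n := n) x hB hBm
  have hsub : (chartAt 𝔼 x).symm '' B ⊆ (chartAt 𝔼 x).source := by
    rintro _ ⟨a, ha, rfl⟩; exact (chartAt 𝔼 x).map_target (hB ha)
  have h1 := lintegral_source (n := n) x (((chartAt 𝔼 x).symm '' B).indicator f)
  rw [lintegral_indicator hm, Measure.restrict_restrict hm, inter_eq_left.2 hsub] at h1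
  rw [h1]
  have h2 : ∫⁻ a in (chartAt 𝔼 x).target, ENNReal.ofReal (dens x a) *
      ((chartAt 𝔼 x).symm '' B).indicator f ((chartAt 𝔼 x).symm a) =
      ∫⁻ a in (chartAt 𝔼 x).target, B.indicator (fun a => ENNReal.ofReal (dens x a) *
        f ((chartAt 𝔼 x).symm a)) a := by
    refine setLIntegral_congr_fun (measurableSet_target x) (fun a ha => ?_)
    rw [indicator_symm x B hB f ha]
    by_cases h : a ∈ B
    · rw [indicator_of_mem h, indicator_of_mem h]
    · rw [indicator_of_notMem h, indicator_of_notMem h, mul_zero]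
  rw [h2, lintegral_indicator hBm, Measure.restrict_restrict hBm, inter_eq_left.2 hB]

/-- **Exact chart formula**, Bochner integral form (no measurability of `f` is needed). -/
theorem integral_source {G : Type*} [NormedAddCommGroup G] [NormedSpace ℝ G] (x : M) (f : M → G) :
    ∫ z in (chartAt 𝔼 x).source, f z ∂μHE[n] =
      ∫ a in (chartAt 𝔼 x).target, dens x a • f ((chartAt 𝔼 x).symm a) := by
  rw [restrict_source_eq, (measurableEmbedding_symm x).integral_map]
  have h1 : ∫ a : (chartAt 𝔼 x).target, f ((chartAt 𝔼 x).symm a) ∂(Measure.comap Subtype.val (cvol x))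
      = ∫ a in (chartAt 𝔼 x).target, f ((chartAt 𝔼 x).symm a) ∂(cvol x) :=
    integral_subtype_comap (measurableSet_target x) (fun a => f ((chartAt 𝔼 x).symm a))
  rw [h1]
  have h2 : (cvol x).restrict (chartAt 𝔼 x).target = cvol x := by
    rw [cvol, restrict_withDensity (measurableSet_target x),
      Measure.restrict_restrict (measurableSet_target x), inter_self]
  rw [h2, cvol]
  have h3 := integral_withDensity_eq_integral_smul₀
    (μ := volume.restrict (chartAt 𝔼 x).target) (f := fun a => Real.toNNReal (dens x a))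
    (aemeasurable_dens (n := n) x).real_toNNReal (fun a => f ((chartAt 𝔼 x).symm a))
  have h4 : (fun a : 𝔼 => ENNReal.ofReal (dens x a)) =
      fun a => ((Real.toNNReal (dens x a) : ℝ≥0) : ℝ≥0∞) := rfl
  rw [h4, h3]
  refine setIntegral_congr_fun (measurableSet_target x) (fun a ha => ?_)
  simp only [NNReal.smul_def, Real.coe_toNNReal _ (dens_nonneg x a)]

theorem integral_symm_image {G : Type*} [NormedAddCommGroup G] [NormedSpace ℝ G] (x : M)
    {B : Set 𝔼} (hB : B ⊆ (chartAt 𝔼 x).target) (hBm : MeasurableSet B) (f : M → G) :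
    ∫ z in (chartAt 𝔼 x).symm '' B, f z ∂μHE[n] =
      ∫ a in B, dens x a • f ((chartAt 𝔼 x).symm a) := by
  have hm := measurableSet_symm_image (n := n) x hB hBm
  have hsub : (chartAt 𝔼 x).symm '' B ⊆ (chartAt 𝔼 x).source := by
    rintro _ ⟨a, ha, rfl⟩; exact (chartAt 𝔼 x).map_target (hB ha)
  have h1 := integral_source (n := n) x (((chartAt 𝔼 x).symm '' B).indicator f)
  rw [integral_indicator hm, Measure.restrict_restrict hm, inter_eq_left.2 hsub] at h1
  rw [h1]
  have h2 : ∫ a in (chartAt 𝔼 x).target, dens x a •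
      ((chartAt 𝔼 x).symm '' B).indicator f ((chartAt 𝔼 x).symm a) =
      ∫ a in (chartAt 𝔼 x).target, B.indicator (fun a => dens x a •
        f ((chartAt 𝔼 x).symm a)) a := by
    refine setIntegral_congr_fun (measurableSet_target x) (fun a ha => ?_)
    rw [indicator_symm x B hB f ha]
    by_cases h : a ∈ B
    · rw [indicator_of_mem h, indicator_of_mem h]
    · rw [indicator_of_notMem h, indicator_of_notMem h, smul_zero]
  rw [h2, integral_indicator hBm, Measure.restrict_restrict hBm, inter_eq_left.2 hB]

/-- A function supported in the source of the chart at `x`. -/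
theorem integral_eq_of_support {G : Type*} [NormedAddCommGroup G] [NormedSpace ℝ G] (x : M)
    (f : M → G) (hf : ∀ z, z ∉ (chartAt 𝔼 x).source → f z = 0) :
    ∫ z, f z ∂μHE[n] = ∫ a in (chartAt 𝔼 x).target, dens x a • f ((chartAt 𝔼 x).symm a) := by
  rw [← integral_source]
  refine (setIntegral_eq_integral_of_forall_compl_eq_zero (fun z hz => hf z hz)).symm

theorem integrableOn_source_iff {G : Type*} [NormedAddCommGroup G] [NormedSpace ℝ G] (x : M)
    (f : M → G) :
    IntegrableOn f (chartAt 𝔼 x).source μHE[n] ↔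
      IntegrableOn (fun a => dens x a • f ((chartAt 𝔼 x).symm a)) (chartAt 𝔼 x).target := by
  rw [IntegrableOn, restrict_source_eq, (measurableEmbedding_symm x).integrable_map_iff]
  have h2 : (cvol x).restrict (chartAt 𝔼 x).target = cvol x := by
    rw [cvol, restrict_withDensity (measurableSet_target x),
      Measure.restrict_restrict (measurableSet_target x), inter_self]
  have h1 : Integrable ((f ∘ fun a : (chartAt 𝔼 x).target => (chartAt 𝔼 x).symm a))
      (Measure.comap Subtype.val (cvol x)) ↔
      Integrable (fun a => f ((chartAt 𝔼 x).symm a)) (cvol x) := by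
    have h3 := (MeasurableEmbedding.subtype_coe (measurableSet_target x)).integrable_map_iff
      (μ := Measure.comap Subtype.val (cvol x)) (g := fun a => f ((chartAt 𝔼 x).symm a))
    rw [(MeasurableEmbedding.subtype_coe (measurableSet_target x)).map_comap,
      Subtype.range_coe, h2] at h3
    exact h3.symm
  rw [h1, cvol]
  have h4 : (fun a : 𝔼 => ENNReal.ofReal (dens x a)) =
      fun a => ((Real.toNNReal (dens x a) : ℝ≥0) : ℝ≥0∞) := rfl
  rw [h4, integrable_withDensity_iff_integrable_smul₀ (aemeasurable_dens (n := n) x).real_toNNReal]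
  refine integrable_congr (ae_of_all _ fun a => ?_)
  simp only [NNReal.smul_def, Real.coe_toNNReal _ (dens_nonneg x a)]

end

end Crest.Agent.R247.Ms322
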