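import Crest.Agent.R247.Ms4_322

/-!
R247, block (0) (helper322), part 5: a measurable orthonormal frame `fr z j` of `M` and the gradient
in this frame, `G f z = (df (fr z j))_j`.
-/

set_option autoImplicit false
set_option maxSynthPendingDepth 3
set_option linter.unusedSectionVars false
set_option linter.unusedVariables false

open Bundle Bornology Set MeasureTheory Manifold Filter Metric
open scoped ENNReal ContDiff Topology NNReal
open Crest.GeometryTopology.CoordMetric Crest.GeometryTopology.ChartCurvature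
open Crest.GeometryTopology.Geodesic
open Crest.Agent.R226.ChartMet842

namespace Crest.Agent.R247.Ms322

noncomputable section

section Mat

open scoped MatrixOrder Matrix.Norms.L2Operator

variable {n : ℕ}

/-- the inverse square root of a positive definite matrix -/
def isq (g : Matrix (Fin n) (Fin n) ℝ) : Matrix (Fin n) (Fin n) ℝ := CFC.sqrt g⁻¹

theorem isq_mul_self {g : Matrix (Fin n) (Fin n) ℝ} (hg : g.PosDef) : isq g * isq g = g⁻¹ := by
  have h : (0 : Matrix (Fin n) (Fin n) ℝ) ≤ g⁻¹ := hg.inv.posSemidef.nonneg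
  exact CFC.sqrt_mul_sqrt_self _ h

theorem isq_transpose (g : Matrix (Fin n) (Fin n) ℝ) : (isq g).transpose = isq g := by
  have h : (0 : Matrix (Fin n) (Fin n) ℝ) ≤ isq g := CFC.sqrt_nonneg _
  have h2 := (Matrix.nonneg_iff_posSemidef.1 h).isHermitian
  have h3 : (isq g).conjTranspose = (isq g).transpose := by
    ext i j; simp [Matrix.conjTranspose_apply]
  rw [← h3]
  exact h2

theorem isq_mul_mul {g : Matrix (Fin n) (Fin n) ℝ} (hg : g.PosDef) : isq g * g * isq g = 1 := by
  have hu : IsUnit g.det := hg.det_pos.ne'.isUnit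
  have h1 : isq g * (isq g * g) = 1 := by
    rw [← mul_assoc, isq_mul_self hg, Matrix.nonsing_inv_mul _ hu]
  exact mul_eq_one_comm.1 h1

theorem continuousOn_isq {X : Type*} [TopologicalSpace X] {g : X → Matrix (Fin n) (Fin n) ℝ}
    {s : Set X} (hg : ContinuousOn g s) (hp : ∀ x ∈ s, (g x).PosDef) (i j : Fin n) :
    ContinuousOn (fun x => isq (g x) i j) s := by
  have h := CFC.continuousOn_sqrt (A := Matrix (Fin n) (Fin n) ℝ)
  have h1 : ContinuousOn (fun x => (g x)⁻¹) s := by
    have e : (fun x => (g x)⁻¹) = fun x => (g x).det⁻¹ • (g x).adjugate := by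
      funext x
      rw [Matrix.inv_def, Ring.inverse_eq_inv']
    rw [e]
    have hd : ContinuousOn (fun x => (g x).det) s :=
      (continuous_id.matrix_det).comp_continuousOn hg
    have ha : ContinuousOn (fun x => (g x).adjugate) s :=
      (continuous_id.matrix_adjugate).comp_continuousOn hg
    exact (hd.inv₀ (fun x hx => (hp x hx).det_pos.ne')).smul ha
  have h3 : ContinuousOn (fun x => isq (g x)) s :=
    h.comp h1 (fun x hx => (hp x hx).inv.posSemidef.nonneg)
  have h4 : Continuous (fun A : Matrix (Fin n) (Fin n) ℝ => A i j) :=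
    (continuous_apply j).comp (continuous_apply i)
  exact h4.comp_continuousOn h3

theorem mul_transpose_eq_inv {g W : Matrix (Fin n) (Fin n) ℝ} (hg : g.PosDef)
    (h : W.transpose * g * W = 1) : W * W.transpose = g⁻¹ := by
  have h1 : W * (W.transpose * g) = 1 := mul_eq_one_comm.1 h
  have hu : IsUnit g.det := hg.det_pos.ne'.isUnit
  calc W * W.transpose = W * (W.transpose * (g * g⁻¹)) := by
        rw [Matrix.mul_nonsing_inv _ hu, mul_one]
    _ = (W * (W.transpose * g)) * g⁻¹ := by simp only [mul_assoc]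
    _ = g⁻¹ := by rw [h1, one_mul]

end Mat

variable {n : ℕ} {M : Type*} [MetricSpace M] [ChartedSpace (EuclideanSpace ℝ (Fin n)) M]
  [IsManifold (𝓡 n) ∞ M]
  [RiemannianBundle (fun p : M => TangentSpace (𝓡 n) p)]
  [IsContMDiffRiemannianBundle (𝓡 n) ∞ (EuclideanSpace ℝ (Fin n)) (fun p : M => TangentSpace (𝓡 n) p)]

local notation "𝔼" => EuclideanSpace ℝ (Fin n)

theorem vec_eq_sum (u : 𝔼) : u = ∑ i, u i • EuclideanSpace.single i (1 : ℝ) := by
  ext k
  simp [Finset.sum_apply, Pi.single_apply]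

theorem gm_eq_sum (x : M) (a u v : 𝔼) :
    gm x a u v = ∑ i, ∑ j, chartMetric n M x a i j * u i * v j := by
  conv_lhs => rw [vec_eq_sum u, vec_eq_sum v]
  simp only [map_sum, map_smul, sum_apply, smul_apply, smul_eq_mul]
  simp only [← chartMetric_apply, Finset.mul_sum]
  rw [Finset.sum_comm]
  refine Finset.sum_congr rfl fun i _ => Finset.sum_congr rfl fun j _ => ?_
  ring

/-- the columns of the inverse square root of the metric in the chart at `x`. -/
def colv (x : M) (a : 𝔼) (j : Fin n) : 𝔼 :=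
  WithLp.toLp 2 (fun i => isq (chartMetric n M x a) i j)

theorem colv_apply (x : M) (a : 𝔼) (j i : Fin n) :
    colv x a j i = isq (chartMetric n M x a) i j := rfl

theorem gm_colv (x : M) {a : 𝔼} (ha : a ∈ (chartAt 𝔼 x).target) (j k : Fin n) :
    gm x a (colv x a j) (colv x a k) = if j = k then 1 else 0 := by
  have h := isq_mul_mul ((isRiemannianOn_chartMetric (n := n) x).posDef a ha)
  have h1 := congrFun (congrFun h j) k
  rw [Matrix.one_apply] at h1
  rw [← h1, gm_eq_sum, Matrix.mul_apply]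
  simp only [colv_apply, Matrix.mul_apply, Finset.sum_mul]
  rw [Finset.sum_comm]
  refine Finset.sum_congr rfl fun l _ => Finset.sum_congr rfl fun i _ => ?_
  have h2 : isq (chartMetric n M x a) i j = isq (chartMetric n M x a) j i := by
    conv_lhs => rw [← isq_transpose, Matrix.transpose_apply]
  rw [h2]; ring

/-- the derivative in the manifold, read in a chart -/
theorem mfderiv_eq_fderiv (x : M) {z : M} (hz : z ∈ (chartAt 𝔼 x).source) (f : M → ℝ)
    (v : TangentSpace (𝓡 n) z) :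
    mfderiv (𝓡 n) 𝓘(ℝ) f z v =
      fderiv ℝ (fun b => f ((chartAt 𝔼 x).symm b)) (chartAt 𝔼 x z) (dC x z v) := by
  have hφ : HasMFDerivAt (𝓡 n) 𝓘(ℝ, 𝔼) (chartAt 𝔼 x) z (dC x z) :=
    ((mdifferentiable_chart' x).mdifferentiableAt hz).hasMFDerivAt
  have hev : f =ᶠ[𝓝 z] (fun b => f ((chartAt 𝔼 x).symm b)) ∘ (chartAt 𝔼 x) := by
    filter_upwards [(chartAt 𝔼 x).open_source.mem_nhds hz] with y hy
    simp only [Function.comp_apply, (chartAt 𝔼 x).left_inv hy]
  by_cases hd : DifferentiableAt ℝ (fun b => f ((chartAt 𝔼 x).symm b)) (chartAt 𝔼 x z)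
  · have h1 : HasMFDerivAt 𝓘(ℝ, 𝔼) 𝓘(ℝ) (fun b => f ((chartAt 𝔼 x).symm b)) (chartAt 𝔼 x z)
        (fderiv ℝ (fun b => f ((chartAt 𝔼 x).symm b)) (chartAt 𝔼 x z)) :=
      hd.hasFDerivAt.hasMFDerivAt
    have h2 := (h1.comp z hφ).congr_of_eventuallyEq hev
    rw [h2.mfderiv]
    rfl
  · have h1 : ¬ MDifferentiableAt (𝓡 n) 𝓘(ℝ) f z := by
      intro h
      apply hd
      have hs : MDifferentiableAt 𝓘(ℝ, 𝔼) (𝓡 n) (chartAt 𝔼 x).symm (chartAt 𝔼 x z) :=
        (mdifferentiable_chart' x).symm.mdifferentiableAt ((chartAt 𝔼 x).map_source hz)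
      have h' : MDifferentiableAt (𝓡 n) 𝓘(ℝ) f ((chartAt 𝔼 x).symm (chartAt 𝔼 x z)) := by
        rwa [(chartAt 𝔼 x).left_inv hz]
      exact (h'.comp _ hs).differentiableAt
    rw [mfderiv_zero_of_not_mdifferentiableAt h1, fderiv_zero_of_not_differentiableAt hd]
    rfl

theorem mdifferentiableAt_iff_chart (x : M) {z : M} (hz : z ∈ (chartAt 𝔼 x).source) (f : M → ℝ) :
    MDifferentiableAt (𝓡 n) 𝓘(ℝ) f z ↔
      DifferentiableAt ℝ (fun b => f ((chartAt 𝔼 x).symm b)) (chartAt 𝔼 x z) := by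
  constructor
  · intro h
    have hs : MDifferentiableAt 𝓘(ℝ, 𝔼) (𝓡 n) (chartAt 𝔼 x).symm (chartAt 𝔼 x z) :=
      (mdifferentiable_chart' x).symm.mdifferentiableAt ((chartAt 𝔼 x).map_source hz)
    have h' : MDifferentiableAt (𝓡 n) 𝓘(ℝ) f ((chartAt 𝔼 x).symm (chartAt 𝔼 x z)) := by
      rwa [(chartAt 𝔼 x).left_inv hz]
    exact (h'.comp _ hs).differentiableAt
  · intro hd
    have hφ : HasMFDerivAt (𝓡 n) 𝓘(ℝ, 𝔼) (chartAt 𝔼 x) z (dC x z) :=
      ((mdifferentiable_chart' x).mdifferentiableAt hz).hasMFDerivAt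
    have hev : f =ᶠ[𝓝 z] (fun b => f ((chartAt 𝔼 x).symm b)) ∘ (chartAt 𝔼 x) := by
      filter_upwards [(chartAt 𝔼 x).open_source.mem_nhds hz] with y hy
      simp only [Function.comp_apply, (chartAt 𝔼 x).left_inv hy]
    have h1 : HasMFDerivAt 𝓘(ℝ, 𝔼) 𝓘(ℝ) (fun b => f ((chartAt 𝔼 x).symm b)) (chartAt 𝔼 x z)
        (fderiv ℝ (fun b => f ((chartAt 𝔼 x).symm b)) (chartAt 𝔼 x z)) :=
      hd.hasFDerivAt.hasMFDerivAt
    exact ((h1.comp z hφ).congr_of_eventuallyEq hev).mdifferentiableAt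

end

end Crest.Agent.R247.Ms322
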