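import Crest.Agent.R247.Bgr_546
import Crest.Agent.R247.GluM3_923

/-!
R247, the case `n = 0` (helper322): `M` is one point.
-/

set_option autoImplicit false
noncomputable section
open Set Filter Topology MeasureTheory Metric
open scoped ContDiff Manifold ENNReal NNReal
open Bundle Crest.GeometryTopology.CoordMetric Crest.GeometryTopology.ChartCurvature
  Crest.GeometryTopology.PointedLimit

namespace Crest.Agent.R247.N0322

universe u

theorem isometry_zero {M : Type*} [MetricSpace M] [Subsingleton M] :
    Isometry (fun _ : M => (0 : EuclideanSpace ℝ (Fin 0))) := by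
  intro x y
  rw [Subsingleton.elim x y]
  simp

theorem muHE_ball {M : Type*} [MetricSpace M] [Subsingleton M] [MeasurableSpace M] [BorelSpace M]
    (x : M) {r : ℝ} (hr : 0 < r) :
    Measure.euclideanHausdorffMeasure 0 (ball x r) =
      volume (ball (0 : EuclideanSpace ℝ (Fin 0)) 1) := by
  have h := (isometry_zero (M := M)).euclideanHausdorffMeasure_image (d := 0) (ball x r)
  rw [← h]
  have e : (fun _ : M => (0 : EuclideanSpace ℝ (Fin 0))) '' ball x r =
      ball (0 : EuclideanSpace ℝ (Fin 0)) 1 := by
    ext z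
    have hz : z = 0 := Subsingleton.elim _ _
    subst hz
    constructor
    · intro _; exact mem_ball_self one_pos
    · intro _; exact ⟨x, mem_ball_self hr, rfl⟩
  rw [e, EuclideanSpace.euclideanHausdorffMeasure_eq_volume]

/-- volume convergence for `n = 0`. -/
theorem vc_zero : Asm951.VC.{u} 0 := by
  intro v δ hv hδ
  refine ⟨1, one_pos, ?_⟩
  intro M _ _ _ _ _ _ _ _ _ _ x _ _ _
  have : Subsingleton M := Bgr546.subsingleton_of_zero M
  rw [muHE_ball x one_pos]
  calc ENNReal.ofReal (1 - δ) * volume (ball (0 : EuclideanSpace ℝ (Fin 0)) 1)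
      ≤ 1 * volume (ball (0 : EuclideanSpace ℝ (Fin 0)) 1) := by
        gcongr
        rw [← ENNReal.ofReal_one]
        exact ENNReal.ofReal_le_ofReal (by linarith)
    _ = _ := one_mul _

/-- the gluing data for `n = 0`. -/
theorem glueDataT_zero (T : ℝ) : GluM923.GlueDataT.{u} T 0 := by
  refine ⟨1, le_rfl, 1, one_pos, fun η hη => ⟨1, one_pos, le_rfl, 1, le_rfl, 1, one_pos, ?_⟩⟩
  intro M _ _ _ _ _ _ _ _ _ _ q _ _
  have : Subsingleton M := Bgr546.subsingleton_of_zero M
  refine ⟨EuclideanSpace ℝ PEmpty.{u+1}, inferInstance, inferInstance, inferInstance,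
    fun _ => 0, fun _ _ => 0, fun _ _ => 0, ?_⟩
  have h0 : ∀ x y : M, dist x y = 0 := fun x y => by rw [Subsingleton.elim x y, dist_self]
  exact
    { Ψ_le := fun x _ y _ => by simp [h0 x y]
      near := fun x _ y _ => by simp [h0 x y]
      D_nonneg := fun _ _ _ _ => le_rfl
      D_sum := fun x _ m => by simpa using hη.le
      proj := fun k _ x _ => ⟨by simp, by simp⟩
      rank := fun x _ => ⟨⊥, inferInstance, by simp, fun v => by simp⟩
      A1 := fun k _ x _ y _ _ => by simp
      A2 := fun k _ x _ y _ _ => by simp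
      A3 := fun k _ x _ => by simp }

end Crest.Agent.R247.N0322
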