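import Crest.Agent.R247.Nis3_710
import Crest.Agent.R247.Iso3_311
import Crest.Agent.R247.Rdg2_879
import Crest.Agent.R247.Ar3_659
import Crest.Agent.R247.Ms7_322

/-!
R247, block (2a), near isometry (helper551), part 1: the upper bound
`‖Ψ x - Ψ y‖ ≤ √((1+ε)/n) d(x,y)` on a Riemannian manifold, from the isotropy of the far measure
(`Iso3_311`), by differentiating `d_w` along a minimiser from `x` to `y`.
-/

set_option autoImplicit false
set_option maxSynthPendingDepth 3
set_option linter.unusedSectionVars false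
set_option linter.unusedVariables false

open Bundle Set Filter Topology MeasureTheory Metric
open scoped Manifold ContDiff ENNReal NNReal RealInnerProductSpace
open Crest.GeometryTopology.MTW
open Crest.Agent.R226.ChartMet842
open Crest.Agent.R226.CutSmooth77 (SC)
open Crest.Agent.R247.Sm879 Crest.Agent.R247.Mcp688 Crest.Agent.R247.Ms322
open Crest.Agent.R247.Rdg879 Crest.Agent.R247.Iso311 Crest.Agent.R247.Nis710

noncomputable section
namespace Crest.Agent.R247.Near551

/-! ### unit speed curves from segments -/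

section arc

variable {X : Type*} [MetricSpace X]

/-- unit speed version of a segment `T : [0,1] → X` of length `l`, extended by constants -/
def arc (T : ℝ → X) (l s : ℝ) : X := T (max 0 (min 1 (s / l)))

lemma clamp_mem (s : ℝ) : max 0 (min 1 s) ∈ Icc (0 : ℝ) 1 :=
  ⟨le_max_left _ _, max_le zero_le_one (min_le_left _ _)⟩

lemma clamp_eq {s : ℝ} (hs : s ∈ Icc (0 : ℝ) 1) : max 0 (min 1 s) = s := by
  rw [min_eq_right hs.2, max_eq_right hs.1]

lemma abs_clamp_sub_le (s t : ℝ) : |max 0 (min 1 s) - max 0 (min 1 t)| ≤ |s - t| := by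
  refine (abs_max_sub_max_le_max _ _ _ _).trans ?_
  rw [sub_self, abs_zero]
  refine max_le (abs_nonneg _) ?_
  refine (abs_min_sub_min_le_max _ _ _ _).trans ?_
  rw [sub_self, abs_zero]
  exact max_le (abs_nonneg _) le_rfl

lemma lipschitz_arc {x y : X} {T : ℝ → X} (hT : Seg x y T) (hxy : x ≠ y) :
    LipschitzWith 1 (arc T (dist x y)) := by
  refine LipschitzWith.of_dist_le_mul fun s t => ?_
  have hl := dist_pos.2 hxy
  unfold arc
  rw [hT.dist_T _ (clamp_mem _) _ (clamp_mem _), NNReal.coe_one, one_mul, Real.dist_eq]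
  calc |max 0 (min 1 (s / dist x y)) - max 0 (min 1 (t / dist x y))| * dist x y
      ≤ |s / dist x y - t / dist x y| * dist x y := by
        exact mul_le_mul_of_nonneg_right (abs_clamp_sub_le _ _) hl.le
    _ = |s - t| := by
        rw [← sub_div, abs_div, abs_of_pos hl, div_mul_cancel₀ _ hl.ne']

lemma arc_zero {x y : X} {T : ℝ → X} (hT : Seg x y T) : arc T (dist x y) 0 = x := by
  unfold arc
  rw [zero_div, clamp_eq (by simp), hT.zero]

lemma arc_end {x y : X} {T : ℝ → X} (hT : Seg x y T) (hxy : x ≠ y) :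
    arc T (dist x y) (dist x y) = y := by
  unfold arc
  rw [div_self (dist_pos.2 hxy).ne', clamp_eq (by simp), hT.one]

end arc

variable {n : ℕ} {M : Type*} [MetricSpace M] [ChartedSpace (EuclideanSpace ℝ (Fin n)) M]
  [IsManifold (𝓡 n) ∞ M]
  [RiemannianBundle (fun p : M => TangentSpace (𝓡 n) p)]
  [IsContMDiffRiemannianBundle (𝓡 n) ∞ (EuclideanSpace ℝ (Fin n))
    (fun p : M => TangentSpace (𝓡 n) p)]
  [IsRiemannianManifold (𝓡 n) M] [ProperSpace M] [MeasurableSpace M] [BorelSpace M]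
  [SecondCountableTopology M] [Nonempty M]

local notation "𝔼" => EuclideanSpace ℝ (Fin n)

/-! ### derivatives of `d_w` -/

/-- `d_w` is differentiable at `u` when the cost is smooth there. -/
lemma mdiff_dist {w u : M} (h : SC n w u) (hwu : w ≠ u) :
    MDifferentiableAt (𝓡 n) 𝓘(ℝ) (fun z => dist w z) u := by
  rw [mdifferentiableAt_iff_chart (sel n u) (mem_sel (n := n) u)]
  have h1 := differentiableAt_dist_chart (n := n) (w := w) (x := sel n u) (a := crd n u)
    (crd_mem (n := n) u) (by rw [symm_crd]; exact h) (by rw [symm_crd]; exact hwu)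
  exact h1

/-- `|∇ f_x|(u) ≤ d(x,u)` -/
lemma norm_Gr_half_le {x u : M} (h : SC n x u) (hxu : x ≠ u) :
    ‖Gr (n := n) (fun q => halfDistSq q x) u‖ ≤ dist x u := by
  have h1 := mdiff_dist h hxu
  have h2 : (fun q => halfDistSq q x) = fun q : M => (fun s : ℝ => s ^ 2 / 2) (dist x q) := by
    funext q
    simp only [halfDistSq]
    rw [dist_comm]
  have hd : HasDerivAt (fun s : ℝ => s ^ 2 / 2) (dist x u) (dist x u) := by
    have := ((hasDerivAt_pow 2 (dist x u)).div_const 2)
    simpa using this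
  rw [h2, Gr_comp h1 hd.differentiableAt, hd.deriv, norm_smul, Real.norm_eq_abs,
    abs_of_nonneg dist_nonneg]
  have h3 : ‖Gr (n := n) (fun z => dist x z) u‖ ≤ 1 := by
    have := norm_Gr_le_of_lipschitzOn (n := n) (f := fun z : M => dist x z) (z := u) (K := 1)
      (U := univ) univ_mem ((LipschitzWith.dist_right x).lipschitzOnWith)
    simpa using this
  calc dist x u * ‖Gr (n := n) (fun z => dist x z) u‖ ≤ dist x u * 1 := by gcongr
    _ = dist x u := mul_one _

/-- for fixed `u`, the gradients `∇ d_w (u)` depend measurably on `w`. -/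
lemma aesm_inner_Gr {ν : Measure M} {u : M}
    (hd : ∀ᵐ w ∂ν, MDifferentiableAt (𝓡 n) 𝓘(ℝ) (fun z => dist w z) u) (ξ : 𝔼) :
    AEStronglyMeasurable (fun w => ⟪Gr (n := n) (fun z => dist w z) u, ξ⟫) ν := by
  have key : ∀ j : Fin n, AEMeasurable (fun w => Gr (n := n) (fun z => dist w z) u j) ν := by
    intro j
    set S := chartAt 𝔼 (sel n u) with hS
    set a : 𝔼 := crd n u with ha
    set v : 𝔼 := colv (sel n u) a j with hv
    have ht : Tendsto (fun k : ℕ => ((k : ℝ) + 1)⁻¹) atTop (𝓝[≠] 0) := by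
      refine tendsto_nhdsWithin_iff.2 ⟨?_, Eventually.of_forall fun k => ?_⟩
      · have := tendsto_one_div_add_atTop_nhds_zero_nat (𝕜 := ℝ)
        simpa [one_div] using this
      · simp only [mem_compl_iff, mem_singleton_iff]
        positivity
    refine aemeasurable_of_tendsto_metrizable_ae atTop
      (f := fun (k : ℕ) (w : M) => (((k : ℝ) + 1)⁻¹)⁻¹ *
        (dist w (S.symm (a + ((k : ℝ) + 1)⁻¹ • v)) - dist w (S.symm a))) ?_ ?_
    · intro k
      have : Continuous fun w : M => (((k : ℝ) + 1)⁻¹)⁻¹ *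
        (dist w (S.symm (a + ((k : ℝ) + 1)⁻¹ • v)) - dist w (S.symm a)) := by fun_prop
      exact this.measurable.aemeasurable
    · filter_upwards [hd] with w hw
      rw [mdifferentiableAt_iff_chart (sel n u) (mem_sel (n := n) u)] at hw
      have h1 := hw.hasFDerivAt.hasLineDerivAt v
      have h2 := h1.tendsto_slope_zero.comp ht
      rw [Gr_apply_chart]
      exact h2
  have h2 : (fun w => ⟪Gr (n := n) (fun z => dist w z) u, ξ⟫) =
      fun w => ∑ j, ξ j * Gr (n := n) (fun z => dist w z) u j := by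
    funext w
    rw [PiLp.inner_apply]
    simp
  rw [h2]
  exact (Finset.aemeasurable_fun_sum _ fun j _ =>
    (key j).const_mul (ξ j)).aestronglyMeasurable

/-- derivative of `d_w` along a unit speed minimiser from `x` -/
lemma deriv_arc (hm : ExM M) {x y : M} {T : ℝ → M} (hT : Seg x y T) (hxy : x ≠ y) {s : ℝ}
    (hs : s ∈ Ioo 0 (dist x y)) {φ : M → ℝ}
    (hφ : MDifferentiableAt (𝓡 n) 𝓘(ℝ) φ (arc T (dist x y) s)) :
    deriv (fun s => φ (arc T (dist x y) s)) s =
      ⟪Gr (n := n) φ (arc T (dist x y) s),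
        s⁻¹ • Gr (n := n) (fun q => halfDistSq q x) (arc T (dist x y) s)⟫ := by
  set l := dist x y with hl
  have hl0 : 0 < l := dist_pos.2 hxy
  have ht0 : 0 < s / l := div_pos hs.1 hl0
  have ht1 : s / l < 1 := (div_lt_one hl0).2 hs.2
  have he : arc T l s = T (s / l) := by
    unfold arc
    rw [clamp_eq ⟨ht0.le, ht1.le⟩]
  rw [he] at hφ ⊢
  have h1 := hT.grad_mid hm hxy ht0 ht1 hφ
  have h2 : HasDerivAt (fun s : ℝ => s / l) (1 / l) s := (hasDerivAt_id s).div_const l
  have h3 := HasDerivAt.comp (h₂ := fun t => φ (T t)) (h := fun s : ℝ => s / l) s h1 h2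
  have h4 : (fun s => φ (arc T l s)) =ᶠ[𝓝 s] (fun t => φ (T t)) ∘ fun s : ℝ => s / l := by
    filter_upwards [Ioo_mem_nhds hs.1 hs.2] with r hr
    have hr0 : 0 < r / l := div_pos hr.1 hl0
    have hr1 : r / l < 1 := (div_lt_one hl0).2 hr.2
    simp only [Function.comp_apply, arc]
    rw [clamp_eq ⟨hr0.le, hr1.le⟩]
  rw [(h3.congr_of_eventuallyEq h4).deriv, real_inner_smul_right, real_inner_comm]
  field_simp

/-! ### the upper bound -/

/-- **upper bound** (N2) on `M`, for any probability measure `ν ≪ μ` with isotropy constant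
`(1+ε)/n` at the points of `S`. -/
theorem psi_upper_of {κ : ℝ} (hn : 0 < n) (hm : ExM M)
    {ν : Measure M} [IsProbabilityMeasure ν] {p : M} {R ε : ℝ}
    (hν : ∀ᵐ w ∂ν, dist w p ≤ R) (hε : 0 ≤ ε) {S : Set M}
    (hD : ∀ u ∈ S, ∀ᵐ w ∂ν, MDifferentiableAt (𝓡 n) 𝓘(ℝ) (fun z => dist w z) u ∧
      ‖Gr (n := n) (fun z => dist w z) u‖ = 1)
    (hN1 : ∀ u ∈ S, ∀ ξ : 𝔼, ∫ w, ⟪Gr (n := n) (fun z => dist w z) u, ξ⟫ ^ 2 ∂ν ≤
      (1 + ε) * ‖ξ‖ ^ 2 / n)
    {x y : M} (hS : ∀ z, dist x z + dist z y = dist x y → z ∈ S) :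
    ‖psi ν x - psi ν y‖ ≤ Real.sqrt ((1 + ε) / n) * dist x y := by
  classical
  rcases eq_or_ne x y with rfl | hxy
  · simp
  obtain ⟨T, hT0, hT1, hTd⟩ := HR216.exists_geodesic_of_riemannian n x y
  have hT : Seg x y T := ⟨hT0, hT1, hTd⟩
  have hl0 : 0 < dist x y := dist_pos.2 hxy
  -- replace `D` by `0` outside `S`
  set D : M → M → 𝔼 := fun w u => if u ∈ S then Gr (n := n) (fun z => dist w z) u else 0 with hDdef
  have hDS : ∀ u ∈ S, ∀ w, D w u = Gr (n := n) (fun z => dist w z) u := by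
    intro u hu w
    simp only [hDdef, if_pos hu]
  refine psi_upper (X := M) hn hν hε (D := D) (S := S) ?_ ?_ ?_ (lipschitz_arc hT hxy)
    (arc_zero hT) (arc_end hT hxy) ?_
  · intro u ξ
    by_cases hu : u ∈ S
    · have := aesm_inner_Gr (n := n) ((hD u hu).mono fun w h => h.1) ξ
      simpa only [hDS u hu] using this
    · simp only [hDdef, if_neg hu, inner_zero_left]
      exact aestronglyMeasurable_const
  · intro u hu
    filter_upwards [hD u hu] with w hw
    rw [hDS u hu]
    exact hw.2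
  · intro u hu ξ
    have := hN1 u hu ξ
    simpa only [hDS u hu] using this
  · have h0 : ∀ᵐ s ∂(volume.restrict (Icc 0 (dist x y))), s ∈ Ioo 0 (dist x y) := by
      rw [← restrict_Ioo_eq_restrict_Icc]
      exact ae_restrict_mem measurableSet_Ioo
    filter_upwards [h0] with s hs
    have ht0 : 0 < s / dist x y := div_pos hs.1 hl0
    have ht1 : s / dist x y < 1 := (div_lt_one hl0).2 hs.2
    have he : arc T (dist x y) s = T (s / dist x y) := by
      unfold arc
      rw [clamp_eq ⟨ht0.le, ht1.le⟩]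
    have hI : s / dist x y ∈ Icc (0 : ℝ) 1 := ⟨ht0.le, ht1.le⟩
    have hl := hT.left hI
    have hr := hT.right hI
    have hb : dist x (T (s / dist x y)) + dist (T (s / dist x y)) y = dist x y := by
      rw [hl, hr]; ring
    have hmem : arc T (dist x y) s ∈ S := by
      rw [he]
      exact hS _ hb
    refine ⟨hmem, s⁻¹ • Gr (n := n) (fun q => halfDistSq q x) (arc T (dist x y) s), ?_, ?_⟩
    · have hne : T (s / dist x y) ≠ y := by
        rw [← dist_pos, hr]
        exact mul_pos (by linarith) hl0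
      have hne2 : x ≠ T (s / dist x y) := by
        rw [← dist_pos, hl]
        exact mul_pos ht0 hl0
      have hsc : SC n x (T (s / dist x y)) := sc_of_Om hm (mem_Om_of_btw hne hb)
      have h5 := norm_Gr_half_le hsc hne2
      rw [hl, div_mul_cancel₀ _ hl0.ne'] at h5
      rw [he, norm_smul, Real.norm_eq_abs, abs_of_pos (inv_pos.2 hs.1)]
      calc s⁻¹ * ‖Gr (n := n) (fun q => halfDistSq q x) (T (s / dist x y))‖ ≤ s⁻¹ * s := by
            gcongr
            exact inv_nonneg.2 hs.1.le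
        _ = 1 := inv_mul_cancel₀ hs.1.ne'
    · filter_upwards [hD _ hmem] with w hw
      rw [hDS _ hmem]
      exact deriv_arc hm hT hxy hs hw.1

/-- **upper bound** for the far measure of a pinched manifold: literal form of `Iso3_311.n1`. -/
theorem psi_upper_far (n : ℕ) (hn : 0 < n) {ε : ℝ} (hε : 0 < ε) :
    ∃ c : ℝ, 0 < c ∧ c < 1 ∧ ∀ (M : Type*) [MetricSpace M]
      [ChartedSpace (EuclideanSpace ℝ (Fin n)) M]
      [IsManifold (𝓡 n) ∞ M] [RiemannianBundle (fun p : M => TangentSpace (𝓡 n) p)]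
      [IsContMDiffRiemannianBundle (𝓡 n) ∞ (EuclideanSpace ℝ (Fin n))
        (fun p : M => TangentSpace (𝓡 n) p)]
      [IsRiemannianManifold (𝓡 n) M] [MeasurableSpace M] [BorelSpace M] [ProperSpace M]
      [SecondCountableTopology M] [Nonempty M] [IsFiniteMeasureOnCompacts (μHE[n] : Measure M)]
      (κ : ℝ) (C : Rad n κ M (μHE[n] : Measure M)) (_ : 0 ≤ κ) (_ : κ ≤ c) (_ : ExM M) (p : M)
      (_ : ENNReal.ofReal ((1 - c) * 8 ^ n) * volume (ball (0 : EuclideanSpace ℝ (Fin n)) 1) ≤
        μHE[n] (ball p 8)),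
      ∀ x y : M, dist p x ≤ c / 3 → dist p y ≤ c / 3 →
        ‖psi (nuf (μHE[n] : Measure M) p) x - psi (nuf (μHE[n] : Measure M) p) y‖ ≤
          Real.sqrt ((1 + ε) / n) * dist x y := by
  obtain ⟨c, hc0, hc1, h⟩ := n1 n hn hε
  refine ⟨c, hc0, hc1, ?_⟩
  intro M _ _ _ _ _ _ _ _ _ _ _ _ κ C hκ hκc hm p hvol x y hx hy
  obtain ⟨hprob, hu⟩ := h M κ C hκ hκc hm p hvol
  have hν : ∀ᵐ w ∂(nuf (μHE[n] : Measure M) p), dist w p ≤ 8 := by
    filter_upwards [ae_nuf_mem (μHE[n] : Measure M) p] with w hw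
    rw [dist_comm]
    exact hw.2
  refine psi_upper_of (κ := κ) hn hm hν hε.le (S := closedBall p c) ?_ ?_ ?_
  · intro u hu'
    rw [mem_closedBall, dist_comm] at hu'
    exact (hu u hu').2
  · intro u hu' ξ
    rw [mem_closedBall, dist_comm] at hu'
    exact (hu u hu').1 ξ
  · intro z hz
    rw [mem_closedBall, dist_comm]
    have h1 := dist_triangle p x z
    have h2 := dist_triangle x p y
    rw [dist_comm x p] at h2
    have h3 := dist_nonneg (x := z) (y := y)
    linarith

end Crest.Agent.R247.Near551
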