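import Crest.Agent.R247.PlI1_585
import Crest.Agent.R247.Pl6_661
import Crest.Agent.R247.Ker4_585
import Crest.Agent.R247.Q9_550

/-!
R247 block (2b), helper585: the data of `PlData` at scale `r` in the unit scale form:
(m), (L), (L2), (F), volumes, near isometry.
-/

set_option autoImplicit false
set_option linter.unusedSectionVars false

noncomputable section

namespace Crest.Agent.R247.PlI585

open MeasureTheory Set Filter Topology Metric
open scoped ENNReal NNReal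
open Crest.Agent.R247.Mcp688 Crest.Agent.R247.Cal550 Crest.Agent.R247.Gap79
open Crest.Agent.R247.Far553

variable {n : ℕ} {κ : ℝ} {X : Type*} [MetricSpace X] [MeasurableSpace X] [BorelSpace X]
  {μ : Measure X}

/-- **(I3)** (m) -/
theorem mb_of [ProperSpace X] {C : Rad n κ X μ} {B : Set X} {a : X} {ρ b : ℝ}
    (hB : B ⊆ ball a ρ) (h : Q9550.MM C a ρ b) : Pl5661.MB μ (Rr C) n B a b := by
  intro ζ dζ S hR h0 hS
  have h1 : ∀ z, ρ ≤ dist a z → ζ z = 0 := by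
    intro z hz
    apply h0
    intro hzB
    have := mem_ball.1 (hB hzB)
    rw [dist_comm] at this
    linarith
  exact h ζ dζ S (lip_of_locLip hR.1 h1) hS h1 hR.2

theorem enorm_sq_eq (a : ℝ) : ‖a‖ₑ ^ 2 = ENNReal.ofReal (a ^ 2) := by
  rw [← ofReal_norm, ← ENNReal.ofReal_pow (norm_nonneg _), Real.norm_eq_abs, sq_abs]

theorem enorm_div_sq (a : ℝ) {s : ℝ} (hs : 0 < s) :
    ‖a / s‖ₑ ^ 2 = ENNReal.ofReal (s ^ 2)⁻¹ * ENNReal.ofReal (a ^ 2) := by
  rw [enorm_sq_eq, ← ENNReal.ofReal_mul (by positivity)]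
  congr 1
  rw [div_pow, div_eq_inv_mul]

theorem enorm_div (a : ℝ) {s : ℝ} (hs : 0 < s) :
    ‖a / s‖ₑ = ENNReal.ofReal s⁻¹ * ENNReal.ofReal |a| := by
  rw [← ofReal_norm, Real.norm_eq_abs, abs_div, abs_of_pos hs, div_eq_inv_mul,
    ENNReal.ofReal_mul (by positivity)]

theorem ofReal_mul_le {a b : ℝ} (ha : 0 ≤ a) {t : ℝ≥0∞} (h : t ≤ ENNReal.ofReal b) :
    ENNReal.ofReal a * t ≤ ENNReal.ofReal (a * b) := by
  rw [ENNReal.ofReal_mul ha]; gcongr

/-- **(I4)** (L) -/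
theorem L_of {G : X → X → X → ℝ} {a : X} {ρ b r : ℝ} (hr : 0 < r) {B : Set X}
    (hB : B ⊆ ball a ρ) (h : Q9550.LL μ G a ρ b) :
    ∫⁻ v in B, ∫⁻ u in B, ‖Gap79.P (fr r) (Gs G r) a v u‖ₑ ^ 2 ∂μ ∂μ ≤
      ENNReal.ofReal (b / r ^ 4) := by
  have e1 : ∀ v, ∫⁻ u in B, ‖Gap79.P (fr r) (Gs G r) a v u‖ₑ ^ 2 ∂μ ≤
      ENNReal.ofReal (r ^ 4)⁻¹ * ∫⁻ u in ball a ρ, ENNReal.ofReal (PP G a v u ^ 2) ∂μ := by
    intro v
    rw [← lintegral_const_mul' _ _ ENNReal.ofReal_ne_top]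
    refine (lintegral_mono_set hB).trans (le_of_eq (lintegral_congr fun u => ?_))
    rw [P_eq, enorm_div_sq _ (by positivity)]
    congr 3
    ring
  calc ∫⁻ v in B, ∫⁻ u in B, ‖Gap79.P (fr r) (Gs G r) a v u‖ₑ ^ 2 ∂μ ∂μ
      ≤ ∫⁻ v in B, ENNReal.ofReal (r ^ 4)⁻¹ *
          ∫⁻ u in ball a ρ, ENNReal.ofReal (PP G a v u ^ 2) ∂μ ∂μ := lintegral_mono e1
    _ ≤ ∫⁻ v in ball a ρ, ENNReal.ofReal (r ^ 4)⁻¹ *
          ∫⁻ u in ball a ρ, ENNReal.ofReal (PP G a v u ^ 2) ∂μ ∂μ := lintegral_mono_set hB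
    _ = ENNReal.ofReal (r ^ 4)⁻¹ * ∫⁻ v in ball a ρ,
          ∫⁻ u in ball a ρ, ENNReal.ofReal (PP G a v u ^ 2) ∂μ ∂μ :=
        lintegral_const_mul' _ _ ENNReal.ofReal_ne_top
    _ ≤ ENNReal.ofReal ((r ^ 4)⁻¹ * b) := ofReal_mul_le (by positivity) h
    _ = _ := by rw [div_eq_inv_mul]

/-- **(I5)** (L2) -/
theorem LP_of {G : X → X → X → ℝ} {x y : X} {c ρ b r : ℝ} (hr : 0 < r) {B : Set X}
    (hB : B ⊆ ball x ρ) (h : Q9550.LP μ G x y c ρ b) :
    ∫⁻ u in B, ‖Gap79.P (fr r) (Gs G r) x y u - c / r ^ 2‖ₑ ∂μ ≤ ENNReal.ofReal (b / r ^ 2) := by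
  calc ∫⁻ u in B, ‖Gap79.P (fr r) (Gs G r) x y u - c / r ^ 2‖ₑ ∂μ
      ≤ ∫⁻ u in ball x ρ, ‖Gap79.P (fr r) (Gs G r) x y u - c / r ^ 2‖ₑ ∂μ :=
        lintegral_mono_set hB
    _ = ∫⁻ u in ball x ρ, ENNReal.ofReal (r ^ 2)⁻¹ * ENNReal.ofReal |PP G x y u - c| ∂μ := by
        refine lintegral_congr fun u => ?_
        rw [P_eq, ← sub_div, enorm_div _ (by positivity)]
    _ = ENNReal.ofReal (r ^ 2)⁻¹ * ∫⁻ u in ball x ρ, ENNReal.ofReal |PP G x y u - c| ∂μ :=
        lintegral_const_mul' _ _ ENNReal.ofReal_ne_top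
    _ ≤ ENNReal.ofReal ((r ^ 2)⁻¹ * b) := ofReal_mul_le (by positivity) h
    _ = _ := by rw [div_eq_inv_mul]

theorem lintegral_nuW (p : X) (f : X → ℝ≥0∞) :
    ∫⁻ w, f w ∂(Q9550.nuW μ p) = (μ (ann p 4 8))⁻¹ * ∫⁻ w in ann p 4 8, f w ∂μ := by
  unfold Q9550.nuW
  rw [lintegral_smul_measure, smul_eq_mul]

theorem meas_ee {C : Rad n κ X μ} {G : X → X → X → ℝ} (hG : GRep C G)
    [SecondCountableTopology X] (a : X) :
    Measurable (Function.uncurry fun z w => ee G a z w) := by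
  have h1 := hG.meas_Ed a
  have h2 : Measurable (fun q : X × X => dist q.1 q.2 - dist a q.2) := by
    have : Continuous (fun q : X × X => dist q.1 q.2 - dist a q.2) := by fun_prop
    exact this.measurable
  exact h1.sub h2

theorem inv_le_of {A : ℝ} (hA : 0 < A) {m : ℝ≥0∞} (h : ENNReal.ofReal A⁻¹ ≤ m) :
    m⁻¹ ≤ ENNReal.ofReal A := by
  have := ENNReal.inv_le_inv.2 h
  rwa [← ENNReal.ofReal_inv_of_pos (by positivity), inv_inv] at this

/-- **(I6)** (F) -/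
theorem F_of {C : Rad n κ X μ} {G : X → X → X → ℝ} (hG : GRep C G) [SFinite μ]
    [SecondCountableTopology X] {p a : X} {ρ b r A : ℝ} (h0r : 0 < r) (hA : 0 < A) {B : Set X}
    (hB : B ⊆ ball a ρ) (hW : ENNReal.ofReal A⁻¹ ≤ μ (ann p 4 8)) (h : Q9550.FF μ G p a ρ b) :
    ∫⁻ w, ∫⁻ u in B, ‖Pl6661.EE (hr r) (ghr G r) a u w‖ₑ ^ 2 ∂μ ∂(Q9550.nuW μ p) ≤
      ENNReal.ofReal (A * b / r ^ 2) := by
  have hm : Measurable fun q : X × X => ENNReal.ofReal (ee G a q.2 q.1 ^ 2) :=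
    (((meas_ee hG a).comp measurable_swap).pow_const 2).ennreal_ofReal
  have e1 : ∀ w, ∫⁻ u in B, ‖Pl6661.EE (hr r) (ghr G r) a u w‖ₑ ^ 2 ∂μ ≤
      ENNReal.ofReal (r ^ 2)⁻¹ * ∫⁻ u in ball a ρ, ENNReal.ofReal (ee G a u w ^ 2) ∂μ := by
    intro w
    rw [← lintegral_const_mul' _ _ ENNReal.ofReal_ne_top]
    refine (lintegral_mono_set hB).trans (le_of_eq (lintegral_congr fun u => ?_))
    unfold Pl6661.EE
    rw [ghr_sub, enorm_div_sq _ h0r]
  rw [lintegral_nuW]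
  calc (μ (ann p 4 8))⁻¹ *
        ∫⁻ w in ann p 4 8, ∫⁻ u in B, ‖Pl6661.EE (hr r) (ghr G r) a u w‖ₑ ^ 2 ∂μ ∂μ
      ≤ ENNReal.ofReal A * ∫⁻ w in ann p 4 8, ENNReal.ofReal (r ^ 2)⁻¹ *
          ∫⁻ u in ball a ρ, ENNReal.ofReal (ee G a u w ^ 2) ∂μ ∂μ := by
        refine mul_le_mul' (inv_le_of hA hW) (lintegral_mono fun w => e1 w)
    _ = ENNReal.ofReal A * (ENNReal.ofReal (r ^ 2)⁻¹ * ∫⁻ w in ann p 4 8,
          ∫⁻ u in ball a ρ, ENNReal.ofReal (ee G a u w ^ 2) ∂μ ∂μ) := by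
        rw [lintegral_const_mul' _ _ ENNReal.ofReal_ne_top]
    _ = ENNReal.ofReal A * (ENNReal.ofReal (r ^ 2)⁻¹ * ∫⁻ u in ball a ρ,
          ∫⁻ w in ann p 4 8, ENNReal.ofReal (ee G a u w ^ 2) ∂μ ∂μ) := by
        congr 2
        exact lintegral_lintegral_swap hm.aemeasurable
    _ ≤ ENNReal.ofReal A * ENNReal.ofReal ((r ^ 2)⁻¹ * b) := by
        gcongr
        exact ofReal_mul_le (by positivity) h
    _ = ENNReal.ofReal (A * b / r ^ 2) := by
        rw [← ENNReal.ofReal_mul hA.le]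
        congr 1
        field_simp

/-! ### volumes -/

theorem φc_fr_one {r : ℝ} (h0r : 0 < r) {x u : X} (h : dist x u ≤ r) : φc (fr r x u) = 1 := by
  apply φc_left
  have := fr_le (R := 1) h0r (by linarith : dist x u ≤ 1 * r)
  linarith

theorem φc_fr_zero {r : ℝ} (h0r : 0 < r) {x u : X} (h : u ∉ closedBall x (2 * r)) :
    φc (fr r x u) = 0 := φc_right (two_le_fr x h0r h)

theorem ηc_fr_zero {r : ℝ} (h0r : 0 < r) {x u : X} (h : u ∉ closedBall x (2 * r)) :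
    ηc (fr r x u) = 0 := ηc_right (two_le_fr x h0r h)

theorem integrable_φc_fr {r : ℝ} (h0r : 0 < r) (x : X) (hf : μ (closedBall x (2 * r)) ≠ ∞) :
    Integrable (fun u => φc (fr r x u)) μ := by
  have hi : Integrable ((closedBall x (2 * r)).indicator fun _ => (1 : ℝ)) μ :=
    (integrable_indicator_iff isClosed_closedBall.measurableSet).2 (integrableOn_const hf)
  refine hi.mono' (continuous_φc.comp (continuous_fr r x)).measurable.aestronglyMeasurable ?_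
  refine Eventually.of_forall fun u => ?_
  rw [Real.norm_eq_abs, abs_of_nonneg (φc_nonneg _)]
  by_cases hu : u ∈ closedBall x (2 * r)
  · rw [indicator_of_mem hu]; exact φc_le_one _
  · rw [indicator_of_notMem hu, φc_fr_zero h0r hu]

/-- lower bound of `Λ` -/
theorem lam_ge {r v : ℝ} (h0r : 0 < r) (x : X) (hf : μ (closedBall x (2 * r)) ≠ ∞)
    (hv : ENNReal.ofReal v ≤ μ (ball x r)) : v ≤ ∫ u, φc (fr r x u) ∂μ := by
  have hfb : μ (ball x r) ≠ ∞ := ne_top_of_le_ne_top hf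
    (measure_mono (ball_subset_closedBall.trans (closedBall_subset_closedBall (by linarith))))
  have h1 : v ≤ μ.real (ball x r) := by
    rw [measureReal_def]
    exact (ENNReal.ofReal_le_iff_le_toReal hfb).1 hv
  refine h1.trans ?_
  have h2 : μ.real (ball x r) = ∫ u, (ball x r).indicator (fun _ => (1 : ℝ)) u ∂μ := by
    rw [integral_indicator isOpen_ball.measurableSet]
    simp
  rw [h2]
  refine integral_mono ((integrable_indicator_iff isOpen_ball.measurableSet).2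
    (integrableOn_const hfb)) (integrable_φc_fr h0r x hf) fun u => ?_
  by_cases hu : u ∈ ball x r
  · rw [indicator_of_mem hu, φc_fr_one h0r (by rw [mem_ball, dist_comm] at hu; exact hu.le)]
  · rw [indicator_of_notMem hu]; exact φc_nonneg _

/-- upper bound of `Λ` -/
theorem lam_le {r : ℝ} (h0r : 0 < r) (x : X) (hf : μ (closedBall x (2 * r)) ≠ ∞) :
    ∫ u, φc (fr r x u) ∂μ ≤ μ.real (closedBall x (2 * r)) := by
  have h2 : μ.real (closedBall x (2 * r)) =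
      ∫ u, (closedBall x (2 * r)).indicator (fun _ => (1 : ℝ)) u ∂μ := by
    rw [integral_indicator isClosed_closedBall.measurableSet]
    simp
  rw [h2]
  refine integral_mono (integrable_φc_fr h0r x hf)
    ((integrable_indicator_iff isClosed_closedBall.measurableSet).2
    (integrableOn_const hf)) fun u => ?_
  by_cases hu : u ∈ closedBall x (2 * r)
  · rw [indicator_of_mem hu]; exact φc_le_one _
  · rw [indicator_of_notMem hu]; simp only; rw [φc_fr_zero h0r hu]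

/-- total mass of `mx` -/
theorem mx_univ_le {r : ℝ} (h0r : 0 < r) (x : X) :
    mx μ ηc r x univ ≤ 8 * μ (closedBall x (2 * r)) := by
  unfold mx
  rw [withDensity_apply _ MeasurableSet.univ, Measure.restrict_univ,
    show (8 : ℝ≥0∞) * μ (closedBall x (2 * r)) =
      ∫⁻ u, (closedBall x (2 * r)).indicator (fun _ => (8 : ℝ≥0∞)) u ∂μ by
      rw [lintegral_indicator isClosed_closedBall.measurableSet]; simp]
  refine lintegral_mono fun u => ?_
  by_cases hu : u ∈ closedBall x (2 * r)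
  · rw [indicator_of_mem hu]
    refine (ENNReal.ofReal_le_ofReal (ηc_le _)).trans ?_
    norm_num
  · rw [indicator_of_notMem hu, ηc_fr_zero h0r hu]; simp

theorem ae_mx {r : ℝ} (h0r : 0 < r) (x : X) : ∀ᵐ u ∂(mx μ ηc r x), dist x u ≤ 2 * r := by
  have hms : Measurable (fun u => ENNReal.ofReal (ηc (fr r x u))) :=
    (continuous_ηc.comp (continuous_fr r x)).measurable.ennreal_ofReal
  unfold mx
  rw [ae_withDensity_iff hms]
  refine Eventually.of_forall fun u hu => ?_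
  by_contra hc
  apply hu
  have : u ∉ closedBall x (2 * r) := by rw [mem_closedBall, dist_comm]; exact hc
  rw [ηc_fr_zero h0r this]
  simp

theorem isFinite_mx {r : ℝ} (h0r : 0 < r) (x : X) (hf : μ (closedBall x (2 * r)) ≠ ∞) :
    IsFiniteMeasure (mx μ ηc r x) :=
  ⟨(mx_univ_le h0r x).trans_lt (ENNReal.mul_lt_top (by norm_num) (lt_top_iff_ne_top.2 hf))⟩

theorem mx_real_univ_le {r V : ℝ} (h0r : 0 < r) (x : X) (hV0 : 0 ≤ V)
    (hV : μ (closedBall x (2 * r)) ≤ ENNReal.ofReal V) :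
    (mx μ ηc r x).real univ ≤ 8 * V := by
  rw [measureReal_def]
  refine ENNReal.toReal_le_of_le_ofReal (by positivity) ?_
  refine (mx_univ_le h0r x).trans ?_
  rw [ENNReal.ofReal_mul (by norm_num)]
  have : ENNReal.ofReal 8 = 8 := by norm_num
  rw [this]
  gcongr

/-! ### near isometry -/

/-- **(I8)** -/
theorem near_of {ν : Measure X} [IsFiniteMeasure ν] {p : X} {R : ℝ}
    (hν : ∀ᵐ w ∂ν, dist w p ≤ R) {u v : X} {ε r : ℝ} (h0r : 0 < r) (hε0 : 0 ≤ ε) (hε1 : ε ≤ 1)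
    (hN : |Real.sqrt n * ‖Nis710.psi ν u - Nis710.psi ν v‖ - dist u v| ≤ ε * dist u v) :
    |n * (∫ w, (hr r w u - hr r w v) ^ 2 ∂ν) - 2 * fr r u v| ≤ 3 * ε * (dist u v / r) ^ 2 := by
  have h1 : ∫ w, (hr r w u - hr r w v) ^ 2 ∂ν =
      ‖Nis710.psi ν u - Nis710.psi ν v‖ ^ 2 / r ^ 2 := by
    rw [Nis710.norm_psi_sub_sq hν u v, ← integral_div]
    refine integral_congr_ae (Eventually.of_forall fun w => ?_)
    simp only [hr, dist_comm w u, dist_comm w v]
    ring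
  set N := ‖Nis710.psi ν u - Nis710.psi ν v‖ with hNdef
  set d := dist u v with hd
  have hN0 : 0 ≤ N := norm_nonneg _
  have hd0 : 0 ≤ d := dist_nonneg
  have hs0 : 0 ≤ Real.sqrt n := Real.sqrt_nonneg _
  have hs : Real.sqrt n ^ 2 = n := Real.sq_sqrt (Nat.cast_nonneg n)
  have h2 : n * N ^ 2 - d ^ 2 = (Real.sqrt n * N - d) * (Real.sqrt n * N + d) := by
    linear_combination (-N ^ 2) * hs
  have h3 : Real.sqrt n * N + d ≤ 3 * d := by
    have := (abs_le.1 hN).2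
    nlinarith
  have h4 : |n * N ^ 2 - d ^ 2| ≤ 3 * ε * d ^ 2 := by
    rw [h2, abs_mul, abs_of_nonneg (by positivity : 0 ≤ Real.sqrt n * N + d)]
    calc |Real.sqrt n * N - d| * (Real.sqrt n * N + d) ≤ (ε * d) * (3 * d) :=
          mul_le_mul hN h3 (by positivity) (by positivity)
      _ = _ := by ring
  have h5 : n * (N ^ 2 / r ^ 2) - 2 * fr r u v = (n * N ^ 2 - d ^ 2) / r ^ 2 := by
    unfold fr; rw [← hd]; ring
  rw [h1, h5, abs_div, abs_of_nonneg (by positivity : (0 : ℝ) ≤ r ^ 2), div_pow, ← mul_div_assoc]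
  gcongr

/-- the far functions normalised at `x` -/
def jr (r : ℝ) (x w u : X) : ℝ := hr r w u - hr r w x

theorem abs_jr_le {r : ℝ} (h0r : 0 < r) (x w u : X) : |jr r x w u| ≤ dist x u / r := by
  unfold jr hr
  rw [← sub_div, abs_div, abs_of_pos h0r, dist_comm x u]
  gcongr
  exact abs_dist_sub_le u x w

theorem measurable_jr [SecondCountableTopology X] (r : ℝ) (x : X) :
    Measurable (Function.uncurry (jr r x)) := by
  have : Continuous (Function.uncurry (jr r x)) := by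
    unfold jr hr Function.uncurry
    fun_prop
  exact this.measurable

theorem jr_bdd {ν : Measure X} {r : ℝ} (h0r : 0 < r) (x : X) :
    ∀ᵐ w ∂ν, ∀ᵐ u ∂(mx μ ηc r x), |jr r x w u| ≤ 2 := by
  refine Eventually.of_forall fun w => ?_
  filter_upwards [ae_mx h0r x] with u hu
  refine (abs_jr_le h0r x w u).trans ?_
  rw [div_le_iff₀ h0r]
  exact hu

theorem HK_jr [SecondCountableTopology X] {ν : Measure X} [IsFiniteMeasure ν] {r : ℝ}
    (h0r : 0 < r) (x : X) (hf : μ (closedBall x (2 * r)) ≠ ∞) :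
    Ker585.HK ν (mx μ ηc r x) (jr r x) := by
  have := isFinite_mx h0r x hf
  exact Ker585.HK.of_bdd (measurable_jr r x) (jr_bdd h0r x)

theorem norm_jr_le [SFinite μ] {ν : Measure X} [IsProbabilityMeasure ν] {r : ℝ}
    (h0r : 0 < r) (x : X) (hf : μ (closedBall x (2 * r)) ≠ ∞)
    (h : Ker585.HK ν (mx μ ηc r x) (jr r x)) :
    ‖Ker585.kop h‖ ≤ 2 * Real.sqrt ((mx μ ηc r x).real univ) := by
  have := isFinite_mx h0r x hf
  have h1 := Ker585.norm_kop_le_of_bdd (by norm_num : (0 : ℝ) ≤ 2) h (jr_bdd h0r x)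
  simpa using h1

/-- polarised near isometry -/
theorem near_polar {ν : Measure X} [IsProbabilityMeasure ν] {p : X} {R : ℝ}
    (hν : ∀ᵐ w ∂ν, dist w p ≤ R) {x : X} {ε r : ℝ} (h0r : 0 < r) (hε0 : 0 ≤ ε) (hε1 : ε ≤ 1)
    (hN : ∀ u ∈ closedBall x (2 * r), ∀ v ∈ closedBall x (2 * r),
      |Real.sqrt n * ‖Nis710.psi ν u - Nis710.psi ν v‖ - dist u v| ≤ ε * dist u v)
    {u v : X} (hu : u ∈ closedBall x (2 * r)) (hv : v ∈ closedBall x (2 * r)) :
    |n * (∫ w, jr r x w u * jr r x w v ∂ν) - K (fr r) x u v| ≤ 72 * ε := by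
  have hx : x ∈ closedBall x (2 * r) := mem_closedBall_self (by positivity)
  have key : ∀ a ∈ closedBall x (2 * r), ∀ b ∈ closedBall x (2 * r),
      |n * (∫ w, (hr r w a - hr r w b) ^ 2 ∂ν) - 2 * fr r a b| ≤ 48 * ε := by
    intro a ha b hb
    refine (near_of hν h0r hε0 hε1 (hN a ha b hb)).trans ?_
    have h1 : dist a b ≤ 4 * r := dist_le_of_mem ha hb
    have h2 : dist a b / r ≤ 4 := by rw [div_le_iff₀ h0r]; exact h1
    have h3 : 0 ≤ dist a b / r := by positivity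
    have h4 : (dist a b / r) ^ 2 ≤ 4 ^ 2 := by gcongr
    nlinarith
  have hi : ∀ a b : X, Integrable (fun w => (hr r w a - hr r w b) ^ 2) ν := by
    intro a b
    refine Integrable.mono' (integrable_const ((dist a b / r) ^ 2)) ?_ ?_
    · have : Continuous fun w => (hr r w a - hr r w b) ^ 2 := by unfold hr; fun_prop
      exact this.measurable.aestronglyMeasurable
    · refine Eventually.of_forall fun w => ?_
      rw [Real.norm_eq_abs, abs_of_nonneg (sq_nonneg _), ← sq_abs]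
      have h5 : |hr r w a - hr r w b| ≤ dist a b / r := by
        have := abs_jr_le h0r b w a
        rw [dist_comm b a] at this
        exact this
      gcongr
  have e1 : ∫ w, jr r x w u * jr r x w v ∂ν =
      (1 / 2) * ((∫ w, (hr r w u - hr r w x) ^ 2 ∂ν) + (∫ w, (hr r w v - hr r w x) ^ 2 ∂ν)
        - ∫ w, (hr r w u - hr r w v) ^ 2 ∂ν) := by
    have i1 : Integrable (fun w => (hr r w u - hr r w x) ^ 2 + (hr r w v - hr r w x) ^ 2) ν :=
      (hi u x).add (hi v x)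
    rw [← integral_add (hi u x) (hi v x), ← integral_sub i1 (hi u v), ← integral_const_mul]
    refine integral_congr_ae (Eventually.of_forall fun w => ?_)
    simp only [jr]
    ring
  have a1 := abs_le.1 (key u hu x hx)
  have a2 := abs_le.1 (key v hv x hx)
  have a3 := abs_le.1 (key u hu v hv)
  rw [fr_symm r u x] at a1
  rw [fr_symm r v x] at a2
  rw [e1]
  unfold K
  rw [abs_le]
  constructor <;> nlinarith [a1.1, a1.2, a2.1, a2.2, a3.1, a3.2]

/-- **(I8)**, literally the hypothesis `hn` of 923's `low_of_near'`. -/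
theorem near_hs2 [SFinite μ] {ν : Measure X} [IsProbabilityMeasure ν] {p : X} {R : ℝ}
    (hν : ∀ᵐ w ∂ν, dist w p ≤ R) {x : X} {ε r : ℝ} (h0r : 0 < r)
    (hf : μ (closedBall x (2 * r)) ≠ ∞) (hε0 : 0 ≤ ε) (hε1 : ε ≤ 1)
    (hN : ∀ u ∈ closedBall x (2 * r), ∀ v ∈ closedBall x (2 * r),
      |Real.sqrt n * ‖Nis710.psi ν u - Nis710.psi ν v‖ - dist u v| ≤ ε * dist u v) :
    Ker585.hs2 (mx μ ηc r x) (mx μ ηc r x)
      (fun u v => n * Ker585.kcomp ν (fun u w => jr r x w u) (jr r x) u v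
        - 1 * K (fr r) x u v) ≤
      ENNReal.ofReal ((72 * ε * (mx μ ηc r x).real univ) ^ 2) := by
  have := isFinite_mx h0r x hf
  refine (Ker585.hs2_le_of_bdd (B := 72 * ε) ?_).trans (le_of_eq ?_)
  · filter_upwards [ae_mx h0r x] with u hu
    filter_upwards [ae_mx h0r x] with v hv
    rw [one_mul]
    refine near_polar hν h0r hε0 hε1 hN ?_ ?_
    · rw [mem_closedBall, dist_comm]; exact hu
    · rw [mem_closedBall, dist_comm]; exact hv
  · congr 1; ring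

/-! ### everything at scale `dy (k + 7)` -/

theorem dy_seven (k : ℕ) : dy k = 128 * dy (k + 7) := by
  unfold dy
  rw [pow_add]
  ring

/-- the common ball of a pair -/
def BB (x y : X) (r : ℝ) : Set X := ball x (128 * r) ∩ ball y (128 * r)

theorem BB_meas (x y : X) (r : ℝ) : MeasurableSet (BB x y r) :=
  isOpen_ball.measurableSet.inter isOpen_ball.measurableSet

theorem ball_subset_BB {x y : X} {r : ℝ} (h : dist x y ≤ 8 * r) {s : ℝ} (hs : s ≤ 120 * r) :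
    ball x s ⊆ BB x y r ∧ ball y s ⊆ BB x y r := by
  have h0 : 0 ≤ r := by
    have := (dist_nonneg (x := x) (y := y)).trans h
    linarith
  refine ⟨fun u hu => ⟨?_, ?_⟩, fun u hu => ⟨?_, ?_⟩⟩ <;> rw [mem_ball] at hu ⊢
  · linarith
  · have := dist_triangle u x y; linarith
  · have := dist_triangle_right u x y; linarith
  · linarith

theorem far_of' {r : ℝ} (h0r : 0 < r) {B : Set X} {a : X}
    (h : ball a (120 * r) ⊆ B) : Pl5661.Far (fr r) B 7000 a := by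
  intro u hu
  have h1 : 120 * r ≤ dist a u := by
    by_contra h2
    push Not at h2
    exact hu (h (by rw [mem_ball, dist_comm]; exact h2))
  unfold fr
  rw [le_div_iff₀ (by positivity), le_div_iff₀ (by norm_num)]
  have : (120 * r) ^ 2 ≤ dist a u ^ 2 := by gcongr
  nlinarith [sq_nonneg r]

theorem closedBall_subset_BB {x y : X} {r : ℝ} (h0r : 0 < r) (h : dist x y ≤ 8 * r) :
    closedBall x (2 * r) ⊆ BB x y r ∧ closedBall y (2 * r) ⊆ BB x y r :=
  ⟨(closedBall_subset_ball (by linarith)).trans (ball_subset_BB h le_rfl).1,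
    (closedBall_subset_ball (by linarith)).trans (ball_subset_BB h le_rfl).2⟩

/-- **All data of a pair `x, y` at scale `r = dy (k + 7)`.** -/
theorem pair_data [ProperSpace X] [IsFiniteMeasureOnCompacts μ] {C : Rad n κ X μ}
    {G : X → X → X → ℝ} {p : X} {A ε : ℝ} {J₀ : ℕ} {E : ℕ → X → ℝ}
    (D : Q9550.PlData C G p A ε J₀ E) {k : ℕ} (hk : J₀ ≤ k) {r : ℝ} (hr : r = dy (k + 7))
    {x y : X} (hx : x ∈ ball p 1) (hy : y ∈ ball p 1) (hxy : dist x y ≤ 8 * r)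
    {B : Set X} (hB : B = BB x y r) :
    Pl5661.Env μ (Rr C) (fr r) (Gs G r) (PlI585.hr r) (ghr G r) B (2 ^ 16) ∧
    (x ∈ B ∧ y ∈ B) ∧ (Pl5661.Far (fr r) B 7000 x ∧ Pl5661.Far (fr r) B 7000 y) ∧
    (Pl5661.MB μ (Rr C) n B x (A * E k x * 128 ^ n * r ^ n) ∧
      Pl5661.MB μ (Rr C) n B y (A * E k y * 128 ^ n * r ^ n)) ∧
    (∫⁻ v in B, ∫⁻ u in B, ‖Gap79.P (fr r) (Gs G r) x v u‖ₑ ^ 2 ∂μ ∂μ ≤
        ENNReal.ofReal (A * E k x * 128 ^ (2 * n + 4) * (r ^ n) ^ 2) ∧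
      ∫⁻ v in B, ∫⁻ u in B, ‖Gap79.P (fr r) (Gs G r) y v u‖ₑ ^ 2 ∂μ ∂μ ≤
        ENNReal.ofReal (A * E k y * 128 ^ (2 * n + 4) * (r ^ n) ^ 2)) ∧
    (∃ c : ℝ, |c| ≤ 200 ∧ ∫⁻ u in B, ‖Gap79.P (fr r) (Gs G r) x y u - c‖ₑ ∂μ ≤
        ENNReal.ofReal (A * (Real.sqrt (E k x) + Real.sqrt (E k y)) * 128 ^ (n + 2) * r ^ n)) ∧
    (∫⁻ w, ∫⁻ u in B, ‖Pl6661.EE (PlI585.hr r) (ghr G r) x u w‖ₑ ^ 2 ∂μ ∂(Q9550.nuW μ p) ≤
        ENNReal.ofReal (A ^ 2 * E k x * 128 ^ (n + 2) * r ^ n) ∧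
      ∫⁻ w, ∫⁻ u in B, ‖Pl6661.EE (PlI585.hr r) (ghr G r) y u w‖ₑ ^ 2 ∂μ ∂(Q9550.nuW μ p) ≤
        ENNReal.ofReal (A ^ 2 * E k y * 128 ^ (n + 2) * r ^ n)) ∧
    μ B ≤ ENNReal.ofReal (A * 128 ^ n * r ^ n) ∧ |fr r x y| ≤ 32 := by
  have h0r : 0 < r := by rw [hr]; exact dy_pos _
  have hA : 0 < A := lt_of_lt_of_le one_pos D.A_ge
  have hdk : dy k = 128 * r := by rw [hr]; exact dy_seven k
  have hBx : B ⊆ ball x (128 * r) := by rw [hB]; exact inter_subset_left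
  have hBy : B ⊆ ball y (128 * r) := by rw [hB]; exact inter_subset_right
  have hbb := ball_subset_BB hxy (le_refl (120 * r))
  rw [← hB] at hbb
  have h128 : 128 * r ≤ 1 := by rw [← hdk]; exact dy_le_one k
  refine ⟨env D.grep h0r D.sing (by rw [hB]; exact BB_meas x y r) hBx,
    ⟨hbb.1 (mem_ball_self (by positivity)), hbb.2 (mem_ball_self (by positivity))⟩,
    ⟨far_of' h0r hbb.1, far_of' h0r hbb.2⟩, ⟨?_, ?_⟩, ⟨?_, ?_⟩, ?_, ⟨?_, ?_⟩, ?_, ?_⟩
  · have h := D.m k hk x hx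
    rw [hdk] at h
    have := mb_of hBx h
    rwa [mul_pow, ← mul_assoc] at this
  · have h := D.m k hk y hy
    rw [hdk] at h
    have := mb_of hBy h
    rwa [mul_pow, ← mul_assoc] at this
  · have h := D.L k hk x hx
    rw [hdk] at h
    refine (L_of h0r hBx h).trans (ENNReal.ofReal_le_ofReal (le_of_eq ?_))
    have : r ≠ 0 := h0r.ne'
    rw [mul_pow, pow_add r (2 * n) 4, pow_mul' r 2 n]
    field_simp
  · have h := D.L k hk y hy
    rw [hdk] at h
    refine (L_of h0r hBy h).trans (ENNReal.ofReal_le_ofReal (le_of_eq ?_))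
    have : r ≠ 0 := h0r.ne'
    rw [mul_pow, pow_add r (2 * n) 4, pow_mul' r 2 n]
    field_simp
  · obtain ⟨cc, -, h⟩ := D.L2
    obtain ⟨h1, h2⟩ := h k hk x hx y hy (by rw [← hr]; exact hxy)
    refine ⟨cc k x y / r ^ 2, ?_, ?_⟩
    · rw [abs_div, abs_of_nonneg (by positivity : (0 : ℝ) ≤ r ^ 2), div_le_iff₀ (by positivity)]
      rw [← hr] at h1
      exact h1
    · rw [hdk] at h2
      refine (LP_of h0r hBx h2).trans (ENNReal.ofReal_le_ofReal (le_of_eq ?_))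
      have : r ≠ 0 := h0r.ne'
      rw [mul_pow, pow_add r n 2]
      field_simp
  · have h := D.F k hk x hx
    rw [hdk] at h
    refine (F_of D.grep h0r hA hBx D.volW_ge h).trans (ENNReal.ofReal_le_ofReal (le_of_eq ?_))
    have : r ≠ 0 := h0r.ne'
    rw [mul_pow, pow_add r n 2]
    field_simp
  · have h := D.F k hk y hy
    rw [hdk] at h
    refine (F_of D.grep h0r hA hBy D.volW_ge h).trans (ENNReal.ofReal_le_ofReal (le_of_eq ?_))
    have : r ≠ 0 := h0r.ne'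
    rw [mul_pow, pow_add r n 2]
    field_simp
  · refine (measure_mono hBx).trans ((D.vol_le x hx _ (by positivity) h128).trans ?_)
    rw [mul_pow, mul_assoc]
  · rw [abs_of_nonneg (fr_nonneg r x y)]
    have := fr_le (R := 8) h0r hxy
    linarith

end Crest.Agent.R247.PlI585
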