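import Crest.Agent.R247.Pl5_661
import Crest.Agent.R247.Q9_550

/-!
# R247, block (2b), Pl5' part 3 (helper923): the unit scale environment at scale `r`
-/

set_option autoImplicit false
set_option linter.unusedSectionVars false
open MeasureTheory Set Filter Topology Metric
open scoped ENNReal NNReal

noncomputable section

namespace Crest.Agent.R247.Pln923

open Crest.Agent.R247.Mcp688 Crest.Agent.R247.Far553 Crest.Agent.R247.Cal550
  Crest.Agent.R247.Q9550 Crest.Agent.R247.Pl5661
open Crest.Agent.R247.Gap79 (K P)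

universe u

variable {n : ℕ} {κ : ℝ} {X : Type u} [MetricSpace X] [MeasurableSpace X] [BorelSpace X]
  {μ : Measure X}

/-- half squared distance at scale `r` -/
def fS (r : ℝ) (a u : X) : ℝ := dist a u ^ 2 / (2 * r ^ 2)

/-- `Γ(f_a, f_b)` at scale `r` -/
def GS (G : X → X → X → ℝ) (r : ℝ) (a b u : X) : ℝ := G a b u / r ^ 2

/-- far distance at scale `r` -/
def hS (r : ℝ) (w u : X) : ℝ := dist w u / r

/-- `Γ(f_a, d_w)` at scale `r` -/
def GhS (G : X → X → X → ℝ) (r : ℝ) (a w u : X) : ℝ := Ed G a u w / r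

/-- the measure at scale `r` -/
def vS (μ : Measure X) (n : ℕ) (r : ℝ) : Measure X := ENNReal.ofReal (r⁻¹ ^ n) • μ

/-- Lipschitz on bounded sets -/
def LipB (p : X) (φ : X → ℝ) : Prop :=
  ∀ ρ : ℝ, ∃ L : ℝ, 0 ≤ L ∧ ∀ y z, dist p y ≤ ρ → dist p z ≤ ρ → |φ y - φ z| ≤ L * dist y z

/-- the relation `R` -/
def RS (C : Rad n κ X μ) (p : X) (a : X) (φ dφ : X → ℝ) : Prop := LipB p φ ∧ RD C a φ dφ

namespace LipB
variable {p : X} {φ ψ : X → ℝ}

theorem bdd (h : LipB p φ) (ρ : ℝ) : ∃ M : ℝ, 0 ≤ M ∧ ∀ y, dist p y ≤ ρ → |φ y| ≤ M := by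
  rcases le_or_gt 0 ρ with hρ | hρ
  · obtain ⟨L, hL, h⟩ := h ρ
    refine ⟨|φ p| + L * ρ, by positivity, fun y hy => ?_⟩
    have h1 := h y p hy (by rw [dist_self]; exact hρ)
    have h2 : |φ y| ≤ |φ y - φ p| + |φ p| := by
      have := abs_add_le (φ y - φ p) (φ p)
      rwa [sub_add_cancel] at this
    have h3 : L * dist y p ≤ L * ρ := by rw [dist_comm]; gcongr
    linarith
  · exact ⟨0, le_rfl, fun y hy => absurd (dist_nonneg.trans hy) (not_le.2 hρ)⟩

theorem const (p : X) (c : ℝ) : LipB p fun _ => c := fun ρ => ⟨0, le_rfl, fun y z _ _ => by simp⟩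

theorem add (h : LipB p φ) (h' : LipB p ψ) : LipB p fun u => φ u + ψ u := by
  intro ρ
  obtain ⟨L, hL, h⟩ := h ρ
  obtain ⟨L', hL', h'⟩ := h' ρ
  refine ⟨L + L', by positivity, fun y z hy hz => ?_⟩
  have e : φ y + ψ y - (φ z + ψ z) = (φ y - φ z) + (ψ y - ψ z) := by ring
  rw [e]
  refine (abs_add_le _ _).trans ?_
  have := h y z hy hz
  have := h' y z hy hz
  linarith

theorem mul (h : LipB p φ) (h' : LipB p ψ) : LipB p fun u => φ u * ψ u := by
  intro ρ
  obtain ⟨M, hM, hb⟩ := h.bdd ρ
  obtain ⟨M', hM', hb'⟩ := h'.bdd ρ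
  obtain ⟨L, hL, h⟩ := h ρ
  obtain ⟨L', hL', h'⟩ := h' ρ
  refine ⟨L * M' + M * L', by positivity, fun y z hy hz => ?_⟩
  have e : φ y * ψ y - φ z * ψ z = (φ y - φ z) * ψ y + φ z * (ψ y - ψ z) := by ring
  rw [e]
  refine (abs_add_le _ _).trans ?_
  rw [abs_mul, abs_mul]
  have h1 := h y z hy hz
  have h2 := h' y z hy hz
  have h3 : |φ y - φ z| * |ψ y| ≤ (L * dist y z) * M' :=
    mul_le_mul h1 (hb' y hy) (abs_nonneg _) (by positivity)
  have h4 : |φ z| * |ψ y - ψ z| ≤ M * (L' * dist y z) :=
    mul_le_mul (hb z hz) h2 (abs_nonneg _) hM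
  nlinarith

theorem comp (h : LipB p φ) {g g' : ℝ → ℝ} (hg : ∀ t, HasDerivAt g (g' t) t)
    (hg' : Continuous g') : LipB p fun u => g (φ u) := by
  intro ρ
  obtain ⟨M, hM, hb⟩ := h.bdd ρ
  obtain ⟨L, hL, h⟩ := h ρ
  obtain ⟨C, hC⟩ := (isCompact_Icc (a := -M) (b := M)).exists_bound_of_continuousOn
    hg'.continuousOn
  have hC0 : 0 ≤ C := (norm_nonneg _).trans (hC 0 ⟨by linarith, hM⟩)
  refine ⟨C * L, by positivity, fun y z hy hz => ?_⟩
  have h1 := (convex_Icc (-M) M).norm_image_sub_le_of_norm_hasDerivWithin_le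
    (f := g) (f' := g') (C := C) (fun t _ => (hg t).hasDerivWithinAt) hC
    (abs_le.1 (hb z hz)) (abs_le.1 (hb y hy))
  rw [Real.norm_eq_abs, Real.norm_eq_abs] at h1
  refine h1.trans ?_
  rw [mul_assoc]
  exact mul_le_mul_of_nonneg_left (h y z hy hz) hC0

theorem dist (p a : X) : LipB p fun u => dist a u := fun ρ => ⟨1, zero_le_one, fun y z _ _ => by
  simp only [one_mul]
  rw [dist_comm a y, dist_comm a z]
  exact abs_dist_sub_le y z a⟩

theorem const_mul (h : LipB p φ) (c : ℝ) : LipB p fun u => c * φ u :=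
  (LipB.const p c).mul h

/-- compactly supported ⟹ globally Lipschitz -/
theorem global (h : LipB p φ) {ρ S : ℝ} (h0 : ∀ z, ρ ≤ Dist.dist p z → φ z = 0)
    (hS : ∀ z, |φ z| ≤ S) : ∃ L, ∀ y z, |φ y - φ z| ≤ L * Dist.dist y z := by
  obtain ⟨L, hL, h⟩ := h (ρ + 1)
  have hS0 : 0 ≤ S := (abs_nonneg _).trans (hS p)
  have key : ∀ y z, Dist.dist p y ≤ ρ + 1 → |φ y - φ z| ≤ (L + S) * Dist.dist y z := by
    intro y z hy
    by_cases hz : Dist.dist p z ≤ ρ + 1
    · refine (h y z hy hz).trans ?_
      have : 0 ≤ S * Dist.dist y z := by positivity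
      nlinarith
    · have hz0 : φ z = 0 := h0 z (by linarith)
      by_cases hy' : ρ ≤ Dist.dist p y
      · rw [hz0, h0 y hy', sub_zero, abs_zero]
        positivity
      · have h1 : 1 ≤ Dist.dist y z := by
          have := dist_triangle p y z
          linarith
        rw [hz0, sub_zero]
        refine (hS y).trans ?_
        nlinarith
  refine ⟨L + S, fun y z => ?_⟩
  by_cases hy : Dist.dist p y ≤ ρ + 1
  · exact key y z hy
  · by_cases hz : Dist.dist p z ≤ ρ + 1
    · rw [abs_sub_comm, dist_comm]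
      exact key z y hz
    · rw [h0 y (by linarith), h0 z (by linarith), sub_self, abs_zero]
      positivity

end LipB

/-! ### calculus of `RD` -/

section RDc
variable {C : Rad n κ X μ} {a : X} {φ φ' ψ ψ' : X → ℝ}

theorem RD_const' (c : ℝ) : RD C a (fun _ => c) (fun _ => 0) :=
  Eventually.of_forall fun _ => hasDerivWithinAt_const _ _ _

theorem RD_add' (h : RD C a φ φ') (h' : RD C a ψ ψ') :
    RD C a (fun u => φ u + ψ u) (fun u => φ' u + ψ' u) := by
  filter_upwards [h, h'] with z h1 h2 using h1.add h2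

theorem RD_mul' (h : RD C a φ φ') (h' : RD C a ψ ψ') :
    RD C a (fun u => φ u * ψ u) (fun u => φ' u * ψ u + φ u * ψ' u) := by
  filter_upwards [h, h', C.ae_U a] with z h1 h2 hU
  have := h1.mul h2
  simp only [C.T_one a z hU] at this
  exact this

theorem RD_comp' (h : RD C a φ φ') {g g' : ℝ → ℝ} (hg : ∀ t, HasDerivAt g (g' t) t) :
    RD C a (fun u => g (φ u)) (fun u => g' (φ u) * φ' u) := by
  filter_upwards [h, C.ae_U a] with z h1 hU
  have h2 : HasDerivAt g (g' (φ z)) (φ (C.T a 1 z)) := by
    rw [C.T_one a z hU]; exact hg _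
  exact h2.comp_hasDerivWithinAt (1 : ℝ) h1

theorem RD_congr' (h : RD C a φ φ') (h' : φ' =ᵐ[μ] ψ') : RD C a φ ψ' := by
  filter_upwards [h, h'] with z h1 h2
  rwa [← h2]

end RDc

/-! ### the environment -/

theorem vS_ac {r : ℝ} (hr : 0 < r) : μ ≪ vS μ n r := by
  unfold vS
  refine Measure.absolutelyContinuous_smul ?_
  rw [ne_eq, ENNReal.ofReal_eq_zero]; push Not; positivity

theorem vS_ac' {r : ℝ} : vS μ n r ≪ μ := by
  unfold vS
  exact Measure.smul_absolutelyContinuous

theorem ae_vS {r : ℝ} {q : X → Prop} (h : ∀ᵐ z ∂μ, q z) : ∀ᵐ z ∂(vS μ n r), q z :=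
  vS_ac'.ae_le h

/-- the bound for `Ed` -/
theorem abs_Ed_le {C : Rad n κ X μ} {G : X → X → X → ℝ} (hG : GRep C G) (a u w : X) :
    |Ed G a u w| ≤ dist a u := by
  unfold Ed
  rw [abs_div, abs_of_nonneg (dist_nonneg (x := u) (y := w))]
  rcases eq_or_lt_of_le (dist_nonneg (x := u) (y := w)) with h0 | h0
  · rw [← h0, div_zero]; exact dist_nonneg
  · rw [div_le_iff₀ h0]
    have := hG.bd a w u
    rwa [dist_comm w u] at this

/-- **The environment at scale `r` on `ball x (60 r)`.** -/
theorem env_scale [ProperSpace X] [IsFiniteMeasureOnCompacts μ] {C : Rad n κ X μ}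
    {G : X → X → X → ℝ} (hG : GRep C G) (hμ : ∀ w : X, μ {w} = 0) (p x : X) {r : ℝ} (hr : 0 < r) :
    Env (vS μ n r) (RS C p) (fS r) (GS G r) (hS r) (GhS G r) (ball x (60 * r)) 14400 where
  symm := fun a b => by unfold fS; rw [dist_comm]
  self := fun a => by unfold fS; rw [dist_self]; simp
  nonneg := fun a b => by unfold fS; positivity
  mf := by
    unfold fS
    exact (measurable_dist.pow_const 2).div_const _
  mh := by
    unfold hS
    exact measurable_dist.div_const _
  mG := fun a b => by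
    unfold GS
    refine Measurable.aemeasurable ?_
    exact (hG.meas.comp (measurable_const.prodMk
      (measurable_const.prodMk measurable_id))).div_const _
  mGh := fun a w => by
    unfold GhS Ed
    refine Measurable.aemeasurable ?_
    have h1 : Measurable (fun u : X => G a w u) :=
      hG.meas.comp (measurable_const.prodMk (measurable_const.prodMk measurable_id))
    have h2 : Measurable (fun u : X => dist u w) :=
      (continuous_id.dist continuous_const).measurable
    exact (h1.div h2).div_const _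
  Gsymm := fun a b => Eventually.of_forall fun u => by unfold GS; rw [hG.symm]
  Gself := fun a => Eventually.of_forall fun u => by
    unfold GS fS; rw [hG.self]; field_simp
  mB := measurableSet_ball
  fin := by
    unfold vS
    rw [Measure.smul_apply, smul_eq_mul]
    refine ENNReal.mul_ne_top ENNReal.ofReal_ne_top ?_
    exact ((measure_mono ball_subset_closedBall).trans_lt
      (isCompact_closedBall x _).measure_lt_top).ne
  F0 := by norm_num
  fF := fun a ha u hu => by
    have h1 : dist a u ≤ 120 * r := by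
      have := dist_triangle_right a u x
      rw [mem_ball] at ha hu
      linarith
    unfold fS
    rw [div_le_iff₀ (by positivity)]
    have h2 : dist a u ^ 2 ≤ (120 * r) ^ 2 := pow_le_pow_left₀ dist_nonneg h1 2
    nlinarith [sq_nonneg r]
  GF := fun a ha b hb => by
    filter_upwards [ae_restrict_mem measurableSet_ball] with u hu
    have h1 : dist a u ≤ 120 * r := by
      have := dist_triangle_right a u x
      rw [mem_ball] at ha hu
      linarith
    have h2 : dist b u ≤ 120 * r := by
      have := dist_triangle_right b u x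
      rw [mem_ball] at hb hu
      linarith
    unfold GS
    rw [abs_div, abs_of_pos (by positivity : (0:ℝ) < r ^ 2), div_le_iff₀ (by positivity)]
    refine (hG.bd a b u).trans ?_
    calc dist a u * dist b u ≤ (120 * r) * (120 * r) :=
          mul_le_mul h1 h2 dist_nonneg (by positivity)
      _ = _ := by ring
  hF := fun w a ha u hu => by
    have h1 : dist a u ≤ 120 * r := by
      have := dist_triangle_right a u x
      rw [mem_ball] at ha hu
      linarith
    unfold hS
    rw [← sub_div, abs_div, abs_of_pos hr, div_le_iff₀ hr]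
    have h2 : |dist w a - dist w u| ≤ dist a u := by
      rw [dist_comm w a, dist_comm w u]
      exact abs_dist_sub_le a u w
    nlinarith
  GhF := fun a ha w => by
    filter_upwards [ae_restrict_mem measurableSet_ball] with u hu
    have h1 : dist a u ≤ 120 * r := by
      have := dist_triangle_right a u x
      rw [mem_ball] at ha hu
      linarith
    unfold GhS
    rw [abs_div, abs_of_pos hr, div_le_iff₀ hr]
    have := abs_Ed_le hG a u w
    nlinarith
  Rconst := fun a c => ⟨LipB.const p c, RD_const' c⟩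
  Radd := fun a φ φ' ψ ψ' h h' => ⟨h.1.add h'.1, RD_add' h.2 h'.2⟩
  Rmul := fun a φ φ' ψ ψ' h h' => ⟨h.1.mul h'.1, RD_mul' h.2 h'.2⟩
  Rcomp := fun a φ φ' g g' h hg hg' => ⟨h.1.comp hg hg', RD_comp' h.2 hg⟩
  Rcongr := fun a φ φ' ψ' h h' => ⟨h.1, RD_congr' h.2 ((vS_ac hr).ae_eq h')⟩
  Rf := fun a b => by
    refine ⟨?_, ?_⟩
    · have h1 := ((LipB.dist p b).mul (LipB.dist p b)).const_mul (1 / (2 * r ^ 2))
      convert h1 using 1
      funext u
      unfold fS
      ring
    · have h1 := RD_mul' (RD_const' (C := C) (a := a) (1 / r ^ 2)) (hG.rd a b)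
      have e1 : (fun u => 1 / r ^ 2 * (dist b u ^ 2 / 2)) = fS r b := by
        funext u
        unfold fS
        field_simp
      have e2 : (fun u => 0 * (dist b u ^ 2 / 2) + 1 / r ^ 2 * G a b u) = GS G r a b := by
        funext u
        unfold GS
        ring
      rw [e1, e2] at h1
      exact h1
  Rh := fun a w => by
    refine ⟨?_, ?_⟩
    · have h1 := (LipB.dist p w).const_mul (1 / r)
      convert h1 using 1
      funext u
      unfold hS
      ring
    · have h1 := RD_mul' (RD_const' (C := C) (a := a) (1 / r)) (hG.rd_dist hμ a w)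
      have e1 : (fun u => 1 / r * dist u w) = hS r w := by
        funext u
        unfold hS
        rw [dist_comm u w]
        ring
      have e2 : (fun u => 0 * dist u w + 1 / r * Ed G a u w) = GhS G r a w := by
        funext u
        unfold GhS
        ring
      rw [e1, e2] at h1
      exact h1

end Crest.Agent.R247.Pln923
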