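import Crest.Agent.R247.Prt1_657
import Crest.Agent.R247.Ms4_322

/-!
R247, block (5), leaf (5-P), file 2: pull back of test functions of a chart to the manifold,
comparison of `L²` norms on the manifold and in a chart. (helper657)
-/

set_option autoImplicit false
open scoped ContDiff ENNReal NNReal Topology Manifold Bundle
open MeasureTheory Set Filter Metric Bundle
open Crest.GeometryTopology.CoordMetric Crest.GeometryTopology.ChartCurvature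
open Crest.Agent.R202.Ell Crest.Agent.R247.Ms322

namespace Crest.Agent.R247.Frd657

noncomputable section

theorem eLpNorm_two_sq {α G : Type*} [MeasurableSpace α] [NormedAddCommGroup G] (f : α → G)
    (ν : Measure α) : eLpNorm f 2 ν ^ 2 = ∫⁻ x, ‖f x‖ₑ ^ 2 ∂ν := by
  rw [eLpNorm_eq_lintegral_rpow_enorm_toReal (by norm_num) (by norm_num)]
  rw [← ENNReal.rpow_natCast, ← ENNReal.rpow_mul]
  norm_num

variable {n : ℕ} {M : Type*} [MetricSpace M] [ChartedSpace (EuclideanSpace ℝ (Fin n)) M]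

local notation "𝔼" => EuclideanSpace ℝ (Fin n)

/-- pull back of a function on the chart, extended by zero -/
def pb (x₀ : M) (P : EuclideanSpace ℝ (Fin n) → ℝ) (z : M) : ℝ :=
  (chartAt (EuclideanSpace ℝ (Fin n)) x₀).source.indicator
    (fun z => P (chartAt (EuclideanSpace ℝ (Fin n)) x₀ z)) z

theorem pb_of_mem (x₀ : M) (P : 𝔼 → ℝ) {z : M} (hz : z ∈ (chartAt 𝔼 x₀).source) :
    pb x₀ P z = P (chartAt 𝔼 x₀ z) := indicator_of_mem hz _

theorem pb_symm (x₀ : M) (P : 𝔼 → ℝ) {b : 𝔼} (hb : b ∈ (chartAt 𝔼 x₀).target) :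
    pb x₀ P ((chartAt 𝔼 x₀).symm b) = P b := by
  rw [pb_of_mem x₀ P ((chartAt 𝔼 x₀).map_target hb), (chartAt 𝔼 x₀).right_inv hb]

theorem isCompact_symm_image (x₀ : M) {K : Set 𝔼} (hK : IsCompact K)
    (hKt : K ⊆ (chartAt 𝔼 x₀).target) : IsCompact ((chartAt 𝔼 x₀).symm '' K) :=
  hK.image_of_continuousOn ((chartAt 𝔼 x₀).symm.continuousOn.mono hKt)

theorem symm_image_subset (x₀ : M) {K : Set 𝔼} (hKt : K ⊆ (chartAt 𝔼 x₀).target) :
    (chartAt 𝔼 x₀).symm '' K ⊆ (chartAt 𝔼 x₀).source := by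
  rintro _ ⟨b, hb, rfl⟩
  exact (chartAt 𝔼 x₀).map_target (hKt hb)

theorem pb_off (x₀ : M) {P : 𝔼 → ℝ} {K : Set 𝔼} (hP : ∀ b, b ∉ K → P b = 0) {z : M}
    (hz : z ∉ (chartAt 𝔼 x₀).symm '' K) : pb x₀ P z = 0 := by
  by_cases h : z ∈ (chartAt 𝔼 x₀).source
  · rw [pb_of_mem x₀ P h]
    apply hP
    intro hK
    exact hz ⟨_, hK, (chartAt 𝔼 x₀).left_inv h⟩
  · exact indicator_of_notMem h _

theorem tsupport_pb (x₀ : M) {P : 𝔼 → ℝ} {K : Set 𝔼} (hK : IsCompact K)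
    (hKt : K ⊆ (chartAt 𝔼 x₀).target) (hP : tsupport P ⊆ K) :
    tsupport (pb x₀ P) ⊆ (chartAt 𝔼 x₀).symm '' K := by
  apply closure_minimal _ (isCompact_symm_image x₀ hK hKt).isClosed
  intro z hz
  by_contra h
  exact hz (pb_off x₀ (K := K) (fun b hb => image_eq_zero_of_notMem_tsupport fun h' => hb (hP h')) h)

theorem pb_cpt (x₀ : M) {P : 𝔼 → ℝ} (hP : IsTest P) (hs : tsupport P ⊆ (chartAt 𝔼 x₀).target) :
    HasCompactSupport (pb x₀ P) := by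
  have h0 : IsCompact (tsupport P) := hP.cpt
  exact (isCompact_symm_image x₀ h0 hs).of_isClosed_subset (isClosed_tsupport _)
    (tsupport_pb x₀ h0 hs le_rfl)

theorem pb_smooth [IsManifold (𝓡 n) ∞ M] (x₀ : M) {P : 𝔼 → ℝ} (hP : IsTest P)
    (hs : tsupport P ⊆ (chartAt 𝔼 x₀).target) :
    ContMDiff (𝓡 n) 𝓘(ℝ, ℝ) ∞ (pb x₀ P) := by
  intro z
  by_cases hz : z ∈ (chartAt 𝔼 x₀).source
  · have h1 : ContMDiffAt (𝓡 n) 𝓘(ℝ, ℝ) ∞ (fun z => P (chartAt 𝔼 x₀ z)) z :=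
      (hP.smooth.contMDiff).contMDiffAt.comp z
        ((contMDiffOn_chart (I := 𝓡 n) (n := ∞) (x := x₀)).contMDiffAt
          ((chartAt 𝔼 x₀).open_source.mem_nhds hz))
    refine h1.congr_of_eventuallyEq ?_
    filter_upwards [(chartAt 𝔼 x₀).open_source.mem_nhds hz] with y hy
    exact pb_of_mem x₀ P hy
  · have h0 : IsCompact (tsupport P) := hP.cpt
    have hcl : IsClosed ((chartAt 𝔼 x₀).symm '' tsupport P) :=
      (isCompact_symm_image x₀ h0 hs).isClosed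
    have hzn : z ∉ (chartAt 𝔼 x₀).symm '' tsupport P := fun h => hz (symm_image_subset x₀ hs h)
    have h1 : ContMDiffAt (𝓡 n) 𝓘(ℝ, ℝ) ∞ (fun _ : M => (0 : ℝ)) z := contMDiffAt_const
    refine h1.congr_of_eventuallyEq ?_
    filter_upwards [hcl.isOpen_compl.mem_nhds hzn] with y hy
    exact pb_off x₀ (fun b hb => image_eq_zero_of_notMem_tsupport hb) hy

theorem pb_sub (x₀ : M) (P Q : 𝔼 → ℝ) (z : M) :
    pb x₀ (fun b => P b - Q b) z = pb x₀ P z - pb x₀ Q z := by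
  by_cases hz : z ∈ (chartAt 𝔼 x₀).source
  · rw [pb_of_mem x₀ _ hz, pb_of_mem x₀ _ hz, pb_of_mem x₀ _ hz]
  · simp [pb, indicator_of_notMem hz]

/-! ### comparison of `L²` norms -/

variable [IsManifold (𝓡 n) ∞ M]
  [RiemannianBundle (fun p : M => TangentSpace (𝓡 n) p)]
  [IsContMDiffRiemannianBundle (𝓡 n) ∞ (EuclideanSpace ℝ (Fin n)) (fun p : M => TangentSpace (𝓡 n) p)]

theorem exists_dens_bounds (x₀ : M) {K : Set 𝔼} (hK : IsCompact K)
    (hKt : K ⊆ (chartAt 𝔼 x₀).target) :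
    ∃ c C : ℝ, 0 < c ∧ 0 < C ∧ ∀ b ∈ K, c ≤ dens (n := n) x₀ b ∧ dens (n := n) x₀ b ≤ C := by
  rcases K.eq_empty_or_nonempty with h0 | hne
  · exact ⟨1, 1, one_pos, one_pos, fun b hb => by rw [h0] at hb; exact absurd hb (notMem_empty b)⟩
  · have hc : ContinuousOn (dens (n := n) x₀) K := (continuousOn_dens x₀).mono hKt
    obtain ⟨p, hp, hmin⟩ := hK.exists_isMinOn hne hc
    obtain ⟨q, hq, hmax⟩ := hK.exists_isMaxOn hne hc
    exact ⟨dens x₀ p, dens x₀ q, dens_pos x₀ (hKt hp), dens_pos x₀ (hKt hq),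
      fun b hb => ⟨hmin hb, hmax hb⟩⟩

variable [IsRiemannianManifold (𝓡 n) M] [MeasurableSpace M] [BorelSpace M]

/-- `∫_M ‖h‖²` for `h` vanishing off the image of a compact subset of the target -/
theorem lintegral_chart (x₀ : M) {K : Set 𝔼} (hK : IsCompact K)
    (hKt : K ⊆ (chartAt 𝔼 x₀).target) {h : M → ℝ≥0∞}
    (h0 : ∀ z, z ∉ (chartAt 𝔼 x₀).symm '' K → h z = 0) :
    ∫⁻ z, h z ∂μHE[n] = ∫⁻ b in K, ENNReal.ofReal (dens x₀ b) * h ((chartAt 𝔼 x₀).symm b) := by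
  rw [← lintegral_symm_image x₀ hKt hK.measurableSet]
  have hm := measurableSet_symm_image (n := n) x₀ hKt hK.measurableSet
  rw [← lintegral_indicator hm]
  congr 1
  ext z
  by_cases hz : z ∈ (chartAt 𝔼 x₀).symm '' K
  · rw [indicator_of_mem hz]
  · rw [indicator_of_notMem hz, h0 z hz]

theorem sq_le_sq_enn {a b : ℝ≥0∞} (h : a ^ 2 ≤ b ^ 2) : a ≤ b :=
  (ENNReal.pow_le_pow_left_iff two_ne_zero).1 h

/-- upper comparison -/
theorem eLpNorm_le_chart (x₀ : M) {K : Set 𝔼} (hK : IsCompact K)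
    (hKt : K ⊆ (chartAt 𝔼 x₀).target) :
    ∃ C : ℝ, 0 < C ∧ ∀ {G : Type} [NormedAddCommGroup G] (h : M → G),
      (∀ z, z ∉ (chartAt 𝔼 x₀).symm '' K → h z = 0) →
      eLpNorm h 2 μHE[n] ≤ ENNReal.ofReal C *
        eLpNorm (fun b => h ((chartAt 𝔼 x₀).symm b)) 2 (volume.restrict K) := by
  obtain ⟨c, C, -, hC, hb⟩ := exists_dens_bounds x₀ hK hKt
  refine ⟨√C, Real.sqrt_pos.2 hC, fun {G} _ h h0 => sq_le_sq_enn ?_⟩
  rw [mul_pow, eLpNorm_two_sq, eLpNorm_two_sq, ← ENNReal.ofReal_pow (Real.sqrt_nonneg C),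
    Real.sq_sqrt hC.le, lintegral_chart x₀ hK hKt (h := fun z => ‖h z‖ₑ ^ 2)
      (fun z hz => by simp [h0 z hz]), ← lintegral_const_mul' _ _ ENNReal.ofReal_ne_top]
  apply setLIntegral_mono_ae' hK.measurableSet
  refine Eventually.of_forall fun b hbK => ?_
  gcongr
  exact (hb b hbK).2

/-- lower comparison -/
theorem eLpNorm_chart_le (x₀ : M) {K : Set 𝔼} (hK : IsCompact K)
    (hKt : K ⊆ (chartAt 𝔼 x₀).target) :
    ∃ C : ℝ, 0 < C ∧ ∀ {G : Type} [NormedAddCommGroup G] (h : M → G),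
      eLpNorm (fun b => h ((chartAt 𝔼 x₀).symm b)) 2 (volume.restrict K)
        ≤ ENNReal.ofReal C * eLpNorm h 2 (μHE[n].restrict ((chartAt 𝔼 x₀).symm '' K)) := by
  obtain ⟨c, C, hc, -, hb⟩ := exists_dens_bounds x₀ hK hKt
  have hc' : 0 < c⁻¹ := inv_pos.2 hc
  refine ⟨√(c⁻¹), Real.sqrt_pos.2 hc', fun {G} _ h => sq_le_sq_enn ?_⟩
  rw [mul_pow, eLpNorm_two_sq, eLpNorm_two_sq, ← ENNReal.ofReal_pow (Real.sqrt_nonneg _),
    Real.sq_sqrt hc'.le, lintegral_symm_image x₀ hKt hK.measurableSet,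
    ← lintegral_const_mul' _ _ ENNReal.ofReal_ne_top]
  apply setLIntegral_mono_ae' hK.measurableSet
  refine Eventually.of_forall fun b hbK => ?_
  have h1 : 1 ≤ ENNReal.ofReal c⁻¹ * ENNReal.ofReal (dens x₀ b) := by
    rw [← ENNReal.ofReal_mul hc'.le, ← ENNReal.ofReal_one]
    apply ENNReal.ofReal_le_ofReal
    have := (hb b hbK).1
    rw [inv_mul_eq_div, le_div_iff₀ hc]
    linarith
  calc ‖h ((chartAt 𝔼 x₀).symm b)‖ₑ ^ 2 = 1 * ‖h ((chartAt 𝔼 x₀).symm b)‖ₑ ^ 2 := (one_mul _).symm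
    _ ≤ (ENNReal.ofReal c⁻¹ * ENNReal.ofReal (dens x₀ b)) * ‖h ((chartAt 𝔼 x₀).symm b)‖ₑ ^ 2 := by
        gcongr
    _ = _ := by ring

end

end Crest.Agent.R247.Frd657
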