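import Crest.Agent.R247.Prt2_657

/-!
R247, block (5), leaf (5-P), file 3: null sets, almost everywhere statements and measurability on
the manifold and in a chart. (helper657)
-/

set_option autoImplicit false
open scoped ContDiff ENNReal NNReal Topology Manifold Bundle
open MeasureTheory Set Filter Metric Bundle
open Crest.GeometryTopology.CoordMetric Crest.GeometryTopology.ChartCurvature
open Crest.Agent.R202.Ell Crest.Agent.R247.Ms322

namespace Crest.Agent.R247.Frd657

noncomputable section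

variable {n : ℕ} {M : Type*} [MetricSpace M] [ChartedSpace (EuclideanSpace ℝ (Fin n)) M]
  [IsManifold (𝓡 n) ∞ M]
  [RiemannianBundle (fun p : M => TangentSpace (𝓡 n) p)]
  [IsContMDiffRiemannianBundle (𝓡 n) ∞ (EuclideanSpace ℝ (Fin n)) (fun p : M => TangentSpace (𝓡 n) p)]

local notation "𝔼" => EuclideanSpace ℝ (Fin n)

theorem cvol_restrict (x₀ : M) : (cvol x₀).restrict (chartAt 𝔼 x₀).target = cvol x₀ := by
  rw [cvol, restrict_withDensity (measurableSet_target x₀),
    Measure.restrict_restrict (measurableSet_target x₀), inter_self]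

theorem dens_ne_zero (x₀ : M) : ∀ᵐ b ∂(volume.restrict (chartAt 𝔼 x₀).target),
    ENNReal.ofReal (dens (n := n) x₀ b) ≠ 0 := by
  rw [ae_restrict_iff' (measurableSet_target x₀)]
  refine Eventually.of_forall fun b hb => ?_
  rw [Ne, ENNReal.ofReal_eq_zero, not_le]
  exact dens_pos x₀ hb

theorem cvol_ac (x₀ : M) : cvol x₀ ≪ volume.restrict (chartAt 𝔼 x₀).target :=
  withDensity_absolutelyContinuous _ _

theorem ac_cvol (x₀ : M) : volume.restrict (chartAt 𝔼 x₀).target ≪ cvol (n := n) x₀ :=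
  withDensity_absolutelyContinuous' (aemeasurable_dens x₀).ennreal_ofReal (dens_ne_zero x₀)

variable [IsRiemannianManifold (𝓡 n) M] [MeasurableSpace M] [BorelSpace M]

/-- a.e. on the source = a.e. on the target -/
theorem ae_source_iff (x₀ : M) {p : M → Prop} :
    (∀ᵐ z ∂(μHE[n] : Measure M), z ∈ (chartAt 𝔼 x₀).source → p z) ↔
      ∀ᵐ b : 𝔼, b ∈ (chartAt 𝔼 x₀).target → p ((chartAt 𝔼 x₀).symm b) := by
  have hsm : MeasurableSet (chartAt 𝔼 x₀).source := (chartAt 𝔼 x₀).open_source.measurableSet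
  rw [← ae_restrict_iff' hsm, ← ae_restrict_iff' (measurableSet_target x₀), restrict_source_eq,
    (measurableEmbedding_symm x₀).ae_map_iff]
  rw [← ae_restrict_iff_subtype (measurableSet_target x₀)
    (p := fun b => p ((chartAt 𝔼 x₀).symm b)), cvol_restrict]
  constructor
  · intro h
    exact (ac_cvol x₀).ae_le h
  · intro h
    exact (cvol_ac x₀).ae_le h

theorem ae_chart (x₀ : M) {p : M → Prop} (h : ∀ᵐ z ∂(μHE[n] : Measure M), p z) :
    ∀ᵐ b : 𝔼, b ∈ (chartAt 𝔼 x₀).target → p ((chartAt 𝔼 x₀).symm b) :=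
  (ae_source_iff x₀).1 (h.mono fun _ hz _ => hz)

theorem ae_manifold (x₀ : M) {p : 𝔼 → Prop}
    (h : ∀ᵐ b : 𝔼, b ∈ (chartAt 𝔼 x₀).target → p b) :
    ∀ᵐ z ∂(μHE[n] : Measure M), z ∈ (chartAt 𝔼 x₀).source → p (chartAt 𝔼 x₀ z) := by
  rw [ae_source_iff]
  filter_upwards [h] with b hb hbt
  rw [(chartAt 𝔼 x₀).right_inv hbt]
  exact hb hbt

theorem aesm_source_iff {G : Type*} [TopologicalSpace G] [TopologicalSpace.PseudoMetrizableSpace G]
    (x₀ : M) {h : M → G} :
    AEStronglyMeasurable h ((μHE[n] : Measure M).restrict (chartAt 𝔼 x₀).source) ↔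
      AEStronglyMeasurable (fun b => h ((chartAt 𝔼 x₀).symm b))
        (volume.restrict (chartAt 𝔼 x₀).target) := by
  rw [restrict_source_eq, (measurableEmbedding_symm x₀).aestronglyMeasurable_map_iff]
  have h1 : (h ∘ fun a : (chartAt 𝔼 x₀).target => (chartAt 𝔼 x₀).symm a)
      = (fun b => h ((chartAt 𝔼 x₀).symm b)) ∘ (Subtype.val : (chartAt 𝔼 x₀).target → 𝔼) := rfl
  rw [h1, ← (MeasurableEmbedding.subtype_coe (measurableSet_target x₀)).aestronglyMeasurable_map_iff,
    (MeasurableEmbedding.subtype_coe (measurableSet_target x₀)).map_comap, Subtype.range_coe,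
    cvol_restrict]
  exact ⟨fun h => h.mono_ac (ac_cvol x₀), fun h => h.mono_ac (cvol_ac x₀)⟩

theorem aesm_chart {G : Type*} [TopologicalSpace G] [TopologicalSpace.PseudoMetrizableSpace G]
    (x₀ : M) {h : M → G} (hh : AEStronglyMeasurable h (μHE[n] : Measure M)) :
    AEStronglyMeasurable (fun b => h ((chartAt 𝔼 x₀).symm b))
        (volume.restrict (chartAt 𝔼 x₀).target) :=
  (aesm_source_iff x₀).1 hh.restrict

/-- membership in `L²` in the chart -/
theorem L2On_chart {x₀ : M} {h : M → ℝ} (hh : ∀ K : Set M, IsCompact K →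
    MemLp h 2 ((μHE[n] : Measure M).restrict K)) :
    L2On (chartAt 𝔼 x₀).target (fun b => h ((chartAt 𝔼 x₀).symm b)) := by
  intro K hKt hK
  obtain ⟨C, hC, hb⟩ := eLpNorm_chart_le (n := n) x₀ hK hKt
  have hKM := isCompact_symm_image x₀ hK hKt
  have hm := hh _ hKM
  refine ⟨?_, (hb h).trans_lt (ENNReal.mul_lt_top ENNReal.ofReal_lt_top hm.2)⟩
  -- measurability
  have h1 : AEStronglyMeasurable (((chartAt 𝔼 x₀).symm '' K).indicator h) (μHE[n] : Measure M) :=
    (aestronglyMeasurable_indicator_iff hKM.measurableSet).2 hm.1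
  have h2 := (aesm_chart x₀ h1).mono_measure (Measure.restrict_mono hKt le_rfl)
  refine h2.congr ?_
  filter_upwards [self_mem_ae_restrict hK.measurableSet] with b hb'
  exact indicator_of_mem (mem_image_of_mem _ hb') h

end

end Crest.Agent.R247.Frd657
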