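import Crest.Agent.R247.Prt3_657
import Crest.Agent.R247.Ms7_322

/-!
R247, block (5), leaf (5-P), file 4: the coordinate frame of a chart written in the measurable
orthonormal frame of helper322: `dxf x₀ i z` (= `dx^i` at `z`), `Ef x₀ i z` (= `∂_i` at `z`).
(helper657)
-/

set_option autoImplicit false
set_option maxSynthPendingDepth 3
set_option linter.unusedSectionVars false
open scoped ContDiff ENNReal NNReal Topology Manifold Bundle
open MeasureTheory Set Filter Metric Bundle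
open Crest.GeometryTopology.CoordMetric Crest.GeometryTopology.ChartCurvature
open Crest.Agent.R202.Ell Crest.Agent.R247.Ms322 Crest.Agent.R226.ChartMet842

namespace Crest.Agent.R247.Frd657

noncomputable section

variable {n : ℕ} {M : Type*} [MetricSpace M] [ChartedSpace (EuclideanSpace ℝ (Fin n)) M]
  [IsManifold (𝓡 n) ∞ M]
  [RiemannianBundle (fun p : M => TangentSpace (𝓡 n) p)]
  [IsContMDiffRiemannianBundle (𝓡 n) ∞ (EuclideanSpace ℝ (Fin n)) (fun p : M => TangentSpace (𝓡 n) p)]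
  [SecondCountableTopology M] [Nonempty M]

local notation "𝔼" => EuclideanSpace ℝ (Fin n)

/-- `dx^i` at `z`, in the orthonormal frame -/
def dxf (x₀ : M) (i : Fin n) (z : M) : EuclideanSpace ℝ (Fin n) :=
  Gr (fun y => chartAt (EuclideanSpace ℝ (Fin n)) x₀ y i) z

/-- `∂_i` at `z`, in the orthonormal frame -/
def Ef (x₀ : M) (i : Fin n) (z : M) : EuclideanSpace ℝ (Fin n) :=
  ∑ j, chartMetric n M x₀ (chartAt (EuclideanSpace ℝ (Fin n)) x₀ z) i j • dxf x₀ j z

/-- derivatives of the coordinate functions read in the chart -/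
theorem pderiv_coord (x₀ : M) {a : 𝔼} (ha : a ∈ (chartAt 𝔼 x₀).target) (i k : Fin n) :
    pderiv k (fun b => chartAt 𝔼 x₀ ((chartAt 𝔼 x₀).symm b) i) a = if k = i then 1 else 0 := by
  have h1 : (fun b => chartAt 𝔼 x₀ ((chartAt 𝔼 x₀).symm b) i) =ᶠ[𝓝 a]
      fun b => (EuclideanSpace.proj i : 𝔼 →L[ℝ] ℝ) b := by
    filter_upwards [(chartAt 𝔼 x₀).open_target.mem_nhds ha] with b hb
    rw [(chartAt 𝔼 x₀).right_inv hb]
    rfl
  unfold Crest.GeometryTopology.CoordMetric.pderiv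
  rw [h1.fderiv_eq, ContinuousLinearMap.fderiv]
  simp [eq_comm]

theorem dxf_apply (x₀ : M) {z : M} (hz : z ∈ (chartAt 𝔼 x₀).source) (i j : Fin n) :
    dxf x₀ i z j = (dC x₀ z (fr z j) : 𝔼) i := by
  rw [dxf, Gr_apply, df_eq_fderiv x₀ hz, fderiv_eq_sum]
  have ha := (chartAt 𝔼 x₀).map_source hz
  simp only [pderiv_coord x₀ ha]
  simp

/-- expansion of the gradient -/
theorem Gr_eq_sum (x₀ : M) {z : M} (hz : z ∈ (chartAt 𝔼 x₀).source) (f : M → ℝ) :
    Gr (n := n) f z = ∑ i, pderiv i (fun b => f ((chartAt 𝔼 x₀).symm b)) (chartAt 𝔼 x₀ z) •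
      dxf x₀ i z := by
  ext j
  rw [Gr_apply, df_eq_fderiv x₀ hz, fderiv_eq_sum]
  simp only [WithLp.ofLp_sum, WithLp.ofLp_smul, Finset.sum_apply, Pi.smul_apply, smul_eq_mul]
  refine Finset.sum_congr rfl fun i _ => ?_
  rw [dxf_apply x₀ hz, mul_comm]

/-- matrix of the `dx^i` -/
def Wm (x₀ z : M) : Matrix (Fin n) (Fin n) ℝ := Matrix.of fun i j => dxf x₀ i z j

theorem Wm_eq (x₀ : M) {z : M} (hz : z ∈ (chartAt 𝔼 x₀).source) :
    (Wm x₀ z).transpose * chartMetric n M x₀ (chartAt 𝔼 x₀ z) * Wm x₀ z = 1 := by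
  ext j k
  have e := inner_eq_gm (n := n) x₀ hz (fr z j) (fr z k)
  rw [inner_fr, gm_eq_sum] at e
  rw [Matrix.one_apply, e, Matrix.mul_apply]
  simp only [Matrix.mul_apply, Finset.sum_mul, Matrix.transpose_apply, Wm, Matrix.of_apply,
    dxf_apply x₀ hz]
  rw [Finset.sum_comm]
  refine Finset.sum_congr rfl fun l _ => Finset.sum_congr rfl fun i _ => ?_
  ring

theorem inner_dxf (x₀ : M) {z : M} (hz : z ∈ (chartAt 𝔼 x₀).source) (i j : Fin n) :
    inner ℝ (dxf x₀ i z) (dxf x₀ j z) = (chartMetric n M x₀ (chartAt 𝔼 x₀ z))⁻¹ i j := by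
  have hpos := (isRiemannianOn_chartMetric (n := n) x₀).posDef _ ((chartAt 𝔼 x₀).map_source hz)
  rw [← mul_transpose_eq_inv hpos (Wm_eq x₀ hz), Matrix.mul_apply, PiLp.inner_apply]
  refine Finset.sum_congr rfl fun k _ => ?_
  simp [Wm, mul_comm]

theorem inner_Ef_dxf (x₀ : M) {z : M} (hz : z ∈ (chartAt 𝔼 x₀).source) (i j : Fin n) :
    inner ℝ (Ef x₀ i z) (dxf x₀ j z) = if i = j then 1 else 0 := by
  have hpos := (isRiemannianOn_chartMetric (n := n) x₀).posDef _ ((chartAt 𝔼 x₀).map_source hz)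
  have hu : IsUnit (chartMetric n M x₀ (chartAt 𝔼 x₀ z)).det := hpos.det_pos.ne'.isUnit
  rw [Ef, sum_inner]
  simp only [inner_smul_left, inner_dxf x₀ hz, conj_trivial]
  rw [← Matrix.mul_apply, Matrix.mul_nonsing_inv _ hu, Matrix.one_apply]

theorem inner_Ef_Gr (x₀ : M) {z : M} (hz : z ∈ (chartAt 𝔼 x₀).source) (i : Fin n) (f : M → ℝ) :
    inner ℝ (Ef x₀ i z) (Gr f z) =
      pderiv i (fun b => f ((chartAt 𝔼 x₀).symm b)) (chartAt 𝔼 x₀ z) := by
  rw [Gr_eq_sum x₀ hz, inner_sum]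
  simp only [inner_smul_right, inner_Ef_dxf x₀ hz]
  simp

theorem inner_Ef (x₀ : M) {z : M} (hz : z ∈ (chartAt 𝔼 x₀).source) (i j : Fin n) :
    inner ℝ (Ef x₀ i z) (Ef x₀ j z) = chartMetric n M x₀ (chartAt 𝔼 x₀ z) i j := by
  have hsymm : chartMetric n M x₀ (chartAt 𝔼 x₀ z) j i = chartMetric n M x₀ (chartAt 𝔼 x₀ z) i j := by
    have hpos := (isRiemannianOn_chartMetric (n := n) x₀).posDef _ ((chartAt 𝔼 x₀).map_source hz)
    have := congrFun (congrFun hpos.isHermitian i) j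
    simpa [Matrix.conjTranspose_apply] using this
  conv_lhs => rw [Ef.eq_def x₀ j z]
  rw [inner_sum]
  simp only [inner_smul_right, inner_Ef_dxf x₀ hz]
  simp [hsymm]

/-- expansion of a vector in the frame `dx^i`, with coefficients `⟪∂_i, v⟫` -/
theorem expand_dxf (x₀ : M) {z : M} (hz : z ∈ (chartAt 𝔼 x₀).source) (v : 𝔼) :
    v = ∑ i, inner ℝ (Ef x₀ i z) v • dxf x₀ i z := by
  ext j
  have h := Wm_eq x₀ hz
  have h1 : v j = ∑ k, (1 : Matrix (Fin n) (Fin n) ℝ) j k * v k := by simp [Matrix.one_apply]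
  rw [h1, ← h]
  simp only [WithLp.ofLp_sum, WithLp.ofLp_smul, Finset.sum_apply, Pi.smul_apply, smul_eq_mul]
  simp only [Matrix.mul_apply, Matrix.transpose_apply, Wm, Matrix.of_apply]
  have h2 : ∀ i, inner ℝ (Ef x₀ i z) v = ∑ k, (∑ l, chartMetric n M x₀ (chartAt 𝔼 x₀ z) i l *
      dxf x₀ l z k) * v k := by
    intro i
    rw [PiLp.inner_apply]
    refine Finset.sum_congr rfl fun k _ => ?_
    simp only [Ef, WithLp.ofLp_sum, WithLp.ofLp_smul, Finset.sum_apply, Pi.smul_apply, smul_eq_mul]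
    simp [mul_comm]
  simp only [h2, Finset.sum_mul]
  have h3 : ∀ k : Fin n, ∑ l, ∑ i, dxf x₀ i z j * chartMetric n M x₀ (chartAt 𝔼 x₀ z) i l *
      dxf x₀ l z k * v k = ∑ i, ∑ l, chartMetric n M x₀ (chartAt 𝔼 x₀ z) i l *
      dxf x₀ l z k * v k * dxf x₀ i z j := by
    intro k
    rw [Finset.sum_comm]
    refine Finset.sum_congr rfl fun i _ => Finset.sum_congr rfl fun l _ => ?_
    ring
  simp only [h3]
  rw [Finset.sum_comm]

/-- expansion of a vector in the frame `∂_i`, with coefficients `⟪dx^i, v⟫` -/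
theorem expand_Ef (x₀ : M) {z : M} (hz : z ∈ (chartAt 𝔼 x₀).source) (v : 𝔼) :
    v = ∑ i, inner ℝ (dxf x₀ i z) v • Ef x₀ i z := by
  refine ext_inner_right ℝ fun w => ?_
  conv_lhs => rw [expand_dxf x₀ hz w]
  rw [inner_sum, sum_inner]
  refine Finset.sum_congr rfl fun i _ => ?_
  rw [inner_smul_right, inner_smul_left, conj_trivial, real_inner_comm v, mul_comm]

end

end Crest.Agent.R247.Frd657
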