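import Crest.Agent.R247.Prt4_657
import Crest.Agent.R247.Ms8_322
import Crest.Agent.R247.Dir5_593

/-!
R247, block (5), leaf (5-P), file 5: elements of `V = W^{1,2}_0(M)` read in a chart: they are
in `L²_loc` with weak derivatives `⟪∂_i, D u⟫` in `L²_loc`. (helper657)
-/

set_option autoImplicit false
set_option maxSynthPendingDepth 3
set_option linter.unusedSectionVars false
open scoped ContDiff ENNReal NNReal Topology Manifold Bundle
open MeasureTheory Set Filter Metric Bundle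
open Crest.GeometryTopology.CoordMetric Crest.GeometryTopology.ChartCurvature
open Crest.Agent.R202.Ell Crest.Agent.R247.Ms322 Crest.Agent.R226.ChartMet842
open Crest.Agent.R247.Dir593

namespace Crest.Agent.R247.Frd657

noncomputable section

variable {n : ℕ} {M : Type*} [MetricSpace M] [ChartedSpace (EuclideanSpace ℝ (Fin n)) M]
  [IsManifold (𝓡 n) ∞ M]
  [RiemannianBundle (fun p : M => TangentSpace (𝓡 n) p)]
  [IsContMDiffRiemannianBundle (𝓡 n) ∞ (EuclideanSpace ℝ (Fin n)) (fun p : M => TangentSpace (𝓡 n) p)]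
  [IsRiemannianManifold (𝓡 n) M]

local notation "𝔼" => EuclideanSpace ℝ (Fin n)

/-- the chart is Lipschitz near every point of its source -/
theorem exists_lipschitz_chartMap (x₀ : M) {z : M} (hz : z ∈ (chartAt 𝔼 x₀).source) :
    ∃ K : ℝ≥0, ∃ t ∈ 𝓝 z, t ⊆ (chartAt 𝔼 x₀).source ∧ LipschitzOnWith K (chartAt 𝔼 x₀) t := by
  have ha := (chartAt 𝔼 x₀).map_source hz
  obtain ⟨A, hA, _⟩ := exists_isometry (n := n) x₀ ha
  obtain ⟨r, hr0, hrt, _, hL⟩ := exists_bilip (n := n) x₀ ha hA (η := 1) one_pos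
  have hVo : IsOpen ((chartAt 𝔼 x₀).symm '' ball (chartAt 𝔼 x₀ z) r) :=
    (chartAt 𝔼 x₀).symm.isOpen_image_of_subset_source isOpen_ball hrt
  refine ⟨‖(A.symm : 𝔼 →L[ℝ] 𝔼)‖₊ * (1 + 1), _, hVo.mem_nhds
    ⟨_, mem_ball_self hr0, (chartAt 𝔼 x₀).left_inv hz⟩, symm_image_subset x₀ hrt, ?_⟩
  have h1 : LipschitzWith ‖(A.symm : 𝔼 →L[ℝ] 𝔼)‖₊ (fun b => A.symm b) :=
    (A.symm : 𝔼 →L[ℝ] 𝔼).lipschitz
  have h2 := h1.comp_lipschitzOnWith hL
  have e : (fun b => A.symm b) ∘ (fun z => A (chartAt 𝔼 x₀ z)) = chartAt 𝔼 x₀ := by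
    funext b; simp
  rwa [e] at h2

/-- a `C¹` function is locally Lipschitz -/
theorem locLip_of_contMDiff {f : M → ℝ} (hf : ContMDiff (𝓡 n) 𝓘(ℝ, ℝ) 1 f) :
    LocallyLipschitz f := by
  intro z
  have hz : z ∈ (chartAt 𝔼 z).source := mem_chart_source 𝔼 z
  obtain ⟨K, t, ht, hts, hK⟩ := exists_lipschitz_chartMap z hz
  have hat := (chartAt 𝔼 z).map_source hz
  have h1 : ContMDiffAt (𝓡 n) (𝓡 n) 1 (chartAt 𝔼 z).symm (chartAt 𝔼 z z) :=
    ((contMDiffOn_chart_symm (I := 𝓡 n) (n := ∞) (x := z)).contMDiffAt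
      ((chartAt 𝔼 z).open_target.mem_nhds hat)).of_le (by simp)
  have h2 : ContDiffAt ℝ 1 (fun b => f ((chartAt 𝔼 z).symm b)) (chartAt 𝔼 z z) :=
    (hf.contMDiffAt.comp _ h1).contDiffAt
  obtain ⟨L, s, hs, hL⟩ := h2.exists_lipschitzOnWith
  have hc : ContinuousAt (chartAt 𝔼 z) z := (chartAt 𝔼 z).continuousAt hz
  refine ⟨L * K, t ∩ (chartAt 𝔼 z) ⁻¹' s, inter_mem ht (hc.preimage_mem_nhds hs), ?_⟩
  have h3 := hL.comp (hK.mono (inter_subset_left (t := (chartAt 𝔼 z) ⁻¹' s))) (fun y hy => hy.2)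
  intro a ha b hb
  have e1 := h3 ha hb
  simp only [Function.comp_apply, (chartAt 𝔼 z).left_inv (hts ha.1),
    (chartAt 𝔼 z).left_inv (hts hb.1)] at e1
  exact e1

theorem locLipOn_chart (x₀ : M) {f : M → ℝ} (hf : LocallyLipschitz f) :
    LocallyLipschitzOn (chartAt 𝔼 x₀).target (fun b => f ((chartAt 𝔼 x₀).symm b)) := by
  intro a ha
  obtain ⟨K, r, hr, -, hL⟩ := exists_lipschitz_chart (n := n) x₀ ha (hf _)
  exact ⟨K, ball a r, mem_nhdsWithin_of_mem_nhds (ball_mem_nhds a hr), hL⟩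

variable [MeasurableSpace M] [BorelSpace M] [SecondCountableTopology M] [Nonempty M]

/-- coordinates `⟪∂_i, F⟫` of a vector field -/
def cf (x₀ : M) (i : Fin n) (F : M → EuclideanSpace ℝ (Fin n)) (b : EuclideanSpace ℝ (Fin n)) : ℝ :=
  inner ℝ (Ef x₀ i ((chartAt (EuclideanSpace ℝ (Fin n)) x₀).symm b))
    (F ((chartAt (EuclideanSpace ℝ (Fin n)) x₀).symm b))

theorem aesm_dxf (x₀ : M) (i : Fin n) :
    AEStronglyMeasurable (fun b => dxf x₀ i ((chartAt 𝔼 x₀).symm b))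
      (volume.restrict (chartAt 𝔼 x₀).target) :=
  aesm_chart x₀ (measurable_Gr _).aestronglyMeasurable

theorem continuousOn_cm (x₀ : M) (i j : Fin n) :
    ContinuousOn (fun b => chartMetric n M x₀ b i j) (chartAt 𝔼 x₀).target :=
  ((isRiemannianOn_chartMetric (n := n) x₀).contDiffOn i j).continuousOn

theorem aesm_Ef (x₀ : M) (i : Fin n) :
    AEStronglyMeasurable (fun b => Ef x₀ i ((chartAt 𝔼 x₀).symm b))
      (volume.restrict (chartAt 𝔼 x₀).target) := by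
  have h1 : AEStronglyMeasurable (fun b => ∑ j, chartMetric n M x₀ b i j •
      dxf x₀ j ((chartAt 𝔼 x₀).symm b)) (volume.restrict (chartAt 𝔼 x₀).target) :=
    Finset.aestronglyMeasurable_fun_sum _ fun j _ =>
      ((continuousOn_cm x₀ i j).aestronglyMeasurable (measurableSet_target x₀)).smul (aesm_dxf x₀ j)
  refine h1.congr ?_
  filter_upwards [self_mem_ae_restrict (measurableSet_target x₀)] with b hb
  rw [Ef, (chartAt 𝔼 x₀).right_inv hb]

theorem norm_Ef_sq (x₀ : M) {b : 𝔼} (hb : b ∈ (chartAt 𝔼 x₀).target) (i : Fin n) :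
    ‖Ef x₀ i ((chartAt 𝔼 x₀).symm b)‖ ^ 2 = chartMetric n M x₀ b i i := by
  rw [← real_inner_self_eq_norm_sq, inner_Ef x₀ ((chartAt 𝔼 x₀).map_target hb),
    (chartAt 𝔼 x₀).right_inv hb]

theorem norm_Ef_bdd (x₀ : M) {K : Set 𝔼} (hK : IsCompact K) (hKt : K ⊆ (chartAt 𝔼 x₀).target)
    (i : Fin n) : ∃ C : ℝ, 0 < C ∧ ∀ b ∈ K, ‖Ef x₀ i ((chartAt 𝔼 x₀).symm b)‖ ≤ C := by
  obtain ⟨C, hC⟩ := hK.exists_bound_of_continuousOn ((continuousOn_cm x₀ i i).mono hKt)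
  refine ⟨√(max C 0) + 1, by positivity, fun b hb => ?_⟩
  have h1 := hC b hb
  rw [Real.norm_eq_abs, ← norm_Ef_sq x₀ (hKt hb), abs_of_nonneg (sq_nonneg _)] at h1
  have h2 : ‖Ef x₀ i ((chartAt 𝔼 x₀).symm b)‖ ≤ √(max C 0) :=
    Real.le_sqrt_of_sq_le (h1.trans (le_max_left _ _))
  linarith

theorem aesm_cf (x₀ : M) (i : Fin n) {F : M → 𝔼} (hF : AEStronglyMeasurable F (μHE[n] : Measure M)) :
    AEStronglyMeasurable (cf x₀ i F) (volume.restrict (chartAt 𝔼 x₀).target) :=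
  (aesm_Ef x₀ i).inner (aesm_chart x₀ hF)

theorem cf_sub (x₀ : M) (i : Fin n) (F F' : M → 𝔼) (b : 𝔼) :
    cf x₀ i (fun z => F z - F' z) b = cf x₀ i F b - cf x₀ i F' b := by
  rw [cf, cf, cf, inner_sub_right]

theorem cf_le (x₀ : M) {K : Set 𝔼} (hK : IsCompact K) (hKt : K ⊆ (chartAt 𝔼 x₀).target)
    (i : Fin n) : ∃ C : ℝ, 0 < C ∧ ∀ F : M → 𝔼,
      eLpNorm (cf x₀ i F) 2 (volume.restrict K) ≤ ENNReal.ofReal C * eLpNorm F 2 μHE[n] := by
  obtain ⟨C, hC, hCb⟩ := norm_Ef_bdd x₀ hK hKt i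
  obtain ⟨D, hD, hDb⟩ := eLpNorm_chart_le (n := n) x₀ hK hKt
  refine ⟨C * D, by positivity, fun F => ?_⟩
  have h1 : eLpNorm (cf x₀ i F) 2 (volume.restrict K) ≤
      ENNReal.ofReal C * eLpNorm (fun b => F ((chartAt 𝔼 x₀).symm b)) 2 (volume.restrict K) := by
    refine eLpNorm_le_mul_eLpNorm_of_ae_le_mul ?_ 2
    rw [ae_restrict_iff' hK.measurableSet]
    refine Eventually.of_forall fun b hb => ?_
    refine (norm_inner_le_norm _ _).trans ?_
    exact mul_le_mul_of_nonneg_right (hCb b hb) (norm_nonneg _)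
  rw [ENNReal.ofReal_mul hC.le, mul_assoc]
  refine h1.trans (mul_le_mul_right ?_ _)
  exact (hDb F).trans (mul_le_mul_right (eLpNorm_mono_measure _ Measure.restrict_le_self) _)

theorem L2On_cf (x₀ : M) (i : Fin n) {F : M → 𝔼} (hF : MemLp F 2 (μHE[n] : Measure M)) :
    L2On (chartAt 𝔼 x₀).target (cf x₀ i F) := by
  intro K hKt hK
  obtain ⟨C, -, hC⟩ := cf_le x₀ hK hKt i
  exact ⟨(aesm_cf x₀ i hF.1).mono_measure (Measure.restrict_mono hKt le_rfl),
    (hC F).trans_lt (ENNReal.mul_lt_top ENNReal.ofReal_lt_top hF.2)⟩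

theorem cf_Gr (x₀ : M) (i : Fin n) (f : M → ℝ) {b : 𝔼} (hb : b ∈ (chartAt 𝔼 x₀).target) :
    cf x₀ i (Gr f) b = pderiv i (fun b => f ((chartAt 𝔼 x₀).symm b)) b := by
  rw [cf, inner_Ef_Gr x₀ ((chartAt 𝔼 x₀).map_target hb), (chartAt 𝔼 x₀).right_inv hb]

theorem ae_restrict_of_chart (x₀ : M) {K : Set 𝔼} (hKt : K ⊆ (chartAt 𝔼 x₀).target)
    (hK : MeasurableSet K) {p : M → Prop} (h : ∀ᵐ z ∂(μHE[n] : Measure M), p z) :
    ∀ᵐ b ∂(volume.restrict K : Measure 𝔼), p ((chartAt 𝔼 x₀).symm b) := by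
  rw [ae_restrict_iff' hK]
  filter_upwards [ae_chart (n := n) x₀ h] with b hb hbK
  exact hb (hKt hbK)

variable (S : GradS M (EuclideanSpace ℝ (Fin n)) (μHE[n] : Measure M))

/-- `L²(M)` convergence implies local convergence in the chart -/
theorem tendL2_of_lp (x₀ : M) {f : ℕ → M → ℝ} {g : M → ℝ}
    (h : Tendsto (fun k => eLpNorm (fun z => f k z - g z) 2 (μHE[n] : Measure M)) atTop (𝓝 0)) :
    TendL2 (chartAt 𝔼 x₀).target (fun k b => f k ((chartAt 𝔼 x₀).symm b))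
      (fun b => g ((chartAt 𝔼 x₀).symm b)) := by
  intro K hKt hK
  obtain ⟨C, -, hC⟩ := eLpNorm_chart_le (n := n) x₀ hK hKt
  have h1 : Tendsto (fun k => ENNReal.ofReal C *
      eLpNorm (fun z => f k z - g z) 2 (μHE[n] : Measure M)) atTop (𝓝 0) := by
    have := ENNReal.Tendsto.const_mul h (Or.inr (ENNReal.ofReal_ne_top (r := C)))
    simpa using this
  refine tendsto_of_tendsto_of_tendsto_of_le_of_le tendsto_const_nhds h1 (fun _ => bot_le)
    (fun k => ?_)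
  exact (hC (fun z => f k z - g z)).trans
    (mul_le_mul_right (eLpNorm_mono_measure _ Measure.restrict_le_self) _)

theorem tendL2_cf (x₀ : M) (i : Fin n) {F : ℕ → M → 𝔼} {F' : M → 𝔼}
    (h : Tendsto (fun k => eLpNorm (fun z => F k z - F' z) 2 (μHE[n] : Measure M)) atTop (𝓝 0)) :
    TendL2 (chartAt 𝔼 x₀).target (fun k => cf x₀ i (F k)) (cf x₀ i F') := by
  intro K hKt hK
  obtain ⟨C, -, hC⟩ := cf_le x₀ hK hKt i
  have h1 : Tendsto (fun k => ENNReal.ofReal C *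
      eLpNorm (fun z => F k z - F' z) 2 (μHE[n] : Measure M)) atTop (𝓝 0) := by
    have := ENNReal.Tendsto.const_mul h (Or.inr (ENNReal.ofReal_ne_top (r := C)))
    simpa using this
  refine tendsto_of_tendsto_of_tendsto_of_le_of_le tendsto_const_nhds h1 (fun _ => bot_le)
    (fun k => ?_)
  refine le_trans (le_of_eq ?_) (hC (fun z => F k z - F' z))
  congr 1
  ext b
  rw [cf_sub]

theorem tendsto_eLpNorm_of_lp {G : Type*} [NormedAddCommGroup G] {μ : Measure M} {u : ℕ → Lp G 2 μ}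
    {v : Lp G 2 μ} (h : Tendsto u atTop (𝓝 v)) {f : ℕ → M → G} {g : M → G}
    (hf : ∀ k, (u k : M → G) =ᵐ[μ] f k) (hg : (v : M → G) =ᵐ[μ] g) :
    Tendsto (fun k => eLpNorm (fun z => f k z - g z) 2 μ) atTop (𝓝 0) := by
  have h1 := tendsto_iff_norm_sub_tendsto_zero.1 h
  have e : (fun k => eLpNorm (fun z => f k z - g z) 2 μ) = fun k => ENNReal.ofReal ‖u k - v‖ := by
    funext k
    rw [Lp.norm_def, ENNReal.ofReal_toReal (Lp.eLpNorm_lt_top _).ne]
    refine eLpNorm_congr_ae ?_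
    filter_upwards [Lp.coeFn_sub (u k) v, hf k, hg] with z e1 e2 e3
    rw [e1, Pi.sub_apply, e2, e3]
  rw [e]
  simpa using ENNReal.tendsto_ofReal h1

variable [IsFiniteMeasureOnCompacts (μHE[n] : Measure M)]

/-- **weak derivatives in the chart** -/
theorem wdOn_cf (hS : ∀ f, S.G f = Gr (n := n) f) (x₀ : M) (i : Fin n) {u : Lp ℝ 2 (μHE[n] : Measure M)}
    (hu : u ∈ S.V) :
    WDOn (chartAt 𝔼 x₀).target i (fun b => u ((chartAt 𝔼 x₀).symm b)) (cf x₀ i (S.D u)) := by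
  obtain ⟨f, hf, h1, h2⟩ := S.exists_seq hu
  have ho := (chartAt 𝔼 x₀).open_target
  have t1 := tendsto_eLpNorm_of_lp h1 (f := f) (g := u) (fun k => GradS.coe_tL (hf k)) ae_eq_rfl
  have t2 := tendsto_eLpNorm_of_lp h2 (f := fun k => S.G (f k)) (g := S.D u)
    (fun k => S.D_tL (hf k)) ae_eq_rfl
  have hl : ∀ k, LocallyLipschitzOn (chartAt 𝔼 x₀).target (fun b => f k ((chartAt 𝔼 x₀).symm b)) :=
    fun k => locLipOn_chart x₀ (hf k).1
  refine WDOn.closed (f := fun k b => f k ((chartAt 𝔼 x₀).symm b))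
    (F := fun k => cf x₀ i (S.G (f k))) (fun k => L2On.of_locLip (hl k))
    (fun k => L2On_cf x₀ i ((hf k).memLpG S))
    (L2On_chart fun K _ => (Lp.memLp u).restrict K) (L2On_cf x₀ i (Lp.memLp _))
    (tendL2_of_lp x₀ t1) (tendL2_cf x₀ i t2) (fun k => ?_)
  intro φ hφ hs
  have h3 := WDOn.of_locLip ho (hl k) i φ hφ hs
  rw [h3]
  congr 1
  refine integral_congr_ae (Eventually.of_forall fun b => ?_)
  by_cases hb : b ∈ tsupport φ
  · simp only [hS, cf_Gr x₀ i (f k) (hs hb)]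
  · simp only [image_eq_zero_of_notMem_tsupport hb, mul_zero]

end

end Crest.Agent.R247.Frd657
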