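import Crest.Agent.R247.Prt5_657
import Crest.Agent.R247.Bo8_84

/-!
R247, block (5), leaf (5-P), file 6: the weak equation in a chart. (helper657)
-/

set_option autoImplicit false
set_option maxSynthPendingDepth 3
set_option linter.unusedSectionVars false
open scoped ContDiff ENNReal NNReal Topology Manifold Bundle
open MeasureTheory Set Filter Metric Bundle
open Crest.GeometryTopology.CoordMetric Crest.GeometryTopology.ChartCurvature
open Crest.Agent.R202.Ell Crest.Agent.R247.Ms322 Crest.Agent.R226.ChartMet842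
open Crest.Agent.R247.Dir593
open Crest.Agent.R247.Bo84 (inCh mLap mLap_chart)

namespace Crest.Agent.R247.Frd657

noncomputable section

/-- local sup bound of the mollification -/
theorem abs_cv_le_lip {n : ℕ} {g h : EE n → ℝ} {C : ℝ} (hC : 0 ≤ C) (hg : ∀ᵐ x, |g x| ≤ h x)
    (hh : ∀ x y, |h x - h y| ≤ C * ‖x - y‖) (k : ℕ) (x : EE n) :
    |cv (rho n k) g x| ≤ h x + C * (1 / ((k : ℝ) + 1)) := by
  rw [cv_apply]
  have h1 : ‖∫ t, g t * rho n k (x - t)‖ ≤
      ∫ t, (h x + C * (1 / ((k : ℝ) + 1))) * rho n k (x - t) := by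
    apply norm_integral_le_of_norm_le
    · exact ((rho_test k).comp_sub x).integrable.const_mul _
    · filter_upwards [hg] with t ht
      rw [norm_mul, Real.norm_of_nonneg (rho_nonneg k _), Real.norm_eq_abs]
      by_cases hd : ‖x - t‖ < 1 / ((k : ℝ) + 1)
      · refine mul_le_mul_of_nonneg_right ?_ (rho_nonneg k _)
        have h2 := (abs_le.1 (hh x t)).1
        have h3 : C * ‖x - t‖ ≤ C * (1 / ((k : ℝ) + 1)) := mul_le_mul_of_nonneg_left hd.le hC
        linarith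
      · have h1 : rho n k (x - t) = 0 := by
          have h2 : x - t ∉ Function.support (rho n k) := by
            rw [rho, ContDiffBump.support_normed_eq]
            simp only [bmp, Metric.mem_ball, dist_zero_right]
            exact hd
          simpa using h2
        rw [h1, mul_zero, mul_zero]
  rw [integral_const_mul, integral_sub_left_eq_self (rho n k) volume x, rho_integral, mul_one] at h1
  simpa [Real.norm_eq_abs] using h1

variable {n : ℕ} {M : Type*} [MetricSpace M] [ChartedSpace (EuclideanSpace ℝ (Fin n)) M]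
  [IsManifold (𝓡 n) ∞ M]

local notation "𝔼" => EuclideanSpace ℝ (Fin n)

/-- a function on `M` read in the chart, extended by zero -/
def pf (x₀ : M) (χ : M → ℝ) (b : EuclideanSpace ℝ (Fin n)) : ℝ :=
  (chartAt (EuclideanSpace ℝ (Fin n)) x₀).target.indicator
    (fun b => χ ((chartAt (EuclideanSpace ℝ (Fin n)) x₀).symm b)) b

theorem pf_of_mem (x₀ : M) (χ : M → ℝ) {b : 𝔼} (hb : b ∈ (chartAt 𝔼 x₀).target) :
    pf x₀ χ b = χ ((chartAt 𝔼 x₀).symm b) := indicator_of_mem hb _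

theorem pf_off (x₀ : M) {χ : M → ℝ} {b : 𝔼} (hb : b ∉ (chartAt 𝔼 x₀) '' tsupport χ) :
    pf x₀ χ b = 0 := by
  by_cases h : b ∈ (chartAt 𝔼 x₀).target
  · rw [pf_of_mem x₀ χ h]
    apply image_eq_zero_of_notMem_tsupport
    intro hK
    exact hb ⟨_, hK, (chartAt 𝔼 x₀).right_inv h⟩
  · exact indicator_of_notMem h _

theorem isCompact_chart_image (x₀ : M) {K : Set M} (hK : IsCompact K)
    (hKs : K ⊆ (chartAt 𝔼 x₀).source) : IsCompact (chartAt 𝔼 x₀ '' K) :=
  hK.image_of_continuousOn ((chartAt 𝔼 x₀).continuousOn.mono hKs)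

theorem chart_image_subset (x₀ : M) {K : Set M} (hKs : K ⊆ (chartAt 𝔼 x₀).source) :
    chartAt 𝔼 x₀ '' K ⊆ (chartAt 𝔼 x₀).target := by
  rintro _ ⟨b, hb, rfl⟩
  exact (chartAt 𝔼 x₀).map_source (hKs hb)

theorem tsupport_pf (x₀ : M) {χ : M → ℝ} (hc : HasCompactSupport χ)
    (hs : tsupport χ ⊆ (chartAt 𝔼 x₀).source) :
    tsupport (pf x₀ χ) ⊆ chartAt 𝔼 x₀ '' tsupport χ := by
  refine closure_minimal ?_ (isCompact_chart_image x₀ hc.isCompact hs).isClosed
  intro z hz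
  by_contra h
  exact hz (pf_off (n := n) x₀ h)

theorem pf_test (x₀ : M) {χ : M → ℝ} (hχ : ContMDiff (𝓡 n) 𝓘(ℝ, ℝ) ∞ χ)
    (hc : HasCompactSupport χ) (hs : tsupport χ ⊆ (chartAt 𝔼 x₀).source) :
    IsTest (pf (n := n) x₀ χ) := by
  have hK := isCompact_chart_image x₀ hc.isCompact hs
  refine ⟨contDiff_iff_contDiffAt.2 fun b => ?_,
    hK.of_isClosed_subset (isClosed_tsupport _) (tsupport_pf x₀ hc hs)⟩
  by_cases hb : b ∈ (chartAt 𝔼 x₀).target
  · have h1 : ContMDiffAt (𝓡 n) (𝓡 n) ∞ (chartAt 𝔼 x₀).symm b :=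
      (contMDiffOn_chart_symm (I := 𝓡 n) (n := ∞) (x := x₀)).contMDiffAt
        ((chartAt 𝔼 x₀).open_target.mem_nhds hb)
    have h2 : ContDiffAt ℝ ∞ (fun b => χ ((chartAt 𝔼 x₀).symm b)) b :=
      (hχ.contMDiffAt.comp _ h1).contDiffAt
    refine h2.congr_of_eventuallyEq ?_
    filter_upwards [(chartAt 𝔼 x₀).open_target.mem_nhds hb] with y hy
    exact pf_of_mem x₀ χ hy
  · have hbn : b ∉ chartAt 𝔼 x₀ '' tsupport χ := fun h => hb (chart_image_subset x₀ hs h)
    have h1 : ContDiffAt ℝ ∞ (fun _ : 𝔼 => (0 : ℝ)) b := contDiffAt_const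
    refine h1.congr_of_eventuallyEq ?_
    filter_upwards [hK.isClosed.isOpen_compl.mem_nhds hbn] with y hy
    exact pf_off x₀ hy

variable
  [RiemannianBundle (fun p : M => TangentSpace (𝓡 n) p)]
  [IsContMDiffRiemannianBundle (𝓡 n) ∞ (EuclideanSpace ℝ (Fin n)) (fun p : M => TangentSpace (𝓡 n) p)]

/-- coefficients of the Laplacian in divergence form -/
def Ac (x₀ : M) (i j : Fin n) (b : EuclideanSpace ℝ (Fin n)) : ℝ :=
  dens x₀ b * inverseField (chartMetric n M x₀) b i j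

theorem lapW_eq (x₀ : M) (F : 𝔼 → ℝ) (b : 𝔼) :
    lapW (Ac x₀) (dens x₀) F b = laplaceBeltrami (chartMetric n M x₀) F b := by
  rw [lapW, laplaceBeltrami, one_div]
  congr 1
  refine Finset.sum_congr rfl fun i _ => ?_
  congr 1
  ext y
  rw [Finset.mul_sum]
  refine Finset.sum_congr rfl fun j _ => ?_
  rw [Ac, dens]
  ring

theorem coefOn_Ac (x₀ : M) : CoefOn (chartAt 𝔼 x₀).target (Ac (n := n) x₀) := by
  have hg := isRiemannianOn_chartMetric (n := n) x₀
  refine ⟨fun i j => (contDiffOn_dens x₀).mul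
    (Crest.Agent.R202.Tens.contDiffOn_inv_entry hg i j), fun b hb ξ hξ => ?_⟩
  have h1 : ∑ i, ∑ j, Ac (n := n) x₀ i j b * ξ j * ξ i =
      dens x₀ b * ∑ i, ∑ j, ξ i * inverseField (chartMetric n M x₀) b i j * ξ j := by
    rw [Finset.mul_sum]
    refine Finset.sum_congr rfl fun i _ => ?_
    rw [Finset.mul_sum]
    refine Finset.sum_congr rfl fun j _ => ?_
    rw [Ac]; ring
  rw [h1]
  refine mul_pos (dens_pos x₀ hb) ?_
  have h2 := (hg.posDef b hb).inv
  have h3 := (Matrix.posDef_iff_dotProduct_mulVec.1 h2).2 hξ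
  simp only [star_trivial, dotProduct, Matrix.mulVec] at h3
  refine lt_of_lt_of_eq h3 ?_
  refine Finset.sum_congr rfl fun i _ => ?_
  rw [Finset.mul_sum]
  refine Finset.sum_congr rfl fun j _ => ?_
  unfold inverseField
  ring

theorem inv_symm (x₀ : M) {b : 𝔼} (hb : b ∈ (chartAt 𝔼 x₀).target) (i j : Fin n) :
    inverseField (chartMetric n M x₀) b i j = inverseField (chartMetric n M x₀) b j i := by
  have hg := isRiemannianOn_chartMetric (n := n) x₀
  have h2 := (hg.posDef b hb).inv.isHermitian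
  have := congrFun (congrFun h2 j) i
  simpa [Matrix.conjTranspose_apply, inverseField] using this

variable [SecondCountableTopology M] [Nonempty M]

theorem inner_dxf' (x₀ : M) {b : 𝔼} (hb : b ∈ (chartAt 𝔼 x₀).target) (i j : Fin n) :
    inner ℝ (dxf x₀ i ((chartAt 𝔼 x₀).symm b)) (dxf x₀ j ((chartAt 𝔼 x₀).symm b)) =
      inverseField (chartMetric n M x₀) b i j := by
  rw [inner_dxf x₀ ((chartAt 𝔼 x₀).map_target hb), (chartAt 𝔼 x₀).right_inv hb]
  rfl

/-- expansion in the chart -/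
theorem expand_cf (x₀ : M) (F : M → 𝔼) {b : 𝔼} (hb : b ∈ (chartAt 𝔼 x₀).target) :
    F ((chartAt 𝔼 x₀).symm b) = ∑ i, cf x₀ i F b • dxf x₀ i ((chartAt 𝔼 x₀).symm b) :=
  expand_dxf x₀ ((chartAt 𝔼 x₀).map_target hb) _

/-- inner product of two fields in the chart -/
theorem inner_cf (x₀ : M) (F F' : M → 𝔼) {b : 𝔼} (hb : b ∈ (chartAt 𝔼 x₀).target) :
    inner ℝ (F ((chartAt 𝔼 x₀).symm b)) (F' ((chartAt 𝔼 x₀).symm b)) =
      ∑ i, ∑ j, inverseField (chartMetric n M x₀) b i j * cf x₀ j F b * cf x₀ i F' b := by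
  conv_lhs => rw [expand_cf x₀ F hb, expand_cf x₀ F' hb]
  rw [inner_sum]
  refine Finset.sum_congr rfl fun i _ => ?_
  rw [sum_inner]
  refine Finset.sum_congr rfl fun j _ => ?_
  rw [inner_smul_left, inner_smul_right, conj_trivial, inner_dxf' x₀ hb, inv_symm x₀ hb j i]
  ring

theorem Gr_const (c : ℝ) (z : M) : Gr (n := n) (fun _ : M => c) z = 0 := by
  rw [Gr_eq_sum z (mem_chart_source 𝔼 z)]
  refine Finset.sum_eq_zero fun i _ => ?_
  have : pderiv i (fun _ : 𝔼 => c) (chartAt 𝔼 z z) = 0 := by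
    unfold Crest.GeometryTopology.CoordMetric.pderiv
    simp
  rw [this, zero_smul]

theorem Gr_off {f : M → ℝ} {z : M} (hz : z ∉ tsupport f) : Gr (n := n) f z = 0 := by
  have h : f =ᶠ[𝓝 z] fun _ => 0 := by
    filter_upwards [(isClosed_tsupport f).isOpen_compl.mem_nhds hz] with y hy
    exact image_eq_zero_of_notMem_tsupport hy
  rw [Gr_congr h, Gr_const]

theorem cf_Gr_pb (x₀ : M) (i : Fin n) (P : 𝔼 → ℝ) {b : 𝔼} (hb : b ∈ (chartAt 𝔼 x₀).target) :
    cf x₀ i (Gr (pb x₀ P)) b = pderiv i P b := by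
  rw [cf, inner_Ef_Gr x₀ ((chartAt 𝔼 x₀).map_target hb), (chartAt 𝔼 x₀).right_inv hb]
  have h : (fun b => pb x₀ P ((chartAt 𝔼 x₀).symm b)) =ᶠ[𝓝 b] P := by
    filter_upwards [(chartAt 𝔼 x₀).open_target.mem_nhds hb] with y hy
    exact pb_symm x₀ P hy
  unfold Crest.GeometryTopology.CoordMetric.pderiv
  rw [h.fderiv_eq]

variable [IsRiemannianManifold (𝓡 n) M] [MeasurableSpace M] [BorelSpace M]

theorem isT_pb (x₀ : M) {P : 𝔼 → ℝ} (hP : IsTest P) (hs : tsupport P ⊆ (chartAt 𝔼 x₀).target) :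
    GradS.IsT (pb x₀ P) :=
  ⟨locLip_of_contMDiff (n := n) ((pb_smooth x₀ hP hs).of_le (by simp)), pb_cpt x₀ hP hs⟩

/-- **the weak equation in the chart** -/
theorem weak_eq_chart {F : M → 𝔼} {f : M → ℝ}
    (heq : ∀ p : M → ℝ, GradS.IsT p →
      ∫ z, inner ℝ (F z) (Gr p z) ∂(μHE[n] : Measure M) = - ∫ z, f z * p z ∂(μHE[n] : Measure M))
    (x₀ : M) {P : 𝔼 → ℝ} (hP : IsTest P) (hs : tsupport P ⊆ (chartAt 𝔼 x₀).target) :
    ∫ b, ∑ i, ∑ j, Ac x₀ i j b * cf x₀ j F b * pderiv i P b =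
      - ∫ b, (dens (n := n) x₀ b * f ((chartAt 𝔼 x₀).symm b)) * P b := by
  have h0 := heq _ (isT_pb x₀ hP hs)
  have hoff : ∀ z, z ∉ (chartAt 𝔼 x₀).source → z ∉ tsupport (pb x₀ P) := fun z hz h =>
    hz (symm_image_subset x₀ hs (tsupport_pb x₀ hP.cpt.isCompact hs le_rfl h))
  rw [integral_eq_of_support x₀ _ (fun z hz => by rw [Gr_off (hoff z hz), inner_zero_right]),
    integral_eq_of_support x₀ _ (fun z hz => by
      rw [image_eq_zero_of_notMem_tsupport (hoff z hz), mul_zero])] at h0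
  have e1 : ∫ b, ∑ i, ∑ j, Ac x₀ i j b * cf x₀ j F b * pderiv i P b =
      ∫ b in (chartAt 𝔼 x₀).target, dens (n := n) x₀ b •
        inner ℝ (F ((chartAt 𝔼 x₀).symm b)) (Gr (pb x₀ P) ((chartAt 𝔼 x₀).symm b)) := by
    rw [← setIntegral_eq_integral_of_forall_compl_eq_zero (s := (chartAt 𝔼 x₀).target)]
    · refine setIntegral_congr_fun (measurableSet_target x₀) fun b hb => ?_
      rw [inner_cf x₀ F (Gr (pb x₀ P)) hb, smul_eq_mul, Finset.mul_sum]
      refine Finset.sum_congr rfl fun i _ => ?_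
      rw [Finset.mul_sum]
      refine Finset.sum_congr rfl fun j _ => ?_
      rw [cf_Gr_pb x₀ i P hb, Ac]
      ring
    · intro b hb
      refine Finset.sum_eq_zero fun i _ => Finset.sum_eq_zero fun j _ => ?_
      rw [pderiv_zero_off (fun h => hb (hs h)), mul_zero]
  have e2 : ∫ b, (dens (n := n) x₀ b * f ((chartAt 𝔼 x₀).symm b)) * P b =
      ∫ b in (chartAt 𝔼 x₀).target, dens (n := n) x₀ b •
        (f ((chartAt 𝔼 x₀).symm b) * pb x₀ P ((chartAt 𝔼 x₀).symm b)) := by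
    rw [← setIntegral_eq_integral_of_forall_compl_eq_zero (s := (chartAt 𝔼 x₀).target)]
    · refine setIntegral_congr_fun (measurableSet_target x₀) fun b hb => ?_
      rw [pb_symm x₀ P hb, smul_eq_mul]
      ring
    · intro b hb
      rw [image_eq_zero_of_notMem_tsupport (fun h => hb (hs h)), mul_zero]
  rw [e1, e2, h0]

end

end Crest.Agent.R247.Frd657
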