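import Crest.Agent.R247.Q9_550

/-!
# R247: `GlueDataT 40 n` from the literal Props of the blocks (choice of the constants)
-/

set_option autoImplicit false
set_option linter.unusedSectionVars false
noncomputable section
open Set Filter Topology MeasureTheory Metric
open scoped ContDiff Manifold ENNReal
open Bundle Crest.GeometryTopology.CoordMetric Crest.GeometryTopology.ChartCurvature
  Crest.GeometryTopology.PointedLimit

namespace Crest.Agent.R247.Q9550

universe u

open Crest.Agent.R247.Mcp688 Crest.Agent.R247.Far553 Crest.Agent.R247.Cal550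
  Crest.Agent.R247.GluM923 Crest.Agent.R247.Nis710

set_option maxHeartbeats 1000000 in
/-- **Choice of the constants**: blocks (1), (2), (5) give `GlueDataT 40 n`. -/
theorem glueDataT_of {n : ℕ} (hn : 1 ≤ n) {c : FarK} (hPk : PkP.{u} n c) (hFar : FarConcl.{u} n c)
    (hNear : NearP.{u} n) (hLoc : LocP.{u} n c) (hPl : PlThm.{u} n) : GlueDataT.{u} 40 n := by
  obtain ⟨A₀, hA₀, δ₀, hδ₀, hδ₀4, HPk⟩ := hPk
  obtain ⟨δF, hδF, AF, hAF, β, hβ, j₀, hj₀, HF⟩ := hFar
  obtain ⟨A', hA', jL, hjL, HL⟩ := hLoc A₀ hA₀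
  have hω := c.ω_pos
  -- the constant `A`
  set A : ℝ := A₀ + AF + A' + 4 / c.ω + 2 * c.ω * 9 ^ n + 1 with hAdef
  have hω4 : 0 < 4 / c.ω := by positivity
  have hω9 : 0 < 2 * c.ω * 9 ^ n := by positivity
  have hA1 : 1 ≤ A := by linarith
  have hApos : 0 < A := by linarith
  have hAA₀ : A₀ ≤ A := by linarith
  have hAAF : AF ≤ A := by linarith
  have hAA' : A' ≤ A := by linarith
  have hAω : A⁻¹ ≤ c.ω / 4 := by
    rw [inv_le_comm₀ hApos (by positivity), inv_div]
    linarith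
  have hAω9 : 2 * c.ω * 9 ^ n ≤ A := by linarith
  obtain ⟨C₁, hC₁, ε, hε, HPl⟩ := hPl A hA1
  refine ⟨C₁, hC₁, Real.sqrt n, Real.sqrt_pos.2 (by exact_mod_cast hn), fun η hη => ?_⟩
  obtain ⟨ε₁, hε₁, δ₁, hδ₁, J₁, HN⟩ := hNear (min ε η) (lt_min hε hη)
  set s : ℝ := min (min ε η) (ε₁ / A) with hs
  have hs0 : 0 < s := by positivity
  -- choice of `j₁`
  have hd2 : Tendsto (fun j => AF * A₀ * dy j ^ 2) atTop (𝓝 0) := by
    have := (tendsto_dy.pow 2).const_mul (AF * A₀)
    simpa using this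
  obtain ⟨j₁, hj₁4, hj₁⟩ : ∃ j₁ : ℕ, 4 ≤ j₁ ∧ AF * A₀ * dy j₁ ^ 2 ≤ s / 8 := by
    have h1 := (hd2.eventually (gt_mem_nhds (show 0 < s / 8 by positivity))).and
      (eventually_ge_atTop 4)
    obtain ⟨j, h2, h3⟩ := h1.exists
    exact ⟨j, h3, h2.le⟩
  obtain ⟨J₁', hJ₁', HF'⟩ := HF j₁ hj₁4
  -- choice of `J₀`
  have hd3 : Tendsto (fun J => AF * (dy (J - j₁) ^ β * (1 + 2 * A₀))) atTop (𝓝 0) := by
    have h1 : Tendsto (fun J => dy (J - j₁)) atTop (𝓝 0) :=
      tendsto_dy.comp (tendsto_sub_atTop_nat j₁)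
    have h2 : Tendsto (fun J => dy (J - j₁) ^ β) atTop (𝓝 0) := by
      have := h1.rpow_const (p := β) (Or.inr hβ.le)
      rwa [Real.zero_rpow hβ.ne'] at this
    have := (h2.mul_const (1 + 2 * A₀)).const_mul AF
    simpa using this
  have hd4 : Tendsto (fun J => A₀ * dy J ^ 2) atTop (𝓝 0) := by
    have := (tendsto_dy.pow 2).const_mul A₀
    simpa using this
  obtain ⟨J₀, hJ₀, hJ₀a, hJ₀b⟩ : ∃ J₀ : ℕ, j₀ + J₁' + J₁ + jL + j₁ + 4 ≤ J₀ ∧
      AF * (dy (J₀ - j₁) ^ β * (1 + 2 * A₀)) ≤ s / 8 ∧ A₀ * dy J₀ ^ 2 ≤ s / 8 := by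
    have h1 := ((hd3.eventually (gt_mem_nhds (show 0 < s / 8 by positivity))).and
      (hd4.eventually (gt_mem_nhds (show 0 < s / 8 by positivity)))).and
      (eventually_ge_atTop (j₀ + J₁' + J₁ + jL + j₁ + 4))
    obtain ⟨j, ⟨h2, h3⟩, h4⟩ := h1.exists
    exact ⟨j, h4, h2.le, h3.le⟩
  -- choice of `δ`
  set δ : ℝ := min (min δ₀ (min (δF / A₀) (min (1 / (4 * A₀)) ε)))
    (min δ₁ (min (s / (8 * (AF * A₀))) (s / (8 * A₀)))) with hδdef
  have hA₀0 : 0 < A₀ := by linarith
  have hAFA₀ : 0 < AF * A₀ := by positivity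
  have hδ : 0 < δ := by positivity
  have hδδ₀ : δ ≤ δ₀ := (min_le_left _ _).trans (min_le_left _ _)
  have hδδF' : A₀ * δ ≤ δF := by
    have h1 : δ ≤ δF / A₀ :=
      (min_le_left _ _).trans ((min_le_right _ _).trans (min_le_left _ _))
    rw [le_div_iff₀ hA₀0] at h1
    linarith
  have hδ4 : A₀ * δ ≤ 1 / 4 := by
    have h1 : δ ≤ 1 / (4 * A₀) := (min_le_left _ _).trans
      ((min_le_right _ _).trans ((min_le_right _ _).trans (min_le_left _ _)))
    rw [le_div_iff₀ (by positivity)] at h1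
    linarith
  have hδε : δ ≤ ε := (min_le_left _ _).trans
    ((min_le_right _ _).trans ((min_le_right _ _).trans (min_le_right _ _)))
  have hA₀δ : 0 ≤ A₀ * δ := by positivity
  have hδδF : δ ≤ δF := by nlinarith
  have hδδ₁ : δ ≤ δ₁ := (min_le_right _ _).trans (min_le_left _ _)
  have hδa : AF * A₀ * δ ≤ s / 8 := by
    have h1 : δ ≤ s / (8 * (AF * A₀)) :=
      (min_le_right _ _).trans ((min_le_right _ _).trans (min_le_left _ _))
    rw [le_div_iff₀ (by positivity)] at h1
    linarith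
  have hδb : A₀ * δ ≤ s / 8 := by
    have h1 : δ ≤ s / (8 * A₀) :=
      (min_le_right _ _).trans ((min_le_right _ _).trans (min_le_right _ _))
    rw [le_div_iff₀ (by positivity)] at h1
    linarith
  have hδ1 : δ ≤ 1 / 4 := hδδ₀.trans hδ₀4
  refine ⟨dy (J₀ + 9), dy_pos _, dy_le_one _, 50, by norm_num, δ, hδ, ?_⟩
  intro M _ _ _ _ _ _ _ _ _ _ q hRic hpin
  have hprop : ProperSpace M := HR216.properSpace_of_riemannian n M
  have hlf : IsLocallyFiniteMeasure (Measure.euclideanHausdorffMeasure n : Measure M) :=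
    isLocallyFinite n M
  have hsc : SecondCountableTopology M := HR216.secondCountable_of_riemannian n M
  obtain ⟨C, G, ph, hP⟩ := HPk δ hδ hδδ₀ M q hRic hpin
  have hfc : IsFiniteMeasureOnCompacts (μHE[n] : Measure M) := inferInstance
  -- far propagation
  have hfar : ∀ x, dist x q < 1 → ∃ D : ℕ → ℝ, (∀ j, 0 ≤ D j) ∧ Summable D ∧
      (∀ J, J₁' ≤ J → ∑' j, D (J + j) ≤
        AF * (∑' j, ph x (j₁ + j) + (dy (J - j₁)) ^ β * (1 + ∑' j, ph x (4 + j)))) ∧
      ∀ j, j₀ ≤ j → FF (μHE[n] : Measure M) G q x (dy j) (AF * D j * dy j ^ (n + 2)) := by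
    intro x hx
    obtain ⟨FD⟩ := hP.far x hx
    obtain ⟨D, hD0, hDs, hDt, hDF⟩ := HF' δ hδ.le hδδF M (μHE[n] : Measure M) C x (ph x) (farD_mono hδδF' FD)
      (hP.summ x hx) q (by rwa [dist_comm])
    refine ⟨D, hD0, hDs, hDt, fun j hj => ?_⟩
    have h1 := hP.grep.far_le hP.sing (hDF j hj)
    refine h1.trans (le_of_eq ?_)
    congr 1
    ring
  choose! D hD0 hDs hDt hDF using hfar
  set E : ℕ → M → ℝ := fun k x => ph x k + D x k with hE
  have hE0 : ∀ x, dist x q < 1 → ∀ k, 0 ≤ E k x := fun x hx k =>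
    add_nonneg (hP.ph_nonneg x hx k) (hD0 x hx k)
  have hEs : ∀ x, dist x q < 1 → Summable fun k => E k x := fun x hx =>
    (hP.summ x hx).add (hDs x hx)
  have hph4 : ∀ x, dist x q < 1 → ∑' j, ph x (4 + j) ≤ 2 * A₀ := by
    intro x hx
    have h1 := hP.tail x hx 4 le_rfl
    have h2 : dy 4 ^ 2 ≤ 1 := by
      have := dy_le_one 4
      have := (dy_pos 4).le
      nlinarith
    nlinarith
  have hEt : ∀ x, dist x q < 1 → ∀ J, J₀ ≤ J → ∑' j, E (J + j) x ≤ s := by
    intro x hx J hJ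
    refine (tail_anti (hE0 x hx) (hEs x hx) hJ).trans ?_
    have e1 : Summable fun j => ph x (J₀ + j) := by
      have := (summable_nat_add_iff J₀).2 (hP.summ x hx)
      simpa [add_comm] using this
    have e2 : Summable fun j => D x (J₀ + j) := by
      have := (summable_nat_add_iff J₀).2 (hDs x hx)
      simpa [add_comm] using this
    have e3 : ∑' j, E (J₀ + j) x = ∑' j, ph x (J₀ + j) + ∑' j, D x (J₀ + j) := e1.tsum_add e2
    have h1 := hP.tail x hx J₀ (by omega)
    have h2 := hDt x hx J₀ (by omega)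
    have h3 := hP.tail x hx j₁ hj₁4
    have h4 := hph4 x hx
    have h5 : AF * ∑' j, ph x (j₁ + j) ≤ AF * (A₀ * (δ + dy j₁ ^ 2)) := by gcongr
    have h6 : 0 ≤ dy (J₀ - j₁) ^ β := Real.rpow_nonneg (dy_pos _).le _
    have h7 : AF * (dy (J₀ - j₁) ^ β * (1 + ∑' j, ph x (4 + j))) ≤
        AF * (dy (J₀ - j₁) ^ β * (1 + 2 * A₀)) := by gcongr
    rw [e3]
    have h8 : A₀ * (δ + dy J₀ ^ 2) = A₀ * δ + A₀ * dy J₀ ^ 2 := by ring
    have h9 : AF * (A₀ * (δ + dy j₁ ^ 2)) = AF * A₀ * δ + AF * A₀ * dy j₁ ^ 2 := by ring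
    linarith
  have hEle : ∀ x, dist x q < 1 → ∀ k, J₀ ≤ k → E k x ≤ s := fun x hx k hk =>
    (le_tail (hE0 x hx) (hEs x hx) hk).trans (hEt x hx J₀ le_rfl)
  have hphE : ∀ x, dist x q < 1 → ∀ k, ph x k ≤ E k x := fun x hx k => by
    have := hD0 x hx k
    simp only [hE]; linarith
  have hDE : ∀ x, dist x q < 1 → ∀ k, D x k ≤ E k x := fun x hx k => by
    have := hP.ph_nonneg x hx k
    simp only [hE]; linarith
  have hFE : ∀ k, J₀ ≤ k → ∀ x, dist x q < 1 → FF (μHE[n] : Measure M) G q x (dy k) (A * E k x * dy k ^ (n + 2)) := by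
    intro k hk x hx
    refine (hDF x hx k (by omega)).mono ?_
    have h1 := (dy_pos k).le
    have h2 := hD0 x hx k
    have h3 := hDE x hx k
    gcongr
  -- near isometry
  have hnear : ∀ x ∈ ball q (dy (J₀ + 2)), ∀ y ∈ ball q (dy (J₀ + 2)),
      |Real.sqrt n * ‖psi (nuW (μHE[n] : Measure M) q) x - psi (nuW (μHE[n] : Measure M) q) y‖ - dist x y| ≤ min ε η * dist x y := by
    refine HN δ hδ hδδ₁ M q hRic hpin C G hP.grep J₀ (by omega) ?_
    intro k hk x hx
    refine (hFE k hk x hx).mono ?_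
    have h1 := hEle x hx k hk
    have h2 : s ≤ ε₁ / A := min_le_right _ _
    have h3 : A * E k x ≤ ε₁ := by
      have : A * E k x ≤ A * (ε₁ / A) := by
        have := h1.trans h2
        gcongr
      rwa [mul_div_cancel₀ _ hApos.ne'] at this
    have h4 : 0 ≤ dy k ^ (n + 2) := by have := (dy_pos k).le; positivity
    exact mul_le_mul_of_nonneg_right h3 h4
  -- the centre
  have hqq : dist q q < 1 := by rw [dist_self]; norm_num
  obtain ⟨FDq⟩ := hP.far q hqq
  obtain ⟨hW1, hW2⟩ := vol_ann hn FDq hA₀δ hδ4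
  have hW0 : (μHE[n] : Measure M) (ann q 4 8) ≠ 0 := by
    intro h
    rw [h] at hW1
    exact absurd hW1 (by simpa using hω)
  have hWt : (μHE[n] : Measure M) (ann q 4 8) ≠ ⊤ := ne_top_of_le_ne_top ENNReal.ofReal_ne_top hW2
  have hprob : IsProbabilityMeasure (nuW (μHE[n] : Measure M) q) := nuW_prob hW0 hWt
  -- data
  have hdata : PlData C G q A ε (J₀ + 2) E := by
    refine
      { n_pos := hn, A_ge := hA1, ε_pos := hε, κ_nonneg := hδ.le, κ_le := by linarith,
        κ_small := hδε,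
        J₀_ge := by omega, grep := hP.grep, sing := hP.sing,
        E_nonneg := fun k x hx => hE0 x hx k,
        E_le := fun k hk x hx => (hEle x hx k (by omega)).trans
          ((min_le_left _ _).trans (min_le_left _ _)),
        vol_ge := ?_, vol_le := ?_, volW_ge := ?_, volW_le := ?_,
        drop_small := ?_, m := ?_, L := ?_, L2 := ?_,
        F := fun k hk x hx => hFE k (by omega) x hx,
        near := fun x hx y hy => (hnear x ?_ y ?_).trans ?_ }
    · intro x hx r hr hr1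
      have hx' : dist q x < 20 := by rw [dist_comm]; have : dist x q < 1 := hx; linarith
      refine le_trans (ENNReal.ofReal_le_ofReal ?_) (FDq.vol_ge x r hx' hr (by linarith))
      have h1 : A⁻¹ ≤ (1 - A₀ * δ) * c.ω := by
        have : c.ω / 4 ≤ (1 - A₀ * δ) * c.ω := by nlinarith
        linarith
      have h2 : (0:ℝ) ≤ r ^ n := by positivity
      nlinarith
    · intro x hx r hr hr1
      have hx' : dist q x < 20 := by rw [dist_comm]; have : dist x q < 1 := hx; linarith
      refine (FDq.vol_le x r hx' hr (by linarith)).trans (ENNReal.ofReal_le_ofReal ?_)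
      have h1 : (1 + A₀ * δ) * c.ω ≤ A := by
        have h9 : (1 : ℝ) ≤ 9 ^ n := one_le_pow₀ (by norm_num)
        have : (1 + A₀ * δ) * c.ω ≤ 2 * c.ω * 9 ^ n := by
          have : c.ω ≤ c.ω * 9 ^ n := by nlinarith
          nlinarith
        linarith
      have h2 : (0:ℝ) ≤ r ^ n := by positivity
      nlinarith
    · exact (ENNReal.ofReal_le_ofReal hAω).trans hW1
    · exact hW2.trans (ENNReal.ofReal_le_ofReal hAω9)
    · intro k hk x hx
      have h1 := hP.drop_le x hx (k + 4) (by omega)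
      have h2 : 16 * dy (k + 4) = dy k := by
        rw [dy_add]
        have : dy 4 = 1 / 16 := by unfold dy; norm_num
        rw [this]; ring
      rw [h2] at h1
      refine h1.trans ?_
      have h3 := hphE x hx (k + 4)
      have h4 := hP.ph_nonneg x hx (k + 4)
      have h5 : E (k + 4) x ≤ ε := (hEle x hx (k + 4) (by omega)).trans
          ((min_le_left _ _).trans (min_le_left _ _))
      have h6 : dy (k + 4) ≤ dy k := dy_anti (by omega)
      have h7 := (dy_pos (k + 4)).le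
      have h8 : ph x (k + 4) ≤ ε := h3.trans h5
      gcongr
    · intro k hk x hx
      obtain ⟨FD⟩ := hP.far x hx
      obtain ⟨h1, -⟩ := HL δ (A₀ * δ) hδ.le (by linarith) hδ4 M (μHE[n] : Measure M) C G x (ph x) hP.grep hP.sing FD
        (hP.drop_le x hx) k (by omega)
      refine h1.mono ?_
      have h2 := hphE x hx k
      have h3 := hP.ph_nonneg x hx k
      have h4 := (dy_pos k).le
      gcongr
    · intro k hk x hx
      obtain ⟨FD⟩ := hP.far x hx
      obtain ⟨-, h1⟩ := HL δ (A₀ * δ) hδ.le (by linarith) hδ4 M (μHE[n] : Measure M) C G x (ph x) hP.grep hP.sing FD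
        (hP.drop_le x hx) k (by omega)
      refine h1.mono ?_
      have h2 := hphE x hx k
      have h3 := hP.ph_nonneg x hx k
      have h4 := (dy_pos k).le
      gcongr
    · obtain ⟨cc, hc1, hc2⟩ := hP.L2
      refine ⟨cc, hc1, fun k hk x hx y hy hxy => ?_⟩
      obtain ⟨h1, h2⟩ := hc2 k (by omega) x hx y hy hxy
      refine ⟨h1, h2.mono ?_⟩
      have h4 := (dy_pos k).le
      have h5 := Real.sqrt_le_sqrt (hphE x hx k)
      have h6 := Real.sqrt_le_sqrt (hphE y hy k)
      gcongr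
    · exact hx
    · exact hy
    · have := min_le_left ε η
      gcongr
  obtain ⟨P, hP1, hP2, hP3, hP4, hP5⟩ := HPl δ M (μHE[n] : Measure M) C G q (J₀ + 2) E hdata (J₀ + 9) (by omega)
  have hball : ∀ x ∈ ball q (dy (J₀ + 9) / 2), dist x q < 1 := by
    intro x hx
    have h1 := dy_le_one (J₀ + 9)
    have h2 := dy_pos (J₀ + 9)
    rw [mem_ball] at hx
    linarith
  have hball2 : ∀ x ∈ ball q (dy (J₀ + 9) / 2), x ∈ ball q (dy (J₀ + 2)) := by
    intro x hx
    have h1 : dy (J₀ + 9) ≤ dy (J₀ + 2) := dy_anti (by omega)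
    have h2 := dy_pos (J₀ + 9)
    rw [mem_ball] at hx ⊢
    linarith
  refine ⟨Lp ℝ 2 (nuW (μHE[n] : Measure M) q), inferInstance, inferInstance, inferInstance, psi (nuW (μHE[n] : Measure M) q), P,
    fun k x => E (J₀ + 9 + k - 7) x, ?_⟩
  refine
    { Ψ_le := fun x _ y _ => norm_psi_sub_le (nuW_bound (μHE[n] : Measure M) q) x y
      near := fun x hx y hy => (hnear x (hball2 x hx) y (hball2 y hy)).trans (by
        have := min_le_right ε η
        gcongr)
      D_nonneg := fun k _ x hx => hE0 x (hball x hx) _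
      D_sum := ?_
      proj := hP1
      rank := hP2
      A1 := hP3
      A2 := hP4
      A3 := hP5 }
  intro x hx m
  have h1 := sum_le_tail (hE0 x (hball x hx)) (hEs x (hball x hx)) (J₀ + 3) m
  have h2 := hEt x (hball x hx) (J₀ + 3) (by omega)
  have h3 : s ≤ η := (min_le_left _ _).trans (min_le_right _ _)
  calc ∑ k ∈ Finset.range m, E (J₀ + 9 + (k + 1) - 7) x
      = ∑ k ∈ Finset.range m, E (J₀ + 3 + k) x := by
        refine Finset.sum_congr rfl fun k _ => ?_
        congr 1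
        omega
    _ ≤ η := by linarith

end Crest.Agent.R247.Q9550
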