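import Crest.Agent.R247.Ray2_97
import Crest.Agent.R247.Sm5_879
import Crest.Agent.R247.Bo7_84

/-!
R247 (helper97), block (6f), part 3: second derivatives along minimisers.

`IsRay x γ ℓ b`: `γ : [0,b] → M` is a minimiser of constant speed `ℓ > 0` issued from `x`.
For `0 < s < b` and `w : M → ℝ`:
* `(w ∘ γ)' (s) = s⁻¹ ⟨∇w, ∇f_x⟩(γ s)`,  `f_x = d_x²/2`;
* `(w ∘ γ)'' (s) = s⁻² Hess w (∇f_x, ∇f_x)(γ s)`.
-/

set_option autoImplicit false
set_option maxSynthPendingDepth 3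
set_option linter.unusedSectionVars false

open Bundle Set Filter Topology Metric
open scoped Manifold ContDiff NNReal
open Crest.GeometryTopology.CoordMetric Crest.GeometryTopology.ChartCurvature
open Crest.GeometryTopology.MTW Crest.Agent.R244 Crest.Agent.R226
open Crest.Agent.R226.ChartMet842
open Crest.Agent.R226.CutSmooth77 (SC)
open Crest.Agent.R202.Tens Crest.Agent.R247.Ms322
open Crest.Agent.R247.Bo84 (grad gam hess hessE bil_grad bil_injective fderiv_gam bil_hessE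
  hess_symm hess_apply hessE_apply contDiffAt_grad gam_eq_fderiv_grad inCh mGam mHess mgrad dCh
  mHess_chart' mGam_chart' mGam_chart dCh_mgrad differentiableAt_inCh contDiffAt_inCh mGam_comm
  mGam_self)
open Crest.Agent.R247.Sm879

namespace Crest.Agent.R247.Ray97

section coord
variable {n : ℕ} {g : MetricField n} {U : Set (EuclideanSpace ℝ (Fin n))}
  {x : EuclideanSpace ℝ (Fin n)}

local notation "𝔼" => EuclideanSpace ℝ (Fin n)

/-- `|∇f|² = 2f` implies `Hess f (∇f) = ∇f`. -/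
theorem hessE_eikonal (hg : IsRiemannianOn g U) (hx : x ∈ U) {f : 𝔼 → ℝ}
    (hf : ContDiffAt ℝ 2 f x) (heik : ∀ᶠ y in 𝓝 x, gam g f f y = 2 * f y) :
    hessE g f x (grad g f x) = grad g f x := by
  refine bil_injective hg hx fun Z => ?_
  rw [bil_hessE hg hx hf, hess_symm hg hx hf, bil_grad hg hx]
  have h1 := fderiv_gam hg hx hf hf Z
  have h2 : fderiv ℝ (gam g f f) x = fderiv ℝ (fun y => 2 * f y) x :=
    Filter.EventuallyEq.fderiv_eq heik
  rw [h2, fderiv_const_mul (hf.differentiableAt (by norm_num)), smul_apply, smul_eq_mul] at h1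
  linarith

/-- the velocity field `t⁻¹ ∇f` is parallel along its integral curves -/
theorem hasDerivAt_vel (hg : IsRiemannianOn g U) {f : 𝔼 → ℝ} {c : ℝ → 𝔼} {s : ℝ} (hs : s ≠ 0)
    (hx : c s ∈ U) (hf : ContDiffAt ℝ 2 f (c s))
    (heik : ∀ᶠ y in 𝓝 (c s), gam g f f y = 2 * f y)
    (hc : HasDerivAt c (s⁻¹ • grad g f (c s)) s) :
    HasDerivAt (fun t => t⁻¹ • grad g f (c t))
      (-(Gam g (c s) (s⁻¹ • grad g f (c s)) (s⁻¹ • grad g f (c s)))) s := by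
  have hgr : DifferentiableAt ℝ (grad g f) (c s) :=
    (contDiffAt_grad hg hx (m := 1) hf (by norm_num) (by simp)).differentiableAt (by norm_num)
  have h1 : HasDerivAt (fun t => grad g f (c t)) (fderiv ℝ (grad g f) (c s)
      (s⁻¹ • grad g f (c s))) s := hgr.hasFDerivAt.comp_hasDerivAt s hc
  have h2 := (hasDerivAt_inv hs).smul h1
  have h3 := hessE_eikonal hg hx hf heik
  rw [hessE_apply] at h3
  have h4 : fderiv ℝ (grad g f) (c s) (grad g f (c s)) =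
      grad g f (c s) - Gam g (c s) (grad g f (c s)) (grad g f (c s)) := by
    rw [eq_sub_iff_add_eq, h3]
  refine h2.congr_deriv ?_
  rw [map_smul, h4, map_smul, map_smul, smul_apply, smul_smul, smul_smul, smul_sub]
  have e : -(s ^ 2)⁻¹ = -(s⁻¹ * s⁻¹) := by rw [← mul_inv, sq]
  rw [e]
  module

/-- second derivative of a function along an integral curve of `t⁻¹ ∇f`. -/
theorem hasDerivAt_fderiv_vel (hg : IsRiemannianOn g U) {f : 𝔼 → ℝ} {c : ℝ → 𝔼} {s : ℝ}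
    (hs : s ≠ 0) (hx : c s ∈ U) (hf : ContDiffAt ℝ 2 f (c s))
    (heik : ∀ᶠ y in 𝓝 (c s), gam g f f y = 2 * f y)
    (hc : HasDerivAt c (s⁻¹ • grad g f (c s)) s) {w : 𝔼 → ℝ} (hw : ContDiffAt ℝ 2 w (c s)) :
    HasDerivAt (fun t => fderiv ℝ w (c t) (t⁻¹ • grad g f (c t)))
      (hess g w (c s) (s⁻¹ • grad g f (c s)) (s⁻¹ • grad g f (c s))) s := by
  have hdw : DifferentiableAt ℝ (fderiv ℝ w) (c s) :=
    (hw.fderiv_right (m := 1) (by norm_num)).differentiableAt (by norm_num)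
  have h1 : HasDerivAt (fun t => fderiv ℝ w (c t)) (fderiv ℝ (fderiv ℝ w) (c s)
      (s⁻¹ • grad g f (c s))) s := hdw.hasFDerivAt.comp_hasDerivAt s hc
  have h2 := h1.clm_apply (hasDerivAt_vel hg hs hx hf heik hc)
  refine h2.congr_deriv ?_
  rw [hess_apply, map_neg]
  ring

end coord

section mfd
variable {n : ℕ} {M : Type*} [MetricSpace M] [ChartedSpace (EuclideanSpace ℝ (Fin n)) M]
  [IsManifold (𝓡 n) ∞ M]
  [RiemannianBundle (fun p : M => TangentSpace (𝓡 n) p)]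
  [IsContMDiffRiemannianBundle (𝓡 n) ∞ (EuclideanSpace ℝ (Fin n)) (fun p : M => TangentSpace (𝓡 n) p)]
  [IsRiemannianManifold (𝓡 n) M]

local notation "𝔼" => EuclideanSpace ℝ (Fin n)

/-- `γ` is, on `[0,b]`, a minimiser of constant speed `ℓ > 0` issued from `x`. -/
structure IsRay {M : Type*} [MetricSpace M] (x : M) (γ : ℝ → M) (ℓ b : ℝ) : Prop where
  pos : 0 < ℓ
  bpos : 0 < b
  zero : γ 0 = x
  dist' : ∀ s ∈ Icc 0 b, ∀ t ∈ Icc 0 b, dist (γ s) (γ t) = ℓ * |s - t|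

namespace IsRay
omit [ChartedSpace (EuclideanSpace ℝ (Fin n)) M]
  [IsManifold (𝓡 n) ∞ M]
  [RiemannianBundle (fun p : M => TangentSpace (𝓡 n) p)]
  [IsContMDiffRiemannianBundle (𝓡 n) ∞ (EuclideanSpace ℝ (Fin n)) (fun p : M => TangentSpace (𝓡 n) p)]
  [IsRiemannianManifold (𝓡 n) M]

variable {x : M} {γ : ℝ → M} {ℓ b s : ℝ}

theorem dist_x (h : IsRay x γ ℓ b) (hs : s ∈ Icc 0 b) : dist x (γ s) = ℓ * s := by
  have h1 := h.dist' 0 ⟨le_rfl, h.bpos.le⟩ s hs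
  rw [h.zero, zero_sub, abs_neg, abs_of_nonneg hs.1] at h1
  exact h1

theorem dist_b (h : IsRay x γ ℓ b) (hs : s ∈ Icc 0 b) : dist (γ b) (γ s) = ℓ * (b - s) := by
  have h1 := h.dist' b ⟨h.bpos.le, le_rfl⟩ s hs
  rw [abs_of_nonneg (by linarith [hs.2])] at h1
  exact h1

theorem mem_Om (h : IsRay x γ ℓ b) (hs : s ∈ Ico 0 b) : (x, γ s) ∈ Om M := by
  have h1 := h.dist_b ⟨hs.1, hs.2.le⟩
  have h2 := h.dist_x ⟨hs.1, hs.2.le⟩
  have h3 := h.dist_x ⟨h.bpos.le, le_rfl⟩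
  refine ⟨γ b, ?_, ?_⟩
  · rw [← dist_pos, dist_comm, h1]
    exact mul_pos h.pos (sub_pos.2 hs.2)
  · dsimp only
    rw [dist_comm (γ s), h1, h2, h3]; ring

theorem mem_Om' (h : IsRay x γ ℓ b) (hs : s ∈ Ioc 0 b) : (γ b, γ s) ∈ Om M := by
  have h1 := h.dist_b ⟨hs.1.le, hs.2⟩
  have h2 := h.dist_x ⟨hs.1.le, hs.2⟩
  have h3 := h.dist_x ⟨h.bpos.le, le_rfl⟩
  refine ⟨x, ?_, ?_⟩
  · rw [← dist_pos, dist_comm, h2]
    exact mul_pos h.pos hs.1
  · dsimp only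
    rw [dist_comm (γ s), h1, h2, dist_comm (γ b) x, h3]; ring

theorem continuousOn (h : IsRay x γ ℓ b) : ContinuousOn γ (Icc 0 b) := by
  rw [Metric.continuousOn_iff]
  intro s hs ε hε
  refine ⟨ε / ℓ, div_pos hε h.pos, fun t ht hd => ?_⟩
  rw [h.dist' t ht s hs]
  rw [Real.dist_eq, lt_div_iff₀ h.pos] at hd
  linarith

theorem ev_dist_x (h : IsRay x γ ℓ b) (hs : s ∈ Ioo 0 b) : ∀ᶠ t in 𝓝 s, dist x (γ t) = ℓ * t := by
  filter_upwards [Icc_mem_nhds hs.1 hs.2] with t ht using h.dist_x ht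

theorem ev_dist (h : IsRay x γ ℓ b) (hs : s ∈ Ioo 0 b) :
    ∀ᶠ t in 𝓝 s, dist (γ t) (γ s) ≤ ℓ * |t - s| := by
  filter_upwards [Icc_mem_nhds hs.1 hs.2] with t ht using (h.dist' t ht s ⟨hs.1.le, hs.2.le⟩).le

theorem continuousAt (h : IsRay x γ ℓ b) (hs : s ∈ Ioo 0 b) : ContinuousAt γ s :=
  h.continuousOn.continuousAt (Icc_mem_nhds hs.1 hs.2)

/-- sub-rays -/
theorem mono (h : IsRay x γ ℓ b) {b' : ℝ} (hb : 0 < b') (hbb : b' ≤ b) : IsRay x γ ℓ b' :=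
  ⟨h.pos, hb, h.zero, fun s hs t ht => h.dist' s ⟨hs.1, hs.2.trans hbb⟩ t ⟨ht.1, ht.2.trans hbb⟩⟩

/-- time reversal -/
theorem reverse (h : IsRay x γ ℓ b) : IsRay (γ b) (fun t => γ (b - t)) ℓ b := by
  refine ⟨h.pos, h.bpos, by simp, fun s hs t ht => ?_⟩
  rw [h.dist' (b - s) ⟨by linarith [hs.2], by linarith [hs.1]⟩ (b - t)
    ⟨by linarith [ht.2], by linarith [ht.1]⟩]
  congr 1
  rw [abs_sub_comm]
  congr 1; ring

end IsRay

variable [ProperSpace M]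

/-- velocity in a chart, interior times -/
theorem IsRay.hasDerivAt_chart (hm : ExM M) {x : M} {γ : ℝ → M} {ℓ b s : ℝ} (h : IsRay x γ ℓ b)
    (hs : s ∈ Ioo 0 b) (x₀ : M) (hp : γ s ∈ (chartAt 𝔼 x₀).source) :
    HasDerivAt (fun t => chartAt 𝔼 x₀ (γ t))
      (s⁻¹ • grad (chartMetric n M x₀) (fz x x₀) (chartAt 𝔼 x₀ (γ s))) s := by
  have h1 := hasDerivWithinAt_from (n := n) hm x₀ (S := univ) hs.1 hp
    (sc_of_Om hm (h.mem_Om ⟨hs.1.le, hs.2⟩)) h.pos.le (h.dist_x ⟨hs.1.le, hs.2.le⟩)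
    (by rw [nhdsWithin_univ]; exact h.ev_dist_x hs) (by rw [nhdsWithin_univ]; exact h.ev_dist hs)
  rwa [hasDerivWithinAt_univ] at h1

/-- the eikonal equation near a point of `Om` -/
theorem eventually_gam_fz (hm : ExM M) {x p : M} (hO : (x, p) ∈ Om M) (x₀ : M)
    (hp : p ∈ (chartAt 𝔼 x₀).source) :
    ∀ᶠ y in 𝓝 (chartAt 𝔼 x₀ p),
      gam (chartMetric n M x₀) (fz x x₀) (fz x x₀) y = 2 * fz x x₀ y := by
  have ha := (chartAt 𝔼 x₀).map_source hp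
  have h1 : ContinuousAt (chartAt 𝔼 x₀).symm (chartAt 𝔼 x₀ p) :=
    (chartAt 𝔼 x₀).continuousAt_symm ha
  have h2 : OmA x ∈ 𝓝 ((chartAt 𝔼 x₀).symm (chartAt 𝔼 x₀ p)) := by
    rw [(chartAt 𝔼 x₀).left_inv hp]
    exact (isOpen_OmA n hm x).mem_nhds hO
  filter_upwards [(chartAt 𝔼 x₀).open_target.mem_nhds ha, h1.eventually h2] with y hy1 hy2
  exact gam_fz hm hy1 (sc_of_Om hm hy2)

theorem contDiffAt_fz' (hm : ExM M) {x p : M} (hO : (x, p) ∈ Om M) (x₀ : M)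
    (hp : p ∈ (chartAt 𝔼 x₀).source) : ContDiffAt ℝ ∞ (fz x x₀) (chartAt 𝔼 x₀ p) := by
  have ha := (chartAt 𝔼 x₀).map_source hp
  refine contDiffAt_fz ha ?_
  rw [(chartAt 𝔼 x₀).left_inv hp]
  exact sc_of_Om hm hO

/-- second derivative in a chart -/
theorem IsRay.hasDerivAt_fderiv (hm : ExM M) {x : M} {γ : ℝ → M} {ℓ b s : ℝ} (h : IsRay x γ ℓ b)
    (hs : s ∈ Ioo 0 b) (x₀ : M) (hp : γ s ∈ (chartAt 𝔼 x₀).source) {w : 𝔼 → ℝ}
    (hw : ContDiffAt ℝ 2 w (chartAt 𝔼 x₀ (γ s))) :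
    HasDerivAt (fun t => fderiv ℝ w (chartAt 𝔼 x₀ (γ t))
        (t⁻¹ • grad (chartMetric n M x₀) (fz x x₀) (chartAt 𝔼 x₀ (γ t))))
      (hess (chartMetric n M x₀) w (chartAt 𝔼 x₀ (γ s))
        (s⁻¹ • grad (chartMetric n M x₀) (fz x x₀) (chartAt 𝔼 x₀ (γ s)))
        (s⁻¹ • grad (chartMetric n M x₀) (fz x x₀) (chartAt 𝔼 x₀ (γ s)))) s := by
  have hO := h.mem_Om ⟨hs.1.le, hs.2⟩
  exact hasDerivAt_fderiv_vel (isRiemannianOn_chartMetric (n := n) x₀)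
    (c := fun t => chartAt 𝔼 x₀ (γ t)) hs.1.ne' ((chartAt 𝔼 x₀).map_source hp)
    ((contDiffAt_fz' hm hO x₀ hp).of_le Crest.Agent.R247.Bo84.two_le_infty)
    (eventually_gam_fz hm hO x₀ hp) (h.hasDerivAt_chart hm hs x₀ hp) hw

variable {x : M} {γ : ℝ → M} {ℓ b s : ℝ}

/-- **first derivative along a minimiser**, interior times, invariant form. -/
theorem IsRay.hasDerivAt_comp (hm : ExM M) (h : IsRay x γ ℓ b) (hs : s ∈ Ioo 0 b) {w : M → ℝ}
    (hw : MDifferentiableAt (𝓡 n) 𝓘(ℝ, ℝ) w (γ s)) :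
    HasDerivAt (fun t => w (γ t)) (s⁻¹ * mGam n w (halfDistSq x) (γ s)) s := by
  have hp : γ s ∈ (chartAt 𝔼 (γ s)).source := mem_chart_source 𝔼 _
  have h1 := hasDerivWithinAt_comp_chart (n := n) (γ s) (φ := w) (γ := γ) (S := univ) hp
    (by rw [nhdsWithin_univ]; exact h.continuousAt hs)
    (h.hasDerivAt_chart hm hs (γ s) hp).hasDerivWithinAt
    (differentiableAt_inCh ((chartAt 𝔼 (γ s)).map_source hp)
      (by rw [(chartAt 𝔼 (γ s)).left_inv hp]; exact hw))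
  rw [hasDerivWithinAt_univ] at h1
  refine h1.congr_deriv ?_
  rw [map_smul, smul_eq_mul]
  congr 1
  rw [mGam_chart' hp, gam_eq_fderiv_grad]
  rfl

/-- **second derivative along a minimiser**, interior times, invariant form. -/
theorem IsRay.hasDerivAt_mGam (hm : ExM M) (h : IsRay x γ ℓ b) (hs : s ∈ Ioo 0 b) {w : M → ℝ}
    (hw : ContMDiffAt (𝓡 n) 𝓘(ℝ, ℝ) 2 w (γ s)) :
    HasDerivAt (fun t => t⁻¹ * mGam n w (halfDistSq x) (γ t))
      (s⁻¹ ^ 2 * mHess n w (γ s) (mgrad n (halfDistSq x) (γ s)) (mgrad n (halfDistSq x) (γ s)))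
      s := by
  have hp : γ s ∈ (chartAt 𝔼 (γ s)).source := mem_chart_source 𝔼 _
  have ha := (chartAt 𝔼 (γ s)).map_source hp
  have hw' : ContDiffAt ℝ 2 (inCh n (γ s) w) (chartAt 𝔼 (γ s) (γ s)) :=
    contDiffAt_inCh Crest.Agent.R247.Bo84.two_le_infty ha
      (by rw [(chartAt 𝔼 (γ s)).left_inv hp]; exact hw)
  have h1 := h.hasDerivAt_fderiv hm hs (γ s) hp hw'
  have e : (fun t => t⁻¹ * mGam n w (halfDistSq x) (γ t)) =ᶠ[𝓝 s]
      fun t => fderiv ℝ (inCh n (γ s) w) (chartAt 𝔼 (γ s) (γ t))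
        (t⁻¹ • grad (chartMetric n M (γ s)) (fz x (γ s)) (chartAt 𝔼 (γ s) (γ t))) := by
    filter_upwards [(h.continuousAt hs).eventually
      ((chartAt 𝔼 (γ s)).open_source.mem_nhds hp)] with t ht
    rw [map_smul, smul_eq_mul]
    congr 1
    rw [mGam_chart' ht, gam_eq_fderiv_grad]
    rfl
  refine (h1.congr_of_eventuallyEq e).congr_deriv ?_
  rw [map_smul, map_smul, smul_apply, smul_eq_mul, smul_eq_mul, ← mul_assoc, ← sq]
  congr 1
  rw [mHess_chart' hp hw]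
  have h2 := dCh_mgrad (n := n) (halfDistSq x) (γ s)
  rw [h2]
  rfl

/-- second derivative, `deriv` form. -/
theorem IsRay.hasDerivAt_deriv (hm : ExM M) (h : IsRay x γ ℓ b) (hs : s ∈ Ioo 0 b) {w : M → ℝ}
    (hw : ContMDiffAt (𝓡 n) 𝓘(ℝ, ℝ) 2 w (γ s)) :
    HasDerivAt (deriv (fun t => w (γ t)))
      (s⁻¹ ^ 2 * mHess n w (γ s) (mgrad n (halfDistSq x) (γ s)) (mgrad n (halfDistSq x) (γ s)))
      s := by
  refine (h.hasDerivAt_mGam hm hs hw).congr_of_eventuallyEq ?_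
  have h1 : ∀ᶠ p in 𝓝 (γ s), MDifferentiableAt (𝓡 n) 𝓘(ℝ, ℝ) w p := by
    have : IsManifold (𝓡 n) (2 : WithTop ℕ∞) M :=
      IsManifold.of_le (n := ∞) Crest.Agent.R247.Bo84.two_le_infty
    have h2 := (contMDiffAt_iff_contMDiffAt_nhds (n := 2) (by decide)).1 hw
    filter_upwards [h2] with p hp using hp.mdifferentiableAt (by norm_num)
  filter_upwards [(h.continuousAt hs).eventually h1, Ioo_mem_nhds hs.1 hs.2] with t ht1 ht2
  exact (h.hasDerivAt_comp hm ht2 ht1).deriv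

/-- the gradient of `f_x` has norm `ℓ s` on the ray. -/
theorem norm_mgrad_halfDistSq (hm : ExM M) {p : M} (hp : SC n x p) :
    ‖mgrad n (halfDistSq x) p‖ = dist x p := by
  have hps : p ∈ (chartAt 𝔼 p).source := mem_chart_source 𝔼 _
  have ha := (chartAt 𝔼 p).map_source hps
  have h1 : SC n x ((chartAt 𝔼 p).symm (chartAt 𝔼 p p)) := by
    rw [(chartAt 𝔼 p).left_inv hps]; exact hp
  have h2 := gam_fz hm ha h1
  have h3 : mGam n (halfDistSq x) (halfDistSq x) p = 2 * halfDistSq x p := by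
    rw [mGam_chart' hps]
    have : fz x p (chartAt 𝔼 p p) = halfDistSq x p := by
      unfold fz
      rw [(chartAt 𝔼 p).left_inv hps]
    rw [← this]
    exact h2
  rw [mGam_self] at h3
  have h4 : ‖mgrad n (halfDistSq x) p‖ ^ 2 = dist x p ^ 2 := by
    rw [h3]; unfold halfDistSq; ring
  exact (pow_left_inj₀ (norm_nonneg _) dist_nonneg (by norm_num)).1 h4

theorem IsRay.norm_vel (hm : ExM M) (h : IsRay x γ ℓ b) (hs : s ∈ Ioo 0 b) :
    ‖s⁻¹ • mgrad n (halfDistSq x) (γ s)‖ = ℓ := by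
  rw [norm_smul, norm_mgrad_halfDistSq hm (sc_of_Om hm (h.mem_Om ⟨hs.1.le, hs.2⟩)),
    h.dist_x ⟨hs.1.le, hs.2.le⟩, Real.norm_of_nonneg (inv_nonneg.2 hs.1.le)]
  have := hs.1.ne'
  field_simp

/-- derivative at the far end, one-sided. -/
theorem IsRay.hasDerivWithinAt_end (hm : ExM M) (h : IsRay x γ ℓ b) (hSC : SC n x (γ b))
    {w : M → ℝ} (hw : MDifferentiableAt (𝓡 n) 𝓘(ℝ, ℝ) w (γ b)) :
    HasDerivWithinAt (fun t => w (γ t)) (b⁻¹ * mGam n w (halfDistSq x) (γ b)) (Iic b) b := by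
  have hp : γ b ∈ (chartAt 𝔼 (γ b)).source := mem_chart_source 𝔼 _
  have hb := h.bpos
  have hIcc : Icc 0 b ∈ 𝓝[Iic b] b := by
    have : Iic b ∩ Ici 0 = Icc 0 b := by ext t; simp [and_comm]
    rw [← this]
    exact inter_mem self_mem_nhdsWithin (mem_nhdsWithin_of_mem_nhds (Ici_mem_nhds hb))
  have hd : ∀ᶠ t in 𝓝[Iic b] b, dist (γ t) (γ b) ≤ ℓ * |t - b| := by
    filter_upwards [hIcc] with t ht using (h.dist' t ht b ⟨hb.le, le_rfl⟩).le
  have hx : ∀ᶠ t in 𝓝[Iic b] b, dist x (γ t) = ℓ * t := by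
    filter_upwards [hIcc] with t ht using h.dist_x ht
  have h0 := hasDerivWithinAt_from (n := n) hm (γ b) (S := Iic b) hb hp hSC h.pos.le
    (h.dist_x ⟨hb.le, le_rfl⟩) hx hd
  have hc : Tendsto γ (𝓝[Iic b] b) (𝓝 (γ b)) :=
    ((h.continuousOn b ⟨hb.le, le_rfl⟩).mono_left (by
      exact nhdsWithin_le_of_mem hIcc))
  have h1 := hasDerivWithinAt_comp_chart (n := n) (γ b) (φ := w) (γ := γ) hp hc h0
    (differentiableAt_inCh ((chartAt 𝔼 (γ b)).map_source hp)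
      (by rw [(chartAt 𝔼 (γ b)).left_inv hp]; exact hw))
  refine h1.congr_deriv ?_
  rw [map_smul, smul_eq_mul]
  congr 1
  rw [mGam_chart' hp, gam_eq_fderiv_grad]
  rfl

/-- derivative at the starting point, one-sided. -/
theorem IsRay.hasDerivWithinAt_zero (hm : ExM M) (h : IsRay x γ ℓ b) (hSC : SC n (γ b) x)
    {w : M → ℝ} (hw : MDifferentiableAt (𝓡 n) 𝓘(ℝ, ℝ) w x) :
    HasDerivWithinAt (fun t => w (γ t)) (-(b⁻¹ * mGam n w (halfDistSq (γ b)) x)) (Ici 0) 0 := by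
  have h1 := h.reverse
  have e0 : γ (b - b) = x := by rw [sub_self, h.zero]
  have h2 := h1.hasDerivWithinAt_end (n := n) hm (by rw [e0]; exact hSC) (w := w)
    (by rw [e0]; exact hw)
  rw [e0] at h2
  have h3 : HasDerivWithinAt (fun t : ℝ => b - t) (-1) (Ici 0) 0 := by
    simpa using ((hasDerivAt_id (0 : ℝ)).const_sub b).hasDerivWithinAt
  have hmaps : MapsTo (fun t : ℝ => b - t) (Ici 0) (Iic b) := fun t ht => by
    have : (0 : ℝ) ≤ t := ht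
    simp [this]
  have h2' : HasDerivWithinAt (fun t => w (γ (b - t))) (b⁻¹ * mGam n w (halfDistSq (γ b)) x)
      (Iic b) ((fun t : ℝ => b - t) 0) := by simpa using h2
  have h4 := h2'.comp (0 : ℝ) h3 hmaps
  refine HasDerivWithinAt.congr_deriv (f' := b⁻¹ * mGam n w (halfDistSq (γ b)) x * -1) ?_ (by ring)
  refine h4.congr (fun t _ => ?_) ?_ <;> simp [Function.comp]

end mfd

end Crest.Agent.R247.Ray97
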