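import Crest.Agent.R247.Ray3_97
import Crest.Agent.R247.Ray4a_97
import Crest.Agent.R247.Bo8_84

/-!
R247 (helper97), block (6f), part 4: first and second order Taylor inequalities along a minimiser.
-/

set_option autoImplicit false
set_option maxSynthPendingDepth 3
set_option linter.unusedSectionVars false

open Bundle Set Filter Topology Metric MeasureTheory
open scoped Manifold ContDiff NNReal ENNReal
open Crest.GeometryTopology.CoordMetric Crest.GeometryTopology.ChartCurvature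
open Crest.GeometryTopology.MTW Crest.Agent.R244 Crest.Agent.R226
open Crest.Agent.R226.CutSmooth77 (SC)
open Crest.Agent.R247.Bo84 (mGam mHess mgrad contMDiffAt_mGam mGam_sq_le mGam_self mHess_smul_left
  mHess_smul_right)
open Crest.Agent.R247.Sm879

namespace Crest.Agent.R247.Ray97

variable {n : ℕ} {M : Type*} [MetricSpace M] [ChartedSpace (EuclideanSpace ℝ (Fin n)) M]
  [IsManifold (𝓡 n) ∞ M]
  [RiemannianBundle (fun p : M => TangentSpace (𝓡 n) p)]
  [IsContMDiffRiemannianBundle (𝓡 n) ∞ (EuclideanSpace ℝ (Fin n)) (fun p : M => TangentSpace (𝓡 n) p)]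
  [IsRiemannianManifold (𝓡 n) M] [ProperSpace M]
  {x : M} {γ : ℝ → M} {ℓ b s : ℝ}

local notation "𝔼" => EuclideanSpace ℝ (Fin n)

/-- the cost from `x` is smooth at a point of smoothness -/
theorem contMDiffAt_halfDistSq {p : M} (h : SC n x p) :
    ContMDiffAt (𝓡 n) 𝓘(ℝ, ℝ) ∞ (halfDistSq x) p := by
  have h2 : ContMDiffAt (𝓡 n) ((𝓡 n).prod (𝓡 n)) ∞ (fun q : M => (x, q)) p :=
    contMDiffAt_const.prodMk contMDiffAt_id
  have h3 : ContMDiffAt ((𝓡 n).prod (𝓡 n)) 𝓘(ℝ) ∞ (fun q : M × M => halfDistSq q.1 q.2)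
      ((fun q : M => (x, q)) p) := h
  exact ContMDiffAt.comp p (f := fun q : M => (x, q)) h3 h2

/-- the velocity from both ends -/
theorem IsRay.vel_eq (hm : ExM M) (h : IsRay x γ ℓ b) (hs : s ∈ Ioo 0 b) {w : M → ℝ}
    (hw : MDifferentiableAt (𝓡 n) 𝓘(ℝ, ℝ) w (γ s)) :
    s⁻¹ * mGam n w (halfDistSq x) (γ s) = -((b - s)⁻¹ * mGam n w (halfDistSq (γ b)) (γ s)) := by
  have h1 := h.hasDerivAt_comp (n := n) hm hs hw
  have h2 := h.reverse
  have hs' : b - s ∈ Ioo 0 b := ⟨by linarith [hs.2], by linarith [hs.1]⟩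
  have e0 : γ (b - (b - s)) = γ s := by congr 1; ring
  have h3 := h2.hasDerivAt_comp (n := n) hm hs' (w := w) (by rw [e0]; exact hw)
  rw [e0] at h3
  have h4 : HasDerivAt (fun t : ℝ => b - t) (-1) s := by
    simpa using (hasDerivAt_id s).const_sub b
  have h5 := HasDerivAt.comp s (h₂ := fun t => w (γ (b - t))) (h := fun t => b - t) h3 h4
  have h6 : HasDerivAt (fun t => w (γ t))
      ((b - s)⁻¹ * mGam n w (halfDistSq (γ b)) (γ s) * -1) s := by
    refine h5.congr_of_eventuallyEq (Eventually.of_forall fun t => ?_)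
    simp [Function.comp]
  rw [h1.unique h6]; ring

/-- the first derivative tends to the one-sided derivative at the starting point. -/
theorem IsRay.tendsto_deriv (hm : ExM M) (h : IsRay x γ ℓ b) (hSC : SC n (γ b) x) {w : M → ℝ}
    (hw : ContMDiffAt (𝓡 n) 𝓘(ℝ, ℝ) 2 w x) :
    Tendsto (fun s => s⁻¹ * mGam n w (halfDistSq x) (γ s)) (𝓝[>] 0)
      (𝓝 (-(b⁻¹ * mGam n w (halfDistSq (γ b)) x))) := by
  have : IsManifold (𝓡 n) (2 : WithTop ℕ∞) M :=
    IsManifold.of_le (n := ∞) Crest.Agent.R247.Bo84.two_le_infty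
  have hmd : ∀ᶠ p in 𝓝 x, MDifferentiableAt (𝓡 n) 𝓘(ℝ, ℝ) w p := by
    have h2 := (contMDiffAt_iff_contMDiffAt_nhds (n := 2) (by decide)).1 hw
    filter_upwards [h2] with p hp using hp.mdifferentiableAt (by norm_num)
  have hb := h.bpos
  have hγ : Tendsto γ (𝓝[>] 0) (𝓝 x) := by
    have h1 : Tendsto γ (𝓝[Icc 0 b] 0) (𝓝 (γ 0)) := h.continuousOn 0 ⟨le_rfl, hb.le⟩
    rw [h.zero] at h1
    exact h1.mono_left (nhdsWithin_le_of_mem
      (mem_of_superset (Ioo_mem_nhdsGT hb) Ioo_subset_Icc_self))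
  have hcont : ContinuousAt (mGam n w (halfDistSq (γ b))) x :=
    (contMDiffAt_mGam (m := 0) (a := 2) hw
      ((contMDiffAt_halfDistSq hSC).of_le Crest.Agent.R247.Bo84.two_le_infty)
      (by norm_num) Crest.Agent.R247.Bo84.two_le_infty).continuousAt
  have hlim : Tendsto (fun s => -((b - s)⁻¹ * mGam n w (halfDistSq (γ b)) (γ s))) (𝓝[>] 0)
      (𝓝 (-((b - 0)⁻¹ * mGam n w (halfDistSq (γ b)) x))) := by
    refine Tendsto.neg (Tendsto.mul ?_ (hcont.tendsto.comp hγ))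
    refine Tendsto.inv₀ ?_ (by simpa using hb.ne')
    exact ((continuous_const.sub continuous_id).tendsto 0).mono_left nhdsWithin_le_nhds
  rw [sub_zero] at hlim
  refine hlim.congr' ?_
  filter_upwards [Ioo_mem_nhdsGT hb, hγ.eventually hmd] with s hs hs2
  exact (h.vel_eq hm hs hs2).symm

/-- **second order Taylor inequality along a minimiser** (literal form of doc 1349, sec. 2). -/
theorem IsRay.taylor (hm : ExM M) (h : IsRay x γ ℓ 1) (hSC : SC n (γ 1) x) {w : M → ℝ}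
    (hw : ∀ t ∈ Icc (0 : ℝ) 1, ContMDiffAt (𝓡 n) 𝓘(ℝ, ℝ) 2 w (γ t)) {K : M → ℝ≥0∞}
    (hK : ∀ t ∈ Ioo (0 : ℝ) 1, ∀ ξ : TangentSpace (𝓡 n) (γ t),
      ENNReal.ofReal |mHess n w (γ t) ξ ξ - ‖ξ‖ ^ 2| ≤ K (γ t) * ENNReal.ofReal (‖ξ‖ ^ 2)) :
    ENNReal.ofReal |mGam n w (halfDistSq (γ 1)) x - w x - halfDistSq (γ 1) x + w (γ 1)| ≤
      ENNReal.ofReal (ℓ ^ 2) * ∫⁻ t in Icc (0 : ℝ) 1, ENNReal.ofReal (1 - t) * K (γ t) := by
  have hwd : ∀ t ∈ Icc (0 : ℝ) 1, MDifferentiableAt (𝓡 n) 𝓘(ℝ, ℝ) w (γ t) := fun t ht =>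
    (hw t ht).mdifferentiableAt (by norm_num)
  have hcont : ContinuousOn (fun t => w (γ t)) (Icc 0 1) := fun t ht =>
    ((hw t ht).continuousAt.comp_continuousWithinAt (h.continuousOn t ht))
  have h1 := taylor_1d (φ := fun t => w (γ t))
    (φ' := fun t => t⁻¹ * mGam n w (halfDistSq x) (γ t))
    (φ'' := fun t => t⁻¹ ^ 2 * mHess n w (γ t) (mgrad n (halfDistSq x) (γ t))
      (mgrad n (halfDistSq x) (γ t)))
    (d0 := -((1 : ℝ)⁻¹ * mGam n w (halfDistSq (γ 1)) x)) (c := ℓ ^ 2)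
    (K := fun t => K (γ t) * ENNReal.ofReal (ℓ ^ 2)) hcont
    (fun t ht => h.hasDerivAt_comp hm ht (hwd t (Ioo_subset_Icc_self ht)))
    (fun t ht => h.hasDerivAt_mGam hm ht (hw t (Ioo_subset_Icc_self ht)))
    (h.tendsto_deriv hm hSC (by
      have := hw 0 (by simp)
      rwa [h.zero] at this))
    (fun t ht => by
      have h2 := h.norm_vel (n := n) hm ht
      have h3 := hK t ht (t⁻¹ • mgrad n (halfDistSq x) (γ t))
      have hwt := hw t (Ioo_subset_Icc_self ht)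
      rw [mHess_smul_left, mHess_smul_right, h2, ← mul_assoc, ← sq] at h3
      exact h3)
  have h0 : γ 0 = x := h.zero
  have hd : halfDistSq (γ 1) x = ℓ ^ 2 / 2 := by
    have := h.dist_x (s := 1) (by simp)
    unfold halfDistSq
    rw [dist_comm, this, mul_one]
  have e : w (γ 1) - w (γ 0) - -((1 : ℝ)⁻¹ * mGam n w (halfDistSq (γ 1)) x) - ℓ ^ 2 / 2 =
      mGam n w (halfDistSq (γ 1)) x - w x - halfDistSq (γ 1) x + w (γ 1) := by
    rw [h0, hd, inv_one]; ring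
  rw [e] at h1
  refine h1.trans (le_of_eq ?_)
  rw [← lintegral_const_mul' _ _ ENNReal.ofReal_ne_top]
  refine lintegral_congr fun t => ?_
  ring

/-- **first order inequality along a minimiser** -/
theorem IsRay.ftc (hm : ExM M) (h : IsRay x γ ℓ 1) {w : M → ℝ}
    (hw : ∀ t ∈ Icc (0 : ℝ) 1, MDifferentiableAt (𝓡 n) 𝓘(ℝ, ℝ) w (γ t)) :
    ENNReal.ofReal |w (γ 1) - w x| ≤
      ENNReal.ofReal ℓ * ∫⁻ t in Icc (0 : ℝ) 1, ENNReal.ofReal ‖mgrad n w (γ t)‖ := by
  have hcont : ContinuousOn (fun t => w (γ t)) (Icc 0 1) := fun t ht =>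
    ((hw t ht).continuousAt.comp_continuousWithinAt (h.continuousOn t ht))
  have h1 := ftc_1d (φ := fun t => w (γ t))
    (φ' := fun t => t⁻¹ * mGam n w (halfDistSq x) (γ t))
    (K := fun t => ENNReal.ofReal ℓ * ENNReal.ofReal ‖mgrad n w (γ t)‖) hcont
    (fun t ht => h.hasDerivAt_comp hm ht (hw t (Ioo_subset_Icc_self ht)))
    (fun t ht => by
      have h2 := h.norm_vel (n := n) hm ht
      rw [← ENNReal.ofReal_mul h.pos.le]
      apply ENNReal.ofReal_le_ofReal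
      rw [Crest.Agent.R247.Bo84.mGam_eq_inner, ← real_inner_smul_right, ← h2, mul_comm]
      exact abs_real_inner_le_norm _ _)
  rw [h.zero] at h1
  refine h1.trans (le_of_eq ?_)
  rw [lintegral_const_mul' _ _ ENNReal.ofReal_ne_top]

end Crest.Agent.R247.Ray97
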