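import Crest.Agent.R247.Sm5_879
import Crest.Agent.R247.Ms6_322
import Crest.Agent.R247.Mcp3_688

/-!
R247 (helper879), leaf (RDG), file 1: derivatives along minimisers, pointwise.

`Seg x z T` : `T : ℝ → M` is a minimiser from `x` to `z` parametrised by `[0,1]` (fractions).
* `hasDerivWithinAt_end` : left derivative of `φ ∘ T` at `1`
* `hasDerivAt_mid` : derivative at interior times
* `hasDerivWithinAt_start` : right derivative at `0`
* chart versions `chart_end`, `chart_mid`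
-/

set_option autoImplicit false
set_option maxSynthPendingDepth 3
set_option linter.unusedSectionVars false

open Bundle Set Filter Topology
open scoped Manifold ContDiff
open Crest.GeometryTopology.MTW Crest.Agent.R226
open Crest.Agent.R226.ChartCost77
open Crest.Agent.R226.NearLem90 (dL halfDistSq_comm hasDerivAt_comp_curve)
open Crest.Agent.R226.NearDiagThm996
open Crest.Agent.R226.ChartMet842
open Crest.Agent.R226.CutSmooth77 (SC)
open Crest.Agent.R247.Sm879

namespace Crest.Agent.R247.Rdg879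

/-- `T` is a minimiser from `x` to `z` parametrised by fractions -/
structure Seg {M : Type*} [MetricSpace M] (x z : M) (T : ℝ → M) : Prop where
  zero : T 0 = x
  one : T 1 = z
  dist_T : ∀ s ∈ Icc (0 : ℝ) 1, ∀ t ∈ Icc (0 : ℝ) 1, dist (T s) (T t) = |s - t| * dist x z

namespace Seg
variable {M : Type*} [MetricSpace M] {x z : M} {T : ℝ → M}

theorem left (h : Seg x z T) {t : ℝ} (ht : t ∈ Icc (0 : ℝ) 1) : dist x (T t) = t * dist x z := by
  have := h.dist_T 0 (by simp) t ht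
  rw [h.zero] at this
  rw [this, zero_sub, abs_neg, abs_of_nonneg ht.1]

theorem right (h : Seg x z T) {t : ℝ} (ht : t ∈ Icc (0 : ℝ) 1) :
    dist (T t) z = (1 - t) * dist x z := by
  have := h.dist_T t ht 1 (by simp)
  rw [h.one] at this
  rw [this, abs_of_nonpos (by linarith [ht.2])]
  ring

theorem rev (h : Seg x z T) : Seg z x (fun t => T (1 - t)) where
  zero := by simpa using h.one
  one := by simpa using h.zero
  dist_T := by
    intro s hs t ht
    rw [h.dist_T (1 - s) ⟨by linarith [hs.2], by linarith [hs.1]⟩ (1 - t)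
      ⟨by linarith [ht.2], by linarith [ht.1]⟩, dist_comm z x]
    congr 1
    rw [show (1 - s) - (1 - t) = -(s - t) by ring, abs_neg]

theorem head (h : Seg x z T) {t₀ : ℝ} (ht : t₀ ∈ Icc (0 : ℝ) 1) :
    Seg x (T t₀) (fun s => T (s * t₀)) where
  zero := by simpa using h.zero
  one := by simp
  dist_T := by
    intro s hs t ht'
    have e : ∀ u ∈ Icc (0 : ℝ) 1, u * t₀ ∈ Icc (0 : ℝ) 1 := fun u hu =>
      ⟨mul_nonneg hu.1 ht.1, mul_le_one₀ hu.2 ht.1 ht.2⟩
    rw [h.dist_T _ (e s hs) _ (e t ht'), h.left ht, ← sub_mul, abs_mul, abs_of_nonneg ht.1]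
    ring

end Seg

section
variable {n : ℕ} {M : Type*} [MetricSpace M] [ChartedSpace (EuclideanSpace ℝ (Fin n)) M]
  [IsManifold (𝓡 n) ∞ M]
  [RiemannianBundle (fun p : M => TangentSpace (𝓡 n) p)]

theorem exists_scale {z : M} (W : TangentSpace (𝓡 n) z) {r : ℝ} (hr : 0 < r) :
    ∃ ε : ℝ, 0 < ε ∧ ‖ε • W‖ < r := by
  refine ⟨r / (2 * (1 + ‖W‖)), by positivity, ?_⟩
  rw [norm_smul, Real.norm_of_nonneg (by positivity)]
  have h := norm_nonneg W
  calc r / (2 * (1 + ‖W‖)) * ‖W‖ ≤ r / (2 * (1 + ‖W‖)) * (1 + ‖W‖) := by gcongr; linarith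
    _ = r / 2 := by field_simp
    _ < r := by linarith

/-- short geodesics are differentiable curves -/
theorem mdiff_e {x₀ : M} (L : LocalNear n M x₀) {z : M} (hz : z ∈ L.W)
    (W : TangentSpace (𝓡 n) z) :
    MDifferentiableAt 𝓘(ℝ, ℝ) (𝓡 n) (fun s : ℝ => L.e z (s • W)) 0 := by
  have h := Crest.Agent.R226.contMDiffAt_radial_curve (e := L.e) (x := z) (v := W)
    (t := 0) (L.smooth (⟨z, (0 : ℝ) • W⟩ : TangentBundle (𝓡 n) M) hz (by
      simpa using L.r_pos))
  exact h.mdifferentiableAt (by simp)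

/-- derivative of a function along a short geodesic -/
theorem hasDerivAt_e {x₀ : M} (L : LocalNear n M x₀) {z : M} (hz : z ∈ L.W)
    (W : TangentSpace (𝓡 n) z) {φ : M → ℝ} (hφ : MDifferentiableAt (𝓡 n) 𝓘(ℝ) φ z) :
    HasDerivAt (fun s : ℝ => φ (L.e z (s • W))) (dL n φ z W) 0 := by
  obtain ⟨ε, hε, hεr⟩ := exists_scale W L.r_pos
  have h1 := hasDerivAt_comp_curve (n := n) (f := φ) (γ := fun t : ℝ => L.e z (t • (ε • W)))
    (t := 0) (x := z) (by simp [L.e_zero z hz]) hφ (mdiff_e L hz _)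
  rw [L.vel_zero z hz _ hεr] at h1
  have h2 : HasDerivAt (fun s : ℝ => s / ε) (1 / ε) 0 := (hasDerivAt_id (0 : ℝ)).div_const ε
  have h1' : HasDerivAt (fun t : ℝ => φ (L.e z (t • (ε • W)))) (dL n φ z (ε • W))
      ((fun s : ℝ => s / ε) 0) := by simpa using h1
  have h3 := h1'.comp (0 : ℝ) h2
  have e1 : (fun t : ℝ => φ (L.e z (t • (ε • W)))) ∘ (fun s : ℝ => s / ε) =
      fun s : ℝ => φ (L.e z (s • W)) := by
    funext s
    simp only [Function.comp_apply, smul_smul]
    congr 3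
    field_simp
  rw [e1] at h3
  have e2 : dL n φ z (ε • W) * (1 / ε) = dL n φ z W := by
    rw [map_smul, smul_eq_mul]; field_simp
  rwa [e2] at h3

/-- the end of a minimiser is a short geodesic in the direction `-∇f` -/
theorem T_near_end {x₀ : M} (L : LocalNear n M x₀) {x z : M} (hz : z ∈ L.W) (h : SC n z x)
    {W : TangentSpace (𝓡 n) z}
    (hW : ∀ ξ : TangentSpace (𝓡 n) z, dL n (fun q => halfDistSq q x) z ξ = inner ℝ W ξ)
    {p : M} (hp : dist x p + dist p z = dist x z) (hpr : dist z p < L.r) {s : ℝ}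
    (hs : dist z p = s * dist x z) : p = L.e z ((-s) • W) := by
  rcases eq_or_lt_of_le (dist_nonneg (x := z) (y := p)) with h0 | h0
  · have hzp : z = p := dist_eq_zero.1 h0.symm
    have hsW : (-s) • W = 0 := by
      rcases eq_or_ne x z with rfl | hne
      · have hW0 : W = 0 := by
          refine ext_inner_right ℝ (fun ξ => ?_)
          rw [← hW ξ, dL_diag h, inner_zero_left]
        rw [hW0, smul_zero]
      · have hs0 : s = 0 := by
          rw [← h0] at hs
          have := dist_pos.2 hne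
          rcases mul_eq_zero.1 hs.symm with h1 | h1
          · exact h1
          · linarith
        rw [hs0, neg_zero, zero_smul]
    rw [hsW, L.e_zero z hz, ← hzp]
  · obtain ⟨v, hv, hve⟩ := L.surj z hz p hpr
    have hg := LN_grad L hz h hp hv (by rw [hv]; exact hpr) hve h0
    have hWv : W = -(dist x z / dist z p) • v := by
      refine ext_inner_right ℝ (fun ξ => ?_)
      rw [← hW ξ, hg ξ, real_inner_smul_left]
    have hD : 0 < dist x z := by
      have := dist_nonneg (x := x) (y := p)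
      rw [dist_comm p z] at hp
      linarith
    rw [hWv, smul_smul, hs]
    have hs0 : s ≠ 0 := by
      rintro rfl
      rw [zero_mul] at hs
      linarith
    have : -s * -(dist x z / (s * dist x z)) = 1 := by field_simp
    rw [this, one_smul, hve]

/-- **left derivative at the end of a minimiser** -/
theorem hasDerivWithinAt_end {x₀ : M} (L : LocalNear n M x₀) {x z : M} (hz : z ∈ L.W)
    (h : SC n z x) {T : ℝ → M} (hT : Seg x z T) {W : TangentSpace (𝓡 n) z}
    (hW : ∀ ξ : TangentSpace (𝓡 n) z, dL n (fun q => halfDistSq q x) z ξ = inner ℝ W ξ) :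
    ∀ᶠ t in 𝓝[≤] (1 : ℝ), T t = L.e z ((t - 1) • W) := by
  have hD := dist_nonneg (x := x) (y := z)
  have e1 : ∀ᶠ t in 𝓝[≤] (1 : ℝ), t ∈ Ioc (0 : ℝ) 1 := by
    filter_upwards [self_mem_nhdsWithin,
      mem_nhdsWithin_of_mem_nhds (Ioi_mem_nhds (zero_lt_one (α := ℝ)))] with t h1 h2
    exact ⟨h2, h1⟩
  have e2 : ∀ᶠ t in 𝓝[≤] (1 : ℝ), (1 - t) * dist x z < L.r := by
    have : Tendsto (fun t : ℝ => (1 - t) * dist x z) (𝓝[≤] 1) (𝓝 ((1 - 1) * dist x z)) :=
      (Continuous.tendsto (by fun_prop) 1).mono_left nhdsWithin_le_nhds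
    apply this.eventually (gt_mem_nhds _)
    rw [sub_self, zero_mul]; exact L.r_pos
  filter_upwards [e1, e2] with t ht1 ht2
  have ht : t ∈ Icc (0 : ℝ) 1 := ⟨ht1.1.le, ht1.2⟩
  have l := hT.left ht
  have r := hT.right ht
  have := T_near_end L hz h hW (p := T t) (s := 1 - t) (by rw [l, r]; ring)
    (by rw [dist_comm, r]; exact ht2) (by rw [dist_comm, r])
  rw [this]
  congr 2
  ring

/-- **left derivative of `φ` along a minimiser at its end** -/
theorem deriv_end {x₀ : M} (L : LocalNear n M x₀) {x z : M} (hz : z ∈ L.W)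
    (h : SC n z x) {T : ℝ → M} (hT : Seg x z T) {W : TangentSpace (𝓡 n) z}
    (hW : ∀ ξ : TangentSpace (𝓡 n) z, dL n (fun q => halfDistSq q x) z ξ = inner ℝ W ξ)
    {φ : M → ℝ} (hφ : MDifferentiableAt (𝓡 n) 𝓘(ℝ) φ z) :
    HasDerivWithinAt (fun t => φ (T t)) (dL n φ z W) (Iic 1) 1 := by
  have h1 := hasDerivAt_e L hz W hφ
  have h1' : HasDerivAt (fun s : ℝ => φ (L.e z (s • W))) (dL n φ z W) ((fun t : ℝ => t - 1) 1) := by
    simpa using h1
  have h2 : HasDerivAt (fun t : ℝ => t - 1) 1 1 := (hasDerivAt_id (1 : ℝ)).sub_const 1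
  have h3 := (HasDerivAt.comp (h₂ := fun s : ℝ => φ (L.e z (s • W))) (h := fun t : ℝ => t - 1)
    (1 : ℝ) h1' h2).hasDerivWithinAt (s := Iic 1)
  rw [mul_one] at h3
  refine h3.congr_of_eventuallyEq ?_ ?_
  · filter_upwards [hasDerivWithinAt_end L hz h hT hW] with t ht
    simp only [Function.comp_apply, ht]
  · simp only [Function.comp_apply, sub_self, zero_smul, L.e_zero z hz, hT.one]

/-- two-sided description near an interior point -/
theorem T_near_mid {x₀ : M} (L : LocalNear n M x₀) {x z : M} {T : ℝ → M} (hT : Seg x z T)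
    (hxz : x ≠ z) {t₀ : ℝ} (ht0 : 0 < t₀) (ht1 : t₀ < 1) (hp : T t₀ ∈ L.W)
    (h : SC n (T t₀) x) {W : TangentSpace (𝓡 n) (T t₀)}
    (hW : ∀ ξ : TangentSpace (𝓡 n) (T t₀),
      dL n (fun q => halfDistSq q x) (T t₀) ξ = inner ℝ W ξ) :
    ∀ᶠ t in 𝓝 t₀, T t = L.e (T t₀) (((t - t₀) / t₀) • W) := by
  have hD := dist_pos.2 hxz
  set D := dist x z with hDdef
  have hm0 : t₀ ∈ Icc (0 : ℝ) 1 := ⟨ht0.le, ht1.le⟩
  have hxp : dist x (T t₀) = t₀ * D := hT.left hm0
  -- backward points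
  have back : ∀ t ∈ Ico (0 : ℝ) t₀, (t₀ - t) * D < L.r →
      T t = L.e (T t₀) (((t - t₀) / t₀) • W) := by
    intro t ht htr
    have htI : t ∈ Icc (0 : ℝ) 1 := ⟨ht.1, by linarith [ht.2]⟩
    have l := hT.left htI
    have d : dist (T t₀) (T t) = (t₀ - t) * D := by
      rw [hT.dist_T t₀ hm0 t htI, abs_of_nonneg (by linarith [ht.2])]
    have := T_near_end L hp h hW (p := T t) (s := (t₀ - t) / t₀)
      (by rw [l, dist_comm (T t) (T t₀), d, hxp]; ring) (by rw [d]; exact htr)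
      (by rw [d, hxp]; field_simp)
    rw [this]
    congr 2
    ring
  have ev1 : ∀ᶠ t in 𝓝 t₀, t ∈ Ioo (0 : ℝ) 1 := Ioo_mem_nhds ht0 ht1
  have ev2 : ∀ᶠ t in 𝓝 t₀, |t - t₀| * D < L.r := by
    have : Tendsto (fun t : ℝ => |t - t₀| * D) (𝓝 t₀) (𝓝 (|t₀ - t₀| * D)) :=
      Continuous.tendsto (by fun_prop) t₀
    apply this.eventually (gt_mem_nhds _)
    rw [sub_self, abs_zero, zero_mul]; exact L.r_pos
  -- a fixed backward point
  obtain ⟨t', ht'0, ht'1, ht'r⟩ : ∃ t' : ℝ, 0 < t' ∧ t' < t₀ ∧ (t₀ - t') * D < L.r := by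
    have ev3 : ∀ᶠ t in 𝓝[<] t₀, t ∈ Ioo (0 : ℝ) 1 ∧ |t - t₀| * D < L.r :=
      mem_nhdsWithin_of_mem_nhds (ev1.and ev2)
    obtain ⟨t', ⟨h1, h2⟩, h3⟩ := (ev3.and self_mem_nhdsWithin).exists
    have h3' : t' < t₀ := h3
    refine ⟨t', h1.1, h3', ?_⟩
    rwa [abs_of_neg (by linarith), neg_sub] at h2
  filter_upwards [ev1, ev2] with t h1 h2
  rcases lt_trichotomy t t₀ with hlt | heq | hgt
  · refine back t ⟨h1.1.le, hlt⟩ ?_
    rwa [abs_of_neg (by linarith), neg_sub] at h2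
  · subst heq
    rw [sub_self, zero_div, zero_smul, L.e_zero _ hp]
  · have htI : t ∈ Icc (0 : ℝ) 1 := ⟨h1.1.le, h1.2.le⟩
    have ht'I : t' ∈ Icc (0 : ℝ) 1 := ⟨ht'0.le, by linarith⟩
    have hb := back t' ⟨ht'0.le, ht'1⟩ ht'r
    rw [abs_of_pos (by linarith)] at h2
    have da : dist (T t₀) (T t) = (t - t₀) * D := by
      rw [hT.dist_T t₀ hm0 t htI, abs_of_neg (by linarith)]; ring
    have db : dist (T t₀) (T t') = (t₀ - t') * D := by
      rw [hT.dist_T t₀ hm0 t' ht'I, abs_of_pos (by linarith)]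
    have dab : dist (T t) (T t') = (t - t') * D := by
      rw [hT.dist_T t htI t' ht'I, abs_of_pos (by linarith)]
    obtain ⟨u, hu, hue⟩ := L.surj (T t₀) hp (T t) (by rw [da]; exact h2)
    -- norm of `W`
    obtain ⟨v, hv, hve⟩ := L.surj (T t₀) hp (T t') (by rw [db]; exact ht'r)
    have hpb : 0 < dist (T t₀) (T t') := by rw [db]; exact mul_pos (by linarith) hD
    have hpa : 0 < dist (T t₀) (T t) := by rw [da]; exact mul_pos (by linarith) hD
    have hg := LN_grad L hp h (x := x) (c := T t') (by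
      rw [hT.left ht'I, dist_comm (T t') (T t₀), db, hxp]; ring) hv (by rw [hv, db]; exact ht'r) hve hpb
    have hWv : W = -(dist x (T t₀) / dist (T t₀) (T t')) • v := by
      refine ext_inner_right ℝ (fun ξ => ?_)
      rw [← hW ξ, hg ξ, real_inner_smul_left]
    have hopp := LN_opp L hp (a := T t) (b := T t') (by rw [da]; exact h2)
      (by rw [db]; exact ht'r) hpa hpb (by rw [dist_comm (T t) (T t₀), da, db, dab]; ring) hu hue hv hve
    have hu2 : u = -(dist (T t₀) (T t) / dist (T t₀) (T t')) • v := by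
      have := congrArg (fun y => dist (T t₀) (T t) • y) hopp
      simp only [smul_smul, mul_inv_cancel₀ hpa.ne', one_smul, smul_neg] at this
      rw [this, neg_smul, div_eq_mul_inv]
    rw [← hue, hu2, hWv, smul_smul, da, db, hxp]
    congr 2
    have : t₀ - t' ≠ 0 := by linarith
    field_simp

/-- **derivative of `φ` along a minimiser at an interior time** -/
theorem deriv_mid {x₀ : M} (L : LocalNear n M x₀) {x z : M} {T : ℝ → M} (hT : Seg x z T)
    (hxz : x ≠ z) {t₀ : ℝ} (ht0 : 0 < t₀) (ht1 : t₀ < 1) (hp : T t₀ ∈ L.W)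
    (h : SC n (T t₀) x) {W : TangentSpace (𝓡 n) (T t₀)}
    (hW : ∀ ξ : TangentSpace (𝓡 n) (T t₀),
      dL n (fun q => halfDistSq q x) (T t₀) ξ = inner ℝ W ξ)
    {φ : M → ℝ} (hφ : MDifferentiableAt (𝓡 n) 𝓘(ℝ) φ (T t₀)) :
    HasDerivAt (fun t => φ (T t)) (dL n φ (T t₀) W / t₀) t₀ := by
  have h1 := hasDerivAt_e L hp W hφ
  have h1' : HasDerivAt (fun s : ℝ => φ (L.e (T t₀) (s • W))) (dL n φ (T t₀) W)
      ((fun t : ℝ => (t - t₀) / t₀) t₀) := by
    simpa using h1
  have h2 : HasDerivAt (fun t : ℝ => (t - t₀) / t₀) (1 / t₀) t₀ :=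
    ((hasDerivAt_id t₀).sub_const t₀).div_const t₀
  have h3 := HasDerivAt.comp (h₂ := fun s : ℝ => φ (L.e (T t₀) (s • W)))
    (h := fun t : ℝ => (t - t₀) / t₀) t₀ h1' h2
  rw [mul_one_div] at h3
  refine h3.congr_of_eventuallyEq ?_
  filter_upwards [T_near_mid L hT hxz ht0 ht1 hp h hW] with t ht
  simp only [Function.comp_apply, ht]

/-- **right derivative of `φ` along a minimiser at its beginning** -/
theorem deriv_start {x₀ : M} (L : LocalNear n M x₀) {x z : M} (hx : x ∈ L.W)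
    (h : SC n x z) {T : ℝ → M} (hT : Seg x z T) {W : TangentSpace (𝓡 n) x}
    (hW : ∀ ξ : TangentSpace (𝓡 n) x, dL n (fun q => halfDistSq q z) x ξ = inner ℝ W ξ)
    {φ : M → ℝ} (hφ : MDifferentiableAt (𝓡 n) 𝓘(ℝ) φ x) :
    HasDerivWithinAt (fun t => φ (T t)) (-dL n φ x W) (Ici 0) 0 := by
  have h1 := deriv_end L hx h hT.rev hW hφ
  have h1' : HasDerivWithinAt (fun t => φ (T (1 - t))) (dL n φ x W) (Iic 1)
      ((fun t : ℝ => 1 - t) 0) := by simpa using h1
  have h2 : HasDerivWithinAt (fun t : ℝ => 1 - t) (-1) (Ici 0) 0 :=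
    ((hasDerivAt_id (0 : ℝ)).const_sub 1).hasDerivWithinAt
  have h3 := HasDerivWithinAt.comp (h₂ := fun t => φ (T (1 - t))) (h := fun t : ℝ => 1 - t)
    (s := Ici 0) (s' := Iic 1) (0 : ℝ) h1' h2 (by
      intro t ht
      have : (0 : ℝ) ≤ t := ht
      simp only [mem_Iic]; linarith)
  rw [mul_neg_one] at h3
  refine h3.congr_of_eventuallyEq ?_ ?_
  · filter_upwards with t
    simp
  · simp

variable [IsContMDiffRiemannianBundle (𝓡 n) ∞ (EuclideanSpace ℝ (Fin n))
    (fun p : M => TangentSpace (𝓡 n) p)]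

/-- derivative of a short geodesic read in a chart -/
theorem chart_e {x₀ : M} (L : LocalNear n M x₀) {z : M} (hz : z ∈ L.W)
    (W : TangentSpace (𝓡 n) z) (c : M) (hc : z ∈ (chartAt (EuclideanSpace ℝ (Fin n)) c).source) :
    HasDerivAt (fun s : ℝ => chartAt (EuclideanSpace ℝ (Fin n)) c (L.e z (s • W)))
      (dC c z W) 0 := by
  obtain ⟨ε, hε, hεr⟩ := exists_scale W L.r_pos
  have h0 : L.e z ((0 : ℝ) • (ε • W)) = z := by rw [zero_smul, L.e_zero z hz]
  have h1 := hasDerivAt_chart (n := n) c (γ := fun t : ℝ => L.e z (t • (ε • W)))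
    (t := 0) (mdiff_e L hz _) (by simpa only [h0] using hc)
  have hv : (dC c (L.e z ((0 : ℝ) • (ε • W)))
      (curveVel n (fun t : ℝ => L.e z (t • (ε • W))) 0) : EuclideanSpace ℝ (Fin n)) =
      dC c z (ε • W) :=
    (Crest.Agent.R226.LocalNearThm996.dC_congr c h0 _).trans
      (congrArg (fun u => (dC c z u : EuclideanSpace ℝ (Fin n))) (L.vel_zero z hz _ hεr))
  have h1a : HasDerivAt (fun t : ℝ => chartAt (EuclideanSpace ℝ (Fin n)) c (L.e z (t • (ε • W))))
      (dC c z (ε • W) : EuclideanSpace ℝ (Fin n)) 0 := by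
    rw [← hv]; exact h1
  have h2 : HasDerivAt (fun s : ℝ => s / ε) (1 / ε) 0 := (hasDerivAt_id (0 : ℝ)).div_const ε
  have h1' : HasDerivAt (fun t : ℝ => chartAt (EuclideanSpace ℝ (Fin n)) c (L.e z (t • (ε • W))))
      (dC c z (ε • W) : EuclideanSpace ℝ (Fin n)) ((fun s : ℝ => s / ε) 0) := by simpa using h1a
  have h3 := HasDerivAt.scomp
    (g₁ := fun t : ℝ => chartAt (EuclideanSpace ℝ (Fin n)) c (L.e z (t • (ε • W))))
    (h := fun s : ℝ => s / ε) (0 : ℝ) h1' h2
  have e1 : (fun t : ℝ => chartAt (EuclideanSpace ℝ (Fin n)) c (L.e z (t • (ε • W)))) ∘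
      (fun s : ℝ => s / ε) =
      fun s : ℝ => chartAt (EuclideanSpace ℝ (Fin n)) c (L.e z (s • W)) := by
    funext s
    simp only [Function.comp_apply, smul_smul]
    congr 3
    field_simp
  rw [e1] at h3
  have e2 : (1 / ε) • (dC c z (ε • W) : EuclideanSpace ℝ (Fin n)) = dC c z W := by
    have h5 : (dC c z (ε • W) : EuclideanSpace ℝ (Fin n)) = ε • (dC c z W) := map_smul _ _ _
    rw [h5, smul_smul, one_div, inv_mul_cancel₀ hε.ne', one_smul]
  rwa [e2] at h3

/-- left velocity at the end, read in a chart -/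
theorem chart_end {x₀ : M} (L : LocalNear n M x₀) {x z : M} (hz : z ∈ L.W)
    (h : SC n z x) {T : ℝ → M} (hT : Seg x z T) {W : TangentSpace (𝓡 n) z}
    (hW : ∀ ξ : TangentSpace (𝓡 n) z, dL n (fun q => halfDistSq q x) z ξ = inner ℝ W ξ)
    (c : M) (hc : z ∈ (chartAt (EuclideanSpace ℝ (Fin n)) c).source) :
    HasDerivWithinAt (fun t => chartAt (EuclideanSpace ℝ (Fin n)) c (T t))
      (dC c z W : EuclideanSpace ℝ (Fin n)) (Iic 1) 1 := by
  have h1 := chart_e L hz W c hc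
  have h1' : HasDerivAt (fun s : ℝ => chartAt (EuclideanSpace ℝ (Fin n)) c (L.e z (s • W)))
      (dC c z W : EuclideanSpace ℝ (Fin n)) ((fun t : ℝ => t - 1) 1) := by
    simpa using h1
  have h2 : HasDerivAt (fun t : ℝ => t - 1) 1 1 := (hasDerivAt_id (1 : ℝ)).sub_const 1
  have h3 := (HasDerivAt.scomp
    (g₁ := fun s : ℝ => chartAt (EuclideanSpace ℝ (Fin n)) c (L.e z (s • W)))
    (h := fun t : ℝ => t - 1) (1 : ℝ) h1' h2).hasDerivWithinAt (s := Iic 1)
  rw [one_smul] at h3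
  refine h3.congr_of_eventuallyEq ?_ ?_
  · filter_upwards [hasDerivWithinAt_end L hz h hT hW] with t ht
    simp only [Function.comp_apply, ht]
  · simp only [Function.comp_apply, sub_self, zero_smul, L.e_zero z hz, hT.one]

/-- velocity at an interior time, read in a chart -/
theorem chart_mid {x₀ : M} (L : LocalNear n M x₀) {x z : M} {T : ℝ → M} (hT : Seg x z T)
    (hxz : x ≠ z) {t₀ : ℝ} (ht0 : 0 < t₀) (ht1 : t₀ < 1) (hp : T t₀ ∈ L.W)
    (h : SC n (T t₀) x) {W : TangentSpace (𝓡 n) (T t₀)}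
    (hW : ∀ ξ : TangentSpace (𝓡 n) (T t₀),
      dL n (fun q => halfDistSq q x) (T t₀) ξ = inner ℝ W ξ)
    (c : M) (hc : T t₀ ∈ (chartAt (EuclideanSpace ℝ (Fin n)) c).source) :
    HasDerivAt (fun t => chartAt (EuclideanSpace ℝ (Fin n)) c (T t))
      ((1 / t₀) • (dC c (T t₀) W : EuclideanSpace ℝ (Fin n))) t₀ := by
  have h1 := chart_e L hp W c hc
  have h1' : HasDerivAt (fun s : ℝ => chartAt (EuclideanSpace ℝ (Fin n)) c (L.e (T t₀) (s • W)))
      (dC c (T t₀) W : EuclideanSpace ℝ (Fin n)) ((fun t : ℝ => (t - t₀) / t₀) t₀) := by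
    simpa using h1
  have h2 : HasDerivAt (fun t : ℝ => (t - t₀) / t₀) (1 / t₀) t₀ :=
    ((hasDerivAt_id t₀).sub_const t₀).div_const t₀
  have h3 := HasDerivAt.scomp
    (g₁ := fun s : ℝ => chartAt (EuclideanSpace ℝ (Fin n)) c (L.e (T t₀) (s • W)))
    (h := fun t : ℝ => (t - t₀) / t₀) t₀ h1' h2
  refine h3.congr_of_eventuallyEq ?_
  filter_upwards [T_near_mid L hT hxz ht0 ht1 hp h hW] with t ht
  simp only [Function.comp_apply, ht]

end

end Crest.Agent.R247.Rdg879
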