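import Crest.Agent.R247.GluM3_923
import Crest.Agent.R247.Scal4_386

/-!
# R247, chain file (2): rescaling of `GlueData`

`glueData_of_scaled : 1 ≤ b → GlueDataT b n → GlueData n` (`GlueDataT b n` is
`GluM923.GlueData n` with the volume pinching hypothesis for all radii `r ≤ b` instead of `r ≤ 1`),
by applying the hypothesis to the manifold with the distance `b * dist`.
-/

set_option autoImplicit false
noncomputable section
open Set Filter Topology MeasureTheory Metric
open scoped ContDiff Manifold ENNReal NNReal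
open Bundle Crest.GeometryTopology.CoordMetric Crest.GeometryTopology.ChartCurvature
  Crest.GeometryTopology.PointedLimit

namespace Crest.Agent.R247.Skel656

open Crest.Agent.R247.GluM923 Crest.Agent.R247.Scal386

universe u

/-- change of scale in `GlueOn`: the distance of `X` is `b` times the distance of `M`. -/
theorem GlueOn.scale {M X H : Type*} [MetricSpace M] [MetricSpace X] [NormedAddCommGroup H]
    [InnerProductSpace ℝ H] {n : ℕ} {Ψ : X → H} {P : ℕ → X → H →L[ℝ] H} {D : ℕ → X → ℝ}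
    {S : Set X} {R C c η b : ℝ} (hb : 0 < b) (e : M → X)
    (he : ∀ x y, dist (e x) (e y) = b * dist x y) (h : GlueOn n Ψ P D S R C c η) :
    GlueOn n (fun x => b⁻¹ • Ψ (e x)) (fun k x => P k (e x)) (fun k x => D k (e x)) (e ⁻¹' S)
      (R / b) C c η := by
  have hb' : 0 ≤ b⁻¹ := by positivity
  have hn : ∀ x y, ‖b⁻¹ • Ψ (e x) - b⁻¹ • Ψ (e y)‖ = b⁻¹ * ‖Ψ (e x) - Ψ (e y)‖ := by
    intro x y
    rw [← smul_sub, norm_smul, Real.norm_eq_abs, abs_of_nonneg hb']
  have hR : ∀ k : ℕ, ∀ x y, dist x y ≤ 8 * (R / b / 2 ^ k) → dist (e x) (e y) ≤ 8 * (R / 2 ^ k) := by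
    intro k x y hxy
    rw [he]
    calc b * dist x y ≤ b * (8 * (R / b / 2 ^ k)) := by gcongr
      _ = 8 * (R / 2 ^ k) := by field_simp
  refine ⟨?_, ?_, ?_, ?_, ?_, ?_, ?_, ?_, ?_⟩
  · intro x hx y hy
    rw [hn]
    have := h.Ψ_le _ hx _ hy
    rw [he] at this
    calc b⁻¹ * ‖Ψ (e x) - Ψ (e y)‖ ≤ b⁻¹ * (b * dist x y) := by gcongr
      _ = dist x y := by field_simp
  · intro x hx y hy
    rw [hn]
    have := h.near _ hx _ hy
    rw [he] at this
    have h1 : c * (b⁻¹ * ‖Ψ (e x) - Ψ (e y)‖) - dist x y =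
        b⁻¹ * (c * ‖Ψ (e x) - Ψ (e y)‖ - b * dist x y) := by field_simp
    rw [h1, abs_mul, abs_of_nonneg hb']
    calc b⁻¹ * |c * ‖Ψ (e x) - Ψ (e y)‖ - b * dist x y| ≤ b⁻¹ * (η * (b * dist x y)) := by gcongr
      _ = η * dist x y := by field_simp
  · intro k hk x hx
    exact h.D_nonneg k hk _ hx
  · intro x hx m
    exact h.D_sum _ hx m
  · intro k hk x hx
    exact h.proj k hk _ hx
  · intro x hx
    exact h.rank _ hx
  · intro k hk x hx y hy hxy
    have h1 := h.A1 k hk _ hx _ hy (hR k x y hxy)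
    have h2 : (1 - P k (e x)) (b⁻¹ • Ψ (e y) - b⁻¹ • Ψ (e x)) =
        b⁻¹ • (1 - P k (e x)) (Ψ (e y) - Ψ (e x)) := by
      rw [← smul_sub, map_smul]
    rw [h2, norm_smul, Real.norm_eq_abs, abs_of_nonneg hb']
    calc b⁻¹ * ‖(1 - P k (e x)) (Ψ (e y) - Ψ (e x))‖
        ≤ b⁻¹ * (C * (Real.sqrt (D k (e x)) + Real.sqrt (D k (e y))) * (R / 2 ^ k)) := by gcongr
      _ = C * (Real.sqrt (D k (e x)) + Real.sqrt (D k (e y))) * (R / b / 2 ^ k) := by
          field_simp
  · intro k hk x hx y hy hxy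
    exact h.A2 k hk _ hx _ hy (hR k x y hxy)
  · intro k hk x hx
    exact h.A3 k hk _ hx

/-- **Rescaling**: it is enough to prove `GlueData` with pinching for all radii `r ≤ b`. -/
theorem glueData_of_scaled {b : ℝ} (hb : 1 ≤ b) {n : ℕ} (h : GlueDataT.{u} b n) :
    GlueData.{u} n := by
  have hb0 : 0 < b := by linarith
  obtain ⟨C, hC, c, hc, h⟩ := h
  refine ⟨C, hC, c, hc, fun η hη => ?_⟩
  obtain ⟨R, hR, hR1, R₀, hR₀, δ, hδ, H⟩ := h η hη
  refine ⟨R / b, by positivity, ?_, R₀, hR₀, δ, hδ, ?_⟩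
  · rw [div_le_one hb0]; linarith
  intro M _ _ _ _ _ _ _ _ _ _ q hRic hvol
  set r : {r : ℝ // 0 < r} := ⟨b⁻¹, by positivity⟩ with hr
  have hd : ∀ x y : M, dist (toSc r x) (toSc r y) = b * dist x y := by
    intro x y
    rw [dist_toSc]
    simp only [hr, inv_inv]
  have hRic' : HasRicciLowerBound n (Sc r M) (-δ) := by
    refine ricciLB_mono (ricciLB_sc r hRic) ?_
    have h1 : r.1 ^ 2 ≤ 1 := by
      have h2 : b⁻¹ ≤ 1 := inv_le_one_of_one_le₀ hb
      have h3 : 0 ≤ b⁻¹ := by positivity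
      simp only [hr]
      nlinarith
    nlinarith
  have hvol' : ∀ x ∈ ball (toSc r q) R₀, ∀ s : ℝ, 0 < s → s ≤ b →
      ENNReal.ofReal (1 - δ) * volume (ball (0 : EuclideanSpace ℝ (Fin n)) s) ≤
        Measure.euclideanHausdorffMeasure n (ball x s) := by
    intro x hx s hs hsb
    have hx' : ofSc r x ∈ ball q R₀ := by
      have h1 : dist x (toSc r q) < R₀ := hx
      have h2 : dist x (toSc r q) = b * dist (ofSc r x) q := hd (ofSc r x) q
      rw [mem_ball]
      have h3 : 0 ≤ dist (ofSc r x) q := dist_nonneg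
      nlinarith
    have hs1 : r.1 * s ≤ 1 := by
      simp only [hr]
      rw [inv_mul_le_iff₀ hb0]
      linarith
    have hrs : 0 < r.1 * s := mul_pos r.2 hs
    have h1 := hvol (ofSc r x) hx' (r.1 * s) hrs hs1
    have h2 := muHE_sc r n (ball (ofSc r x) (r.1 * s))
    rw [ball_sc] at h2
    have h3 : toSc r (ofSc r x) = x := rfl
    rw [h3] at h2
    have h4 := h1.trans h2
    have h5 : volume (ball (0 : EuclideanSpace ℝ (Fin n)) (r.1 * s)) =
        ENNReal.ofReal (r.1 ^ n) * volume (ball (0 : EuclideanSpace ℝ (Fin n)) s) := by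
      rw [Asm951.volume_ball_scale _ hrs, Asm951.volume_ball_scale _ hs, mul_pow,
        ENNReal.ofReal_mul (by have := r.2; positivity), mul_assoc]
    rw [h5, mul_left_comm] at h4
    have h6 : ENNReal.ofReal (r.1 ^ n) ≠ 0 := by
      have := r.2
      rw [Ne, ENNReal.ofReal_eq_zero, not_le]
      positivity
    exact (ENNReal.mul_le_mul_iff_right h6 ENNReal.ofReal_ne_top).1 h4
  obtain ⟨H', i1, i2, i3, Ψ, P, D, hG⟩ := H (Sc r M) (toSc r q) hRic' hvol'
  have h1 := GlueOn.scale hb0 (toSc r : M → Sc r M) hd hG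
  have h2 : (toSc r ⁻¹' ball (toSc r q) (R / 2) : Set M) = ball q (R / b / 2) := by
    ext x
    rw [mem_preimage, mem_ball, mem_ball, hd, ← lt_div_iff₀' hb0,
      show R / b / 2 = R / 2 / b by ring]
  rw [h2] at h1
  exact ⟨H', i1, i2, i3, _, _, _, h1⟩

end Crest.Agent.R247.Skel656
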