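import Crest.Agent.R247.Lim4_386
import Crest.Agent.R247.Sk2_656
import Crest.Agent.R247.Far0_553

/-!
# R247, official chain file (helper656): S0381 from the open literal Props

* `RAD n` : every complete `n`-manifold with `Ric ≥ -κ` carries 688's structure `Rad n κ`;
* `bgr_of_rad : RAD n → Asm951.BGr n`;
* `s0381_of` : the literal statement of S0381 from `VC`, `RAD`, `GlueDataT 40`.
-/

set_option autoImplicit false
noncomputable section
open Set Filter Topology MeasureTheory Metric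
open scoped ContDiff Manifold ENNReal NNReal
open Bundle Crest.GeometryTopology.CoordMetric Crest.GeometryTopology.ChartCurvature
  Crest.GeometryTopology.PointedLimit

namespace Crest.Agent.R247.Skel656

open Crest.Agent.R247.Mcp688

universe u

/-- **Radial contractions on manifolds** (816, 688, 879, 582, 322, 216). -/
def RAD (n : ℕ) : Prop := ∀ κ : ℝ, 0 ≤ κ →
  ∀ (M : Type u) [MetricSpace M] [CompleteSpace M] [ConnectedSpace M]
    [ChartedSpace (EuclideanSpace ℝ (Fin n)) M]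
    [IsManifold 𝓘(ℝ, EuclideanSpace ℝ (Fin n)) ∞ M]
    [RiemannianBundle (fun x : M => TangentSpace 𝓘(ℝ, EuclideanSpace ℝ (Fin n)) x)]
    [IsContMDiffRiemannianBundle 𝓘(ℝ, EuclideanSpace ℝ (Fin n)) ∞ (EuclideanSpace ℝ (Fin n))
      (fun x : M => TangentSpace 𝓘(ℝ, EuclideanSpace ℝ (Fin n)) x)]
    [IsRiemannianManifold 𝓘(ℝ, EuclideanSpace ℝ (Fin n)) M]
    [MeasurableSpace M] [BorelSpace M],
    HasRicciLowerBound n M (-κ) →
    Nonempty (Rad n κ M (Measure.euclideanHausdorffMeasure n : Measure M))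

theorem bgr_of_rad {n : ℕ} (h : RAD.{u} n) : Asm951.BGr.{u} n := by
  intro δ hδ M _ _ _ _ _ _ _ _ _ _ x r R hRic hr hrR
  obtain ⟨C⟩ := h δ hδ M hRic
  exact C.mu_ball_le hδ x hr hrR

/-- **S0381** from the three open Props. -/
theorem s0381_of (n : ℕ) (hVC : Asm951.VC.{u} n) (hR : RAD.{u} n) (hG : GluM923.GlueDataT.{u} 40 n) :
    ∃ L : ℝ, 1 ≤ L ∧
      ∀ (K : ℝ) (M : ℕ → Type u) [∀ k, MetricSpace (M k)] [∀ k, CompleteSpace (M k)]
        [∀ k, ConnectedSpace (M k)] [∀ k, ChartedSpace (EuclideanSpace ℝ (Fin n)) (M k)]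
        [∀ k, IsManifold 𝓘(ℝ, EuclideanSpace ℝ (Fin n)) ∞ (M k)]
        [∀ k, RiemannianBundle (fun x : M k => TangentSpace 𝓘(ℝ, EuclideanSpace ℝ (Fin n)) x)]
        [∀ k, IsContMDiffRiemannianBundle 𝓘(ℝ, EuclideanSpace ℝ (Fin n)) ∞ (EuclideanSpace ℝ (Fin n))
          (fun x : M k => TangentSpace 𝓘(ℝ, EuclideanSpace ℝ (Fin n)) x)]
        [∀ k, IsRiemannianManifold 𝓘(ℝ, EuclideanSpace ℝ (Fin n)) (M k)]
        [∀ k, MeasurableSpace (M k)] [∀ k, BorelSpace (M k)] (q : ∀ k, M k),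
        (∀ k, HasRicciLowerBound n (M k) K) →
        (∃ v : ℝ, 0 < v ∧ ∀ k, ENNReal.ofReal v ≤
          MeasureTheory.Measure.euclideanHausdorffMeasure n (Metric.ball (q k) 1)) →
        ∀ (X : Type u) [MetricSpace X] [CompleteSpace X] (p : X),
          SeqPointedTendsto q p → RescalingsTendstoEuclidean p n →
          ∃ U : Set X, IsOpen U ∧ p ∈ U ∧ ∃ F : X → EuclideanSpace ℝ (Fin n), IsOpen (F '' U) ∧
            ∀ x ∈ U, ∀ z ∈ U, L⁻¹ * dist x z ≤ dist (F x) (F z) ∧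
              dist (F x) (F z) ≤ L * dist x z :=
  Lim386.result_of_parts n hVC (bgr_of_rad hR)
    (GluM923.eff2_of_glueData (bgr_of_rad hR) (glueData_of_scaled (by norm_num) hG))

end Crest.Agent.R247.Skel656
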