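import Crest.Agent.R247.Sm1_879
import Crest.Agent.R226.ChartCost_77
import Crest.Agent.R226.CutSmooth_77
import Crest.Agent.R226.NearDiagFinal_996

/-!
R247 (helper879), block (6b), file 2: local facts near the diagonal, without compactness.
-/

set_option autoImplicit false
set_option maxSynthPendingDepth 3
set_option linter.unusedSectionVars false

open Bundle Set Filter Topology
open scoped Manifold ContDiff
open Crest.GeometryTopology.MTW Crest.Agent.R244 Crest.Agent.R226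
open Crest.Agent.R226.DiffAE225 Crest.Agent.R226.EucMin77 Crest.Agent.R226.MTWConc117
open Crest.Agent.R226.ChartCost77 Crest.Agent.R226.Index77
open Crest.Agent.R226.NearLem90 (dL halfDistSq_comm)
open Crest.Agent.R226.NearDiagThm996 Crest.Agent.R226.LocalNearThm996
open Crest.Agent.R226.NearDiagFinal996 Crest.Agent.R226.ChartMet842 Crest.Agent.R226.GeoLoc577
open Crest.Agent.R226.CutSmooth77 (SC three_point)

namespace Crest.Agent.R247.Sm879

section
variable {n : ℕ} {M : Type*} [MetricSpace M] [ChartedSpace (EuclideanSpace ℝ (Fin n)) M]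
  [IsManifold (𝓡 n) ∞ M]
  [RiemannianBundle (fun p : M => TangentSpace (𝓡 n) p)]

omit [IsManifold (𝓡 n) ∞ M] in
/-- the differential read in the chart centred at the point -/
theorem hasFDerivAt_chart {f : M → ℝ} {z : M} (hf : MDifferentiableAt (𝓡 n) 𝓘(ℝ) f z) :
    HasFDerivAt (𝕜 := ℝ) (E := EE n) (F := ℝ)
      (fun a : EE n => f ((extChartAt (𝓡 n) z).symm a)) (dL n f z) (o z) := by
  have h0 := hf.hasMFDerivAt.2
  simp only [writtenInExtChartAt, extChartAt_model_space_eq_id, PartialEquiv.refl_coe,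
    Function.id_comp, modelWithCornersSelf_coe, range_id] at h0
  exact hasFDerivWithinAt_univ.1 h0

/-- a smooth cost gives a differentiable slice -/
theorem mdiff_left {x y : M} (h : SC n x y) :
    MDifferentiableAt (𝓡 n) 𝓘(ℝ) (fun x' : M => halfDistSq x' y) x := by
  have h2 : ContMDiffAt (𝓡 n) ((𝓡 n).prod (𝓡 n)) ∞ (fun x' : M => (x', y)) x :=
    contMDiffAt_id.prodMk contMDiffAt_const
  have h1 : ContMDiffAt ((𝓡 n).prod (𝓡 n)) 𝓘(ℝ) ∞ (fun q : M × M => halfDistSq q.1 q.2)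
    ((fun x' : M => (x', y)) x) := h
  exact (h1.comp x h2).mdifferentiableAt (by simp)

/-- first partial derivative of the cost read in charts -/
theorem fderiv_cc_dL {z y : M} {b : EE n} (hd : DifferentiableAt ℝ (cc (n := n) z y) (o z, b))
    (hs : SC n z ((extChartAt (𝓡 n) y).symm b)) (ξ : TangentSpace (𝓡 n) z) :
    fderiv ℝ (cc (n := n) z y) (o z, b) ((ξ : EE n), (0 : EE n)) =
      dL n (fun x' => halfDistSq x' ((extChartAt (𝓡 n) y).symm b)) z ξ := by
  have h1 := hasFDerivAt_chart (n := n) (mdiff_left hs)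
  have h2 : HasFDerivAt (fun a : EE n => cc (n := n) z y (a, b))
      (fderiv ℝ (cc (n := n) z y) (o z, b) ∘L ContinuousLinearMap.inl ℝ (EE n) (EE n)) (o z) :=
    HasFDerivAt.comp (o z) (g := cc (n := n) z y) (f := fun a : EE n => (a, b))
      hd.hasFDerivAt (hasFDerivAt_prodMk_left (o z) b)
  have h3 := h2.unique h1
  exact congrArg (fun L : EE n →L[ℝ] ℝ => L (ξ : EE n)) h3

variable {x₀ : M} (L : LocalNear n M x₀)

theorem LN_dist {z : M} (hz : z ∈ L.W) {w : TangentSpace (𝓡 n) z} (hw : ‖w‖ < L.r) :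
    dist z (L.e z w) = ‖w‖ := by
  have := L.dist_eq z hz w hw 0 1 (by simp) (by simp)
  rw [zero_smul, one_smul, L.e_zero z hz] at this
  rw [this]; simp

theorem LN_sc {z y : M} (hz : z ∈ L.W) (h : dist z y < L.r) : SC n z y := L.smooth_cost z hz y h

/-- **nondegeneracy of the mixed Hessian near the diagonal** -/
theorem LN_nd {z y : M} (hz : z ∈ L.W) (h : dist z y < L.r) :
    ND (cc (n := n) z y) (o z, o y) := by
  have hs : ContDiffAt ℝ ∞ (cc (n := n) z y) (o z, o y) := cc_contDiffAt (LN_sc L hz h)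
  set f := cc (n := n) z y with hf
  have : FiniteDimensional ℝ (TangentSpace (𝓡 n) z) :=
    inferInstanceAs (FiniteDimensional ℝ (EE n))
  obtain ⟨w, hw, hwy⟩ := L.surj z hz y h
  have hwr : ‖w‖ < L.r := by rw [hw]; exact h
  obtain ⟨e, he⟩ := exists_riesz (n := n) z
  let ec' : (EE n →L[ℝ] ℝ) →L[ℝ] TangentSpace (𝓡 n) z :=
    LinearMap.toContinuousLinearMap e.symm.toLinearMap
  let cl : ((EE n × EE n) →L[ℝ] ℝ) →L[ℝ] (EE n →L[ℝ] ℝ) :=
    (ContinuousLinearMap.compL ℝ (EE n) (EE n × EE n) ℝ).flip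
      (ContinuousLinearMap.inl ℝ (EE n) (EE n))
  let W : EE n → TangentSpace (𝓡 n) z := fun b => -(ec' (cl (fderiv ℝ f (o z, b))))
  let D2 := fderiv ℝ (fderiv ℝ f) (o z, o y)
  let W' : EE n →L[ℝ] TangentSpace (𝓡 n) z :=
    -(ec' ∘L cl ∘L D2 ∘L ContinuousLinearMap.inr ℝ (EE n) (EE n))
  have h1 : HasFDerivAt (fderiv ℝ f) D2 (o z, o y) :=
    ((hs.fderiv_right (m := ∞) (by simp)).differentiableAt (by simp)).hasFDerivAt
  have h2 : HasFDerivAt (fun b : EE n => ((o z : EE n), b))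
      (ContinuousLinearMap.inr ℝ (EE n) (EE n)) (o y) := hasFDerivAt_prodMk_right _ _
  have h3 : HasFDerivAt (fun b : EE n => fderiv ℝ f (o z, b))
      (D2 ∘L ContinuousLinearMap.inr ℝ (EE n) (EE n)) (o y) := h1.comp (o y) h2
  have hW : HasFDerivAt W W' (o y) :=
    (ec'.hasFDerivAt.comp (o y) (cl.hasFDerivAt.comp (o y) h3)).neg
  have hW1 : ∀ b, DifferentiableAt ℝ f (o z, b) →
      dist z ((extChartAt (𝓡 n) y).symm b) < L.r → ∀ w' : TangentSpace (𝓡 n) z, ‖w'‖ < L.r →
      L.e z w' = (extChartAt (𝓡 n) y).symm b → W b = w' := by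
    intro b hb hbr w' hw' hwb
    have h5 : e w' = -(cl (fderiv ℝ f (o z, b))) := by
      ext ξ
      rw [he w' ξ]
      have h6 := fderiv_cc_dL hb (LN_sc L hz hbr) ξ
      rw [← hwb] at h6
      have h7 := L.grad z hz w' hw' ξ
      show _ = -(fderiv ℝ f (o z, b) (ξ, 0))
      rw [h6, h7, neg_neg]
    have h6 : w' = e.symm (-(cl (fderiv ℝ f (o z, b)))) := by
      rw [← h5, LinearEquiv.symm_apply_apply]
    rw [h6, map_neg]
    rfl
  have hdiff : ∀ᶠ b in 𝓝 (o (n := n) y), DifferentiableAt ℝ f (o z, b) := by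
    have h7 : ∀ᶠ p in 𝓝 ((o z : EE n), (o y : EE n)), DifferentiableAt ℝ f p := by
      have := (hs.of_le (m := 1) (by exact_mod_cast le_top)).eventually (by simp)
      filter_upwards [this] with x hx using hx.differentiableAt (by simp)
    have h8 : Tendsto (fun b : EE n => ((o z : EE n), b)) (𝓝 (o y))
        (𝓝 ((o z : EE n), (o y : EE n))) :=
      (Continuous.prodMk_right (o z)).tendsto _
    exact h8.eventually h7
  have hdist : ∀ᶠ b in 𝓝 (o (n := n) y), dist z ((extChartAt (𝓡 n) y).symm b) < L.r := by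
    have h7 : Tendsto (fun b : EE n => dist z ((extChartAt (𝓡 n) y).symm b)) (𝓝 (o y))
        (𝓝 (dist z y)) := tendsto_const_nhds.dist (tendsto_symm y)
    exact h7.eventually (gt_mem_nhds h)
  have hWw : W (o y) = w := by
    apply hW1 (o y) hdiff.self_of_nhds hdist.self_of_nhds w hwr
    rw [symm_o]; exact hwy
  have hid : (fun b => extChartAt (𝓡 n) y (L.e z (W b))) =ᶠ[𝓝 (o y)] fun b => b := by
    filter_upwards [hdiff, hdist, target_mem (n := n) y] with b hb hbr hbt
    obtain ⟨w', hw'n, hw'⟩ := L.surj z hz _ hbr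
    rw [hW1 b hb hbr w' (by rw [hw'n]; exact hbr) hw']
    rw [hw', (extChartAt (𝓡 n) y).right_inv hbt]
  have hecs : ContDiffAt ℝ ∞ (fun u : TangentSpace (𝓡 n) z => extChartAt (𝓡 n) y (L.e z u)) w := by
    rw [← contMDiffAt_iff_contDiffAt]
    have h7 : ContMDiffAt 𝓘(ℝ, TangentSpace (𝓡 n) z) (𝓡 n) ∞ (L.e z) w := by
      have h8 := L.smooth (⟨z, w⟩ : TangentBundle (𝓡 n) M) hz hwr
      exact ContMDiffAt.comp w (g := fun p : TangentBundle (𝓡 n) M => L.e p.1 p.2)
        (f := fun u : TangentSpace (𝓡 n) z => (⟨z, u⟩ : TangentBundle (𝓡 n) M)) h8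
        ((contMDiff_fiber z).contMDiffAt)
    have h9 : ContMDiffAt (𝓡 n) 𝓘(ℝ, EE n) ∞ (extChartAt (𝓡 n) y) (L.e z w) := by
      rw [hwy]; exact contMDiffAt_extChartAt
    exact ContMDiffAt.comp w (g := extChartAt (𝓡 n) y) (f := L.e z) h9 h7
  have hec := (hecs.differentiableAt (by simp)).hasFDerivAt
  have hec' : HasFDerivAt (fun u : TangentSpace (𝓡 n) z => extChartAt (𝓡 n) y (L.e z u))
      (fderiv ℝ (fun u : TangentSpace (𝓡 n) z => extChartAt (𝓡 n) y (L.e z u)) w) (W (o y)) := by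
    rw [hWw]; exact hec
  have hcomp := hec'.comp (o y) hW
  have hidd : HasFDerivAt (fun b => extChartAt (𝓡 n) y (L.e z (W b)))
      (ContinuousLinearMap.id ℝ (EE n)) (o y) :=
    (hasFDerivAt_id (o y)).congr_of_eventuallyEq hid
  have huniq := hcomp.unique hidd
  apply ND.of_symm
  intro k hk
  have h9 : W' k = -(e.symm (cl (D2 (0, k)))) := rfl
  have h10 : cl (D2 (0, k)) = 0 := by
    ext ξ
    exact hk ξ
  have h11 := congrArg (fun L : EE n →L[ℝ] EE n => L k) huniq
  have h12 : fderiv ℝ (fun u : TangentSpace (𝓡 n) z => extChartAt (𝓡 n) y (L.e z u)) w (W' k) = k :=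
    h11
  rw [h9, h10, map_zero, neg_zero, map_zero] at h12
  exact h12.symm

/-- opposite directions -/
theorem LN_opp {y : M} (hy : y ∈ L.W) {a b : M} (ha : dist y a < L.r) (hb : dist y b < L.r)
    (ha0 : 0 < dist y a) (hb0 : 0 < dist y b) (h : dist a y + dist y b = dist a b)
    {w v : TangentSpace (𝓡 n) y} (hw : ‖w‖ = dist y a) (hwe : L.e y w = a)
    (hv : ‖v‖ = dist y b) (hve : L.e y v = b) :
    (dist y a)⁻¹ • w = -((dist y b)⁻¹ • v) := by
  set α := dist y a with hα
  set β := dist y b with hβ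
  have h1 := hasFDerivAt_chart (n := n) (mdiff_left (LN_sc L hy ha))
  have h2 := hasFDerivAt_chart (n := n) (mdiff_left (LN_sc L hy hb))
  have h3 := (h1.const_mul α⁻¹).add (h2.const_mul β⁻¹)
  have hmin : IsLocalMin (fun p : EE n => α⁻¹ * halfDistSq ((extChartAt (𝓡 n) y).symm p) a +
      β⁻¹ * halfDistSq ((extChartAt (𝓡 n) y).symm p) b) (o y) := by
    refine Filter.Eventually.of_forall fun p => ?_
    dsimp only
    rw [symm_o]
    set q := (extChartAt (𝓡 n) y).symm p
    unfold halfDistSq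
    have t1 : α + β ≤ dist q a + dist q b := by
      have := dist_triangle a q b
      rw [dist_comm a q] at this
      have h4 : dist a y = α := by rw [hα, dist_comm]
      linarith
    have e1 : α⁻¹ * (dist y a ^ 2 / 2) + β⁻¹ * (dist y b ^ 2 / 2) = (α + β) / 2 := by
      rw [← hα, ← hβ]; field_simp
    rw [e1]
    have e2 : α⁻¹ * (dist q a ^ 2 / 2) + β⁻¹ * (dist q b ^ 2 / 2) =
        (dist q a + dist q b) - (α + β) / 2 + (α⁻¹ * (dist q a - α) ^ 2 / 2 +
          β⁻¹ * (dist q b - β) ^ 2 / 2) := by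
      field_simp; ring
    rw [e2]
    have e3 : 0 ≤ α⁻¹ * (dist q a - α) ^ 2 / 2 + β⁻¹ * (dist q b - β) ^ 2 / 2 := by positivity
    linarith
  have h4 := hmin.hasFDerivAt_eq_zero h3
  have key : α⁻¹ • w + β⁻¹ • v = 0 := by
    refine ext_inner_right ℝ (fun ξ => ?_)
    have h5 := congrArg (fun L : EE n →L[ℝ] ℝ => L (ξ : EE n)) h4
    have h6 : α⁻¹ * dL n (fun x' => halfDistSq x' a) y ξ +
        β⁻¹ * dL n (fun x' => halfDistSq x' b) y ξ = 0 := h5
    have h7 := L.grad y hy w (by rw [hw]; exact ha) ξ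
    have h8 := L.grad y hy v (by rw [hv]; exact hb) ξ
    rw [hwe] at h7
    rw [hve] at h8
    rw [h7, h8] at h6
    rw [inner_add_left, real_inner_smul_left, real_inner_smul_left, inner_zero_left]
    linarith
  exact eq_neg_of_add_eq_zero_left key

/-- **local non-branching** -/
theorem LN_nb {y : M} (hy : y ∈ L.W) {a a' b : M} (ha : dist y a < L.r)
    (hb : dist y b < L.r) (hb0 : 0 < dist y b) (haa : dist y a = dist y a')
    (h : dist a y + dist y b = dist a b) (h' : dist a' y + dist y b = dist a' b) : a = a' := by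
  rcases eq_or_lt_of_le (dist_nonneg (x := y) (y := a)) with h0 | h0
  · have e1 : y = a := dist_eq_zero.1 h0.symm
    have e2 : y = a' := dist_eq_zero.1 (by rw [← haa]; exact h0.symm)
    rw [← e1, ← e2]
  · obtain ⟨w, hw, hwe⟩ := L.surj y hy a ha
    obtain ⟨w', hw', hwe'⟩ := L.surj y hy a' (by rw [← haa]; exact ha)
    obtain ⟨v, hv, hve⟩ := L.surj y hy b hb
    have k1 := LN_opp L hy ha hb h0 hb0 h hw hwe hv hve
    have k2 := LN_opp L hy (by rw [← haa]; exact ha) hb (by rw [← haa]; exact h0) hb0 h'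
      hw' hwe' hv hve
    rw [← haa] at k2
    have k3 : (dist y a)⁻¹ • w = (dist y a)⁻¹ • w' := by rw [k1, k2]
    have hne : (dist y a)⁻¹ ≠ 0 := inv_ne_zero h0.ne'
    have k4 : w = w' := by
      have := congrArg (fun u => (dist y a) • u) k3
      simp only [smul_smul] at this
      rwa [mul_inv_cancel₀ h0.ne', one_smul, one_smul] at this
    rw [← hwe, ← hwe', k4]

end

section
variable {n : ℕ} {M : Type*} [MetricSpace M] [ChartedSpace (EuclideanSpace ℝ (Fin n)) M]
  [IsManifold (𝓡 n) ∞ M]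
  [RiemannianBundle (fun p : M => TangentSpace (𝓡 n) p)]
  [IsContMDiffRiemannianBundle (𝓡 n) ∞ (EuclideanSpace ℝ (Fin n)) (fun p : M => TangentSpace (𝓡 n) p)]

theorem nonempty_localNear [IsRiemannianManifold (𝓡 n) M] (x₀ : M) :
    Nonempty (LocalNear n M x₀) := by
  obtain ⟨L⟩ := exists_locGeo (isLC_gm (n := n) x₀) (mem_chart_target _ x₀)
  exact localNear (distFacts x₀ L)

variable (n) in
/-- uniform local facts on a set -/
structure LocU {M : Type*} [MetricSpace M] [ChartedSpace (EuclideanSpace ℝ (Fin n)) M]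
    (K : Set M) (r : ℝ) : Prop where
  pos : 0 < r
  sc : ∀ z ∈ K, ∀ y, dist z y < r → SC n z y
  nd : ∀ z ∈ K, ∀ y, dist z y < r → ND (cc (n := n) z y) (o z, o y)
  nb : ∀ z ∈ K, ∀ a a' b : M, dist z a < r → dist z b < r → 0 < dist z b →
    dist z a = dist z a' → dist a z + dist z b = dist a b → dist a' z + dist z b = dist a' b →
    a = a'

variable (n) in
theorem exists_radius [IsRiemannianManifold (𝓡 n) M] {K : Set M} (hK : IsCompact K) :
    ∃ r : ℝ, 0 < r ∧ ∀ z ∈ K, ∃ x₀ : M, ∃ L : LocalNear n M x₀, z ∈ L.W ∧ r ≤ L.r := by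
  classical
  have L : ∀ x₀ : M, LocalNear n M x₀ := fun x₀ => (nonempty_localNear x₀).some
  obtain ⟨s, -, hs⟩ := hK.elim_nhds_subcover (fun x₀ => (L x₀).W)
    (fun x₀ _ => (L x₀).isOpen_W.mem_nhds (L x₀).mem_W)
  obtain ⟨r, hr, hrle⟩ := exists_pos_le s (fun j => (L j).r) (fun j _ => (L j).r_pos)
  refine ⟨r, hr, fun z hz => ?_⟩
  have := hs hz
  simp only [mem_iUnion, exists_prop] at this
  obtain ⟨i, hi, hzi⟩ := this
  exact ⟨i, L i, hzi, hrle i hi⟩

variable (n) in
theorem exists_locU [IsRiemannianManifold (𝓡 n) M] {K : Set M} (hK : IsCompact K) :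
    ∃ r : ℝ, LocU n K r := by
  obtain ⟨r, hr, h⟩ := exists_radius n hK
  refine ⟨r, hr, ?_, ?_, ?_⟩
  · intro z hz y hy
    obtain ⟨x₀, L, hL, hrL⟩ := h z hz
    exact LN_sc L hL (hy.trans_le hrL)
  · intro z hz y hy
    obtain ⟨x₀, L, hL, hrL⟩ := h z hz
    exact LN_nd L hL (hy.trans_le hrL)
  · intro z hz a a' b ha hb hb0 haa h1 h2
    obtain ⟨x₀, L, hL, hrL⟩ := h z hz
    exact LN_nb L hL (ha.trans_le hrL) (hb.trans_le hrL) hb0 haa h1 h2

end

end Crest.Agent.R247.Sm879
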