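import Crest.Agent.R247.Sm2_879

/-!
R247 (helper879), block (6b), file 3: non-branching, uniqueness of interior points of minimisers,
smoothness of the cost `d²/2` at `(x, y)` when `y` is interior to a minimiser from `x`.
No compactness of `M`: only `ProperSpace M` and exact intermediate points.
-/

set_option autoImplicit false
set_option maxSynthPendingDepth 3
set_option linter.unusedSectionVars false

open Bundle Set Filter Topology
open scoped Manifold ContDiff
open Crest.GeometryTopology.MTW Crest.Agent.R244 Crest.Agent.R226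
open Crest.Agent.R226.DiffAE225 Crest.Agent.R226.EucMin77 Crest.Agent.R226.MTWConc117
open Crest.Agent.R226.ChartCost77 Crest.Agent.R226.Index77
open Crest.Agent.R226.NearLem90 (dL halfDistSq_comm)
open Crest.Agent.R226.NearDiagThm996 Crest.Agent.R226.LocalNearThm996
open Crest.Agent.R226.NearDiagFinal996 Crest.Agent.R226.ChartMet842 Crest.Agent.R226.GeoLoc577
open Crest.Agent.R226.CutSmooth77 (SC three_point)

namespace Crest.Agent.R247.Sm879

section metric
variable {M : Type*} [MetricSpace M]

/-- exact intermediate points -/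
def ExM (M : Type*) [MetricSpace M] : Prop :=
  ∀ a b : M, ∀ t ∈ Icc (0 : ℝ) 1, ∃ c, dist a c = t * dist a b ∧ dist c b = (1 - t) * dist a b

theorem ExM.pt (hm : ExM M) (a b : M) {t : ℝ} (h0 : 0 ≤ t) (h1 : t ≤ dist a b) :
    ∃ c, dist a c = t ∧ dist c b = dist a b - t := by
  rcases eq_or_lt_of_le (dist_nonneg (x := a) (y := b)) with h | h
  · refine ⟨a, ?_, ?_⟩
    · rw [dist_self]; linarith
    · linarith
  · obtain ⟨c, hc1, hc2⟩ := hm a b (t / dist a b) ⟨by positivity, (div_le_one h).2 h1⟩
    refine ⟨c, ?_, ?_⟩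
    · rw [hc1]; field_simp
    · rw [hc2]; field_simp

/-- non-branching, uniform version -/
theorem nb_aux {K : Set M} {r : ℝ} (hr : 0 < r)
    (nb : ∀ z ∈ K, ∀ a a' b : M, dist z a < r → dist z b < r → 0 < dist z b →
      dist z a = dist z a' → dist a z + dist z b = dist a b → dist a' z + dist z b = dist a' b →
      a = a')
    (hm : ExM M) {y y' : M} (hy : y ≠ y') {R : ℝ} (hK : ∀ c, dist c y ≤ R → c ∈ K) (k : ℕ) :
    ∀ c c' : M, dist c y + dist y y' = dist c y' → dist c' y + dist y y' = dist c' y' →
      dist c y = dist c' y → dist c y ≤ R → dist c y < k * (r / 2) → c = c' := by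
  have hy0 : 0 < dist y y' := dist_pos.2 hy
  induction k with
  | zero =>
    intro c c' _ _ _ _ h
    have := dist_nonneg (x := c) (y := y)
    simp at h
    linarith
  | succ k ih =>
    intro c c' h1 h2 h3 hR h4
    set t := dist c y with ht
    have ht0 : 0 ≤ t := dist_nonneg
    rcases lt_or_ge t r with htr | htr
    · -- the base point is `y`
      obtain ⟨e, he1, he2⟩ := hm.pt y y' (t := min (dist y y') (r / 2)) (by positivity)
        (min_le_left _ _)
      have he0 : 0 < dist y e := by rw [he1]; positivity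
      have her : dist y e < r := by
        rw [he1]
        exact (min_le_right _ _).trans_lt (by linarith)
      have hee : dist y e + dist e y' = dist y y' := by rw [he1, he2]; ring
      have hyK : y ∈ K := hK y (by rw [dist_self]; linarith)
      refine nb y hyK c c' e (by rw [dist_comm, ← ht]; exact htr) her he0 ?_ ?_ ?_
      · rw [dist_comm y c, dist_comm y c', ← ht, h3]
      · apply le_antisymm _ (dist_triangle c y e)
        have := dist_triangle c e y'
        linarith
      · apply le_antisymm _ (dist_triangle c' y e)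
        have := dist_triangle c' e y'
        linarith
    · obtain ⟨b, hb1, hb2⟩ := hm.pt c y (t := r / 2) (by linarith) (by linarith)
      obtain ⟨b', hb1', hb2'⟩ := hm.pt c' y (t := r / 2) (by linarith) (by linarith)
      have hb3 : dist b y + dist y y' = dist b y' := by
        apply le_antisymm _ (dist_triangle b y y')
        have := dist_triangle c b y'
        linarith
      have hb3' : dist b' y + dist y y' = dist b' y' := by
        apply le_antisymm _ (dist_triangle b' y y')
        have := dist_triangle c' b' y'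
        linarith
      have hbb : b = b' := by
        apply ih b b' hb3 hb3' (by rw [hb2, hb2', ← ht, h3]) (by rw [hb2, ← ht]; linarith)
        rw [hb2, ← ht]
        push_cast at h4
        linarith
      subst hbb
      obtain ⟨e, he1, he2⟩ := hm.pt b y (t := r / 2) (by linarith) (by rw [hb2]; linarith)
      have hbK : b ∈ K := hK b (by rw [hb2]; linarith)
      refine nb b hbK c c' e (by rw [dist_comm, hb1]; linarith) (by rw [he1]; linarith)
        (by rw [he1]; linarith) ?_ ?_ ?_
      · rw [dist_comm b c, dist_comm b c', hb1, hb1']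
      · apply le_antisymm _ (dist_triangle c b e)
        have := dist_triangle c e y
        linarith
      · apply le_antisymm _ (dist_triangle c' b e)
        have := dist_triangle c' e y
        linarith

/-- convergence of midpoints to a unique midpoint -/
theorem tendsto_mid [ProperSpace M] {m : M × M → M}
    (hm : ∀ q : M × M, dist q.1 (m q) = dist q.1 q.2 / 2 ∧ dist (m q) q.2 = dist q.1 q.2 / 2)
    {x y z : M} (hz : ∀ c, dist x c = dist x y / 2 → dist c y = dist x y / 2 → c = z) :
    Tendsto m (𝓝 (x, y)) (𝓝 z) := by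
  have hc1 : Tendsto (fun q : M × M => dist q.1 q.2) (𝓝 (x, y)) (𝓝 (dist x y)) :=
    (continuous_fst.dist continuous_snd).tendsto (x, y)
  have hc2 : Tendsto (fun q : M × M => dist x q.1) (𝓝 (x, y)) (𝓝 (dist x x)) :=
    (continuous_const.dist continuous_fst).tendsto (x, y)
  refine (isCompact_closedBall x (dist x y + 2)).tendsto_nhds_of_unique_mapClusterPt ?_ ?_
  · have e1 : ∀ᶠ q in 𝓝 (x, y), dist q.1 q.2 < dist x y + 1 :=
      hc1.eventually (gt_mem_nhds (by linarith))
    have e2 : ∀ᶠ q : M × M in 𝓝 (x, y), dist x q.1 < 1 :=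
      hc2.eventually (gt_mem_nhds (by rw [dist_self]; norm_num))
    filter_upwards [e1, e2] with q h1 h2
    rw [Metric.mem_closedBall, dist_comm]
    have h3 := (hm q).1
    have h4 := dist_triangle x q.1 (m q)
    have h5 := dist_nonneg (x := q.1) (y := q.2)
    have h6 := dist_nonneg (x := x) (y := y)
    linarith
  · intro c _ hc
    obtain ⟨U, hU, hUc⟩ := mapClusterPt_iff_ultrafilter.1 hc
    have l1 : Tendsto (fun q : M × M => q.1) U (𝓝 x) := (continuous_fst.tendsto (x, y)).mono_left hU
    have l2 : Tendsto (fun q : M × M => q.2) U (𝓝 y) := (continuous_snd.tendsto (x, y)).mono_left hU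
    have l3 : Tendsto (fun q : M × M => dist q.1 (m q)) U (𝓝 (dist x c)) := l1.dist hUc
    have l4 : Tendsto (fun q : M × M => dist (m q) q.2) U (𝓝 (dist c y)) := hUc.dist l2
    have l5 : Tendsto (fun q : M × M => dist q.1 q.2 / 2) U (𝓝 (dist x y / 2)) :=
      (l1.dist l2).div_const 2
    apply hz
    · exact tendsto_nhds_unique l3 (l5.congr fun q => ((hm q).1).symm)
    · exact tendsto_nhds_unique l4 (l5.congr fun q => ((hm q).2).symm)

theorem half_le_mid (a b c : M) :
    halfDistSq a b ≤ 2 * halfDistSq a c + 2 * halfDistSq c b := by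
  unfold halfDistSq
  have h1 := dist_triangle a c b
  have h2 := dist_nonneg (x := a) (y := b)
  nlinarith [sq_nonneg (dist a c - dist c b)]

end metric

section
variable {n : ℕ} {M : Type*} [MetricSpace M] [ChartedSpace (EuclideanSpace ℝ (Fin n)) M]
  [IsManifold (𝓡 n) ∞ M]

theorem contDiffAt_slice' {y y' : M} (h : SC n y y') :
    ContDiffAt ℝ ∞ (fun b : EE n => cc (n := n) y y' (b, o y')) (o y) := by
  have h1 := cc_contDiffAt h
  exact ContDiffAt.comp (o y) (f := fun b : EE n => (b, (o y' : EE n))) h1
    (contDiffAt_id.prodMk contDiffAt_const)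

/-- **index lemma** -/
theorem index_pos' {x z y y' : M} (h1 : SC n x z) (h2 : SC n z y)
    (n2 : ND (cc (n := n) z y) (o z, o y)) (h3 : SC n y y')
    (d1 : dist x z = dist x y / 2) (d2 : dist z y = dist x y / 2)
    (hb : dist x y + dist y y' = dist x y') (hxy : x ≠ y) (hy : y ≠ y')
    {h : EE n} (hh : h ≠ 0) :
    0 < fderiv ℝ (fderiv ℝ (cc (n := n) x z)) (o x, o z) (0, h) (0, h) +
      fderiv ℝ (fderiv ℝ (cc (n := n) z y)) (o z, o y) (h, 0) (h, 0) := by
  have h2le : (2 : WithTop ℕ∞) ≤ ∞ := ENat.LEInfty.out
  set D := dist x y with hD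
  have hD0 : 0 < D := dist_pos.2 hxy
  set e := dist y y' with he
  have he0 : 0 < e := dist_pos.2 hy
  set s := e / D with hs
  have hs0 : 0 < s := by positivity
  have hsD : s * D = e := by rw [hs]; field_simp
  have hc3 : ContDiffAt ℝ 2 (fun b : EE n => cc (n := n) y y' (b, o y') / s) (o y) :=
    ((contDiffAt_slice' h3).of_le h2le).div_const s
  refine index_euc (f₃ := fun b : EE n => cc (n := n) y y' (b, o y') / s)
    ((cc_contDiffAt h1).of_le h2le) ((cc_contDiffAt h2).of_le h2le) hc3 ?_ ?_ hh
  · refine Filter.Eventually.of_forall fun q => ?_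
    have hq : halfDistSq x y' / (1 + s) ≤
        2 * cc (n := n) x z (o x, q.1) + 2 * cc (n := n) z y q + cc (n := n) y y' (q.2, o y') / s := by
      have := three_point x ((extChartAt (𝓡 n) z).symm q.1) ((extChartAt (𝓡 n) y).symm q.2) y' hs0
      simpa only [cc, symm_o] using this
    have h0 : 2 * cc (n := n) x z (o x, o z) + 2 * cc (n := n) z y (o z, o y) +
        cc (n := n) y y' (o y, o y') / s = halfDistSq x y' / (1 + s) := by
      rw [cc_o, cc_o, cc_o]
      unfold halfDistSq
      rw [d1, d2, ← hb, ← he, ← hsD]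
      field_simp
      ring
    show 2 * cc (n := n) x z (o x, o z) + 2 * cc (n := n) z y (o z, o y) +
        cc (n := n) y y' (o y, o y') / s ≤ _
    rw [h0]
    exact hq
  · intro h hh
    exact n2 h hh

/-- **smoothness step** -/
theorem sn_step [ProperSpace M] (hm : ExM M) {x z y y' : M}
    (h1 : SC n x z) (n1 : ND (cc (n := n) x z) (o x, o z))
    (h2 : SC n z y) (n2 : ND (cc (n := n) z y) (o z, o y)) (h3 : SC n y y')
    (d1 : dist x z = dist x y / 2) (d2 : dist z y = dist x y / 2)
    (hz : ∀ c, dist x c = dist x y / 2 → dist c y = dist x y / 2 → c = z)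
    (hb : dist x y + dist y y' = dist x y') (hxy : x ≠ y) (hy : y ≠ y') :
    SC n x y ∧ ND (cc (n := n) x y) (o x, o y) := by
  have hex : ∀ q : M × M, ∃ c, dist q.1 c = dist q.1 q.2 / 2 ∧ dist c q.2 = dist q.1 q.2 / 2 := by
    intro q
    obtain ⟨c, hc1, hc2⟩ := hm q.1 q.2 (1 / 2) ⟨by norm_num, by norm_num⟩
    exact ⟨c, by rw [hc1]; ring, by rw [hc2]; ring⟩
  choose m hmm using hex
  let X : EE n × EE n → M × M := fun p =>
    ((extChartAt (𝓡 n) x).symm p.1, (extChartAt (𝓡 n) y).symm p.2)
  have hX : Tendsto X (𝓝 (o x, o y)) (𝓝 (x, y)) :=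
    ((tendsto_symm x).comp (continuous_fst.tendsto ((o x : EE n), (o y : EE n)))).prodMk_nhds
      ((tendsto_symm y).comp (continuous_snd.tendsto ((o x : EE n), (o y : EE n))))
  have hmX : Tendsto (fun p => m (X p)) (𝓝 (o x, o y)) (𝓝 z) := (tendsto_mid hmm hz).comp hX
  have hsrc : ∀ᶠ p in 𝓝 ((o x : EE n), (o y : EE n)), m (X p) ∈ (extChartAt (𝓡 n) z).source :=
    hmX.eventually (extChartAt_source_mem_nhds (I := 𝓡 n) z)
  have hmid : ∀ q : M × M, halfDistSq q.1 q.2 =
      2 * halfDistSq q.1 (m q) + 2 * halfDistSq (m q) q.2 := by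
    intro q
    unfold halfDistSq
    rw [(hmm q).1, (hmm q).2]
    ring
  have hval : ∀ᶠ p in 𝓝 ((o x : EE n), (o y : EE n)), cc (n := n) x y p =
      2 * cc (n := n) x z (p.1, extChartAt (𝓡 n) z (m (X p))) +
      2 * cc (n := n) z y (extChartAt (𝓡 n) z (m (X p)), p.2) := by
    filter_upwards [hsrc] with p hp
    simp only [cc, (extChartAt (𝓡 n) z).left_inv hp]
    exact hmid (X p)
  have key := value_step2 (f₁ := cc (n := n) x z) (f₂ := cc (n := n) z y) (V := cc (n := n) x y)
    (ζ := fun p => extChartAt (𝓡 n) z (m (X p))) (ζ₀ := o z)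
    (cc_contDiffAt h1) (cc_contDiffAt h2) n1 n2
    (fun h hh => index_pos' h1 h2 n2 h3 d1 d2 hb hxy hy hh) ((tendsto_chart z).comp hmX) hval
    (by
      filter_upwards [hval] with p hp
      refine Filter.Eventually.of_forall fun ζ => ?_
      show 2 * cc (n := n) x z (p.1, extChartAt (𝓡 n) z (m (X p))) +
        2 * cc (n := n) z y (extChartAt (𝓡 n) z (m (X p)), p.2) ≤ _
      rw [← hp]
      exact half_le_mid _ _ _)
  exact ⟨contMDiffAt_of_cc key.2.1, key.2.2⟩

end

section
variable {n : ℕ} {M : Type*} [MetricSpace M] [ChartedSpace (EuclideanSpace ℝ (Fin n)) M]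
  [IsManifold (𝓡 n) ∞ M]

/-- symmetry of smoothness -/
theorem sc_symm {x y : M} (h : SC n x y) : SC n y x := by
  have h1 : ContMDiffAt ((𝓡 n).prod (𝓡 n)) ((𝓡 n).prod (𝓡 n)) ∞
      (fun q : M × M => (q.2, q.1)) (y, x) := contMDiffAt_snd.prodMk contMDiffAt_fst
  have h2 : ContMDiffAt ((𝓡 n).prod (𝓡 n)) 𝓘(ℝ) ∞ (fun q : M × M => halfDistSq q.1 q.2)
    ((fun q : M × M => (q.2, q.1)) (y, x)) := h
  have h3 := h2.comp (y, x) h1
  refine h3.congr_of_eventuallyEq (Filter.Eventually.of_forall fun q => ?_)
  simp only [halfDistSq, Function.comp_apply, dist_comm]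

theorem sc_eventually {x y : M} (h : SC n x y) {m : ℕ∞} (hm : m ≠ ⊤) :
    ∀ᶠ q : M × M in 𝓝 (x, y), ContMDiffAt ((𝓡 n).prod (𝓡 n)) 𝓘(ℝ) m
      (fun q : M × M => halfDistSq q.1 q.2) q := by
  have h1 : ContMDiffAt ((𝓡 n).prod (𝓡 n)) 𝓘(ℝ) m (fun q : M × M => halfDistSq q.1 q.2) (x, y) :=
    ContMDiffAt.of_le h (by exact_mod_cast le_top)
  exact (contMDiffAt_iff_contMDiffAt_nhds (by simpa using hm)).1 h1

end

section
variable {n : ℕ} {M : Type*} [MetricSpace M] [ChartedSpace (EuclideanSpace ℝ (Fin n)) M]
  [IsManifold (𝓡 n) ∞ M]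
  [RiemannianBundle (fun p : M => TangentSpace (𝓡 n) p)]
  [IsContMDiffRiemannianBundle (𝓡 n) ∞ (EuclideanSpace ℝ (Fin n)) (fun p : M => TangentSpace (𝓡 n) p)]
  [IsRiemannianManifold (𝓡 n) M] [ProperSpace M]

variable (n) in
include n in
/-- **non-branching**: minimisers do not branch -/
theorem nonbranching (hm : ExM M) {y y' : M} (hy : y ≠ y') {c c' : M}
    (h1 : dist c y + dist y y' = dist c y') (h2 : dist c' y + dist y y' = dist c' y')
    (h3 : dist c y = dist c' y) : c = c' := by
  obtain ⟨r, hr⟩ := exists_locU n (isCompact_closedBall y (dist c y))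
  obtain ⟨k, hk⟩ := exists_nat_gt (dist c y / (r / 2))
  have hr0 := hr.pos
  exact nb_aux hr.pos hr.nb hm hy (R := dist c y) (fun c hc => hc) k c c' h1 h2 h3 le_rfl
    ((div_lt_iff₀ (by positivity)).1 hk)

variable (n) in
include n in
/-- uniqueness of interior points of minimisers -/
theorem mid_unique (hm : ExM M) {x y y' : M} (hb : dist x y + dist y y' = dist x y')
    (hy : y ≠ y') {c c' : M} (h1 : dist x c + dist c y = dist x y)
    (h2 : dist x c' + dist c' y = dist x y) (h3 : dist c y = dist c' y) : c = c' := by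
  refine nonbranching n hm hy ?_ ?_ h3
  · apply le_antisymm _ (dist_triangle c y y')
    have := dist_triangle x c y'
    linarith
  · apply le_antisymm _ (dist_triangle c' y y')
    have := dist_triangle x c' y'
    linarith

/-- **smoothness of the cost at interior points of minimisers** (with nondegenerate mixed
Hessian) -/
theorem sn_of_btw (hm : ExM M) {x y y' : M} (hb : dist x y + dist y y' = dist x y')
    (hy : y ≠ y') : SC n x y ∧ ND (cc (n := n) x y) (o x, o y) := by
  obtain ⟨r, hr⟩ := exists_locU n (isCompact_closedBall x (dist x y))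
  have hr0 := hr.pos
  have key : ∀ k : ℕ, ∀ a b b' : M, dist x a + dist a b ≤ dist x y →
      dist a b + dist b b' = dist a b' → b ≠ b' → dist a b < 2 ^ k * r →
      SC n a b ∧ ND (cc (n := n) a b) (o a, o b) := by
    have near : ∀ a b : M, dist x a + dist a b ≤ dist x y → dist a b < r →
        SC n a b ∧ ND (cc (n := n) a b) (o a, o b) := by
      intro a b h1 h2
      have ha : a ∈ Metric.closedBall x (dist x y) := by
        rw [Metric.mem_closedBall, dist_comm]
        have := dist_nonneg (x := a) (y := b)
        linarith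
      exact ⟨hr.sc a ha b h2, hr.nd a ha b h2⟩
    intro k
    induction k with
    | zero =>
      intro a b b' h1 _ _ h4
      exact near a b h1 (by simpa using h4)
    | succ k ih =>
      intro a b b' h1 h2 h3 h4
      rcases lt_or_ge (dist a b) r with h5 | h5
      · exact near a b h1 h5
      have hab : a ≠ b := by
        rintro rfl
        rw [dist_self] at h5
        linarith
      have hab0 : 0 < dist a b := dist_pos.2 hab
      obtain ⟨z, hz1, hz2⟩ := hm.pt a b (t := dist a b / 2) (by linarith) (by linarith)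
      have hz2' : dist z b = dist a b / 2 := by rw [hz2]; ring
      have hzb : z ≠ b := by
        rintro rfl
        rw [dist_self] at hz2'
        linarith
      have hlt : dist a b / 2 < 2 ^ k * r := by
        rw [pow_succ] at h4
        linarith
      have hbtw : dist z b + dist b b' = dist z b' := by
        apply le_antisymm _ (dist_triangle z b b')
        have := dist_triangle a z b'
        linarith
      have s1 := ih a z b (by rw [hz1]; linarith) (by rw [hz1, hz2']; ring) hzb
        (by rw [hz1]; exact hlt)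
      have s2 := ih z b b' (by
        have := dist_triangle x a z
        linarith) hbtw h3 (by rw [hz2']; exact hlt)
      -- a near extension point
      have hb'0 : 0 < dist b b' := dist_pos.2 h3
      obtain ⟨e, he1, he2⟩ := hm.pt b b' (t := min (dist b b') (r / 2)) (by positivity)
        (min_le_left _ _)
      have he0 : 0 < dist b e := by rw [he1]; positivity
      have hbe : b ≠ e := dist_pos.1 he0
      have her : dist b e < r := by
        rw [he1]; exact (min_le_right _ _).trans_lt (by linarith)
      have hbK : b ∈ Metric.closedBall x (dist x y) := by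
        rw [Metric.mem_closedBall, dist_comm]
        have := dist_triangle x a b
        linarith
      have s3 := hr.sc b hbK e her
      have hbtw2 : dist a b + dist b e = dist a e := by
        apply le_antisymm _ (dist_triangle a b e)
        have := dist_triangle a e b'
        linarith
      refine sn_step hm s1.1 s1.2 s2.1 s2.2 s3 hz1 hz2' ?_ hbtw2 hab hbe
      intro c hc1 hc2
      exact mid_unique n hm h2 h3 (by rw [hc1, hc2]; ring) (by rw [hz1, hz2']; ring)
        (by rw [hc2, hz2'])
  obtain ⟨k, hk⟩ : ∃ k : ℕ, dist x y / r < 2 ^ k := pow_unbounded_of_one_lt _ (by norm_num)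
  exact key k x y y' (by rw [dist_self]; linarith) hb hy ((div_lt_iff₀ hr0).1 hk)

theorem sc_of_btw (hm : ExM M) {x y y' : M} (hb : dist x y + dist y y' = dist x y')
    (hy : y ≠ y') : SC n x y := (sn_of_btw hm hb hy).1

theorem sc_of_btw' (hm : ExM M) {x' x y : M} (hb : dist x' x + dist x y = dist x' y)
    (hx : x' ≠ x) : SC n x y := by
  apply sc_symm
  refine sc_of_btw hm (x := y) (y := x) (y' := x') ?_ hx.symm
  rw [dist_comm y x, dist_comm x x', dist_comm y x', add_comm]
  exact hb

end

end Crest.Agent.R247.Sm879
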