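import Crest.Agent.R247.Sv12_436
import Crest.Agent.R247.Fd2_656

/-! # R247, leaf (1-S): `D1aP` and `D1bP` -/

set_option autoImplicit false
set_option linter.unusedSectionVars false
open MeasureTheory Set Filter Topology Metric TopologicalSpace
open scoped ENNReal NNReal RealInnerProductSpace

noncomputable section
namespace Crest.Agent.R247.Sv436

universe u

open Crest.Agent.R247.Mcp688 Crest.Agent.R247.Far553 Crest.Agent.R242
open Crest.Agent.R247.Dir593 Crest.Agent.R247.Dir593.GradS Crest.Agent.R247.Smv126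
open Crest.Agent.R247.Obj554 Crest.Agent.R247.Hes124 Crest.Agent.R247.Fd656

lemma om_pos' (n : ℕ) : 0 < om n :=
  ENNReal.toReal_pos (measure_ball_pos _ _ one_pos).ne' measure_ball_lt_top.ne

section env

variable {n : ℕ} {κ : ℝ} {X : Type u} [MetricSpace X] [ProperSpace X] [MeasurableSpace X]
    [BorelSpace X] {μ : Measure X} [IsFiniteMeasureOnCompacts μ] {B : BochS n κ X μ}
    {C : Rad n κ X μ} {x : X} {δ : ℝ}

lemma env_hd (E : EnvF B C x δ) (y : X) :
    ∀ᶠ ε in 𝓝[>] (0:ℝ), μ (closedBall y ε) ≤ ENNReal.ofReal (2 * om n * ε ^ n) := by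
  have h1 : Ioo (0:ℝ) 1 ∈ 𝓝[>] (0:ℝ) := Ioo_mem_nhdsGT one_pos
  filter_upwards [h1] with ε hε
  refine (E.bishop y ε hε.1).trans (ENNReal.ofReal_le_ofReal ?_)
  have h2 : Real.exp (κ * ε ^ 2 / 2) ≤ 2 := by
    have h3 : κ * ε ^ 2 / 2 ≤ 1 / 2 := by
      have h4 := E.κ_nonneg
      have h5 := E.κ_le
      have h6 : ε ^ 2 ≤ 1 := by nlinarith [hε.1, hε.2]
      nlinarith
    have h7 : Real.exp (κ * ε ^ 2 / 2) ≤ Real.exp (1 / 2) := Real.exp_le_exp.2 h3
    have h8 : Real.exp (1 / 2 : ℝ) ≤ 2 := by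
      have h9 : (1 / 2 : ℝ) ≤ Real.log 2 := by
        have := Real.log_two_gt_d9
        linarith
      exact (Real.le_log_iff_exp_le (by norm_num : (0:ℝ) < 2)).1 h9
    exact h7.trans h8
  have h3 := om_pos' n
  have h4 : 0 ≤ ε ^ n := pow_nonneg hε.1.le n
  calc Real.exp (κ * ε ^ 2 / 2) * ε ^ n * om n ≤ 2 * ε ^ n * om n := by gcongr
    _ = _ := by ring

lemma env_hvol (E : EnvF B C x δ) : ∀ y r, dist x y ≤ 16 → 0 < r → r ≤ 1 →
    μ (ball y r) ≤ ENNReal.ofReal (2 * om n * r ^ n) := by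
  intro y r hy hr hr1
  refine (E.vol_le y r (by linarith) hr (by linarith)).trans (ENNReal.ofReal_le_ofReal ?_)
  have h1 := E.δ_le
  have h3 := om_pos' n
  have h4 : 0 ≤ r ^ n := pow_nonneg hr.le n
  gcongr
  linarith

end env

/-- **(D1a)** -/
theorem d1aP (n : ℕ) : Fd656.D1aP.{u} n := by
  intro K hK
  refine ⟨B1c n (2 * om n) (2 * om n) K, by unfold B1c; positivity, ?_⟩
  intro κ X _ _ _ _ μ _ B C x δ E O
  have hom := om_pos' n
  have h8 : 8 * κ ≤ 1 := by
    have h4 := E.κ_nonneg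
    have h5 := E.κ_le
    linarith
  exact d1a_lit E.n_pos E.W E.hL E.κ_nonneg h8 E.pos O (by positivity) (env_hd E)
    (by positivity) (env_hvol E) (B1 := fun K => B1c n (2 * om n) (2 * om n) K)
    (fun K _ => le_rfl) K hK

/-- **(D1b)** -/
theorem d1bP (n : ℕ) : Fd656.D1bP.{u} n := by
  intro K ε hK hε
  refine ⟨max (B2c n (2 * om n) (2 * om n) K ε) 1, lt_max_of_lt_right one_pos, ?_⟩
  intro κ X _ _ _ _ μ _ B C x δ E O j hj
  have hom := om_pos' n
  have h8 : 8 * κ ≤ 1 := by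
    have h4 := E.κ_nonneg
    have h5 := E.κ_le
    linarith
  exact d1b_lit E.n_pos E.W E.hL E.κ_nonneg h8 E.pos O (by positivity) (env_hd E)
    (by positivity) (env_hvol E) (B2 := fun K ε => max (B2c n (2 * om n) (2 * om n) K ε) 1)
    (fun K ε _ _ => le_max_left _ _) K ε hK hε j hj

end Crest.Agent.R247.Sv436
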