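import Crest.Agent.R247.VC10_402
import Crest.Agent.R247.Bgr_546

/-!
# R247, block (3), file 11: `Asm951.VC n` from `Bgr546.RAD n`
-/

set_option autoImplicit false

namespace Crest.Agent.R247.VC402

universe u

/-- **Volume convergence from the radial structure alone.** -/
theorem vc_of_RAD {n : ℕ} (hn : 1 ≤ n) (hR : Bgr546.RAD.{u} n) : Asm951.VC.{u} n :=
  vc_of_rad hn hR (Bgr546.bgr_of_rad hR)

end Crest.Agent.R247.VC402
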