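import Crest.Agent.R247.Skel_656
import Crest.Agent.R247.VC11_402
import Crest.Agent.R247.N0_322
import Crest.Agent.R247.Bgr3_546

/-!
# R247: the top of the chain, from `GlueDataT 40 n` alone

`vc_all n : VC n` (unconditional) and `s0381_of_glue : GlueDataT 40 n → S0381`.
-/

set_option autoImplicit false
noncomputable section
open Set Filter Topology MeasureTheory Metric
open scoped ContDiff Manifold ENNReal NNReal
open Bundle Crest.GeometryTopology.CoordMetric Crest.GeometryTopology.ChartCurvature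
  Crest.GeometryTopology.PointedLimit

namespace Crest.Agent.R247.Top546

universe u

/-- **Volume convergence**, every dimension. -/
theorem vc_all (n : ℕ) : Asm951.VC.{u} n := by
  rcases Nat.eq_zero_or_pos n with hn | hn
  · subst hn
    exact N0322.vc_zero
  · exact VC402.vc_of_RAD hn (Bgr546.rad_all n)

/-- **S0381** from the planes/far data alone. -/
theorem s0381_of_glue (n : ℕ) (hG : GluM923.GlueDataT.{u} 40 n) :
    ∃ L : ℝ, 1 ≤ L ∧
      ∀ (K : ℝ) (M : ℕ → Type u) [∀ k, MetricSpace (M k)] [∀ k, CompleteSpace (M k)]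
        [∀ k, ConnectedSpace (M k)] [∀ k, ChartedSpace (EuclideanSpace ℝ (Fin n)) (M k)]
        [∀ k, IsManifold 𝓘(ℝ, EuclideanSpace ℝ (Fin n)) ∞ (M k)]
        [∀ k, RiemannianBundle (fun x : M k => TangentSpace 𝓘(ℝ, EuclideanSpace ℝ (Fin n)) x)]
        [∀ k, IsContMDiffRiemannianBundle 𝓘(ℝ, EuclideanSpace ℝ (Fin n)) ∞ (EuclideanSpace ℝ (Fin n))
          (fun x : M k => TangentSpace 𝓘(ℝ, EuclideanSpace ℝ (Fin n)) x)]
        [∀ k, IsRiemannianManifold 𝓘(ℝ, EuclideanSpace ℝ (Fin n)) (M k)]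
        [∀ k, MeasurableSpace (M k)] [∀ k, BorelSpace (M k)] (q : ∀ k, M k),
        (∀ k, HasRicciLowerBound n (M k) K) →
        (∃ v : ℝ, 0 < v ∧ ∀ k, ENNReal.ofReal v ≤
          MeasureTheory.Measure.euclideanHausdorffMeasure n (Metric.ball (q k) 1)) →
        ∀ (X : Type u) [MetricSpace X] [CompleteSpace X] (p : X),
          SeqPointedTendsto q p → RescalingsTendstoEuclidean p n →
          ∃ U : Set X, IsOpen U ∧ p ∈ U ∧ ∃ F : X → EuclideanSpace ℝ (Fin n), IsOpen (F '' U) ∧
            ∀ x ∈ U, ∀ z ∈ U, L⁻¹ * dist x z ≤ dist (F x) (F z) ∧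
              dist (F x) (F z) ≤ L * dist x z :=
  Skel656.s0381_of n (vc_all n) (fun κ hκ => Bgr546.rad_all n κ hκ) hG

end Crest.Agent.R247.Top546
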