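import Crest.Agent.R247.VC9_402
import Crest.Agent.R247.Ar4_659
import Crest.Agent.R247.Rdg2_879
import Crest.Agent.R247.GluM1_923
import Crest.Agent.R247.Asm1_951

/-!
# R247, block (3), file 10: `Asm951.VC n` from the radial structure and Bishop–Gromov

* `RadM n` : every `M` of S0381 with `Ric ≥ -κ` carries a radial structure `Rad n κ M μHE[n]`;
* `lap_of_rad` : weak Laplacian comparison in the calculus of `Ar659.setup`;
* `vc_of_rad : RadM n → Asm951.BGr n → Asm951.VC n`.
-/

set_option autoImplicit false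
set_option maxSynthPendingDepth 3
set_option linter.unusedSectionVars false
set_option linter.unusedVariables false

noncomputable section

open MeasureTheory Filter Topology Set Metric
open scoped ENNReal NNReal ContDiff Manifold
open Bundle Crest.GeometryTopology.CoordMetric Crest.GeometryTopology.ChartCurvature
  Crest.GeometryTopology.PointedLimit
open Crest.Agent.R247.Mcp688

namespace Crest.Agent.R247.VC402

universe u

/-- every manifold of S0381 with `Ric ≥ -κ` carries a radial structure -/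
def RadM (n : ℕ) : Prop := ∀ κ : ℝ, 0 ≤ κ →
  ∀ (M : Type u) [MetricSpace M] [CompleteSpace M] [ConnectedSpace M]
    [ChartedSpace (EuclideanSpace ℝ (Fin n)) M]
    [IsManifold 𝓘(ℝ, EuclideanSpace ℝ (Fin n)) ∞ M]
    [RiemannianBundle (fun x : M => TangentSpace 𝓘(ℝ, EuclideanSpace ℝ (Fin n)) x)]
    [IsContMDiffRiemannianBundle 𝓘(ℝ, EuclideanSpace ℝ (Fin n)) ∞ (EuclideanSpace ℝ (Fin n))
      (fun x : M => TangentSpace 𝓘(ℝ, EuclideanSpace ℝ (Fin n)) x)]
    [IsRiemannianManifold 𝓘(ℝ, EuclideanSpace ℝ (Fin n)) M]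
    [MeasurableSpace M] [BorelSpace M],
    HasRicciLowerBound n M (-κ) →
    Nonempty (Rad n κ M (Measure.euclideanHausdorffMeasure n))

section mfd

variable {n : ℕ} {M : Type*} [MetricSpace M] [ChartedSpace (EuclideanSpace ℝ (Fin n)) M]
  [IsManifold (𝓡 n) ∞ M]
  [RiemannianBundle (fun p : M => TangentSpace (𝓡 n) p)]
  [IsContMDiffRiemannianBundle (𝓡 n) ∞ (EuclideanSpace ℝ (Fin n)) (fun p : M => TangentSpace (𝓡 n) p)]
  [IsRiemannianManifold (𝓡 n) M] [ProperSpace M] [SecondCountableTopology M] [Nonempty M]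
  [MeasurableSpace M] [BorelSpace M] [CompleteSpace M] [Nontrivial M]
  [IsFiniteMeasureOnCompacts (μHE[n] : Measure M)]

theorem lap_of_rad (hn : 1 ≤ n) {κ : ℝ} (hκ : 0 ≤ κ)
    (C : Rad n κ M (μHE[n] : Measure M)) (hm : Sm879.ExM M) (q : M) :
    (Ar659.setup n M hn).Lap q κ := by
  intro φ hφ hsupp h0
  obtain ⟨R, hR⟩ := hsupp
  obtain ⟨L, hL0, hL⟩ := hφ.bound
  have hmd : ∀ᵐ z ∂(μHE[n] : Measure M), MDifferentiableAt (𝓡 n) 𝓘(ℝ) φ z :=
    (Ar659.setup n M hn).rad φ hφ
  have hRD := Rdg879.rd_grad C hκ hm q hmd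
  have key := (C.weak_lap' hκ q (R := max R 0) (L := L) hφ.continuous.measurable h0 hL
    (le_max_right _ _) (fun z hz => hR z ((le_max_left _ _).trans hz.le))
    ((isCompact_closedBall q _).measure_lt_top (μ := (μHE[n] : Measure M))).ne hRD).2.2
  have e : (fun z : M => Crest.GeometryTopology.MTW.halfDistSq z q) = fun z => dist q z ^ 2 / 2 := by
    funext z
    simp only [Crest.GeometryTopology.MTW.halfDistSq, dist_comm z q]
  rw [e] at key
  exact key

end mfd

set_option maxHeartbeats 1000000 in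
/-- **Volume convergence (block (3)).** -/
theorem vc_of_rad {n : ℕ} (hn : 1 ≤ n) (hR : RadM.{u} n) (hB : Asm951.BGr.{u} n) :
    Asm951.VC.{u} n := by
  intro v δ hv hδ
  have hn0 : (0 : ℝ) < n := by exact_mod_cast hn
  have hn1 : (1 : ℝ) ≤ n := by exact_mod_cast hn
  set c : ℝ := (Real.exp 25 * 7 ^ n)⁻¹ with hc
  have hcpos : 0 < c := by positivity
  obtain ⟨κ₀, hκ₀, hκ₁, H⟩ := vol_conv_rel n hn hcpos hδ
  -- the radius L
  obtain ⟨ε₀, hε₀, H⟩ := H (5 + 2 * n / κ₀)
  obtain ⟨ε₁, hε₁, hε₁₀, hε₁1⟩ : ∃ ε₁ : ℝ, 0 < ε₁ ∧ ε₁ ≤ ε₀ ∧ ε₁ ≤ 1 / 10 :=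
    ⟨min ε₀ (1 / 10), by positivity, min_le_left _ _, min_le_right _ _⟩
  have hD0 : 0 < ε₁⁻¹ + 5 := by positivity
  obtain ⟨κ, hκ, hκ1, hκ2⟩ : ∃ κ : ℝ, 0 < κ ∧ κ ≤ ε₁ / 2 ∧ κ ≤ κ₀ / (2 * (ε₁⁻¹ + 5)) :=
    ⟨min (ε₁ / 2) (κ₀ / (2 * (ε₁⁻¹ + 5))), by positivity, min_le_left _ _, min_le_right _ _⟩
  refine ⟨κ, hκ, ?_⟩
  intro M _ _ _ _ _ _ _ _ _ _ p hRic happ hvol
  haveI : ProperSpace M := HR216.properSpace_of_riemannian n M
  haveI : SecondCountableTopology M := HR216.secondCountable_of_riemannian n M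
  haveI : Nontrivial M := Rdg879.nontrivial_of_ne_zero (n := n) (by omega)
  haveI : IsLocallyFiniteMeasure (μHE[n] : Measure M) := GluM923.isLocallyFinite n M
  have hm : Sm879.ExM M := by
    intro a b t ht
    exact HR216.exactMid_of_riemannian n M a b t ht.1 ht.2
  obtain ⟨C⟩ := hR κ hκ.le M hRic
  have hinv : ε₁⁻¹ ≤ 1 / κ := by
    rw [← one_div]
    exact one_div_le_one_div_of_le hκ (by linarith)
  have happ' : IsScaledApprox 1 p (0 : EuclideanSpace ℝ (Fin n)) ε₁⁻¹ ε₁ := by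
    refine Asm951.approx_centre (ρ := 0) happ (by rw [dist_self]) (by positivity) (by positivity)
      (by linarith) (by linarith) hε₁
  have hset : {x : M | dist p x < 5} = ball p 5 := by
    ext x; rw [mem_setOf_eq, mem_ball, dist_comm]
  have hfin : (μHE[n] : Measure M) (ball p 5) < ⊤ := GluM923.ball_lt_top n M p 5
  have hV : 0 < V (μHE[n] : Measure M) p := by
    unfold V Measure.real
    rw [hset]
    refine ENNReal.toReal_pos ?_ hfin.ne
    have h1 : 0 < ENNReal.ofReal v := ENNReal.ofReal_pos.2 hv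
    exact (h1.trans_le (hvol.trans (measure_mono (ball_subset_ball (by norm_num))))).ne'
  refine H ε₁ hε₁ hε₁₀ M (μHE[n] : Measure M) (Ar659.setup n M hn) p ?_ happ' hV ?_
  · intro q hq1 hq2
    refine pos_of_lap (K := κ) (L := 5 + 2 * n / κ₀) (D := ε₁⁻¹) _ hκ.le
      (lap_of_rad hn hκ.le C hm q) hn ?_ hq1 hq2.le ?_
    · have : 0 < 2 * n / κ₀ := by positivity
      linarith
    · have h1 : (n - 1) / (5 + 2 * n / κ₀ - 5) ≤ κ₀ / 2 := by
        rw [add_sub_cancel_left, div_le_iff₀ (by positivity)]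
        have : κ₀ / 2 * (2 * n / κ₀) = n := by field_simp
        rw [this]; linarith
      have h2 : κ * (ε₁⁻¹ + 5) ≤ κ₀ / 2 := by
        rw [le_div_iff₀ (by positivity)] at hκ2
        linarith
      linarith
  · intro x hx r hr hr1
    have h1 := hB κ hκ.le M x r 7 hRic hr (by linarith)
    have hfx : (μHE[n] : Measure M) (ball x r) ≠ ⊤ := (GluM923.ball_lt_top n M x r).ne
    have hfx7 : (μHE[n] : Measure M) (ball x 7) ≠ ⊤ := (GluM923.ball_lt_top n M x 7).ne
    have h2 : V (μHE[n] : Measure M) p ≤ (μHE[n] : Measure M).real (ball x 7) := by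
      unfold V
      rw [hset]
      refine measureReal_mono ?_ hfx7
      refine ball_subset_ball' ?_
      linarith
    have h3 : (μHE[n] : Measure M).real (ball x 7) ≤
        Real.exp (κ * 7 ^ 2 / 2) * (7 / r) ^ n * (μHE[n] : Measure M).real (ball x r) := by
      unfold Measure.real
      have := ENNReal.toReal_mono (ENNReal.mul_ne_top ENNReal.ofReal_ne_top hfx) h1
      rwa [ENNReal.toReal_mul, ENNReal.toReal_ofReal (by positivity)] at this
    have h4 : Real.exp (κ * 7 ^ 2 / 2) ≤ Real.exp 25 := by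
      apply Real.exp_le_exp.2
      linarith
    have h5 : V (μHE[n] : Measure M) p ≤
        Real.exp 25 * (7 / r) ^ n * (μHE[n] : Measure M).real (ball x r) := by
      refine h2.trans (h3.trans ?_)
      have : 0 ≤ (μHE[n] : Measure M).real (ball x r) := measureReal_nonneg
      gcongr
    calc c * V (μHE[n] : Measure M) p * r ^ n
        ≤ c * (Real.exp 25 * (7 / r) ^ n * (μHE[n] : Measure M).real (ball x r)) * r ^ n := by
          gcongr
      _ = (μHE[n] : Measure M).real (ball x r) := by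
          rw [hc, div_pow]
          have hrn : r ^ n ≠ 0 := by positivity
          have h7 : (7 : ℝ) ^ n ≠ 0 := by positivity
          field_simp

end Crest.Agent.R247.VC402
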