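import Crest.Agent.R247.Sm4_879

/-!
R247 (helper338), leaf (1-V), file 1: infinitesimal law of cosines at a point.

* `hasDerivAt_e`: `t ↦ e x (t v)` read in the chart at `x` has derivative `v` at `0` (any `v`);
* `tendsto_dist_div`: `dist (e x (t v)) (e x (t w)) / t → ‖v - w‖` as `t → 0+`;
* `ray_at`: near `P` the (unique) minimiser from `P` to `x` is `h ↦ e P (-h W)`, `W` the gradient
  of `d_x²/2` at `P`;
* `vel_point`: the law of cosines + first variation.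
-/

set_option autoImplicit false
set_option maxSynthPendingDepth 3
set_option linter.unusedSectionVars false

open Bundle Set Filter Topology
open scoped Manifold ContDiff NNReal
open Crest.GeometryTopology.CoordMetric Crest.GeometryTopology.ChartCurvature
open Crest.GeometryTopology.MTW Crest.Agent.R244 Crest.Agent.R226
open Crest.Agent.R226.ChartCost77 Crest.Agent.R226.MTWConc117
open Crest.Agent.R226.NearLem90 (dL halfDistSq_comm)
open Crest.Agent.R226.NearDiagThm996 Crest.Agent.R226.LocalNearThm996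
open Crest.Agent.R226.NearDiagFinal996
open Crest.Agent.R226.ChartMet842 Crest.Agent.R226.GeoLoc577
open Crest.Agent.R226.CutSmooth77 (SC three_point)
open Crest.Agent.R247.Ms322 Crest.Agent.R247.Sm879

namespace Crest.Agent.R247.Vel338

section
variable {n : ℕ} {M : Type*} [MetricSpace M] [ChartedSpace (EuclideanSpace ℝ (Fin n)) M]
  [IsManifold (𝓡 n) ∞ M]
  [RiemannianBundle (fun p : M => TangentSpace (𝓡 n) p)]
  [IsContMDiffRiemannianBundle (𝓡 n) ∞ (EuclideanSpace ℝ (Fin n)) (fun p : M => TangentSpace (𝓡 n) p)]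

local notation "𝔼" => EuclideanSpace ℝ (Fin n)

variable {x₀ : M} (L : LocalNear n M x₀)

theorem tendsto_e {x : M} (hx : x ∈ L.W) (v : TangentSpace (𝓡 n) x) :
    Tendsto (fun t : ℝ => L.e x (t • v)) (𝓝 0) (𝓝 x) := by
  have hr := L.r_pos
  rw [tendsto_iff_dist_tendsto_zero]
  have h1 : ∀ᶠ t : ℝ in 𝓝 0, ‖t • v‖ < L.r := by
    have : Tendsto (fun t : ℝ => ‖t • v‖) (𝓝 0) (𝓝 ‖(0 : ℝ) • v‖) :=
      ((continuous_id.smul continuous_const).norm).tendsto 0
    rw [zero_smul, norm_zero] at this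
    exact this.eventually (gt_mem_nhds hr)
  have h2 : Tendsto (fun t : ℝ => ‖t • v‖) (𝓝 0) (𝓝 0) := by
    have : Tendsto (fun t : ℝ => ‖t • v‖) (𝓝 0) (𝓝 ‖(0 : ℝ) • v‖) :=
      ((continuous_id.smul continuous_const).norm).tendsto 0
    rwa [zero_smul, norm_zero] at this
  refine h2.congr' ?_
  filter_upwards [h1] with t ht
  rw [dist_comm, LN_dist L hx ht]

/-- `u ↦ e x u` is smooth at small vectors, read in the chart at `x`. -/
theorem contDiffAt_e {x : M} (hx : x ∈ L.W) :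
    ContDiffAt ℝ ∞ (fun u : TangentSpace (𝓡 n) x => chartAt 𝔼 x (L.e x u)) 0 := by
  have hr := L.r_pos
  rw [← contMDiffAt_iff_contDiffAt]
  have h7 : ContMDiffAt 𝓘(ℝ, TangentSpace (𝓡 n) x) (𝓡 n) ∞ (L.e x) 0 := by
    have h8 := L.smooth (⟨x, 0⟩ : TangentBundle (𝓡 n) M) hx (by simpa using hr)
    exact ContMDiffAt.comp (0 : TangentSpace (𝓡 n) x)
      (g := fun p : TangentBundle (𝓡 n) M => L.e p.1 p.2)
      (f := fun u : TangentSpace (𝓡 n) x => (⟨x, u⟩ : TangentBundle (𝓡 n) M)) h8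
      ((contMDiff_fiber x).contMDiffAt)
  have h9 : ContMDiffAt (𝓡 n) 𝓘(ℝ, 𝔼) ∞ (chartAt 𝔼 x) (L.e x 0) := by
    rw [L.e_zero x hx]
    exact contMDiffAt_of_mem_maximalAtlas (IsManifold.chart_mem_maximalAtlas x)
      (mem_chart_source _ x)
  exact ContMDiffAt.comp (0 : TangentSpace (𝓡 n) x) (g := chartAt 𝔼 x) (f := L.e x) h9 h7

theorem dC_self (x : M) (v : TangentSpace (𝓡 n) x) : (dC x x v : 𝔼) = v := by
  unfold dC
  rw [mfderiv_chartAt_eq_tangentCoordChange (mem_chart_source _ x)]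
  exact tangentCoordChange_self (mem_extChartAt_source x)

theorem dC_congr (x : M) {p q : M} (h : p = q) (v : 𝔼) : (dC x p v : 𝔼) = dC x q v := by
  subst h; rfl

/-- velocity at `0` of the curve `t ↦ e x (t v)`, for small `v` -/
theorem hasDerivAt_e_small {x : M} (hx : x ∈ L.W) {v : TangentSpace (𝓡 n) x} (hv : ‖v‖ < L.r) :
    HasDerivAt (fun t : ℝ => chartAt 𝔼 x (L.e x (t • v))) (v : 𝔼) 0 := by
  have hr := L.r_pos
  have h7 : ContMDiffAt 𝓘(ℝ, TangentSpace (𝓡 n) x) (𝓡 n) ∞ (L.e x) ((0 : ℝ) • v) := by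
    rw [zero_smul]
    have h8 := L.smooth (⟨x, 0⟩ : TangentBundle (𝓡 n) M) hx (by simpa using hr)
    exact ContMDiffAt.comp (0 : TangentSpace (𝓡 n) x)
      (g := fun p : TangentBundle (𝓡 n) M => L.e p.1 p.2)
      (f := fun u : TangentSpace (𝓡 n) x => (⟨x, u⟩ : TangentBundle (𝓡 n) M)) h8
      ((contMDiff_fiber x).contMDiffAt)
  have h8 : MDifferentiableAt 𝓘(ℝ, ℝ) (𝓡 n) (fun t : ℝ => L.e x (t • v)) 0 := by
    have h9 : MDifferentiableAt 𝓘(ℝ, ℝ) 𝓘(ℝ, TangentSpace (𝓡 n) x) (fun t : ℝ => t • v) 0 :=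
      (differentiableAt_id.smul_const v).mdifferentiableAt
    exact MDifferentiableAt.comp (0 : ℝ) (h7.mdifferentiableAt (by simp)) h9
  have h0 : L.e x ((0 : ℝ) • v) = x := by rw [zero_smul, L.e_zero x hx]
  have h10 := hasDerivAt_chart x h8 (by rw [h0]; exact mem_chart_source _ x)
  rw [L.vel_zero x hx v hv] at h10
  have h11 : (dC x (L.e x ((0 : ℝ) • v)) v : 𝔼) = v :=
    (dC_congr x h0 (v : 𝔼)).trans (dC_self x v)
  exact h10.congr_deriv h11

/-- velocity at `0` of the curve `t ↦ e x (t v)`, for every `v` -/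
theorem hasDerivAt_e {x : M} (hx : x ∈ L.W) (v : TangentSpace (𝓡 n) x) :
    HasDerivAt (fun t : ℝ => chartAt 𝔼 x (L.e x (t • v))) (v : 𝔼) 0 := by
  have hr := L.r_pos
  obtain ⟨δ, hδ, hδv⟩ : ∃ δ : ℝ, 0 < δ ∧ ‖δ • v‖ < L.r := by
    refine ⟨L.r / (2 * (‖v‖ + 1)), by positivity, ?_⟩
    rw [norm_smul, Real.norm_of_nonneg (by positivity), div_mul_eq_mul_div,
      div_lt_iff₀ (by positivity)]
    nlinarith [norm_nonneg v]
  have h1 := hasDerivAt_e_small L hx hδv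
  have h2 : HasDerivAt (fun t : ℝ => δ⁻¹ * t) δ⁻¹ 0 := by
    simpa using (hasDerivAt_id (0 : ℝ)).const_mul δ⁻¹
  have h3 : HasDerivAt (fun t : ℝ => chartAt 𝔼 x (L.e x ((δ⁻¹ * t) • (δ • v))))
      (δ⁻¹ • ((δ • v : TangentSpace (𝓡 n) x) : 𝔼)) 0 := by
    have h4 : HasDerivAt (fun t : ℝ => chartAt 𝔼 x (L.e x (t • (δ • v))))
      ((δ • v : TangentSpace (𝓡 n) x) : 𝔼) (δ⁻¹ * 0) := by rw [mul_zero]; exact h1
    exact HasDerivAt.scomp (0 : ℝ) h4 h2
  have h5 : (δ⁻¹ • ((δ • v : TangentSpace (𝓡 n) x) : 𝔼)) = (v : 𝔼) := by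
    show δ⁻¹ • (δ • (v : 𝔼)) = v
    rw [smul_smul, inv_mul_cancel₀ hδ.ne', one_smul]
  rw [h5] at h3
  refine h3.congr_of_eventuallyEq (Filter.Eventually.of_forall fun t => ?_)
  show chartAt 𝔼 x (L.e x (t • v)) = chartAt 𝔼 x (L.e x ((δ⁻¹ * t) • (δ • v)))
  rw [smul_smul, mul_assoc, mul_comm t δ, ← mul_assoc, inv_mul_cancel₀ hδ.ne', one_mul]

end

section
variable {n : ℕ} {M : Type*} [MetricSpace M] [ChartedSpace (EuclideanSpace ℝ (Fin n)) M]
  [IsManifold (𝓡 n) ∞ M]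
  [RiemannianBundle (fun p : M => TangentSpace (𝓡 n) p)]
  [IsContMDiffRiemannianBundle (𝓡 n) ∞ (EuclideanSpace ℝ (Fin n)) (fun p : M => TangentSpace (𝓡 n) p)]
  [IsRiemannianManifold (𝓡 n) M]

local notation "𝔼" => EuclideanSpace ℝ (Fin n)

/-- **Infinitesimal distance between two curves** through `x` with chart velocities `v`, `w`. -/
theorem tendsto_dist_div_of {x : M} {γ η : ℝ → M} {v w : TangentSpace (𝓡 n) x}
    (hγ : Tendsto γ (𝓝[>] 0) (𝓝 x)) (hη : Tendsto η (𝓝[>] 0) (𝓝 x))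
    (hγ' : HasDerivWithinAt (fun t => chartAt 𝔼 x (γ t)) (v : 𝔼) (Ioi 0) 0) (hγ0 : γ 0 = x)
    (hη' : HasDerivWithinAt (fun t => chartAt 𝔼 x (η t)) (w : 𝔼) (Ioi 0) 0) (hη0 : η 0 = x) :
    Tendsto (fun t : ℝ => dist (γ t) (η t) / t) (𝓝[>] 0) (𝓝 ‖v - w‖) := by
  set a : 𝔼 := chartAt 𝔼 x x with ha0
  have ha : a ∈ (chartAt 𝔼 x).target := mem_chart_target _ x
  obtain ⟨A, hA, -⟩ := exists_isometry (n := n) x ha
  -- norm of `A u`
  have hAn : ∀ u : TangentSpace (𝓡 n) x, ‖A (u : 𝔼)‖ = ‖u‖ := by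
    intro u
    have h1 : ‖A (u : 𝔼)‖ ^ 2 = gm x a (u : 𝔼) (u : 𝔼) :=
      (real_inner_self_eq_norm_sq (A (u : 𝔼))).symm.trans (hA (u : 𝔼) (u : 𝔼))
    have h2 := norm_sq_eq_gm (n := n) x (mem_chart_source 𝔼 x) u
    have h2' : (dC x x u : 𝔼) = (u : 𝔼) := dC_self x u
    have h2'' : gm x a (dC x x u) (dC x x u) = gm x a (u : 𝔼) (u : 𝔼) := by
      exact congrArg₂ (fun (p q : 𝔼) => gm x a p q) h2' h2'
    have h3 : ‖A (u : 𝔼)‖ ^ 2 = ‖u‖ ^ 2 := h1.trans (h2''.symm.trans h2.symm)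
    have := abs_eq_abs.2 (sq_eq_sq_iff_eq_or_eq_neg.1 h3)
    rwa [abs_of_nonneg (norm_nonneg _), abs_of_nonneg (norm_nonneg _)] at this
  -- the Euclidean quotient
  set N : ℝ → ℝ := fun t => ‖A (chartAt 𝔼 x (γ t)) - A (chartAt 𝔼 x (η t))‖ / t with hN
  have hNlim : Tendsto N (𝓝[>] 0) (𝓝 ‖v - w‖) := by
    have h1 : HasDerivWithinAt (fun t => chartAt 𝔼 x (γ t) - chartAt 𝔼 x (η t))
        ((v : 𝔼) - (w : 𝔼)) (Ioi 0) 0 := hγ'.sub hη'
    have h2 := (hasDerivWithinAt_iff_tendsto_slope' (by simp)).1 h1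
    have h3 : Tendsto (fun t : ℝ => ‖A (slope (fun t => chartAt 𝔼 x (γ t) - chartAt 𝔼 x (η t)) 0 t)‖)
        (𝓝[>] 0) (𝓝 ‖A ((v : 𝔼) - (w : 𝔼))‖) :=
      (((A.continuous.tendsto _).comp h2)).norm
    have h4 : ‖A ((v : 𝔼) - (w : 𝔼))‖ = ‖v - w‖ := hAn (v - w)
    rw [h4] at h3
    refine h3.congr' ?_
    filter_upwards [self_mem_nhdsWithin] with t ht
    have ht' : 0 < t := ht
    rw [hN]
    simp only [slope, vsub_eq_sub, sub_zero, hγ0, hη0, sub_self]
    rw [map_smul, norm_smul, norm_inv, Real.norm_of_nonneg ht'.le, map_sub]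
    rw [div_eq_inv_mul]
  -- comparison
  have hcmp : ∀ η' : ℝ≥0, 0 < η' → ∀ᶠ t in 𝓝[>] (0 : ℝ), dist (γ t) (η t) / t ≤ (1 + η') * N t ∧
      N t ≤ (1 + η') * (dist (γ t) (η t) / t) := by
    intro η' hη'0
    obtain ⟨r, hr0, hrt, hL1, hL2⟩ := exists_bilip (n := n) x ha hA hη'0
    have hopen : IsOpen ((chartAt 𝔼 x).symm '' Metric.ball a r) :=
      (chartAt 𝔼 x).symm.isOpen_image_of_subset_source Metric.isOpen_ball hrt
    have hxm : x ∈ (chartAt 𝔼 x).symm '' Metric.ball a r :=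
      ⟨a, Metric.mem_ball_self hr0, (chartAt 𝔼 x).left_inv (mem_chart_source _ x)⟩
    have e1 := hγ.eventually (hopen.mem_nhds hxm)
    have e2 := hη.eventually (hopen.mem_nhds hxm)
    filter_upwards [e1, e2, self_mem_nhdsWithin] with t h1 h2 ht
    have ht' : 0 < t := ht
    have k2 := hL2.dist_le_mul (γ t) h1 (η t) h2
    rw [dist_eq_norm] at k2
    have c1 : chartAt 𝔼 x (γ t) ∈ Metric.ball a r := by
      obtain ⟨b, hb, hb'⟩ := h1
      rw [← hb', (chartAt 𝔼 x).right_inv (hrt hb)]; exact hb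
    have c2 : chartAt 𝔼 x (η t) ∈ Metric.ball a r := by
      obtain ⟨b, hb, hb'⟩ := h2
      rw [← hb', (chartAt 𝔼 x).right_inv (hrt hb)]; exact hb
    have s1 : γ t ∈ (chartAt 𝔼 x).source := by
      obtain ⟨b, hb, hb'⟩ := h1
      rw [← hb']; exact (chartAt 𝔼 x).map_target (hrt hb)
    have s2 : η t ∈ (chartAt 𝔼 x).source := by
      obtain ⟨b, hb, hb'⟩ := h2
      rw [← hb']; exact (chartAt 𝔼 x).map_target (hrt hb)
    have k1 := hL1.dist_le_mul (A (chartAt 𝔼 x (γ t))) ⟨_, c1, rfl⟩ (A (chartAt 𝔼 x (η t)))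
      ⟨_, c2, rfl⟩
    simp only [A.symm_apply_apply, (chartAt 𝔼 x).left_inv s1, (chartAt 𝔼 x).left_inv s2] at k1
    rw [dist_eq_norm (A (chartAt 𝔼 x (γ t)))] at k1
    push_cast at k1 k2
    constructor
    · rw [hN, div_le_iff₀ ht']
      simp only
      rw [mul_assoc, div_mul_cancel₀ _ ht'.ne']
      exact k1
    · rw [hN]
      simp only
      rw [div_le_iff₀ ht', mul_assoc, div_mul_cancel₀ _ ht'.ne']
      exact k2
  -- conclusion
  have hdiff : Tendsto (fun t : ℝ => dist (γ t) (η t) / t - N t) (𝓝[>] 0) (𝓝 0) := by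
    rw [Metric.tendsto_nhds]
    intro ε hε
    set B : ℝ := ‖v - w‖ + 1 with hB
    have hB0 : 0 < B := by positivity
    have e1 : ∀ᶠ t in 𝓝[>] (0 : ℝ), N t < B := hNlim.eventually (gt_mem_nhds (by rw [hB]; linarith))
    set η' : ℝ := min 1 (ε / (3 * B)) with hη'
    have hη'0 : 0 < η' := by positivity
    have hη'1 : η' ≤ 1 := min_le_left _ _
    have hη'2 : η' * B ≤ ε / 3 := by
      calc η' * B ≤ ε / (3 * B) * B := by gcongr; exact min_le_right _ _
        _ = ε / 3 := by field_simp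
    have e2 := hcmp ⟨η', hη'0.le⟩ (by exact_mod_cast hη'0)
    filter_upwards [e1, e2, self_mem_nhdsWithin] with t h1 h2 ht
    have ht' : 0 < t := ht
    obtain ⟨h3, h4⟩ := h2
    change dist (γ t) (η t) / t ≤ (1 + η') * N t at h3
    change N t ≤ (1 + η') * (dist (γ t) (η t) / t) at h4
    have hN0 : 0 ≤ N t := by rw [hN]; positivity
    have hD0 : 0 ≤ dist (γ t) (η t) / t := by positivity
    rw [Real.dist_eq, sub_zero, abs_lt]
    set D := dist (γ t) (η t) / t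
    have h5 : η' * N t ≤ ε / 3 := by nlinarith
    have h6 : η' * D ≤ 2 * (ε / 3) := by
      calc η' * D ≤ η' * ((1 + η') * N t) := by gcongr
        _ = (1 + η') * (η' * N t) := by ring
        _ ≤ 2 * (ε / 3) := by gcongr; linarith
    constructor
    · nlinarith
    · nlinarith
  have := hdiff.add hNlim
  rw [zero_add] at this
  refine this.congr fun t => ?_
  ring

/-- **law of cosines, exponential form** -/
theorem tendsto_dist_div {x₀ : M} (L : LocalNear n M x₀) {x : M} (hx : x ∈ L.W)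
    (v w : TangentSpace (𝓡 n) x) :
    Tendsto (fun t : ℝ => dist (L.e x (t • v)) (L.e x (t • w)) / t) (𝓝[>] 0) (𝓝 ‖v - w‖) := by
  refine tendsto_dist_div_of ((tendsto_e L hx v).mono_left nhdsWithin_le_nhds)
    ((tendsto_e L hx w).mono_left nhdsWithin_le_nhds)
    (hasDerivAt_e L hx v).hasDerivWithinAt ?_ (hasDerivAt_e L hx w).hasDerivWithinAt ?_
  · simp [L.e_zero x hx]
  · simp [L.e_zero x hx]

end

end Crest.Agent.R247.Vel338
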