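import Crest.Agent.R247.Vel1_338

/-!
R247 (helper338), leaf (1-V), file 2: first variation and law of cosines at a point for the
minimiser `γ` through `P = γ s₀` and the minimiser `η` from `P` to `x`.
-/

set_option autoImplicit false
set_option maxSynthPendingDepth 3
set_option linter.unusedSectionVars false

open Bundle Set Filter Topology
open scoped Manifold ContDiff NNReal
open Crest.GeometryTopology.CoordMetric Crest.GeometryTopology.ChartCurvature
open Crest.GeometryTopology.MTW Crest.Agent.R244 Crest.Agent.R226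
open Crest.Agent.R226.ChartCost77 Crest.Agent.R226.MTWConc117
open Crest.Agent.R226.NearLem90 (dL halfDistSq_comm)
open Crest.Agent.R226.NearDiagThm996
open Crest.Agent.R226.ChartMet842
open Crest.Agent.R226.CutSmooth77 (SC three_point)
open Crest.Agent.R247.Ms322 Crest.Agent.R247.Sm879

namespace Crest.Agent.R247.Vel338

section
variable {n : ℕ} {M : Type*} [MetricSpace M] [ChartedSpace (EuclideanSpace ℝ (Fin n)) M]
  [IsManifold (𝓡 n) ∞ M]
  [RiemannianBundle (fun p : M => TangentSpace (𝓡 n) p)]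
  [IsContMDiffRiemannianBundle (𝓡 n) ∞ (EuclideanSpace ℝ (Fin n)) (fun p : M => TangentSpace (𝓡 n) p)]
  [IsRiemannianManifold (𝓡 n) M] [ProperSpace M]

local notation "𝔼" => EuclideanSpace ℝ (Fin n)

/-- near `P` the minimiser from `P` to `x` is `h ↦ e P (-h W)`, with `W` the gradient of
`d_x² / 2` at `P`. -/
theorem ray_at (hm : ExM M) {P : M} (L : LocalNear n M P) {x P' : M} (hxP : x ≠ P)
    (hb : dist x P + dist P P' = dist x P') (hP' : P ≠ P') :
    ∃ W : TangentSpace (𝓡 n) P, ‖W‖ = dist x P ∧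
      (∀ ξ : TangentSpace (𝓡 n) P, dL n (fun q => halfDistSq q x) P ξ = inner ℝ W ξ) ∧
      ∃ ρ : ℝ, 0 < ρ ∧ ρ ≤ 1 ∧ ∀ h ∈ Icc (0 : ℝ) ρ, ∀ c, dist x c + dist c P = dist x P →
        dist c P = h * dist x P → c = L.e P (-(h • W)) := by
  have hy := L.mem_W
  have hr := L.r_pos
  have hs : SC n P x := sc_symm (sc_of_btw hm hb hP')
  have hD : 0 < dist x P := dist_pos.2 hxP
  obtain ⟨c0, hc1, hc2⟩ := hm.pt P x (t := min (dist P x) (L.r / 2)) (by positivity)
    (min_le_left _ _)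
  have hα : 0 < dist P c0 := by
    rw [hc1]
    have : 0 < dist P x := by rw [dist_comm]; exact hD
    positivity
  have hcr : dist P c0 < L.r := by
    rw [hc1]; exact (min_le_right _ _).trans_lt (by linarith)
  have hαD : dist P c0 ≤ dist x P := by
    rw [hc1, dist_comm x P]; exact min_le_left _ _
  have hbt : dist x c0 + dist c0 P = dist x P := by
    rw [dist_comm x c0, hc2, dist_comm c0 P, hc1, dist_comm x P]; ring
  obtain ⟨v, hv, hve⟩ := L.surj P hy c0 hcr
  set α := dist P c0 with hαd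
  set D := dist x P with hDd
  refine ⟨-(D / α) • v, ?_, fun ξ => ?_, α / D, by positivity, (div_le_one hD).2 hαD, ?_⟩
  · rw [norm_smul, hv, norm_neg, Real.norm_of_nonneg (by positivity)]
    field_simp
  · rw [LN_grad L hy hs hbt hv (by rw [hv]; exact hcr) hve hα ξ, real_inner_smul_left]
  · intro h hh c h1 h2
    have hτ : 0 ≤ h * D / α ∧ h * D / α ≤ 1 := by
      refine ⟨by have := hh.1; positivity, ?_⟩
      rw [div_le_one hα]
      have := hh.2
      rwa [le_div_iff₀ hD] at this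
    have e1 : -(h • (-(D / α) • v)) = (h * D / α) • v := by
      rw [smul_smul, ← neg_smul]
      congr 1
      ring
    rw [e1]
    set τ := h * D / α with hτd
    have hτα : τ * α = h * D := by rw [hτd]; field_simp
    have d1 : dist P (L.e P (τ • v)) = h * D := by
      have := L.dist_eq P hy v (by rw [hv]; exact hcr) 0 τ (by simp)
        (by rw [abs_le]; constructor <;> linarith [hτ.1, hτ.2])
      rw [zero_smul, L.e_zero P hy, zero_sub, abs_neg, abs_of_nonneg hτ.1, hv, hτα] at this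
      exact this
    have d2 : dist (L.e P (τ • v)) c0 = α - h * D := by
      have := L.dist_eq P hy v (by rw [hv]; exact hcr) τ 1
        (by rw [abs_le]; constructor <;> linarith [hτ.1, hτ.2]) (by simp)
      rw [one_smul, hve, hv, abs_of_nonpos (by linarith [hτ.2])] at this
      rw [this, ← hτα]
      ring
    have d3 : dist c0 P = α := by rw [dist_comm]
    have d4 : dist x c0 = D - α := by linarith
    have t1 := dist_triangle x c0 (L.e P (τ • v))
    rw [dist_comm c0 (L.e P (τ • v)), d2, d4] at t1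
    have t2 := dist_triangle x (L.e P (τ • v)) P
    rw [dist_comm (L.e P (τ • v)) P, d1] at t2
    refine mid_unique n hm hb hP' h1 ?_ ?_
    · rw [dist_comm (L.e P (τ • v)) P, d1]
      linarith
    · rw [h2, dist_comm (L.e P (τ • v)) P, d1]

/-- a minimising curve through `P` at an interior time is `h ↦ e P (h V)` near `P`. -/
theorem seg_at (hm : ExM M) {γ : ℝ → M} {s₀ l : ℝ} (hs₀ : s₀ ∈ Ioo (0 : ℝ) 1) (hl : 0 < l)
    (hγ : ∀ s ∈ Icc (0 : ℝ) 1, ∀ t ∈ Icc (0 : ℝ) 1, dist (γ s) (γ t) = |s - t| * l)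
    (L : LocalNear n M (γ s₀)) :
    ∃ V : TangentSpace (𝓡 n) (γ s₀), ‖V‖ = l ∧
      ∃ δ : ℝ, 0 < δ ∧ ∀ h, |h| ≤ δ → γ (s₀ + h) = L.e (γ s₀) (h • V) := by
  obtain ⟨h0, h1⟩ := hs₀
  have m0 : (0 : ℝ) ∈ Icc (0 : ℝ) 1 := by simp
  have m1 : (1 : ℝ) ∈ Icc (0 : ℝ) 1 := by simp
  have ms : s₀ ∈ Icc (0 : ℝ) 1 := ⟨h0.le, h1.le⟩
  have h1' : 0 < 1 - s₀ := by linarith
  have dy : dist (γ 0) (γ s₀) = s₀ * l := by
    rw [hγ 0 m0 s₀ ms, zero_sub, abs_neg, abs_of_pos h0]
  have dz : dist (γ 1) (γ s₀) = (1 - s₀) * l := by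
    rw [hγ 1 m1 s₀ ms, abs_of_pos h1']
  have dyz : dist (γ 0) (γ 1) = l := by rw [hγ 0 m0 1 m1]; simp
  have hy : γ 0 ≠ γ s₀ := dist_pos.1 (by rw [dy]; positivity)
  have hz : γ 1 ≠ γ s₀ := dist_pos.1 (by rw [dz]; positivity)
  have hb1 : dist (γ 0) (γ s₀) + dist (γ s₀) (γ 1) = dist (γ 0) (γ 1) := by
    rw [dist_comm (γ s₀) (γ 1), dy, dz, dyz]; ring
  have hb2 : dist (γ 1) (γ s₀) + dist (γ s₀) (γ 0) = dist (γ 1) (γ 0) := by
    rw [dist_comm (γ s₀) (γ 0), dist_comm (γ 1) (γ 0), dy, dz, dyz]; ring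
  obtain ⟨Wy, hWy1, hWy2, ρy, hρy0, hρy1, hWy⟩ := ray_at hm L hy hb1 hz.symm
  obtain ⟨Wz, hWz1, hWz2, ρz, hρz0, hρz1, hWz⟩ := ray_at hm L hz hb2 hy.symm
  -- opposite directions
  have hopp : s₀⁻¹ • Wy + (1 - s₀)⁻¹ • Wz = 0 := by
    have sy : SC n (γ s₀) (γ 0) := sc_symm (sc_of_btw hm hb1 hz.symm)
    have sz : SC n (γ s₀) (γ 1) := sc_symm (sc_of_btw hm hb2 hy.symm)
    have k1 := hasFDerivAt_chart (n := n) (mdiff_left sy)
    have k2 := hasFDerivAt_chart (n := n) (mdiff_left sz)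
    have k3 := (k1.const_mul s₀⁻¹).add (k2.const_mul (1 - s₀)⁻¹)
    have hmin : IsLocalMin (fun p : EE n =>
        s₀⁻¹ * halfDistSq ((extChartAt (𝓡 n) (γ s₀)).symm p) (γ 0) +
        (1 - s₀)⁻¹ * halfDistSq ((extChartAt (𝓡 n) (γ s₀)).symm p) (γ 1)) (o (γ s₀)) := by
      refine Filter.Eventually.of_forall fun p => ?_
      dsimp only
      rw [symm_o]
      set q := (extChartAt (𝓡 n) (γ s₀)).symm p
      unfold halfDistSq
      have t1 : l ≤ dist q (γ 0) + dist q (γ 1) := by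
        have := dist_triangle (γ 0) q (γ 1)
        rw [dist_comm (γ 0) q, dyz] at this
        exact this
      have e1 : s₀⁻¹ * (dist (γ s₀) (γ 0) ^ 2 / 2) + (1 - s₀)⁻¹ * (dist (γ s₀) (γ 1) ^ 2 / 2) =
          l ^ 2 / 2 := by
        rw [dist_comm (γ s₀) (γ 0), dist_comm (γ s₀) (γ 1), dy, dz]
        field_simp
        ring
      rw [e1]
      have a0 : 0 ≤ dist q (γ 0) := dist_nonneg
      have b0 : 0 ≤ dist q (γ 1) := dist_nonneg
      set a := dist q (γ 0)
      set b := dist q (γ 1)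
      have e2 : s₀⁻¹ * (a ^ 2 / 2) + (1 - s₀)⁻¹ * (b ^ 2 / 2) =
          (a + b) ^ 2 / 2 + ((1 - s₀) * a - s₀ * b) ^ 2 / (2 * (s₀ * (1 - s₀))) := by
        field_simp
        ring
      rw [e2]
      have e3 : 0 ≤ ((1 - s₀) * a - s₀ * b) ^ 2 / (2 * (s₀ * (1 - s₀))) := by positivity
      have e4 : l ^ 2 ≤ (a + b) ^ 2 := by gcongr
      linarith
    have k4 := hmin.hasFDerivAt_eq_zero k3
    refine ext_inner_right ℝ (fun ξ => ?_)
    have k5 := congrArg (fun L : EE n →L[ℝ] ℝ => L (ξ : EE n)) k4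
    have k6 : s₀⁻¹ * dL n (fun x' => halfDistSq x' (γ 0)) (γ s₀) ξ +
        (1 - s₀)⁻¹ * dL n (fun x' => halfDistSq x' (γ 1)) (γ s₀) ξ = 0 := k5
    rw [hWy2 ξ, hWz2 ξ] at k6
    rw [inner_add_left, real_inner_smul_left, real_inner_smul_left, inner_zero_left]
    exact k6
  refine ⟨-((1 - s₀)⁻¹ • Wz), ?_, min (ρy * s₀) (ρz * (1 - s₀)), by positivity, ?_⟩
  · rw [norm_neg, norm_smul, hWz1, dz, Real.norm_of_nonneg (by positivity)]
    field_simp
  · intro h hh
    have hle1 := hh.trans (min_le_left _ _)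
    have hle2 := hh.trans (min_le_right _ _)
    rcases le_total 0 h with h3 | h3
    · rw [abs_of_nonneg h3] at hle1 hle2
      have hms : s₀ + h ∈ Icc (0 : ℝ) 1 := by
        refine ⟨by linarith, ?_⟩
        have : ρz * (1 - s₀) ≤ 1 * (1 - s₀) := by gcongr
        linarith
      have key := hWz (h / (1 - s₀)) ⟨by positivity, (div_le_iff₀ h1').2 hle2⟩ (γ (s₀ + h)) ?_ ?_
      · rw [key]
        congr 1
        rw [smul_neg, smul_smul, div_eq_mul_inv]
      · rw [hγ 1 m1 _ hms, hγ _ hms s₀ ms, dz, abs_of_nonneg (by linarith [hms.2]),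
          add_sub_cancel_left, abs_of_nonneg h3]
        ring
      · rw [hγ _ hms s₀ ms, add_sub_cancel_left, abs_of_nonneg h3, dz]
        field_simp
    · rw [abs_of_nonpos h3] at hle1 hle2
      have hms : s₀ + h ∈ Icc (0 : ℝ) 1 := by
        refine ⟨?_, by linarith⟩
        have : ρy * s₀ ≤ 1 * s₀ := by gcongr
        linarith
      have key := hWy (-h / s₀) ⟨div_nonneg (by linarith) h0.le, (div_le_iff₀ h0).2 hle1⟩
        (γ (s₀ + h)) ?_ ?_
      · rw [key]
        congr 1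
        have e1 : s₀⁻¹ • Wy = -((1 - s₀)⁻¹ • Wz) := eq_neg_of_add_eq_zero_left hopp
        rw [← e1, smul_smul, ← neg_smul]
        congr 1
        rw [div_eq_mul_inv]; ring
      · rw [hγ 0 m0 _ hms, hγ _ hms s₀ ms, dy, zero_sub, abs_neg, abs_of_nonneg hms.1,
          add_sub_cancel_left, abs_of_nonpos h3]
        ring
      · rw [hγ _ hms s₀ ms, add_sub_cancel_left, abs_of_nonpos h3, dy]
        field_simp

/-- derivative of a function on `M` along an exponential curve -/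
theorem hasDerivAt_comp_e {P : M} (L : LocalNear n M P) {f : M → ℝ}
    (hf : MDifferentiableAt (𝓡 n) 𝓘(ℝ) f P) (V : TangentSpace (𝓡 n) P) :
    HasDerivAt (fun h : ℝ => f (L.e P (h • V))) (dL n f P V) 0 := by
  have hP := L.mem_W
  have h1 := hasFDerivAt_chart (n := n) hf
  have h2 := hasDerivAt_e L hP V
  have h0 : (fun t : ℝ => chartAt 𝔼 P (L.e P (t • V))) 0 = o (n := n) P := by
    simp only [zero_smul, L.e_zero P hP]
    rfl
  have h3 : HasDerivAt (fun t : ℝ => f ((extChartAt (𝓡 n) P).symm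
      (chartAt 𝔼 P (L.e P (t • V))))) (dL n f P V) 0 := by
    have h4 : HasFDerivAt (𝕜 := ℝ) (E := EE n) (F := ℝ)
      (fun a : EE n => f ((extChartAt (𝓡 n) P).symm a)) (dL n f P)
      ((fun t : ℝ => chartAt 𝔼 P (L.e P (t • V))) 0) := by rw [h0]; exact h1
    exact h4.comp_hasDerivAt (0 : ℝ) h2
  refine h3.congr_of_eventuallyEq ?_
  have h5 : ∀ᶠ t : ℝ in 𝓝 0, L.e P (t • V) ∈ (chartAt 𝔼 P).source :=
    (tendsto_e L hP V).eventually ((chartAt 𝔼 P).open_source.mem_nhds (mem_chart_source _ P))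
  filter_upwards [h5] with t ht
  have : (extChartAt (𝓡 n) P).symm (chartAt 𝔼 P (L.e P (t • V))) = L.e P (t • V) := by
    have h6 := (chartAt 𝔼 P).left_inv ht
    simpa using h6
  rw [this]

variable (n) in
include n in
/-- **first variation + infinitesimal law of cosines** at an interior point `P = γ s₀` of a
minimiser `γ`, with respect to a centre `x = η 1` such that `P` is interior to a minimiser
from `x`. -/
theorem vel_point (hm : ExM M) {γ η : ℝ → M} {s₀ l D : ℝ} (hs₀ : s₀ ∈ Ioo (0 : ℝ) 1) (hl : 0 < l)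
    (hγ : ∀ s ∈ Icc (0 : ℝ) 1, ∀ t ∈ Icc (0 : ℝ) 1, dist (γ s) (γ t) = |s - t| * l)
    (hD : 0 < D)
    (hη : ∀ s ∈ Icc (0 : ℝ) 1, ∀ t ∈ Icc (0 : ℝ) 1, dist (η s) (η t) = |s - t| * D)
    (hη0 : η 0 = γ s₀) {x P' : M} (hx : η 1 = x)
    (hb : dist x (γ s₀) + dist (γ s₀) P' = dist x P') (hP' : γ s₀ ≠ P') :
    ∃ ca : ℝ, |ca| ≤ 1 ∧ HasDerivAt (fun s => dist x (γ s)) (-(l * ca)) s₀ ∧
      ∀ ν : ℝ, 0 ≤ ν → Tendsto (fun h => dist (γ (s₀ + h)) (η (ν * h)) / h) (𝓝[>] 0)
        (𝓝 (√(l ^ 2 + (ν * D) ^ 2 - 2 * l * (ν * D) * ca))) := by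
  obtain ⟨L⟩ := nonempty_localNear (n := n) (γ s₀)
  have m0 : (0 : ℝ) ∈ Icc (0 : ℝ) 1 := by simp
  have m1 : (1 : ℝ) ∈ Icc (0 : ℝ) 1 := by simp
  have dx : dist x (γ s₀) = D := by
    rw [← hx, ← hη0, hη 1 m1 0 m0]; simp
  have hxP : x ≠ γ s₀ := dist_pos.1 (by rw [dx]; exact hD)
  obtain ⟨W, hW1, hW2, ρ, hρ0, hρ1, hW⟩ := ray_at hm L hxP hb hP'
  obtain ⟨V, hV, δ, hδ, hVe⟩ := seg_at hm hs₀ hl hγ L
  have hs : SC n (γ s₀) x := sc_symm (sc_of_btw hm hb hP')
  have hWD : ‖W‖ = D := by rw [hW1, dx]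
  set c : ℝ := inner ℝ W V with hc
  have hcle : |c| ≤ D * l := by
    have := abs_real_inner_le_norm W V
    rwa [hWD, hV] at this
  refine ⟨-c / (D * l), ?_, ?_, ?_⟩
  · rw [abs_div, abs_neg, abs_of_pos (by positivity : 0 < D * l), div_le_one (by positivity)]
    exact hcle
  · -- first variation
    have h1 := hasDerivAt_comp_e L (mdiff_left hs) V
    rw [hW2 V] at h1
    have h2 : HasDerivAt (fun h : ℝ => halfDistSq (γ (s₀ + h)) x) c 0 := by
      refine h1.congr_of_eventuallyEq ?_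
      have : ∀ᶠ h : ℝ in 𝓝 0, |h| ≤ δ := by
        filter_upwards [Metric.closedBall_mem_nhds (0 : ℝ) hδ] with h hh
        simpa [Real.dist_eq] using hh
      filter_upwards [this] with h hh
      rw [hVe h hh]
    have h3 : HasDerivAt (fun s : ℝ => halfDistSq (γ s) x) c s₀ := by
      have h4 : HasDerivAt (fun h : ℝ => halfDistSq (γ (s₀ + h)) x) c (s₀ - s₀) := by
        rw [sub_self]; exact h2
      have h5 := HasDerivAt.comp_sub_const s₀ s₀ h4
      refine h5.congr_of_eventuallyEq (Filter.Eventually.of_forall fun s => ?_)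
      simp only [add_sub_cancel]
    have h6 : HasDerivAt (fun s : ℝ => 2 * halfDistSq (γ s) x) (2 * c) s₀ := h3.const_mul 2
    have hpos : 2 * halfDistSq (γ s₀) x ≠ 0 := by
      unfold halfDistSq
      rw [dist_comm, dx]; positivity
    have h7 := h6.sqrt hpos
    have h8 : √(2 * halfDistSq (γ s₀) x) = D := by
      unfold halfDistSq
      rw [dist_comm, dx, mul_div_cancel₀ _ (two_ne_zero)]
      exact Real.sqrt_sq hD.le
    rw [h8] at h7
    have e1 : 2 * c / (2 * D) = -(l * (-c / (D * l))) := by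
      field_simp
    rw [e1] at h7
    refine h7.congr_of_eventuallyEq (Filter.Eventually.of_forall fun s => ?_)
    show dist x (γ s) = √(2 * halfDistSq (γ s) x)
    unfold halfDistSq
    rw [dist_comm x (γ s), mul_div_cancel₀ _ (two_ne_zero), Real.sqrt_sq dist_nonneg]
  · -- law of cosines
    intro ν hν
    have h1 := tendsto_dist_div L L.mem_W V (-(ν • W))
    have e1 : ‖V - -(ν • W)‖ = √(l ^ 2 + (ν * D) ^ 2 - 2 * l * (ν * D) * (-c / (D * l))) := by
      rw [← Real.sqrt_sq (norm_nonneg (V - -(ν • W)))]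
      congr 1
      rw [sub_neg_eq_add, ← real_inner_self_eq_norm_sq, inner_add_left, inner_add_right,
        inner_add_right, real_inner_self_eq_norm_sq, real_inner_self_eq_norm_sq,
        real_inner_smul_left, real_inner_smul_right, real_inner_comm V W, norm_smul, hV, hWD,
        Real.norm_of_nonneg hν]
      rw [real_inner_comm W V, ← hc]
      field_simp
      ring
    rw [← e1]
    refine h1.congr' ?_
    have h2 : ∀ᶠ h : ℝ in 𝓝[>] 0, h ≤ δ ∧ ν * h ≤ ρ := by
      have k1 : ∀ᶠ h : ℝ in 𝓝 0, h < δ := gt_mem_nhds hδ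
      have k2 : ∀ᶠ h : ℝ in 𝓝 0, ν * h < ρ := by
        have : Tendsto (fun h : ℝ => ν * h) (𝓝 0) (𝓝 (ν * 0)) := (continuous_const.mul
          continuous_id).tendsto 0
        rw [mul_zero] at this
        exact this.eventually (gt_mem_nhds hρ0)
      filter_upwards [mem_nhdsWithin_of_mem_nhds k1, mem_nhdsWithin_of_mem_nhds k2] with h h3 h4
        using ⟨h3.le, h4.le⟩
    filter_upwards [h2, self_mem_nhdsWithin] with h hh h0
    have h0' : 0 < h := h0
    have k1 := hVe h (by rw [abs_of_pos h0']; exact hh.1)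
    have hm' : ν * h ∈ Icc (0 : ℝ) 1 := ⟨by positivity, hh.2.trans hρ1⟩
    have k2 := hW (ν * h) ⟨by positivity, hh.2⟩ (η (ν * h)) ?_ ?_
    · rw [k1, k2]
      congr 3
      rw [smul_neg, smul_smul, mul_comm h ν]
    · rw [← hη0, ← hx, hη 1 m1 _ hm', hη _ hm' 0 m0, hη 1 m1 0 m0, sub_zero, sub_zero, abs_one,
        abs_of_nonneg hm'.1, abs_of_nonneg (by linarith [hm'.2])]
      ring
    · rw [← hη0, ← hx, hη _ hm' 0 m0, hη 1 m1 0 m0, sub_zero, sub_zero, abs_one,
        abs_of_nonneg hm'.1, one_mul]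

end

end Crest.Agent.R247.Vel338
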