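import Crest.Agent.R247.Vel2_338
import Crest.Agent.R247.Vel3_338

/-!
R247 (helper338), leaf (1-V), file 4: the fields `vel` and `sym` of `Far553.FarD` on the manifold,
over `Rad`.
-/

set_option autoImplicit false
set_option maxSynthPendingDepth 3
set_option linter.unusedSectionVars false

open Bundle Set Filter Topology MeasureTheory
open scoped Manifold ContDiff NNReal
open Crest.GeometryTopology.MTW Crest.Agent.R244 Crest.Agent.R226
open Crest.Agent.R226.ChartCost77 Crest.Agent.R226.MTWConc117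
open Crest.Agent.R226.NearLem90 (dL halfDistSq_comm)
open Crest.Agent.R226.NearDiagThm996
open Crest.Agent.R226.CutSmooth77 (SC three_point)
open Crest.Agent.R247.Sm879 Crest.Agent.R247.Mcp688

namespace Crest.Agent.R247.Vel338

section
variable {n : ℕ} {M : Type*} [MetricSpace M] [ChartedSpace (EuclideanSpace ℝ (Fin n)) M]
  [IsManifold (𝓡 n) ∞ M]
  [RiemannianBundle (fun p : M => TangentSpace (𝓡 n) p)]
  [IsContMDiffRiemannianBundle (𝓡 n) ∞ (EuclideanSpace ℝ (Fin n)) (fun p : M => TangentSpace (𝓡 n) p)]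
  [IsRiemannianManifold (𝓡 n) M] [ProperSpace M]

local notation "𝔼" => EuclideanSpace ℝ (Fin n)

variable (n) in
include n in
/-- pointwise statement at a point `P` interior to minimisers from `x` and from `y`;
`α`, `β` are the rays `t ↦ T x t P`, `t ↦ T y t P`. -/
theorem vel_pair (hm : ExM M) {x y P : M} (hxP : x ≠ P) (hyP : y ≠ P) (hx : P ∈ Int' x)
    (hy : P ∈ Int' y) {α β : ℝ → M}
    (hα : ∀ t ∈ Icc (0 : ℝ) 1, dist x (α t) = t * dist x P ∧ dist (α t) P = (1 - t) * dist x P)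
    (hβ : ∀ t ∈ Icc (0 : ℝ) 1, dist y (β t) = t * dist y P ∧ dist (β t) P = (1 - t) * dist y P) :
    ∃ Γ : ℝ, |Γ| ≤ dist x P * dist y P ∧
      HasDerivWithinAt (fun t : ℝ => dist x (β t) ^ 2 / 2) Γ (Iio 1) 1 ∧
      HasDerivWithinAt (fun t : ℝ => dist y (α t) ^ 2 / 2) Γ (Iio 1) 1 ∧
      ∀ a b : ℝ, 0 ≤ a → 0 ≤ b →
        Tendsto (fun ε : ℝ => dist (α (1 - a * ε)) (β (1 - b * ε)) / ε) (𝓝[>] 0)
          (𝓝 (√(a ^ 2 * dist x P ^ 2 + b ^ 2 * dist y P ^ 2 - 2 * a * b * Γ))) := by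
  obtain ⟨P₁, hP₁, hb₁⟩ := hx
  obtain ⟨P₂, hP₂, hb₂⟩ := hy
  obtain ⟨L⟩ := nonempty_localNear (n := n) P
  obtain ⟨V, hV1, hV2, ρ₁, hρ₁0, hρ₁1, hV⟩ := ray_at hm L hxP hb₁ hP₁
  obtain ⟨W, hW1, hW2, ρ₂, hρ₂0, hρ₂1, hW⟩ := ray_at hm L hyP hb₂ hP₂
  have hs₁ : SC n P x := sc_symm (sc_of_btw hm hb₁ hP₁)
  have hs₂ : SC n P y := sc_symm (sc_of_btw hm hb₂ hP₂)
  -- the rays near `P`
  have hα' : ∀ h : ℝ, 0 ≤ h → h ≤ ρ₁ → α (1 - h) = L.e P (-(h • V)) := by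
    intro h h0 h1
    have hI : 1 - h ∈ Icc (0 : ℝ) 1 := ⟨by linarith, by linarith⟩
    obtain ⟨e1, e2⟩ := hα _ hI
    refine hV h ⟨h0, h1⟩ _ ?_ ?_
    · rw [e1, e2]; ring
    · rw [e2]; ring
  have hβ' : ∀ h : ℝ, 0 ≤ h → h ≤ ρ₂ → β (1 - h) = L.e P (-(h • W)) := by
    intro h h0 h1
    have hI : 1 - h ∈ Icc (0 : ℝ) 1 := ⟨by linarith, by linarith⟩
    obtain ⟨e1, e2⟩ := hβ _ hI
    refine hW h ⟨h0, h1⟩ _ ?_ ?_
    · rw [e1, e2]; ring
    · rw [e2]; ring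
  -- derivative of `d_z²/2` along an inward ray
  have hder : ∀ (z : M) (Z U : TangentSpace (𝓡 n) P) (ρ : ℝ) (γ : ℝ → M), 0 < ρ → SC n P z →
      (∀ ξ : TangentSpace (𝓡 n) P, dL n (fun q => halfDistSq q z) P ξ = inner ℝ Z ξ) →
      (∀ h : ℝ, 0 ≤ h → h ≤ ρ → γ (1 - h) = L.e P (-(h • U))) →
      HasDerivWithinAt (fun t : ℝ => dist z (γ t) ^ 2 / 2) (inner ℝ Z U) (Iio 1) 1 := by
    intro z Z U ρ γ hρ hs hZ hγ
    have h1 := hasDerivAt_comp_e L (mdiff_left hs) (-U)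
    rw [hZ, inner_neg_right] at h1
    have h2 : HasDerivAt (fun t : ℝ => halfDistSq (L.e P ((1 - t) • -U)) z) (inner ℝ Z U) 1 := by
      have h3 : HasDerivAt (fun h : ℝ => halfDistSq (L.e P (h • -U)) z) (-inner ℝ Z U)
          ((1 : ℝ) - 1) := by rw [sub_self]; exact h1
      have h4 : HasDerivAt (fun t : ℝ => 1 - t) (-1) (1 : ℝ) := by
        simpa using (hasDerivAt_id (1 : ℝ)).const_sub 1
      have h5 := HasDerivAt.comp (1 : ℝ) h3 h4
      have h6 : -inner ℝ Z U * (-1 : ℝ) = inner ℝ Z U := by ring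
      rw [h6] at h5
      exact h5
    have h0 : γ 1 = P := by
      have := hγ 0 le_rfl hρ.le
      rw [sub_zero, zero_smul, neg_zero, L.e_zero P L.mem_W] at this
      exact this
    refine h2.hasDerivWithinAt.congr_of_eventuallyEq ?_ ?_
    · have : Ioo (1 - ρ) 1 ∈ 𝓝[<] (1 : ℝ) := Ioo_mem_nhdsLT (by linarith)
      filter_upwards [this] with t ht
      have h6 := hγ (1 - t) (by linarith [ht.2]) (by linarith [ht.1])
      rw [sub_sub_cancel] at h6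
      rw [h6, smul_neg]
      unfold halfDistSq
      rw [dist_comm]
    · show dist z (γ 1) ^ 2 / 2 = halfDistSq (L.e P ((1 - (1 : ℝ)) • -U)) z
      rw [h0, sub_self, zero_smul, L.e_zero P L.mem_W]
      unfold halfDistSq
      rw [dist_comm]
  refine ⟨inner ℝ V W, ?_, hder x V W ρ₂ β hρ₂0 hs₁ hV2 hβ', ?_, ?_⟩
  · have := abs_real_inner_le_norm V W
    rwa [hV1, hW1] at this
  · rw [real_inner_comm]
    exact hder y W V ρ₁ α hρ₁0 hs₂ hW2 hα'
  · intro a b ha hb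
    have h1 := tendsto_dist_div L L.mem_W (-(a • V)) (-(b • W))
    have e1 : ‖-(a • V) - -(b • W)‖ =
        √(a ^ 2 * dist x P ^ 2 + b ^ 2 * dist y P ^ 2 - 2 * a * b * inner ℝ V W) := by
      rw [← Real.sqrt_sq (norm_nonneg (-(a • V) - -(b • W)))]
      congr 1
      have e2 : -(a • V) - -(b • W) = b • W - a • V := by abel
      rw [e2, norm_sub_sq_real, norm_smul, norm_smul, real_inner_smul_left, real_inner_smul_right,
        real_inner_comm, hV1, hW1, Real.norm_of_nonneg ha, Real.norm_of_nonneg hb]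
      ring
    rw [← e1]
    refine h1.congr' ?_
    have h2 : ∀ c ρ : ℝ, 0 < ρ → ∀ᶠ h : ℝ in 𝓝[>] 0, c * h ≤ ρ := by
      intro c ρ hρ
      have : Tendsto (fun h : ℝ => c * h) (𝓝 0) (𝓝 (c * 0)) :=
        (continuous_const.mul continuous_id).tendsto 0
      rw [mul_zero] at this
      filter_upwards [mem_nhdsWithin_of_mem_nhds (this.eventually (gt_mem_nhds hρ))] with h hh
      exact le_of_lt hh
    filter_upwards [h2 a ρ₁ hρ₁0, h2 b ρ₂ hρ₂0, self_mem_nhdsWithin] with h h3 h4 h5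
    have h5' : 0 < h := h5
    rw [hα' (a * h) (by positivity) h3, hβ' (b * h) (by positivity) h4]
    congr 3
    · rw [smul_neg, smul_smul, mul_comm h a]
    · rw [smul_neg, smul_smul, mul_comm h b]

variable [MeasurableSpace M] [BorelSpace M] {κ : ℝ} {μ : Measure M} [IsFiniteMeasureOnCompacts μ]

/-- **(VEL)** over `Rad`, all forms at once. -/
theorem vel_all (hm : ExM M) (hκ : 0 ≤ κ) (C : Rad n κ M μ) (x y : M) :
    ∀ᵐ P ∂μ, ∃ Γ : ℝ, |Γ| ≤ dist x P * dist y P ∧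
      HasDerivWithinAt (fun t : ℝ => dist x (C.T y t P) ^ 2 / 2) Γ (Iio 1) 1 ∧
      HasDerivWithinAt (fun t : ℝ => dist y (C.T x t P) ^ 2 / 2) Γ (Iio 1) 1 ∧
      ∀ a b : ℝ, 0 ≤ a → 0 ≤ b →
        Tendsto (fun ε : ℝ => dist (C.T x (1 - a * ε) P) (C.T y (1 - b * ε) P) / ε) (𝓝[>] 0)
          (𝓝 (√(a ^ 2 * dist x P ^ 2 + b ^ 2 * dist y P ^ 2 - 2 * a * b * Γ))) := by
  filter_upwards [C.ae_U x, C.ae_U y, ae_int C hκ x, ae_int C hκ y] with P hxU hyU hIx hIy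
  have hα : ∀ t ∈ Icc (0 : ℝ) 1, dist x (C.T x t P) = t * dist x P ∧
      dist (C.T x t P) P = (1 - t) * dist x P :=
    fun t ht => ⟨C.dist_left hxU ht, C.dist_right hxU ht⟩
  have hβ : ∀ t ∈ Icc (0 : ℝ) 1, dist y (C.T y t P) = t * dist y P ∧
      dist (C.T y t P) P = (1 - t) * dist y P :=
    fun t ht => ⟨C.dist_left hyU ht, C.dist_right hyU ht⟩
  -- degenerate cases
  have hdeg : ∀ (z w : M) (γ δ : ℝ → M), z = P →
      (∀ t ∈ Icc (0 : ℝ) 1, dist z (γ t) = t * dist z P ∧ dist (γ t) P = (1 - t) * dist z P) →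
      (∀ t ∈ Icc (0 : ℝ) 1, dist w (δ t) = t * dist w P ∧ dist (δ t) P = (1 - t) * dist w P) →
      HasDerivWithinAt (fun t : ℝ => dist z (δ t) ^ 2 / 2) 0 (Iio 1) 1 ∧
      HasDerivWithinAt (fun t : ℝ => dist w (γ t) ^ 2 / 2) 0 (Iio 1) 1 ∧
      ∀ a b : ℝ, 0 ≤ a → 0 ≤ b →
        Tendsto (fun ε : ℝ => dist (γ (1 - a * ε)) (δ (1 - b * ε)) / ε) (𝓝[>] 0)
          (𝓝 (b * dist w P)) := by
    rintro z w γ δ rfl hγ hδ
    have hγz : ∀ t ∈ Icc (0 : ℝ) 1, γ t = z := by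
      intro t ht
      have := (hγ t ht).2
      rw [dist_self, mul_zero] at this
      exact dist_eq_zero.1 this
    have hIoo : Ioo (0 : ℝ) 1 ∈ 𝓝[<] (1 : ℝ) := Ioo_mem_nhdsLT (by norm_num)
    refine ⟨?_, ?_, ?_⟩
    · have h1 : HasDerivAt (fun t : ℝ => ((1 - t) * dist w z) ^ 2 / 2) 0 1 := by
        have h2 : HasDerivAt (fun t : ℝ => (1 - t) * dist w z) (-1 * dist w z) (1 : ℝ) := by
          have : HasDerivAt (fun t : ℝ => 1 - t) (-1) (1 : ℝ) := by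
            simpa using (hasDerivAt_id (1 : ℝ)).const_sub 1
          exact this.mul_const _
        have h3 := (h2.pow 2).div_const 2
        simpa using h3
      refine h1.hasDerivWithinAt.congr_of_eventuallyEq ?_ ?_
      · filter_upwards [hIoo] with t ht
        rw [dist_comm, (hδ t ⟨ht.1.le, ht.2.le⟩).2]
      · show dist z (δ 1) ^ 2 / 2 = ((1 - (1 : ℝ)) * dist w z) ^ 2 / 2
        rw [dist_comm, (hδ 1 ⟨zero_le_one, le_rfl⟩).2]
    · refine (hasDerivWithinAt_const (1 : ℝ) (Iio 1) (dist w z ^ 2 / 2)).congr_of_eventuallyEq ?_ ?_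
      · filter_upwards [hIoo] with t ht
        rw [hγz t ⟨ht.1.le, ht.2.le⟩]
      · show dist w (γ 1) ^ 2 / 2 = _
        rw [hγz 1 ⟨zero_le_one, le_rfl⟩]
    · intro a b ha hb
      refine tendsto_const_nhds.congr' ?_
      have h2 : ∀ c : ℝ, ∀ᶠ h : ℝ in 𝓝[>] 0, c * h ≤ 1 := by
        intro c
        have : Tendsto (fun h : ℝ => c * h) (𝓝 0) (𝓝 (c * 0)) :=
          (continuous_const.mul continuous_id).tendsto 0
        rw [mul_zero] at this
        filter_upwards [mem_nhdsWithin_of_mem_nhds (this.eventually (gt_mem_nhds one_pos))] with h hh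
        exact le_of_lt hh
      filter_upwards [h2 a, h2 b, self_mem_nhdsWithin] with ε h3 h4 h5
      have h5' : 0 < ε := h5
      have h6 : 1 - a * ε ∈ Icc (0 : ℝ) 1 := ⟨by linarith, by nlinarith⟩
      have h7 : 1 - b * ε ∈ Icc (0 : ℝ) 1 := ⟨by linarith, by nlinarith⟩
      have h8 : dist z (δ (1 - b * ε)) = b * ε * dist w z := by
        rw [dist_comm, (hδ _ h7).2]; ring
      rw [hγz _ h6, h8]
      field_simp
  by_cases hxP : x = P
  · obtain ⟨h1, h2, h3⟩ := hdeg x y (fun t => C.T x t P) (fun t => C.T y t P) hxP hα hβ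
    refine ⟨0, by rw [abs_zero]; positivity, h1, h2, fun a b ha hb => ?_⟩
    have := h3 a b ha hb
    have e : √(a ^ 2 * dist x P ^ 2 + b ^ 2 * dist y P ^ 2 - 2 * a * b * 0) = b * dist y P := by
      rw [hxP, dist_self, mul_zero, sub_zero]
      rw [show a ^ 2 * (0 : ℝ) ^ 2 + b ^ 2 * dist y P ^ 2 = (b * dist y P) ^ 2 by ring]
      exact Real.sqrt_sq (by positivity)
    rw [e]
    exact this
  by_cases hyP : y = P
  · obtain ⟨h1, h2, h3⟩ := hdeg y x (fun t => C.T y t P) (fun t => C.T x t P) hyP hβ hα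
    refine ⟨0, by rw [abs_zero]; positivity, h2, h1, fun a b ha hb => ?_⟩
    have := h3 b a hb ha
    have e : √(a ^ 2 * dist x P ^ 2 + b ^ 2 * dist y P ^ 2 - 2 * a * b * 0) = a * dist x P := by
      rw [hyP, dist_self, mul_zero, sub_zero]
      rw [show a ^ 2 * dist x P ^ 2 + b ^ 2 * (0 : ℝ) ^ 2 = (a * dist x P) ^ 2 by ring]
      exact Real.sqrt_sq (by positivity)
    rw [e]
    refine this.congr fun ε => ?_
    rw [dist_comm]
  exact vel_pair n hm hxP hyP (hIx hxP) (hIy hyP) hα hβ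

/-- **the field `vel` of `Far553.FarD`** -/
theorem vel_field (hm : ExM M) (hκ : 0 ≤ κ) (C : Rad n κ M μ) (x : M) :
    ∀ y : M, ∀ᵐ P ∂μ, ∃ Γ : ℝ,
      HasDerivWithinAt (fun t : ℝ => dist x (C.T y t P) ^ 2 / 2) Γ (Iio 1) 1 ∧
      ∀ a b : ℝ, 0 ≤ a → 0 ≤ b →
        Tendsto (fun ε : ℝ => dist (C.T x (1 - a * ε) P) (C.T y (1 - b * ε) P) / ε) (𝓝[>] 0)
          (𝓝 (Real.sqrt (a ^ 2 * dist x P ^ 2 + b ^ 2 * dist y P ^ 2 - 2 * a * b * Γ))) := by
  intro y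
  filter_upwards [vel_all hm hκ C x y] with P hP
  obtain ⟨Γ, -, h1, -, h2⟩ := hP
  exact ⟨Γ, h1, h2⟩

/-- **the field `sym` of `Far553.FarD`** -/
theorem sym_field (hm : ExM M) (hκ : 0 ≤ κ) (C : Rad n κ M μ) :
    ∀ a b : M, ∃ Γ : M → ℝ, Measurable Γ ∧
      RD C a (fun z => dist b z ^ 2 / 2) Γ ∧ RD C b (fun z => dist a z ^ 2 / 2) Γ := by
  classical
  intro a b
  have h := vel_all hm hκ C a b
  set Γ₀ : M → ℝ := fun P => if hP : ∃ Γ : ℝ, |Γ| ≤ dist a P * dist b P ∧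
      HasDerivWithinAt (fun t : ℝ => dist a (C.T b t P) ^ 2 / 2) Γ (Iio 1) 1 ∧
      HasDerivWithinAt (fun t : ℝ => dist b (C.T a t P) ^ 2 / 2) Γ (Iio 1) 1 ∧
      ∀ a' b' : ℝ, 0 ≤ a' → 0 ≤ b' →
        Tendsto (fun ε : ℝ => dist (C.T a (1 - a' * ε) P) (C.T b (1 - b' * ε) P) / ε) (𝓝[>] 0)
          (𝓝 (√(a' ^ 2 * dist a P ^ 2 + b' ^ 2 * dist b P ^ 2 - 2 * a' * b' * Γ)))
    then hP.choose else 0 with hΓ₀
  have hspec : ∀ᵐ P ∂μ, HasDerivWithinAt (fun t : ℝ => dist a (C.T b t P) ^ 2 / 2) (Γ₀ P) (Iio 1) 1 ∧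
      HasDerivWithinAt (fun t : ℝ => dist b (C.T a t P) ^ 2 / 2) (Γ₀ P) (Iio 1) 1 := by
    filter_upwards [h] with P hP
    have := hP.choose_spec
    have e : Γ₀ P = hP.choose := by rw [hΓ₀]; exact dif_pos hP
    rw [e]
    exact ⟨this.2.1, this.2.2.1⟩
  have h1 : RD C a (fun z => dist b z ^ 2 / 2) Γ₀ := by
    filter_upwards [hspec] with P hP
    exact hP.2
  have h2 : RD C b (fun z => dist a z ^ 2 / 2) Γ₀ := by
    filter_upwards [hspec] with P hP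
    exact hP.1
  have hmeas : Measurable (fun z : M => dist b z ^ 2 / 2) := by fun_prop
  have hae := RD.aemeasurable h1 hmeas
  refine ⟨hae.mk Γ₀, hae.measurable_mk, h1.congr hae.ae_eq_mk, h2.congr hae.ae_eq_mk⟩

end

end Crest.Agent.R247.Vel338
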